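import Crest.Agent.R266.Osgood

/-!
Several complex variables toolbox (row 266, helper256), on top of `Osgood`.
-/

set_option autoImplicit false
set_option linter.unusedSectionVars false

open Set Filter Topology Metric Complex MeasureTheory
open scoped Real ContDiff

noncomputable section

namespace Crest.Agent.R266.SCV

universe u v

section RealToComplex

variable {E : Type u} [NormedAddCommGroup E] [NormedSpace ℂ E]
variable {F : Type v} [NormedAddCommGroup F] [NormedSpace ℂ F]

/-- a real linear map commuting with `i` as a complex linear map -/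
def toComplexCLM (L : E →L[ℝ] F) (h : ∀ v, L (I • v) = I • L v) : E →L[ℂ] F where
  toFun := L
  map_add' := L.map_add
  map_smul' := by
    intro c v
    have h1 : c • v = c.re • v + c.im • (I • v) := by
      conv_lhs => rw [← Complex.re_add_im c]
      rw [add_smul, mul_smul]
      simp
    have h2 : c • L v = c.re • L v + c.im • (I • L v) := by
      conv_lhs => rw [← Complex.re_add_im c]
      rw [add_smul, mul_smul]
      simp
    rw [RingHom.id_apply, h2, h1, map_add, map_smul, map_smul, h]
  cont := L.continuous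

@[simp] lemma toComplexCLM_apply (L : E →L[ℝ] F) (h : ∀ v, L (I • v) = I • L v) (v : E) :
    toComplexCLM L h v = L v := rfl

lemma hasFDerivAt_complex_of_real {f : E → F} {x : E} {L : E →L[ℝ] F} (hf : HasFDerivAt f L x)
    (h : ∀ v, L (I • v) = I • L v) : HasFDerivAt f (toComplexCLM L h) x :=
  hasFDerivAt_of_restrictScalars ℝ hf (by ext v; rfl)

lemma differentiableAt_complex_of_real {f : E → F} {x : E} (hf : DifferentiableAt ℝ f x)
    (h : ∀ v, fderiv ℝ f x (I • v) = I • fderiv ℝ f x v) : DifferentiableAt ℂ f x :=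
  (hasFDerivAt_complex_of_real hf.hasFDerivAt h).differentiableAt

lemma fderiv_real_smul_I {f : E → F} {x : E} (hf : DifferentiableAt ℂ f x) (v : E) :
    fderiv ℝ f x (I • v) = I • fderiv ℝ f x v := by
  rw [(hf.hasFDerivAt.restrictScalars ℝ).fderiv]
  simp

lemma fderiv_real_eq {f : E → F} {x : E} (hf : DifferentiableAt ℂ f x) (v : E) :
    fderiv ℝ f x v = fderiv ℂ f x v := by
  rw [(hf.hasFDerivAt.restrictScalars ℝ).fderiv]
  simp

/-- real differentiable with complex linear differential on an open set: analytic -/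
theorem analyticOnNhd_of_real [FiniteDimensional ℂ E] [CompleteSpace F] {f : E → F} {U : Set E}
    (hU : IsOpen U) (hf : DifferentiableOn ℝ f U)
    (h : ∀ x ∈ U, ∀ v, fderiv ℝ f x (I • v) = I • fderiv ℝ f x v) : AnalyticOnNhd ℂ f U :=
  analyticOnNhd_of_differentiableOn hU (fun x hx =>
    (differentiableAt_complex_of_real (hf.differentiableAt (hU.mem_nhds hx))
      (h x hx)).differentiableWithinAt)

end RealToComplex

section Families

variable {E : Type u} [NormedAddCommGroup E] [NormedSpace ℂ E] [FiniteDimensional ℂ E]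
variable {F : Type v} [NormedAddCommGroup F] [NormedSpace ℂ F] [CompleteSpace F]
variable {K : Type*} [TopologicalSpace K] [CompactSpace K]

/-- a family of functions over a compact parameter space as a map into `C(K, F)` -/
def fam (f : E × K → F) (x : E) : C(K, F) := ContinuousMap.mkD (fun k => f (x, k)) 0

lemma fam_apply {f : E × K → F} {U : Set E} (hf : ContinuousOn f (U ×ˢ univ)) {x : E}
    (hx : x ∈ U) (k : K) : fam f x k = f (x, k) := by
  rw [fam, ContinuousMap.mkD_apply_of_continuous]
  exact hf.comp_continuous (by fun_prop) (fun k => ⟨hx, mem_univ _⟩)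

lemma continuousOn_fam {f : E × K → F} {U : Set E} (hf : ContinuousOn f (U ×ˢ univ)) :
    ContinuousOn (fam f) U := by
  rw [continuousOn_iff_continuous_domRestrict]
  have hc : Continuous (fun p : U × K => f (p.1, p.2)) :=
    hf.comp_continuous (by fun_prop) (fun p => ⟨p.1.2, mem_univ _⟩)
  have := (ContinuousMap.curry ⟨_, hc⟩).continuous
  refine this.congr (fun y => ?_)
  ext θ
  rw [domRestrict_apply, fam_apply hf y.2]
  rfl

/-- a jointly continuous family of holomorphic functions, as a map into `C(K, F)`, is analytic -/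
theorem analyticOnNhd_fam {f : E × K → F} {U : Set E} (hU : IsOpen U)
    (hf : ContinuousOn f (U ×ˢ univ))
    (hd : ∀ k, ∀ x ∈ U, ∀ v : E, DifferentiableAt ℂ (fun z : ℂ => f (x + z • v, k)) 0) :
    AnalyticOnNhd ℂ (fam f) U := by
  refine analyticOnNhd_of_gateaux hU (continuousOn_fam hf) (fun x hx v => ?_)
  have hcont : Continuous (fun z : ℂ => x + z • v) := by fun_prop
  have hopen : IsOpen ((fun z : ℂ => x + z • v) ⁻¹' U) := hU.preimage hcont
  have h0 : (0 : ℂ) ∈ (fun z : ℂ => x + z • v) ⁻¹' U := by simpa using hx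
  obtain ⟨δ, hδ, hδU⟩ := Metric.nhds_basis_closedBall.mem_iff.1 (hopen.mem_nhds h0)
  refine (differentiableOn_of_separating (ι := K) (fun k => ContinuousMap.evalCLM ℂ k)
    (fun x y h => ContinuousMap.ext h)
    ((continuousOn_fam hf).comp hcont.continuousOn hδU)
    (fun k t ht => ?_)).differentiableAt (isOpen_ball.mem_nhds (mem_ball_self hδ))
  have htU : x + t • v ∈ U := hδU (ball_subset_closedBall ht)
  have h1 : DifferentiableAt ℂ (fun z : ℂ => f (x + z • v, k)) t := by
    have h2 : (fun z : ℂ => f (x + z • v, k)) =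
        (fun z : ℂ => f ((x + t • v) + z • v, k)) ∘ (fun z : ℂ => z - t) := by
      ext z
      simp only [Function.comp_apply]
      congr 2
      rw [add_assoc, ← add_smul]
      congr 2
      ring
    rw [h2]
    refine DifferentiableAt.comp _ ?_ (by fun_prop)
    simpa using hd k _ htU v
  refine h1.congr_of_eventuallyEq ?_
  filter_upwards [hopen.mem_nhds htU] with s hs
  change fam f (x + s • v) k = _
  rw [fam_apply hf hs]

/-- holomorphic parameter integrals over an interval -/
theorem analyticOnNhd_intervalIntegral {f : E × ℝ → F} {a b : ℝ} {U : Set E} (hU : IsOpen U)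
    (hf : ContinuousOn f (U ×ˢ uIcc a b))
    (hd : ∀ t ∈ uIcc a b, DifferentiableOn ℂ (fun x => f (x, t)) U) :
    AnalyticOnNhd ℂ (fun x => ∫ t in a..b, f (x, t)) U := by
  have hle : min a b ≤ max a b := min_le_max
  have hcomp : CompactSpace (uIcc a b) := isCompact_iff_compactSpace.1 isCompact_uIcc
  set g : E × (uIcc a b) → F := fun p => f (p.1, p.2) with hg
  have hgc : ContinuousOn g (U ×ˢ univ) :=
    hf.comp (by fun_prop) (fun p hp => ⟨hp.1, p.2.2⟩)
  have hga : AnalyticOnNhd ℂ (fam g) U := by
    refine analyticOnNhd_fam hU hgc (fun k x hx v => ?_)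
    have h1 : DifferentiableAt ℂ (fun y => f (y, (k : ℝ))) (x + (0 : ℂ) • v) := by
      simpa using (hd k k.2).differentiableAt (hU.mem_nhds hx)
    exact h1.comp (0 : ℂ) (f := fun z : ℂ => x + z • v) (by fun_prop)
  set pr : ℝ → uIcc a b := projIcc (min a b) (max a b) hle with hpr
  have hprc : Continuous pr := continuous_projIcc (h := hle)
  set Λ : C(uIcc a b, F) →L[ℂ] F := LinearMap.mkContinuous
    { toFun := fun φ => ∫ t in a..b, φ (pr t)
      map_add' := by
        intro φ ψ
        rw [← intervalIntegral.integral_add]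
        · simp
        · exact (φ.continuous.comp hprc).intervalIntegrable _ _
        · exact (ψ.continuous.comp hprc).intervalIntegrable _ _
      map_smul' := by
        intro c φ
        rw [← intervalIntegral.integral_smul]
        simp } |b - a| (by
      intro φ
      have := intervalIntegral.norm_integral_le_of_norm_le_const
        (f := fun t => φ (pr t)) (a := a) (b := b) (C := ‖φ‖)
        (fun t _ => φ.norm_coe_le_norm _)
      simpa [mul_comm] using this) with hΛ
  have hΛapp : ∀ φ, Λ φ = ∫ t in a..b, φ (pr t) := fun φ => rfl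
  refine ((Λ.comp_analyticOnNhd hga)).congr hU ?_
  intro x hx
  simp only [Function.comp_apply, hΛapp]
  refine intervalIntegral.integral_congr (fun t ht => ?_)
  have h2 : pr t = ⟨t, ht⟩ := projIcc_of_mem hle ht
  simp only [h2]
  rw [fam_apply hgc hx]

/-- locally uniform limits of holomorphic functions of several variables -/
theorem analyticOnNhd_of_tendstoLocallyUniformlyOn {ι : Type*} {φ : Filter ι} [φ.NeBot]
    {f : ι → E → F} {g : E → F} {U : Set E} (hU : IsOpen U)
    (h : TendstoLocallyUniformlyOn f g φ U) (hf : ∀ᶠ n in φ, DifferentiableOn ℂ (f n) U) :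
    AnalyticOnNhd ℂ g U := by
  have hc : ContinuousOn g U := h.continuousOn (hf.mono (fun n hn => hn.continuousOn)).frequently
  refine analyticOnNhd_of_gateaux hU hc (fun x hx v => ?_)
  have hcont : Continuous (fun z : ℂ => x + z • v) := by fun_prop
  have hopen : IsOpen ((fun z : ℂ => x + z • v) ⁻¹' U) := hU.preimage hcont
  have h0 : (0 : ℂ) ∈ (fun z : ℂ => x + z • v) ⁻¹' U := by simpa using hx
  have h1 : TendstoLocallyUniformlyOn (fun n => f n ∘ (fun z : ℂ => x + z • v))
      (g ∘ (fun z : ℂ => x + z • v)) φ ((fun z : ℂ => x + z • v) ⁻¹' U) :=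
    h.comp _ (fun z hz => hz) hcont.continuousOn
  exact (h1.differentiableOn (hf.mono (fun n hn => hn.comp
    (by fun_prop : Differentiable ℂ (fun z : ℂ => x + z • v)).differentiableOn
    (fun z hz => hz))) hopen).differentiableAt (hopen.mem_nhds h0)

end Families

section Estimates

variable {E : Type u} [NormedAddCommGroup E] [NormedSpace ℂ E]
variable {F : Type v} [NormedAddCommGroup F] [NormedSpace ℂ F]

/-- Cauchy estimate for the derivative -/
theorem norm_fderiv_le_of_ball {f : E → F} {x : E} {r M : ℝ} (hr : 0 < r)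
    (hf : DifferentiableOn ℂ f (ball x r)) (hM : ∀ y ∈ ball x r, ‖f y‖ ≤ M) :
    ‖fderiv ℂ f x‖ ≤ M / r := by
  have hM0 : 0 ≤ M := (norm_nonneg _).trans (hM x (mem_ball_self hr))
  have key : ∀ v : E, ‖fderiv ℂ f x v‖ ≤ M / r * ‖v‖ := by
    intro v
    rcases eq_or_ne v 0 with rfl | hv
    · simp
    have hv' : 0 < ‖v‖ := norm_pos_iff.2 hv
    have hline : ∀ ρ : ℝ, 0 < ρ → ρ < r → ‖fderiv ℂ f x v‖ ≤ M / (ρ / ‖v‖) := by
      intro ρ hρ hρr
      have hmem : ∀ z ∈ closedBall (0 : ℂ) (ρ / ‖v‖), x + z • v ∈ ball x r := by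
        intro z hz
        rw [mem_closedBall_zero_iff] at hz
        rw [mem_ball, dist_eq_norm, add_sub_cancel_left, norm_smul]
        calc ‖z‖ * ‖v‖ ≤ ρ / ‖v‖ * ‖v‖ := by gcongr
          _ = ρ := by field_simp
          _ < r := hρr
      have hd : ∀ z ∈ closedBall (0 : ℂ) (ρ / ‖v‖),
          DifferentiableAt ℂ (fun z : ℂ => f (x + z • v)) z := by
        intro z hz
        exact (hf.differentiableAt (isOpen_ball.mem_nhds (hmem z hz))).comp z
          (f := fun z : ℂ => x + z • v) (by fun_prop)
      have h1 : HasDerivAt (fun z : ℂ => f (x + z • v)) (fderiv ℂ f x v) 0 := by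
        have h2 : HasFDerivAt f (fderiv ℂ f x) (x + (0 : ℂ) • v) := by
          simpa using (hf.differentiableAt (isOpen_ball.mem_nhds (mem_ball_self hr))).hasFDerivAt
        have h3 : HasDerivAt (fun z : ℂ => x + z • v) v 0 := by
          simpa using ((hasDerivAt_id (0 : ℂ)).smul_const v).const_add x
        exact h2.comp_hasDerivAt (0 : ℂ) h3
      have h4 := norm_deriv_le_of_forall_mem_sphere_norm_le (c := (0 : ℂ)) (R := ρ / ‖v‖)
        (C := M) (f := fun z : ℂ => f (x + z • v)) (by positivity)
        (DifferentiableOn.diffContOnCl (fun z hz => (hd z (closure_ball_subset_closedBall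
          hz)).differentiableWithinAt))
        (fun z hz => hM _ (hmem z (sphere_subset_closedBall hz)))
      rwa [h1.deriv] at h4
    have hlim : Tendsto (fun ρ : ℝ => M / (ρ / ‖v‖)) (𝓝[<] r) (𝓝 (M / (r / ‖v‖))) := by
      refine Tendsto.mono_left ?_ nhdsWithin_le_nhds
      refine ContinuousAt.tendsto ?_
      refine ContinuousAt.div continuousAt_const (by fun_prop) (by positivity)
    have h5 : ‖fderiv ℂ f x v‖ ≤ M / (r / ‖v‖) := by
      refine ge_of_tendsto hlim ?_
      have : ∀ᶠ ρ in 𝓝[<] r, ρ ∈ Ioo 0 r := Ioo_mem_nhdsLT hr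
      filter_upwards [this] with ρ hρ
      exact hline ρ hρ.1 hρ.2
    calc ‖fderiv ℂ f x v‖ ≤ M / (r / ‖v‖) := h5
      _ = M / r * ‖v‖ := by field_simp
  exact ContinuousLinearMap.opNorm_le_bound _ (by positivity) key

end Estimates

section Identity

variable {E : Type u} [NormedAddCommGroup E] [NormedSpace ℂ E]
variable {F : Type v} [NormedAddCommGroup F] [NormedSpace ℂ F]

/-- a function analytic on a preconnected open set and not identically zero is nonzero on a dense
subset -/
theorem dense_ne_zero [CompleteSpace F] {f : E → F} {U : Set E} (hU : IsOpen U)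
    (hc : IsPreconnected U) (hf : AnalyticOnNhd ℂ f U) (hne : ∃ x ∈ U, f x ≠ 0) :
    ∀ x ∈ U, ∃ᶠ y in 𝓝 x, y ∈ U ∧ f y ≠ 0 := by
  intro x hx hcon
  obtain ⟨y, hy, hy0⟩ := hne
  apply hy0
  have : f =ᶠ[𝓝 x] 0 := by
    filter_upwards [hcon, hU.mem_nhds hx] with z hz hzU
    by_contra h
    exact hz ⟨hzU, h⟩
  exact hf.eqOn_zero_of_preconnected_of_eventuallyEq_zero hc hx this hy

/-- product of two scalar functions, neither identically zero -/
theorem exists_mul_ne_zero {f g : E → ℂ} {U : Set E} (hU : IsOpen U)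
    (hc : IsPreconnected U) (hf : AnalyticOnNhd ℂ f U) (hg : AnalyticOnNhd ℂ g U)
    (hne : ∃ x ∈ U, f x ≠ 0) (hne' : ∃ x ∈ U, g x ≠ 0) : ∃ x ∈ U, f x * g x ≠ 0 := by
  obtain ⟨y, hy, hy0⟩ := hne
  have h1 := dense_ne_zero hU hc hg hne' y hy
  have h2 : ∀ᶠ z in 𝓝 y, f z ≠ 0 :=
    (hf y hy).continuousAt.eventually_ne hy0
  obtain ⟨z, hz, hz'⟩ := (h1.and_eventually h2).exists
  exact ⟨z, hz.1, mul_ne_zero hz' hz.2⟩

end Identity

section InverseFunction

variable {E : Type u} [NormedAddCommGroup E] [NormedSpace ℂ E] [CompleteSpace E]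
variable {F : Type v} [NormedAddCommGroup F] [NormedSpace ℂ F] [CompleteSpace F]

/-- analytic inverse function theorem: an open partial homeomorphism, analytic both ways -/
theorem exists_analytic_openPartialHomeomorph {f : E → F} {x : E} (hf : AnalyticAt ℂ f x)
    (f' : E ≃L[ℂ] F) (hf' : HasFDerivAt f (f' : E →L[ℂ] F) x) {U : Set E} (hU : U ∈ 𝓝 x) :
    ∃ e : OpenPartialHomeomorph E F, x ∈ e.source ∧ e.source ⊆ U ∧ (∀ y, e y = f y) ∧
      AnalyticOnNhd ℂ e e.source ∧ AnalyticOnNhd ℂ e.symm e.target := by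
  have hcd : ContDiffAt ℂ ω f x := hf.contDiffAt
  set e₀ := hcd.toOpenPartialHomeomorph f hf' (by simp) with he₀
  have he₀f : ∀ y, e₀ y = f y := fun y => rfl
  have hx₀ : x ∈ e₀.source := hcd.mem_toOpenPartialHomeomorph_source hf' (by simp)
  -- shrink to the set where `f` is analytic with invertible derivative
  have hA : ∀ᶠ y in 𝓝 x, AnalyticAt ℂ f y := hf.eventually_analyticAt
  have hinv : ∀ᶠ y in 𝓝 x, ∃ g' : E ≃L[ℂ] F, (g' : E →L[ℂ] F) = fderiv ℂ f y := by
    have h1 : ContinuousAt (fderiv ℂ f) x := hf.fderiv.continuousAt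
    have h2 : (range ((↑) : (E ≃L[ℂ] F) → (E →L[ℂ] F))) ∈ 𝓝 (fderiv ℂ f x) := by
      rw [hf'.fderiv]
      exact ContinuousLinearEquiv.nhds f'
    filter_upwards [h1 h2] with y hy
    exact hy
  obtain ⟨W, hW, hWo, hxW⟩ := _root_.eventually_nhds_iff.1 (hA.and (hinv.and hU))
  refine ⟨e₀.restrOpen W hWo, ⟨hx₀, hxW⟩, fun y hy => (hW y hy.2).2.2, fun y => rfl, ?_, ?_⟩
  · intro y hy
    exact (hW y hy.2).1
  · intro z hz
    have hsy : (e₀.restrOpen W hWo).symm z ∈ (e₀.restrOpen W hWo).source :=
      (e₀.restrOpen W hWo).map_target hz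
    set y := (e₀.restrOpen W hWo).symm z with hy
    obtain ⟨hAy, ⟨g', hg'⟩, _⟩ := hW y hsy.2
    have h3 : HasFDerivAt f (g' : E →L[ℂ] F) y := by
      rw [hg']
      exact hAy.differentiableAt.hasFDerivAt
    have h4 : ContDiffAt ℂ ω (e₀.restrOpen W hWo).symm z := by
      refine OpenPartialHomeomorph.contDiffAt_symm _ hz (f₀' := g') ?_ ?_
      · exact h3
      · exact hAy.contDiffAt
    exact h4.analyticAt

end InverseFunction

end Crest.Agent.R266.SCV
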