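import Mathlib
import Crest.Agent.Lib.ODEFlow

/-!
R266 / HolFlow: holomorphic dependence of flows on the initial value, and holomorphic solutions of
totally integrable first order systems `∂_s Φ(s, y) = W (Φ (s, y))` (Frobenius in solved form).
-/

set_option autoImplicit false
set_option linter.unusedSectionVars false

open Set Filter Topology Metric
open scoped ContDiff

noncomputable section

namespace Crest.Agent.R266

open Crest.Agent.Lib.ODEFlow

section LinUnique
variable {E : Type*} [NormedAddCommGroup E] [NormedSpace ℝ E]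

/-- uniqueness for linear ODEs on `[0,T]` -/
theorem lin_unique {T : ℝ} {L : ℝ → E →L[ℝ] E} (hL : ContinuousOn L (Icc 0 T)) {f g : ℝ → E}
    (hf : ∀ t ∈ Icc 0 T, HasDerivAt f (L t (f t)) t)
    (hg : ∀ t ∈ Icc 0 T, HasDerivAt g (L t (g t)) t) (h0 : f 0 = g 0) :
    ∀ t ∈ Icc 0 T, f t = g t := by
  obtain ⟨K, hK⟩ := (isCompact_Icc (a := (0 : ℝ)) (b := T)).exists_bound_of_continuousOn hL
  have hlip : ∀ t ∈ Ico 0 T, LipschitzOnWith (Real.toNNReal K) (fun x => L t x) univ := by
    intro t ht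
    apply LipschitzWith.lipschitzOnWith
    apply LipschitzWith.of_dist_le_mul
    intro x y
    rw [dist_eq_norm, dist_eq_norm, ← map_sub]
    refine ((L t).le_opNorm _).trans ?_
    gcongr
    exact (hK t ⟨ht.1, ht.2.le⟩).trans (Real.le_coe_toNNReal K)
  intro t ht
  exact ODE_solution_unique_of_mem_Icc_right (v := fun t x => L t x) (s := fun _ => univ) hlip
    (fun t ht => (hf t ht).continuousAt.continuousWithinAt)
    (fun t ht => (hf t ⟨ht.1, ht.2.le⟩).hasDerivWithinAt) (fun _ _ => trivial)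
    (fun t ht => (hg t ht).continuousAt.continuousWithinAt)
    (fun t ht => (hg t ⟨ht.1, ht.2.le⟩).hasDerivWithinAt) (fun _ _ => trivial) h0 ht

end LinUnique

universe u v
section CFlow
variable {E : Type u} [NormedAddCommGroup E] [NormedSpace ℂ E]
  {v : E → E} {U : Set E}

theorem contDiffOn_real_of_analytic {F : Type*} [NormedAddCommGroup F] [NormedSpace ℂ F]
    [CompleteSpace F] {f : E → F} {U : Set E}
    (hf : AnalyticOnNhd ℂ f U) {n : ℕ∞} : ContDiffOn ℝ n f U := by
  have : ContDiffOn ℂ n f U := fun x hx => (hf x hx).contDiffAt.contDiffWithinAt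
  exact this.restrict_scalars ℝ

theorem fderiv_real_eq {F : Type*} [NormedAddCommGroup F] [NormedSpace ℂ F] {f : E → F} {x : E}
    (hf : DifferentiableAt ℂ f x) (z : E) : fderiv ℝ f x z = fderiv ℂ f x z := by
  rw [hf.fderiv_restrictScalars ℝ]
  rfl

variable [CompleteSpace E]

theorem continuousOn_flow_time (hU : IsOpen U) (hv : ContDiffOn ℝ 1 v U) {x : E} {T : ℝ}
    (h : (x, T) ∈ dom v U) (hT : 0 ≤ T) : ContinuousOn (fun t => flow v U (x, t)) (Icc 0 T) :=
  fun t ht => (hasDerivAt_flow hU hv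
    (mem_dom_of_uIcc h (by rwa [uIcc_of_le hT]))).continuousAt.continuousWithinAt

/-- The derivative of the flow of a holomorphic vector field is `ℂ`-linear. -/
theorem fderiv_flow_smul (hU : IsOpen U) (hv : AnalyticOnNhd ℂ v U) {x : E} {T : ℝ} (hT : 0 ≤ T)
    (h : (x, T) ∈ dom v U) (c : ℂ) (z : E) :
    fderiv ℝ (flow v U) (x, T) (c • z, 0) = c • fderiv ℝ (flow v U) (x, T) (z, 0) := by
  have hv1 : ContDiffOn ℝ 1 v U := contDiffOn_real_of_analytic hv (n := 1)
  have hv2 : ContDiffOn ℝ 2 v U := contDiffOn_real_of_analytic hv (n := 2)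
  have hdom : ∀ t ∈ Icc 0 T, (x, t) ∈ dom v U := fun t ht =>
    mem_dom_of_uIcc h (by rwa [uIcc_of_le hT])
  refine lin_unique (T := T) (L := fun t => fderiv ℝ v (flow v U (x, t)))
    (f := fun t => fderiv ℝ (flow v U) (x, t) (c • z, 0))
    (g := fun t => c • fderiv ℝ (flow v U) (x, t) (z, 0)) ?_ ?_ ?_ ?_ T ⟨hT, le_rfl⟩
  · exact (hv1.continuousOn_fderiv_of_isOpen hU le_rfl).comp (continuousOn_flow_time hU hv1 h hT)
      (fun t ht => flow_mem hU hv1 (hdom t ht))
  · intro t ht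
    exact hasDerivAt_fderiv_flow hU hv2 (hdom t ht) _
  · intro t ht
    have h1 := (hasDerivAt_fderiv_flow hU hv2 (hdom t ht) z).const_smul c
    have h2 : DifferentiableAt ℂ v (flow v U (x, t)) :=
      (hv _ (flow_mem hU hv1 (hdom t ht))).differentiableAt
    rw [fderiv_real_eq h2] at h1
    show HasDerivAt (fun t => c • fderiv ℝ (flow v U) (x, t) (z, 0))
      (fderiv ℝ v (flow v U (x, t)) (c • fderiv ℝ (flow v U) (x, t) (z, 0))) t
    rw [fderiv_real_eq h2, map_smul]
    exact h1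
  · simp only [fderiv_flow_zero hU hv1 (mem_of_mem_dom h)]

/-- The flow (at real times) of a holomorphic vector field is holomorphic. -/
theorem differentiableAt_flow (hU : IsOpen U) (hv : AnalyticOnNhd ℂ v U) {x : E} {T : ℝ}
    (hT : 0 ≤ T) (h : (x, T) ∈ dom v U) : DifferentiableAt ℂ (fun y => flow v U (y, T)) x := by
  have hv1 : ContDiffOn ℝ 1 v U := contDiffOn_real_of_analytic hv (n := 1)
  have hd : DifferentiableAt ℝ (flow v U) (x, T) :=
    ((contDiffOn_flow (n := 1) le_rfl hU hv1).differentiableOn one_ne_zero).differentiableAt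
      ((isOpen_dom hU hv1).mem_nhds h)
  have h1 : HasFDerivAt (fun y : E => flow v U (y, T))
      ((fderiv ℝ (flow v U) (x, T)).comp (ContinuousLinearMap.inl ℝ E ℝ)) x :=
    HasFDerivAt.comp x (f := fun y : E => ((y, T) : E × ℝ)) (g := flow v U)
      hd.hasFDerivAt (hasFDerivAt_prodMk_left x T)
  rw [differentiableAt_iff_restrictScalars ℝ h1.differentiableAt]
  let g' : E →ₗ[ℂ] E :=
    { toFun := fun z => fderiv ℝ (flow v U) (x, T) (z, 0)
      map_add' := fun z w => by
        rw [← map_add]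
        simp
      map_smul' := fun c z => fderiv_flow_smul hU hv hT h c z }
  refine ⟨⟨g', ?_⟩, ?_⟩
  · show Continuous fun z => fderiv ℝ (flow v U) (x, T) (z, 0)
    fun_prop
  · rw [h1.fderiv]
    ext z
    rfl

end CFlow

section TotalPDE
variable {E : Type u} [NormedAddCommGroup E] [NormedSpace ℂ E] [CompleteSpace E]
  {F : Type v} [NormedAddCommGroup F] [NormedSpace ℂ F] [CompleteSpace F]
  {W : E → F →L[ℂ] E} {U : Set E}

/-- the autonomous vector field `(y, s) ↦ (W y s, 0)` -/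
def VW (W : E → F →L[ℂ] E) (p : E × F) : E × F := (W p.1 p.2, 0)

theorem analyticOnNhd_VW (hW : AnalyticOnNhd ℂ W U) :
    AnalyticOnNhd ℂ (VW W) (U ×ˢ (univ : Set F)) := by
  rintro ⟨y, s⟩ ⟨hy, -⟩
  have h1 : AnalyticAt ℂ (fun p : E × F => W p.1) (y, s) :=
    (hW y hy).comp_of_eq analyticAt_fst rfl
  have h2 : AnalyticAt ℂ (fun p : E × F => W p.1 p.2) (y, s) := by
    exact (h1.contDiffAt (n := ω)).clm_apply contDiffAt_snd |>.analyticAt
  exact h2.prod analyticAt_const

omit [CompleteSpace E] [CompleteSpace F] in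
theorem fderiv_VW {y : E} {s : F} (hW : DifferentiableAt ℂ W y) (a : E) (b : F) :
    fderiv ℝ (VW W) (y, s) (a, b) = (fderiv ℂ W y a s + W y b, 0) := by
  have h1 : HasFDerivAt (fun p : E × F => W p.1) ((fderiv ℂ W y).comp
      (ContinuousLinearMap.fst ℂ E F)) (y, s) :=
    HasFDerivAt.comp (y, s) (g := W) (f := Prod.fst) hW.hasFDerivAt hasFDerivAt_fst
  have h2 := h1.clm_apply (hasFDerivAt_snd (𝕜 := ℂ) (p := (y, s)))
  have h3 : HasFDerivAt (VW W) _ (y, s) := h2.prodMk (hasFDerivAt_const (0 : F) (y, s))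
  rw [fderiv_real_eq h3.differentiableAt, h3.fderiv]
  simp [add_comm]

/-- the flow domain: `(s, y)` such that the solution of `w' = W(w) s`, `w 0 = y` exists up to time
`1` inside `U` -/
def domW (W : E → F →L[ℂ] E) (U : Set E) : Set (F × E) :=
  {q | ((q.2, q.1), (1 : ℝ)) ∈ dom (VW W) (U ×ˢ (univ : Set F))}

/-- `Φ (s, y)`: the solution at time `1` of `w' = W(w) s`, `w 0 = y`. -/
def PhiW (W : E → F →L[ℂ] E) (U : Set E) (q : F × E) : E :=
  (flow (VW W) (U ×ˢ (univ : Set F)) ((q.2, q.1), 1)).1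

variable (hU : IsOpen U) (hW : AnalyticOnNhd ℂ W U)

include hU hW in
theorem isOpen_domW : IsOpen (domW W U) := by
  have h1 : IsOpen (dom (VW W) (U ×ˢ (univ : Set F))) :=
    isOpen_dom (hU.prod isOpen_univ) (contDiffOn_real_of_analytic (analyticOnNhd_VW hW) (n := 1))
  exact h1.preimage (f := fun q : F × E => ((q.2, q.1), (1 : ℝ))) (by fun_prop)

include hU hW in
theorem zero_mem_domW {y : E} (hy : y ∈ U) : ((0 : F), y) ∈ domW W U ∧ PhiW W U (0, y) = y := by
  have h1 : ContDiffOn ℝ 1 (VW W) (U ×ˢ (univ : Set F)) :=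
    contDiffOn_real_of_analytic (analyticOnNhd_VW hW) (n := 1)
  have h2 := flow_of_zero (hU.prod isOpen_univ) h1 (x := (y, (0 : F))) ⟨hy, trivial⟩
    (by simp [VW]) 1
  exact ⟨h2.1, by rw [PhiW]; exact congrArg Prod.fst h2.2⟩

include hU hW in
theorem PhiW_mem {q : F × E} (hq : q ∈ domW W U) : PhiW W U q ∈ U := by
  have h1 : ContDiffOn ℝ 1 (VW W) (U ×ˢ (univ : Set F)) :=
    contDiffOn_real_of_analytic (analyticOnNhd_VW hW) (n := 1)
  exact (flow_mem (hU.prod isOpen_univ) h1 hq).1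

include hU hW in
theorem flow_VW_snd {y : E} {s : F} {T : ℝ} (hT : 0 ≤ T)
    (h : ((y, s), T) ∈ dom (VW W) (U ×ˢ (univ : Set F))) :
    (flow (VW W) (U ×ˢ (univ : Set F)) ((y, s), T)).2 = s := by
  have h1 : ContDiffOn ℝ 1 (VW W) (U ×ˢ (univ : Set F)) :=
    contDiffOn_real_of_analytic (analyticOnNhd_VW hW) (n := 1)
  have hO := hU.prod (isOpen_univ (X := F))
  have hd : ∀ t ∈ Icc 0 T, HasDerivAt
      (fun t => (flow (VW W) (U ×ˢ (univ : Set F)) ((y, s), t)).2) 0 t := fun t ht => by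
    have h2 := hasDerivAt_flow hO h1 (x := (y, s)) (mem_dom_of_uIcc h (by rwa [uIcc_of_le hT]))
    exact h2.snd
  have h2 := constant_of_has_deriv_right_zero (a := 0) (b := T)
    (fun t ht => (hd t ht).continuousAt.continuousWithinAt)
    (fun t ht => (hd t ⟨ht.1, ht.2.le⟩).hasDerivWithinAt) T ⟨hT, le_rfl⟩
  rw [h2, flow_zero hO h1 (mem_of_mem_dom h)]

include hU hW in
theorem differentiableOn_PhiW : DifferentiableOn ℂ (PhiW W U) (domW W U) := by
  intro q hq
  apply DifferentiableAt.differentiableWithinAt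
  have h1 := differentiableAt_flow (hU.prod isOpen_univ) (analyticOnNhd_VW hW) zero_le_one hq
  have h2 : DifferentiableAt ℂ (fun q : F × E => ((q.2, q.1) : E × F)) q := by fun_prop
  exact (h1.comp q h2).fst

variable (hcomm : ∀ x ∈ U, ∀ u v : F, fderiv ℂ W x (W x u) v = fderiv ℂ W x (W x v) u)

include hU hW hcomm in
/-- the total differential equation -/
theorem hasFDerivAt_PhiW {s : F} {y : E} (hq : (s, y) ∈ domW W U) :
    HasFDerivAt (fun s => PhiW W U (s, y)) (W (PhiW W U (s, y))) s := by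
  have hO := hU.prod (isOpen_univ (X := F))
  have hV := analyticOnNhd_VW hW
  have h1 : ContDiffOn ℝ 1 (VW W) (U ×ˢ (univ : Set F)) :=
    contDiffOn_real_of_analytic hV (n := 1)
  have h2 : ContDiffOn ℝ 2 (VW W) (U ×ˢ (univ : Set F)) :=
    contDiffOn_real_of_analytic hV (n := 2)
  have hdom : ∀ t ∈ Icc (0 : ℝ) 1, ((y, s), t) ∈ dom (VW W) (U ×ˢ (univ : Set F)) := fun t ht =>
    mem_dom_of_uIcc hq (by rwa [uIcc_of_le zero_le_one])
  set w : ℝ → E := fun t => (flow (VW W) (U ×ˢ (univ : Set F)) ((y, s), t)).1 with hw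
  have hflow : ∀ t ∈ Icc (0 : ℝ) 1,
      flow (VW W) (U ×ˢ (univ : Set F)) ((y, s), t) = (w t, s) := fun t ht =>
    Prod.ext rfl (flow_VW_snd hU hW ht.1 (hdom t ht))
  have hwU : ∀ t ∈ Icc (0 : ℝ) 1, w t ∈ U := fun t ht => (flow_mem hO h1 (hdom t ht)).1
  have hwd : ∀ t ∈ Icc (0 : ℝ) 1, HasDerivAt w (W (w t) s) t := fun t ht => by
    have h3 := (hasDerivAt_flow hO h1 (hdom t ht)).fst
    rw [hflow t ht] at h3
    exact h3
  -- the derivative in the parameter
  have key : ∀ σ : F, fderiv ℝ (flow (VW W) (U ×ˢ (univ : Set F))) ((y, s), 1) ((0, σ), 0)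
      = ((1 : ℝ) • W (w 1) σ, σ) := by
    intro σ
    refine lin_unique (T := 1)
      (L := fun t => fderiv ℝ (VW W) (flow (VW W) (U ×ˢ (univ : Set F)) ((y, s), t)))
      (f := fun t => fderiv ℝ (flow (VW W) (U ×ˢ (univ : Set F))) ((y, s), t) ((0, σ), 0))
      (g := fun t => (t • W (w t) σ, σ)) ?_ ?_ ?_ ?_ 1 ⟨zero_le_one, le_rfl⟩
    · exact (h1.continuousOn_fderiv_of_isOpen hO le_rfl).comp
        (continuousOn_flow_time hO h1 hq zero_le_one) (fun t ht => flow_mem hO h1 (hdom t ht))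
    · intro t ht
      exact hasDerivAt_fderiv_flow hO h2 (hdom t ht) _
    · intro t ht
      have hWd : DifferentiableAt ℂ W (w t) := (hW _ (hwU t ht)).differentiableAt
      have hWr : HasFDerivAt W ((fderiv ℂ W (w t)).restrictScalars ℝ) (w t) :=
        hWd.hasFDerivAt.restrictScalars ℝ
      have h4 : HasDerivAt (fun t => W (w t)) (fderiv ℂ W (w t) (W (w t) s)) t :=
        hWr.comp_hasDerivAt t (hwd t ht)
      have h5 : HasDerivAt (fun t => W (w t) σ) (fderiv ℂ W (w t) (W (w t) s) σ) t := by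
        have := ((ContinuousLinearMap.apply ℂ E σ).restrictScalars ℝ).hasFDerivAt.comp_hasDerivAt
          t h4
        exact this
      have h6 : HasDerivAt (fun t => t • W (w t) σ)
          (t • fderiv ℂ W (w t) (W (w t) s) σ + (1 : ℝ) • W (w t) σ) t :=
        (hasDerivAt_id t).smul h5
      have h7 := h6.prodMk (hasDerivAt_const t σ)
      show HasDerivAt (fun t => (t • W (w t) σ, σ)) (fderiv ℝ (VW W)
        (flow (VW W) (U ×ˢ (univ : Set F)) ((y, s), t)) (t • W (w t) σ, σ)) t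
      rw [hflow t ht, fderiv_VW hWd]
      convert h7 using 1
      rw [Prod.mk.injEq]
      refine ⟨?_, rfl⟩
      have h8 : fderiv ℂ W (w t) (t • W (w t) σ) = t • fderiv ℂ W (w t) (W (w t) σ) :=
        ((fderiv ℂ W (w t)).restrictScalars ℝ).map_smul t _
      rw [h8, smul_apply, hcomm _ (hwU t ht) σ s]
      simp
    · have h3 := fderiv_flow_zero hO h1 (mem_of_mem_dom hq) ((0 : E), σ)
      simp only [zero_smul]
      exact h3
  -- conclude
  have hd : DifferentiableAt ℝ (flow (VW W) (U ×ˢ (univ : Set F))) ((y, s), 1) :=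
    ((contDiffOn_flow (n := 1) le_rfl hO h1).differentiableOn one_ne_zero).differentiableAt
      ((isOpen_dom hO h1).mem_nhds hq)
  have hc : DifferentiableAt ℂ (fun s => PhiW W U (s, y)) s := by
    have h3 : DifferentiableAt ℂ (PhiW W U) (s, y) :=
      (differentiableOn_PhiW hU hW).differentiableAt ((isOpen_domW hU hW).mem_nhds hq)
    have h4 : DifferentiableAt ℂ (fun s : F => ((s, y) : F × E)) s := by fun_prop
    exact DifferentiableAt.comp (g := PhiW W U) (f := fun s : F => ((s, y) : F × E)) s h3 h4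
  have h9 : HasFDerivAt (fun s : F => (((y, s), (1 : ℝ)) : (E × F) × ℝ))
      ((ContinuousLinearMap.inr ℝ E F).prod 0) s :=
    (hasFDerivAt_prodMk_right (𝕜 := ℝ) y s).prodMk (hasFDerivAt_const (1 : ℝ) s)
  have h10 := (hd.hasFDerivAt.comp s h9).fst
  have h11 : ∀ σ, fderiv ℂ (fun s => PhiW W U (s, y)) s σ = W (PhiW W U (s, y)) σ := by
    intro σ
    rw [← fderiv_real_eq hc]
    have h12 : fderiv ℝ (fun s => PhiW W U (s, y)) s = _ := h10.fderiv
    rw [h12]
    have h13 := congrArg Prod.fst (key σ)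
    simp only [one_smul] at h13
    exact h13
  have h14 : fderiv ℂ (fun s => PhiW W U (s, y)) s = W (PhiW W U (s, y)) :=
    ContinuousLinearMap.ext h11
  rw [← h14]
  exact hc.hasFDerivAt

include hU hW in
/-- uniqueness along segments: a solution of the total differential equation is given by `Φ`. -/
theorem eq_PhiW_of_segment {c : F → E} {s : F}
    (hc : ∀ t ∈ Icc (0 : ℝ) 1, c (t • s) ∈ U)
    (hc' : ∀ t ∈ Icc (0 : ℝ) 1, HasDerivAt (fun t : ℝ => c (t • s)) (W (c (t • s)) s) t) :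
    (s, c 0) ∈ domW W U ∧ PhiW W U (s, c 0) = c s := by
  have hO := hU.prod (isOpen_univ (X := F))
  have h1 : ContDiffOn ℝ 1 (VW W) (U ×ˢ (univ : Set F)) :=
    contDiffOn_real_of_analytic (analyticOnNhd_VW hW) (n := 1)
  have h2 := flow_of_integralCurve' hO h1 (c := fun t : ℝ => (c (t • s), s)) (x := (c 0, s))
    (l := 1) (by simp) (fun t ht => by
      rw [uIcc_of_le zero_le_one] at ht
      exact ⟨hc t ht, trivial⟩) (fun t ht => by
      rw [uIcc_of_le zero_le_one] at ht
      exact (hc' t ht).prodMk (hasDerivAt_const t s))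
  refine ⟨h2.1, ?_⟩
  rw [PhiW]
  simp [h2.2]

end TotalPDE

end Crest.Agent.R266
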