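import Mathlib

/-!
Osgood's lemma: in finite dimensional complex spaces, continuous + separately holomorphic
(in particular complex differentiable) functions are analytic. (row 266, helper256)
-/

set_option autoImplicit false
set_option linter.unusedSectionVars false

open Set Filter Topology Metric Complex MeasureTheory
open scoped Real ContDiff

noncomputable section

namespace Crest.Agent.R266.SCV

universe u v

section Weak

variable {G : Type*} [NormedAddCommGroup G] [NormedSpace ℂ G] [CompleteSpace G]
variable {F : Type*} [NormedAddCommGroup F] [NormedSpace ℂ F] [CompleteSpace F]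

/-- weakly holomorphic (for a separating family) and continuous functions are holomorphic -/
theorem differentiableOn_of_separating {ι : Type*} (ev : ι → G →L[ℂ] F)
    (hev : ∀ x y : G, (∀ i, ev i x = ev i y) → x = y) {g : ℂ → G} {c : ℂ} {R : ℝ}
    (hg : ContinuousOn g (closedBall c R))
    (hd : ∀ i, ∀ z ∈ ball c R, DifferentiableAt ℂ (fun t => ev i (g t)) z) :
    DifferentiableOn ℂ g (ball c R) := by
  rcases le_or_gt R 0 with hR | hR
  · rw [ball_eq_empty.2 hR]; exact fun x hx => hx.elim
  lift R to NNReal using hR.le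
  have hci : CircleIntegrable g c R :=
    (hg.mono sphere_subset_closedBall).circleIntegrable (NNReal.coe_nonneg R)
  have hps := hasFPowerSeriesOn_cauchy_integral hci (by exact_mod_cast hR)
  have heq : EqOn g (fun w => (2 * π * I : ℂ)⁻¹ • ∮ z in C(c, R), (z - w)⁻¹ • g z) (ball c R) := by
    intro w hw
    refine hev _ _ (fun i => ?_)
    have h1 : ((2 * π * I : ℂ)⁻¹ • ∮ z in C(c, R), (z - w)⁻¹ • ev i (g z)) = ev i (g w) :=
      two_pi_I_inv_smul_circleIntegral_sub_inv_smul_of_differentiable_on_off_countable
        (f := fun t => ev i (g t)) countable_empty hw ((ev i).continuous.comp_continuousOn hg)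
        (fun z hz => hd i z hz.1)
    have hint : IntervalIntegrable (fun θ : ℝ => deriv (circleMap c R) θ •
        ((circleMap c R θ - w)⁻¹ • g (circleMap c R θ))) volume 0 (2 * π) := by
      have : CircleIntegrable (fun z => (z - w)⁻¹ • g z) c R := by
        refine ContinuousOn.circleIntegrable (NNReal.coe_nonneg R) ?_
        refine ContinuousOn.smul ?_ (hg.mono sphere_subset_closedBall)
        refine ContinuousOn.inv₀ (by fun_prop) ?_
        intro z hz h0
        have : z = w := sub_eq_zero.1 h0
        rw [this] at hz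
        rw [mem_ball] at hw
        rw [mem_sphere] at hz
        linarith
      exact this.out
    rw [map_smul, circleIntegral, ← ContinuousLinearMap.intervalIntegral_comp_comm _ hint, ← h1,
      circleIntegral]
    simp only [map_smul]
  have hps' : DifferentiableOn ℂ
      (fun w => (2 * π * I : ℂ)⁻¹ • ∮ z in C(c, R), (z - w)⁻¹ • g z) (ball c R) := by
    have := hps.differentiableOn
    rwa [Metric.eball_coe] at this
  exact hps'.congr heq

end Weak

section Step

variable {F : Type v} [NormedAddCommGroup F] [NormedSpace ℂ F] [CompleteSpace F]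

/-- parameter interval of the circle -/
abbrev KI : Type := Set.Icc (0 : ℝ) (2 * π)

lemma two_pi_nonneg' : (0 : ℝ) ≤ 2 * π := by positivity

/-- retraction onto the parameter interval -/
def prK (θ : ℝ) : KI := projIcc 0 (2 * π) two_pi_nonneg' θ

lemma continuous_prK : Continuous prK := continuous_projIcc (h := two_pi_nonneg')

lemma prK_of_mem {θ : ℝ} (h : θ ∈ Icc (0 : ℝ) (2 * π)) : (prK θ : ℝ) = θ := by
  rw [prK, projIcc_of_mem _ h]

/-- the bilinear pairing `(k, φ) ↦ ∫ k φ` -/
def pairK : C(KI, ℂ) →L[ℂ] C(KI, F) →L[ℂ] F :=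
  LinearMap.mkContinuous₂
    (LinearMap.mk₂ ℂ (fun (k : C(KI, ℂ)) (φ : C(KI, F)) =>
        ∫ θ in (0 : ℝ)..(2 * π), k (prK θ) • φ (prK θ))
      (by
        intro k k' φ
        rw [← intervalIntegral.integral_add]
        · simp [add_smul]
        · exact (Continuous.smul (k.continuous.comp continuous_prK)
            (φ.continuous.comp continuous_prK)).intervalIntegrable _ _
        · exact (Continuous.smul (k'.continuous.comp continuous_prK)
            (φ.continuous.comp continuous_prK)).intervalIntegrable _ _)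
      (by
        intro a k φ
        rw [← intervalIntegral.integral_smul]
        simp [smul_smul])
      (by
        intro k φ φ'
        rw [← intervalIntegral.integral_add]
        · simp
        · exact (Continuous.smul (k.continuous.comp continuous_prK)
            (φ.continuous.comp continuous_prK)).intervalIntegrable _ _
        · exact (Continuous.smul (k.continuous.comp continuous_prK)
            (φ'.continuous.comp continuous_prK)).intervalIntegrable _ _)
      (by
        intro a k φ
        rw [← intervalIntegral.integral_smul]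
        simp only [ContinuousMap.coe_smul, Pi.smul_apply]
        congr 1
        ext θ
        rw [smul_comm]))
    (2 * π) (by
      intro k φ
      simp only [LinearMap.mk₂_apply]
      have := intervalIntegral.norm_integral_le_of_norm_le_const
        (f := fun θ => k (prK θ) • φ (prK θ)) (a := (0 : ℝ)) (b := 2 * π) (C := ‖k‖ * ‖φ‖)
        (by
          intro θ _
          rw [norm_smul]
          exact mul_le_mul (k.norm_coe_le_norm _) (φ.norm_coe_le_norm _) (norm_nonneg _)
            (norm_nonneg _))
      rw [sub_zero, abs_of_nonneg two_pi_nonneg'] at this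
      linarith [this])

lemma pairK_apply (k : C(KI, ℂ)) (φ : C(KI, F)) :
    pairK k φ = ∫ θ in (0 : ℝ)..(2 * π), k (prK θ) • φ (prK θ) := rfl

/-- evaluation at a parameter -/
def evK (θ : KI) : C(KI, F) →L[ℂ] F := ContinuousMap.evalCLM ℂ θ

lemma evK_apply (θ : KI) (φ : C(KI, F)) : evK θ φ = φ θ := rfl

/-- circle as a continuous function of the parameter -/
def circK (c : ℂ) (R : ℝ) : C(KI, ℂ) :=
  ⟨fun θ => circleMap c R θ, (continuous_circleMap c R).comp continuous_subtype_val⟩

/-- Cauchy kernel as a `C(KI, ℂ)`-valued function -/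
def kerK (c : ℂ) (R : ℝ) (z : ℂ) : C(KI, ℂ) :=
  ContinuousMap.mkD (fun θ : KI => (2 * π * I : ℂ)⁻¹ * (circleMap 0 R θ * I) *
    (circleMap c R θ - z)⁻¹) 0

lemma circleMap_ne_of_mem_ball {c z : ℂ} {R : ℝ} (hz : z ∈ ball c R) (θ : ℝ) :
    circleMap c R θ ≠ z := by
  intro h
  rw [← h, mem_ball, dist_eq_norm] at hz
  have hR : 0 < R := lt_of_le_of_lt (norm_nonneg _) hz
  simp [circleMap, abs_of_pos hR] at hz

lemma kerK_apply {c z : ℂ} {R : ℝ} (hz : z ∈ ball c R) (θ : KI) :
    kerK c R z θ = (2 * π * I : ℂ)⁻¹ * (circleMap 0 R θ * I) * (circleMap c R θ - z)⁻¹ := by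
  rw [kerK, ContinuousMap.mkD_apply_of_continuous]
  refine Continuous.mul (by fun_prop) (Continuous.inv₀ (by fun_prop) ?_)
  intro θ h
  exact circleMap_ne_of_mem_ball hz θ (sub_eq_zero.1 h)

lemma continuousOn_kerK (c : ℂ) (R : ℝ) : ContinuousOn (kerK c R) (ball c R) := by
  rw [continuousOn_iff_continuous_domRestrict]
  have hc : Continuous (fun p : (ball c R) × KI => (2 * π * I : ℂ)⁻¹ *
      (circleMap 0 R p.2 * I) * (circleMap c R p.2 - p.1)⁻¹) := by
    refine Continuous.mul (by fun_prop) (Continuous.inv₀ (by fun_prop) ?_)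
    rintro ⟨⟨z, hz⟩, θ⟩ h
    exact circleMap_ne_of_mem_ball hz θ (sub_eq_zero.1 h)
  have := (ContinuousMap.curry ⟨_, hc⟩).continuous
  refine this.congr (fun z => ?_)
  ext θ
  rw [domRestrict_apply, kerK_apply z.2]
  rfl

lemma analyticOnNhd_kerK (c : ℂ) (R : ℝ) : AnalyticOnNhd ℂ (kerK c R) (ball c R) := by
  refine DifferentiableOn.analyticOnNhd ?_ isOpen_ball
  intro z hz
  obtain ⟨r, hr, hrs⟩ := Metric.nhds_basis_closedBall.mem_iff.1 (isOpen_ball.mem_nhds hz)
  refine ((differentiableOn_of_separating (ι := KI) (fun θ => evK θ)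
    (fun x y h => ContinuousMap.ext h) ((continuousOn_kerK c R).mono hrs) (fun θ w hw => ?_)
    ).differentiableAt (isOpen_ball.mem_nhds (mem_ball_self hr))).differentiableWithinAt
  have hw' : w ∈ ball c R := hrs (ball_subset_closedBall hw)
  have h1 : DifferentiableAt ℂ (fun t : ℂ => (2 * π * I : ℂ)⁻¹ * (circleMap 0 R θ * I) *
      (circleMap c R θ - t)⁻¹) w := by
    refine DifferentiableAt.const_mul ?_ _
    refine DifferentiableAt.inv (by fun_prop) ?_
    exact sub_ne_zero.2 (circleMap_ne_of_mem_ball hw' θ)
  refine h1.congr_of_eventuallyEq ?_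
  filter_upwards [isOpen_ball.mem_nhds hw'] with t ht
  rw [evK_apply, kerK_apply ht]

variable {E' : Type u} [NormedAddCommGroup E'] [NormedSpace ℂ E']

/-- restriction of a function to the circle in the first variable -/
def slice (f : ℂ × E' → F) (c : ℂ) (R : ℝ) (y : E') : C(KI, F) :=
  ContinuousMap.mkD (fun θ : KI => f (circleMap c R θ, y)) 0

lemma circleMap_mem_closedBall' {c : ℂ} {R : ℝ} (hR : 0 ≤ R) (θ : ℝ) :
    circleMap c R θ ∈ closedBall c R := circleMap_mem_closedBall c hR θ

lemma slice_apply {f : ℂ × E' → F} {c : ℂ} {R : ℝ} (hR : 0 ≤ R) {V : Set E'}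
    (hf : ContinuousOn f (closedBall c R ×ˢ V)) {y : E'} (hy : y ∈ V) (θ : KI) :
    slice f c R y θ = f (circleMap c R θ, y) := by
  rw [slice, ContinuousMap.mkD_apply_of_continuous]
  refine hf.comp_continuous (by fun_prop) ?_
  intro θ
  exact ⟨circleMap_mem_closedBall' hR _, hy⟩

lemma continuousOn_slice {f : ℂ × E' → F} {c : ℂ} {R : ℝ} (hR : 0 ≤ R) {V : Set E'}
    (hf : ContinuousOn f (closedBall c R ×ˢ V)) : ContinuousOn (slice f c R) V := by
  rw [continuousOn_iff_continuous_domRestrict]
  have hc : Continuous (fun p : V × KI => f (circleMap c R p.2, p.1)) := by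
    refine hf.comp_continuous (by fun_prop) ?_
    rintro ⟨y, θ⟩
    exact ⟨circleMap_mem_closedBall' hR _, y.2⟩
  have := (ContinuousMap.curry ⟨_, hc⟩).continuous
  refine this.congr (fun y => ?_)
  ext θ
  rw [domRestrict_apply, slice_apply hR hf y.2]
  rfl

lemma cauchy_slice {f : ℂ × E' → F} {c : ℂ} {R : ℝ} (hR : 0 ≤ R) {V : Set E'}
    (hf : ContinuousOn f (closedBall c R ×ˢ V)) {y : E'} (hy : y ∈ V)
    (hd : ∀ z ∈ ball c R, DifferentiableAt ℂ (fun t => f (t, y)) z) {z : ℂ} (hz : z ∈ ball c R) :
    f (z, y) = pairK (kerK c R z) (slice f c R y) := by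
  have h1 : ((2 * π * I : ℂ)⁻¹ • ∮ w in C(c, R), (w - z)⁻¹ • f (w, y)) = f (z, y) :=
    two_pi_I_inv_smul_circleIntegral_sub_inv_smul_of_differentiable_on_off_countable
      (f := fun t => f (t, y)) countable_empty hz
      (hf.comp (by fun_prop) (fun w hw => ⟨hw, hy⟩)) (fun z hz => hd z hz.1)
  rw [← h1, pairK_apply, circleIntegral, ← intervalIntegral.integral_smul]
  refine intervalIntegral.integral_congr (fun θ hθ => ?_)
  rw [uIcc_of_le two_pi_nonneg'] at hθ
  simp only [kerK_apply hz, slice_apply hR hf hy, prK_of_mem hθ, deriv_circleMap, smul_smul]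
  congr 1
  ring

lemma analyticAt_of_slice {f : ℂ × E' → F} {c : ℂ} {R : ℝ} (hR : 0 ≤ R) {V : Set E'}
    (hV : IsOpen V) (hf : ContinuousOn f (closedBall c R ×ˢ V))
    (hd : ∀ y ∈ V, ∀ z ∈ ball c R, DifferentiableAt ℂ (fun t => f (t, y)) z) {y : E'} (hy : y ∈ V)
    (hs : AnalyticAt ℂ (slice f c R) y) {z : ℂ} (hz : z ∈ ball c R) :
    AnalyticAt ℂ f (z, y) := by
  have h1 : AnalyticAt ℂ (fun p : ℂ × E' => pairK (F := F) (kerK c R p.1) (slice f c R p.2))
      (z, y) := by
    have hk : AnalyticAt ℂ (fun p : ℂ × E' => kerK c R p.1) (z, y) :=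
      (analyticOnNhd_kerK c R z hz).comp_of_eq analyticAt_fst rfl
    have hsl : AnalyticAt ℂ (fun p : ℂ × E' => slice f c R p.2) (z, y) :=
      hs.comp_of_eq analyticAt_snd rfl
    exact (ContinuousLinearMap.analyticAt_bilinear (pairK (F := F)) _).comp₂ hk hsl
  refine h1.congr ?_
  filter_upwards [(isOpen_ball.prod hV).mem_nhds ⟨hz, hy⟩] with p hp
  exact (cauchy_slice hR hf hp.2 (hd p.2 hp.2) hp.1).symm

end Step

section Osgood

/-- Osgood's lemma on `ℂⁿ`. -/
theorem osgood_pi (n : ℕ) : ∀ {F : Type v} [NormedAddCommGroup F] [NormedSpace ℂ F]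
    [CompleteSpace F] (f : (Fin n → ℂ) → F) {U : Set (Fin n → ℂ)}, IsOpen U → ContinuousOn f U →
    (∀ x ∈ U, ∀ i, DifferentiableAt ℂ (fun z => f (Function.update x i z)) (x i)) →
    AnalyticOnNhd ℂ f U := by
  induction n with
  | zero =>
    intro F _ _ _ f U hU hc hd x hx
    have : f = fun _ => f x := by
      ext y
      rw [Subsingleton.elim y x]
    rw [this]
    exact analyticAt_const
  | succ n ih =>
    intro F _ _ _ f U hU hc hd x hx
    obtain ⟨R, hR, hRU⟩ := Metric.nhds_basis_closedBall.mem_iff.1 (hU.mem_nhds hx)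
    set e := Fin.consEquivL ℂ (fun _ : Fin (n + 1) => ℂ) with he
    have heapp : ∀ (z : ℂ) (y : Fin n → ℂ), e (z, y) = Fin.cons z y := fun z y => rfl
    set g : ℂ × (Fin n → ℂ) → F := fun p => f (e p) with hg
    set V : Set (Fin n → ℂ) := ball (Fin.tail x) R with hV
    have hmem : ∀ z ∈ closedBall (x 0) R, ∀ y ∈ closedBall (Fin.tail x) R, e (z, y) ∈ U := by
      intro z hz y hy
      apply hRU
      rw [mem_closedBall, dist_pi_le_iff hR.le, heapp]
      intro i
      refine Fin.cases ?_ (fun j => ?_) i
      · simpa using hz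
      · rw [mem_closedBall, dist_pi_le_iff hR.le] at hy
        simpa [Fin.tail] using hy j
    have hgc : ContinuousOn g (closedBall (x 0) R ×ˢ V) := by
      refine hc.comp e.continuous.continuousOn ?_
      rintro ⟨z, y⟩ ⟨hz, hy⟩
      exact hmem z hz y (ball_subset_closedBall hy)
    have hgd : ∀ y ∈ V, ∀ z ∈ ball (x 0) R, DifferentiableAt ℂ (fun t => g (t, y)) z := by
      intro y hy z hz
      have := hd (e (z, y)) (hmem z (ball_subset_closedBall hz) y (ball_subset_closedBall hy)) 0
      simp only [heapp, Fin.update_cons_zero, Fin.cons_zero] at this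
      exact this
    have hs : AnalyticOnNhd ℂ (slice g (x 0) R) V := by
      refine ih (slice g (x 0) R) isOpen_ball (continuousOn_slice hR.le hgc) ?_
      intro y hy i
      have hcont : Continuous (fun z : ℂ => Function.update y i z) := by
        exact continuous_const.update i continuous_id
      have hopen : IsOpen ((fun z : ℂ => Function.update y i z) ⁻¹' V) :=
        isOpen_ball.preimage hcont
      have hyi : y i ∈ (fun z : ℂ => Function.update y i z) ⁻¹' V := by
        simpa using hy
      obtain ⟨δ, hδ, hδV⟩ := Metric.nhds_basis_closedBall.mem_iff.1 (hopen.mem_nhds hyi)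
      refine (differentiableOn_of_separating (ι := KI) (fun θ => evK θ)
        (fun x y h => ContinuousMap.ext h)
        ((continuousOn_slice hR.le hgc).comp hcont.continuousOn hδV)
        (fun θ t ht => ?_)).differentiableAt (isOpen_ball.mem_nhds (mem_ball_self hδ))
      have htV : Function.update y i t ∈ V := hδV (ball_subset_closedBall ht)
      have h1 := hd (e (circleMap (x 0) R θ, Function.update y i t))
        (hmem _ (circleMap_mem_closedBall' hR.le θ) _ (ball_subset_closedBall htV)) i.succ
      have h2 : (fun z => f (Function.update (e (circleMap (x 0) R θ, Function.update y i t))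
          i.succ z)) = fun z => g (circleMap (x 0) R θ, Function.update y i z) := by
        ext z
        rw [hg]
        simp only [heapp]
        rw [← Fin.cons_update, Function.update_idem]
      have h3 : (e (circleMap (x 0) R θ, Function.update y i t)) i.succ = t := by
        simp [heapp]
      rw [h2, h3] at h1
      refine h1.congr_of_eventuallyEq ?_
      filter_upwards [hopen.mem_nhds htV] with s hs
      rw [evK_apply, Function.comp_apply, slice_apply hR.le hgc hs]
    have hga : AnalyticAt ℂ g (x 0, Fin.tail x) :=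
      analyticAt_of_slice hR.le isOpen_ball hgc hgd (mem_ball_self hR)
        (hs _ (mem_ball_self hR)) (mem_ball_self hR)
    have hfe : f = g ∘ e.symm := by
      ext y
      simp [hg]
    rw [hfe]
    refine AnalyticAt.comp_of_eq hga (e.symm.toContinuousLinearMap.analyticAt x) ?_
    apply e.injective
    rw [e.apply_symm_apply, heapp]
    exact (Fin.cons_self_tail x).symm

variable {E : Type u} [NormedAddCommGroup E] [NormedSpace ℂ E]
variable {F : Type v} [NormedAddCommGroup F] [NormedSpace ℂ F] [CompleteSpace F]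

/-- Osgood's lemma with respect to a basis. -/
theorem analyticOnNhd_of_basis {n : ℕ} (b : Module.Basis (Fin n) ℂ E) {f : E → F} {U : Set E}
    (hU : IsOpen U) (hc : ContinuousOn f U)
    (hd : ∀ x ∈ U, ∀ i, DifferentiableAt ℂ (fun z : ℂ => f (x + z • b i)) 0) :
    AnalyticOnNhd ℂ f U := by
  have : FiniteDimensional ℂ E := b.finiteDimensional_of_finite
  set e : (Fin n → ℂ) ≃L[ℂ] E := (b.equivFun.symm).toContinuousLinearEquiv with he
  have happ : ∀ (y : Fin n → ℂ) (i : Fin n) (z : ℂ),
      e (Function.update y i z) = e y + (z - y i) • b i := by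
    intro y i z
    have h1 : Function.update y i z = y + (z - y i) • Pi.single i (1 : ℂ) := by
      ext j
      rcases eq_or_ne j i with rfl | hj
      · simp
      · simp [hj]
    rw [h1, map_add, map_smul]
    congr 2
    simp [he]
  have key : AnalyticOnNhd ℂ (f ∘ e) (e ⁻¹' U) := by
    refine osgood_pi n _ (hU.preimage e.continuous)
      (hc.comp e.continuous.continuousOn (fun x hx => hx)) ?_
    intro y hy i
    have h1 : (fun z => (f ∘ e) (Function.update y i z)) =
        (fun z : ℂ => f (e y + z • b i)) ∘ (fun z : ℂ => z - y i) := by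
      ext z
      simp [happ]
    rw [h1]
    refine DifferentiableAt.comp _ ?_ (by fun_prop)
    simpa using hd (e y) hy i
  intro x hx
  have h1 : f = (f ∘ e) ∘ e.symm := by
    ext y; simp
  rw [h1]
  refine AnalyticAt.comp (key _ ?_) (e.symm.toContinuousLinearMap.analyticAt x)
  simpa using hx

/-- Gateaux-holomorphic and continuous functions on a finite dimensional space are analytic. -/
theorem analyticOnNhd_of_gateaux [FiniteDimensional ℂ E] {f : E → F} {U : Set E}
    (hU : IsOpen U) (hc : ContinuousOn f U)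
    (hd : ∀ x ∈ U, ∀ v : E, DifferentiableAt ℂ (fun z : ℂ => f (x + z • v)) 0) :
    AnalyticOnNhd ℂ f U :=
  analyticOnNhd_of_basis (Module.finBasis ℂ E) hU hc (fun x hx _ => hd x hx _)

/-- complex differentiable functions on open subsets of a finite dimensional space are analytic -/
theorem analyticOnNhd_of_differentiableOn [FiniteDimensional ℂ E] {f : E → F} {U : Set E}
    (hU : IsOpen U) (hf : DifferentiableOn ℂ f U) : AnalyticOnNhd ℂ f U := by
  refine analyticOnNhd_of_gateaux hU hf.continuousOn (fun x hx v => ?_)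
  have h1 : DifferentiableAt ℂ f (x + (0 : ℂ) • v) := by
    simpa using hf.differentiableAt (hU.mem_nhds hx)
  exact h1.comp (0 : ℂ) (f := fun z : ℂ => x + z • v) (by fun_prop)

theorem analyticAt_of_eventually_differentiableAt [FiniteDimensional ℂ E] {f : E → F} {x : E}
    (hf : ∀ᶠ y in 𝓝 x, DifferentiableAt ℂ f y) : AnalyticAt ℂ f x := by
  obtain ⟨U, hU, hUo, hx⟩ := _root_.eventually_nhds_iff.1 hf
  exact analyticOnNhd_of_differentiableOn hUo
    (fun y hy => (hU y hy).differentiableWithinAt) x hx

theorem contDiffOn_omega_of_differentiableOn [FiniteDimensional ℂ E] {f : E → F} {U : Set E}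
    (hU : IsOpen U) (hf : DifferentiableOn ℂ f U) : ContDiffOn ℂ ω f U :=
  (analyticOnNhd_of_differentiableOn hU hf).contDiffOn hU.uniqueDiffOn

/-- functions of two groups of variables: continuous and separately holomorphic implies analytic -/
theorem analyticOnNhd_of_separately {E₁ E₂ : Type*} [NormedAddCommGroup E₁] [NormedSpace ℂ E₁]
    [FiniteDimensional ℂ E₁] [NormedAddCommGroup E₂] [NormedSpace ℂ E₂] [FiniteDimensional ℂ E₂]
    {f : E₁ × E₂ → F} {U : Set (E₁ × E₂)} (hU : IsOpen U) (hc : ContinuousOn f U)
    (h1 : ∀ p ∈ U, DifferentiableAt ℂ (fun x => f (x, p.2)) p.1)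
    (h2 : ∀ p ∈ U, DifferentiableAt ℂ (fun y => f (p.1, y)) p.2) :
    AnalyticOnNhd ℂ f U := by
  classical
  set b := ((Module.finBasis ℂ E₁).prod (Module.finBasis ℂ E₂)).reindex finSumFinEquiv with hb
  refine analyticOnNhd_of_basis b hU hc (fun p hp i => ?_)
  obtain ⟨j, rfl⟩ := finSumFinEquiv.surjective i
  rcases j with j | j
  · have h3 : (fun z : ℂ => f (p + z • b (finSumFinEquiv (Sum.inl j)))) =
        (fun x => f (x, p.2)) ∘ (fun z : ℂ => p.1 + z • Module.finBasis ℂ E₁ j) := by
      ext z
      congr 1
      simp [hb, Module.Basis.prod_apply, Prod.ext_iff]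
    rw [h3]
    refine DifferentiableAt.comp _ ?_ (by fun_prop)
    simpa using h1 p hp
  · have h3 : (fun z : ℂ => f (p + z • b (finSumFinEquiv (Sum.inr j)))) =
        (fun y => f (p.1, y)) ∘ (fun z : ℂ => p.2 + z • Module.finBasis ℂ E₂ j) := by
      ext z
      congr 1
      simp [hb, Module.Basis.prod_apply, Prod.ext_iff]
    rw [h3]
    refine DifferentiableAt.comp _ ?_ (by fun_prop)
    simpa using h2 p hp

end Osgood

end Crest.Agent.R266.SCV
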