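import Mathlib
import Crest.Agent.R266.Chart

/-!
Row 266 (S0404/S0405): chart layer, part 2 (helper35): integrability in charts.
-/

set_option autoImplicit false

open Set Function Filter VectorField
open scoped Manifold ContDiff Topology
open Crest.AlgGeometry.HolSplit

namespace Crest.Agent.R266

noncomputable section

section Local

variable {E : Type*} [NormedAddCommGroup E] [NormedSpace ℂ E]

lemma T1_iff_of_idem {P : E → E →L[ℂ] E} {y : E} (hid : ∀ v, P y (P y v) = P y v) :
    T1 P y ↔ ∀ u v, fderiv ℂ P y (P y u) (P y v) = fderiv ℂ P y (P y v) (P y u) := by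
  constructor
  · intro h u v
    exact h _ _ (hid u) (hid v)
  · intro h u v hu hv
    have := h u v
    rwa [hu, hv] at this

lemma T2_iff_of_idem {P : E → E →L[ℂ] E} {y : E} (hid : ∀ v, P y (P y v) = P y v) :
    T2 P y ↔ ∀ u v, fderiv ℂ P y (u - P y u) (v - P y v) =
      fderiv ℂ P y (v - P y v) (u - P y u) := by
  constructor
  · intro h u v
    exact h _ _ (by rw [map_sub, hid, sub_self]) (by rw [map_sub, hid, sub_self])
  · intro h u v hu hv
    have := h u v
    rwa [hu, hv, sub_zero, sub_zero] at this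

end Local

variable {n : ℕ} {X : Type*} [TopologicalSpace X] [ChartedSpace (Model n) X]
  [IsManifold (mI n) ω X]

/-- `E₁` is integrable at `z`. -/
def IntAt1 (S : Splitting n X) (z : X) : Prop :=
  ∀ (U : Set X), IsOpen U → z ∈ U → ∀ (V W : (x : X) → TangentSpace (mI n) x),
    IsHolVectorFieldOn U V → IsHolVectorFieldOn U W →
    (∀ x ∈ U, S.proj x (V x) = V x) → (∀ x ∈ U, S.proj x (W x) = W x) →
      S.proj z (mlieBracket (mI n) V W z) = mlieBracket (mI n) V W z

/-- `E₂` is integrable at `z`. -/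
def IntAt2 (S : Splitting n X) (z : X) : Prop :=
  ∀ (U : Set X), IsOpen U → z ∈ U → ∀ (V W : (x : X) → TangentSpace (mI n) x),
    IsHolVectorFieldOn U V → IsHolVectorFieldOn U W →
    (∀ x ∈ U, S.proj x (V x) = 0) → (∀ x ∈ U, S.proj x (W x) = 0) →
      S.proj z (mlieBracket (mI n) V W z) = 0

lemma firstIntegrable_iff_intAt (S : Splitting n X) : S.FirstIntegrable ↔ ∀ z, IntAt1 S z := by
  constructor
  · intro h z U hU hz V W hV hW h1 h2
    exact h U hU V W hV hW h1 h2 z hz
  · intro h U hU V W hV hW h1 h2 z hz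
    exact h z U hU hz V W hV hW h1 h2

lemma secondIntegrable_iff_intAt (S : Splitting n X) : S.SecondIntegrable ↔ ∀ z, IntAt2 S z := by
  constructor
  · intro h z U hU hz V W hV hW h1 h2
    exact h U hU V W hV hW h1 h2 z hz
  · intro h U hU V W hV hW h1 h2 z hz
    exact h z U hU hz V W hV hW h1 h2

lemma holField_mdiff {U : Set X} (hU : IsOpen U) {V : (x : X) → TangentSpace (mI n) x}
    (hV : IsHolVectorFieldOn U V) {z : X} (hz : z ∈ U) :
    MDifferentiableAt (mI n) (mI n).tangent
      (fun x => (Bundle.TotalSpace.mk' (Model n) x (V x) : TangentBundle (mI n) X)) z :=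
  (ContMDiffOn.contMDiffAt hV (hU.mem_nhds hz)).mdifferentiableAt (by simp)

lemma Vc_differentiableAt {x₀ : X} {U : Set X} (hU : IsOpen U)
    {V : (x : X) → TangentSpace (mI n) x} (hV : IsHolVectorFieldOn U V) {y : Model n}
    (hy : y ∈ (chartAt (Model n) x₀).target) (hyU : (chartAt (Model n) x₀).symm y ∈ U) :
    DifferentiableAt ℂ (Vc x₀ V) y := by
  have h := Vc_contDiffOn (x₀ := x₀) hU hV
  have ho : IsOpen ((chartAt (Model n) x₀).target ∩ (chartAt (Model n) x₀).symm ⁻¹' U) :=
    (chartAt (Model n) x₀).isOpen_inter_preimage_symm hU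
  exact (h.contDiffAt (ho.mem_nhds ⟨hy, hyU⟩)).differentiableAt (by simp)

lemma Pc_differentiableAt (S : Splitting n X) {x₀ : X} {y : Model n}
    (hy : y ∈ (chartAt (Model n) x₀).target) : DifferentiableAt ℂ (Pc S x₀) y :=
  ((Pc_contDiffOn S x₀).contDiffAt ((chartAt (Model n) x₀).open_target.mem_nhds hy)).differentiableAt
    (by simp)

lemma proj_Vc (S : Splitting n X) {x₀ : X} {y : Model n}
    (hy : y ∈ (chartAt (Model n) x₀).target) (V : (x : X) → TangentSpace (mI n) x) :
    Pc S x₀ y (Vc x₀ V y) = Vc x₀ (fun x => S.proj x (V x)) y :=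
  Pc_tcc S hy _

lemma tcc_inj {x₀ z : X} (hz : z ∈ (chartAt (Model n) x₀).source) {u v : Model n}
    (h : tcc z x₀ z u = tcc z x₀ z v) : u = v := by
  have := congrArg (tcc x₀ z z) h
  rwa [tcc_cancel' hz, tcc_cancel' hz] at this

/-- the field `P u` with `u` constant in the chart. -/
def pfield (S : Splitting n X) (x₀ : X) (u : Model n) (x : X) : TangentSpace (mI n) x :=
  S.proj x (cfield x₀ u x)

/-- the field `u - P u` with `u` constant in the chart. -/
def qfield (S : Splitting n X) (x₀ : X) (u : Model n) (x : X) : TangentSpace (mI n) x :=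
  cfield x₀ u x - S.proj x (cfield x₀ u x)

lemma Vc_pfield (S : Splitting n X) {x₀ : X} {y : Model n}
    (hy : y ∈ (chartAt (Model n) x₀).target) (u : Model n) :
    Vc x₀ (pfield S x₀ u) y = Pc S x₀ y u := by
  have h1 := proj_Vc S hy (cfield x₀ u)
  rw [Vc_cfield hy] at h1
  exact h1.symm

lemma Vc_sub (x₀ : X) (V W : (x : X) → TangentSpace (mI n) x) (y : Model n) :
    Vc x₀ (fun x => V x - W x) y = Vc x₀ V y - Vc x₀ W y :=
  map_sub (tcc ((chartAt (Model n) x₀).symm y) x₀ ((chartAt (Model n) x₀).symm y)) _ _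

lemma Vc_qfield (S : Splitting n X) {x₀ : X} {y : Model n}
    (hy : y ∈ (chartAt (Model n) x₀).target) (u : Model n) :
    Vc x₀ (qfield S x₀ u) y = u - Pc S x₀ y u := by
  have h1 := Vc_sub x₀ (cfield x₀ u) (pfield S x₀ u) y
  rw [Vc_cfield hy, Vc_pfield S hy] at h1
  exact h1

lemma pfield_hol (S : Splitting n X) (x₀ : X) (u : Model n) :
    IsHolVectorFieldOn (chartAt (Model n) x₀).source (pfield S x₀ u) :=
  S.holomorphic _ (chartAt (Model n) x₀).open_source _ (cfield_hol x₀ u)

lemma qfield_hol (S : Splitting n X) (x₀ : X) (u : Model n) :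
    IsHolVectorFieldOn (chartAt (Model n) x₀).source (qfield S x₀ u) := by
  refine holField_of_Vc (x₀ := x₀) (chartAt (Model n) x₀).open_source subset_rfl ?_
  have h : ContDiffOn ℂ ω (fun y => u - Pc S x₀ y u)
      ((chartAt (Model n) x₀).target ∩
        (chartAt (Model n) x₀).symm ⁻¹' (chartAt (Model n) x₀).source) :=
    contDiffOn_const.sub (((Pc_contDiffOn S x₀).mono inter_subset_left).clm_apply contDiffOn_const)
  refine h.congr ?_
  intro y hy
  exact Vc_qfield S hy.1 u

lemma proj_pfield (S : Splitting n X) (x₀ : X) (u : Model n) (x : X) :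
    S.proj x (pfield S x₀ u x) = pfield S x₀ u x := S.idem x _

lemma proj_qfield (S : Splitting n X) (x₀ : X) (u : Model n) (x : X) :
    S.proj x (qfield S x₀ u x) = 0 := by
  unfold qfield
  rw [map_sub, S.idem, sub_self]

lemma T1_iff_intAt (S : Splitting n X) {x₀ : X} {y : Model n}
    (hy : y ∈ (chartAt (Model n) x₀).target) :
    T1 (Pc S x₀) y ↔ IntAt1 S ((chartAt (Model n) x₀).symm y) := by
  set z := (chartAt (Model n) x₀).symm y with hzdef
  have hz : z ∈ (chartAt (Model n) x₀).source := symm_mem hy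
  have hnt : (chartAt (Model n) x₀).target ∈ 𝓝 y := (chartAt (Model n) x₀).open_target.mem_nhds hy
  constructor
  · intro h U hU hzU V W hV hW h1 h2
    have hb := mlieBracket_chart hy (holField_mdiff hU hV hzU) (holField_mdiff hU hW hzU)
    have hdV := Vc_differentiableAt (x₀ := x₀) hU hV hy hzU
    have hdW := Vc_differentiableAt (x₀ := x₀) hU hW hy hzU
    have hnU : (chartAt (Model n) x₀).target ∩ (chartAt (Model n) x₀).symm ⁻¹' U ∈ 𝓝 y :=
      ((chartAt (Model n) x₀).isOpen_inter_preimage_symm hU).mem_nhds ⟨hy, hzU⟩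
    have key : ∀ V : (x : X) → TangentSpace (mI n) x, (∀ x ∈ U, S.proj x (V x) = V x) →
        ∀ᶠ w in 𝓝 y, Pc S x₀ w (Vc x₀ V w) = Vc x₀ V w := by
      intro V hV
      filter_upwards [hnU] with w hw
      rw [proj_Vc S hw.1]
      exact congrArg (fun v : Model n => tcc ((chartAt (Model n) x₀).symm w) x₀
        ((chartAt (Model n) x₀).symm w) v) (hV _ hw.2)
    have hbi := bracket_image (Pc_differentiableAt S hy) hdV hdW (key V h1) (key W h2)
    have ht := h _ _ (key V h1).self_of_nhds (key W h2).self_of_nhds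
    rw [ht, sub_self, sub_eq_zero, ← hb, ← hzdef] at hbi
    have h3 := Pc_tcc S hy (mlieBracket (mI n) V W z)
    exact (tcc_inj hz (hbi.trans h3)).symm
  · intro h u v hu hv
    have hb := mlieBracket_chart hy
      (holField_mdiff (chartAt (Model n) x₀).open_source (pfield_hol S x₀ u) hz)
      (holField_mdiff (chartAt (Model n) x₀).open_source (pfield_hol S x₀ v) hz)
    have hdV := Vc_differentiableAt (x₀ := x₀) (chartAt (Model n) x₀).open_source
      (pfield_hol S x₀ u) hy hz
    have hdW := Vc_differentiableAt (x₀ := x₀) (chartAt (Model n) x₀).open_source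
      (pfield_hol S x₀ v) hy hz
    have key : ∀ u : Model n,
        ∀ᶠ w in 𝓝 y, Pc S x₀ w (Vc x₀ (pfield S x₀ u) w) = Vc x₀ (pfield S x₀ u) w := by
      intro u
      filter_upwards [hnt] with w hw
      rw [Vc_pfield S hw, Pc_idem S hw]
    have hbi := bracket_image (Pc_differentiableAt S hy) hdV hdW (key u) (key v)
    have h0 := h _ (chartAt (Model n) x₀).open_source hz _ _ (pfield_hol S x₀ u)
      (pfield_hol S x₀ v) (fun x _ => proj_pfield S x₀ u x) (fun x _ => proj_pfield S x₀ v x)
    have h3 := Pc_tcc S hy (mlieBracket (mI n) (pfield S x₀ u) (pfield S x₀ v) z)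
    have h4 : pr S z (mlieBracket (mI n) (pfield S x₀ u) (pfield S x₀ v) z) =
      (mlieBracket (mI n) (pfield S x₀ u) (pfield S x₀ v) z : Model n) := h0
    rw [← hzdef, h4] at h3
    rw [← hb, ← hzdef, h3, sub_self, Vc_pfield S hy, Vc_pfield S hy, hu, hv] at hbi
    exact (sub_eq_zero.1 hbi.symm)

lemma T2_iff_intAt (S : Splitting n X) {x₀ : X} {y : Model n}
    (hy : y ∈ (chartAt (Model n) x₀).target) :
    T2 (Pc S x₀) y ↔ IntAt2 S ((chartAt (Model n) x₀).symm y) := by
  set z := (chartAt (Model n) x₀).symm y with hzdef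
  have hz : z ∈ (chartAt (Model n) x₀).source := symm_mem hy
  have hnt : (chartAt (Model n) x₀).target ∈ 𝓝 y := (chartAt (Model n) x₀).open_target.mem_nhds hy
  constructor
  · intro h U hU hzU V W hV hW h1 h2
    have hb := mlieBracket_chart hy (holField_mdiff hU hV hzU) (holField_mdiff hU hW hzU)
    have hdV := Vc_differentiableAt (x₀ := x₀) hU hV hy hzU
    have hdW := Vc_differentiableAt (x₀ := x₀) hU hW hy hzU
    have hnU : (chartAt (Model n) x₀).target ∩ (chartAt (Model n) x₀).symm ⁻¹' U ∈ 𝓝 y :=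
      ((chartAt (Model n) x₀).isOpen_inter_preimage_symm hU).mem_nhds ⟨hy, hzU⟩
    have key : ∀ V : (x : X) → TangentSpace (mI n) x, (∀ x ∈ U, S.proj x (V x) = 0) →
        ∀ᶠ w in 𝓝 y, Pc S x₀ w (Vc x₀ V w) = 0 := by
      intro V hV
      filter_upwards [hnU] with w hw
      rw [proj_Vc S hw.1]
      refine (congrArg (fun v : Model n => tcc ((chartAt (Model n) x₀).symm w) x₀
        ((chartAt (Model n) x₀).symm w) v) (hV _ hw.2)).trans ?_
      exact map_zero (tcc ((chartAt (Model n) x₀).symm w) x₀ ((chartAt (Model n) x₀).symm w))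
    have hbi := bracket_kernel (Pc_differentiableAt S hy) hdV hdW (key V h1) (key W h2)
    have ht := h _ _ (key V h1).self_of_nhds (key W h2).self_of_nhds
    rw [ht, sub_self, ← hb, ← hzdef] at hbi
    have h3 := Pc_tcc S hy (mlieBracket (mI n) V W z)
    have h4 : tcc z x₀ z (pr S z (mlieBracket (mI n) V W z)) = tcc z x₀ z 0 := by
      rw [map_zero]
      exact h3.symm.trans hbi
    exact tcc_inj hz h4
  · intro h u v hu hv
    have hb := mlieBracket_chart hy
      (holField_mdiff (chartAt (Model n) x₀).open_source (qfield_hol S x₀ u) hz)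
      (holField_mdiff (chartAt (Model n) x₀).open_source (qfield_hol S x₀ v) hz)
    have hdV := Vc_differentiableAt (x₀ := x₀) (chartAt (Model n) x₀).open_source
      (qfield_hol S x₀ u) hy hz
    have hdW := Vc_differentiableAt (x₀ := x₀) (chartAt (Model n) x₀).open_source
      (qfield_hol S x₀ v) hy hz
    have key : ∀ u : Model n,
        ∀ᶠ w in 𝓝 y, Pc S x₀ w (Vc x₀ (qfield S x₀ u) w) = 0 := by
      intro u
      filter_upwards [hnt] with w hw
      rw [Vc_qfield S hw, map_sub, Pc_idem S hw, sub_self]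
    have hbi := bracket_kernel (Pc_differentiableAt S hy) hdV hdW (key u) (key v)
    have h0 := h _ (chartAt (Model n) x₀).open_source hz _ _ (qfield_hol S x₀ u)
      (qfield_hol S x₀ v) (fun x _ => proj_qfield S x₀ u x) (fun x _ => proj_qfield S x₀ v x)
    have h3 := Pc_tcc S hy (mlieBracket (mI n) (qfield S x₀ u) (qfield S x₀ v) z)
    have h4 : pr S z (mlieBracket (mI n) (qfield S x₀ u) (qfield S x₀ v) z) =
      (0 : Model n) := h0
    rw [← hzdef, h4, map_zero] at h3
    rw [← hb, ← hzdef, h3, Vc_qfield S hy, Vc_qfield S hy, hu, hv, sub_zero, sub_zero] at hbi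
    exact (sub_eq_zero.1 hbi.symm).symm

/-- the integrability criterion in a chart, at a point of the manifold. -/
lemma intAt1_iff (S : Splitting n X) {x₀ z : X} (hz : z ∈ (chartAt (Model n) x₀).source) :
    IntAt1 S z ↔ T1 (Pc S x₀) (chartAt (Model n) x₀ z) := by
  rw [T1_iff_intAt S ((chartAt (Model n) x₀).map_source hz), (chartAt (Model n) x₀).left_inv hz]

lemma intAt2_iff (S : Splitting n X) {x₀ z : X} (hz : z ∈ (chartAt (Model n) x₀).source) :
    IntAt2 S z ↔ T2 (Pc S x₀) (chartAt (Model n) x₀ z) := by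
  rw [T2_iff_intAt S ((chartAt (Model n) x₀).map_source hz), (chartAt (Model n) x₀).left_inv hz]

/-- Frobenius integrability of `E₁` in charts. -/
theorem firstIntegrable_iff (S : Splitting n X) :
    S.FirstIntegrable ↔ ∀ x₀ : X, ∀ y ∈ (chartAt (Model n) x₀).target, T1 (Pc S x₀) y := by
  rw [firstIntegrable_iff_intAt]
  constructor
  · intro h x₀ y hy
    exact (T1_iff_intAt S hy).2 (h _)
  · intro h z
    exact (intAt1_iff S (mem_chart_source _ z)).2
      (h z _ ((chartAt (Model n) z).map_source (mem_chart_source _ z)))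

/-- Frobenius integrability of `E₂` in charts. -/
theorem secondIntegrable_iff (S : Splitting n X) :
    S.SecondIntegrable ↔ ∀ x₀ : X, ∀ y ∈ (chartAt (Model n) x₀).target, T2 (Pc S x₀) y := by
  rw [secondIntegrable_iff_intAt]
  constructor
  · intro h x₀ y hy
    exact (T2_iff_intAt S hy).2 (h _)
  · intro h z
    exact (intAt2_iff S (mem_chart_source _ z)).2
      (h z _ ((chartAt (Model n) z).map_source (mem_chart_source _ z)))

end

end Crest.Agent.R266
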