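import Mathlib
import Crest.Prelude.Def_TangentSplitting

/-!
R266 / StepThreeDefs (helper338): interface of Step 2 (doubling `F_s(z₁,z₂)` near the diagonal of
`P¹ × P¹`) and Step 3 (families of rational curves tangent to one summand) of S0404.
Families of rational curves are given by two charts `b : Bool` of `P¹`.
-/

set_option autoImplicit false

open scoped Manifold ContDiff Topology
open Set Metric Filter
open Crest.AlgGeometry.HolSplit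

namespace Crest.Agent.R266

variable {n : ℕ} {X : Type*} [TopologicalSpace X] [ChartedSpace (Model n) X]
  [IsManifold (mI n) ω X]
variable {E : Type*} [NormedAddCommGroup E] [NormedSpace ℂ E]

/-- holomorphic family of rational curves `f s : P¹ → X`, `s ∈ W`, in two charts of `P¹` -/
structure IsFam (n : ℕ) {X : Type*} [TopologicalSpace X] [ChartedSpace (Model n) X]
    (W : Set E) (f : E → Bool → ℂ → X) : Prop where
  hol : ∀ b, ContMDiffOn 𝓘(ℂ, E × ℂ) (mI n) ω (fun p : E × ℂ => f p.1 b p.2) (W ×ˢ univ)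
  glue : ∀ s ∈ W, ∀ b, ∀ z : ℂ, z ≠ 0 → f s (!b) z = f s b z⁻¹

/-- the domain of the doubling in the chart pair `(b,b)` -/
def Dg (s₀ : E) (r δ : ℝ) : Set (E × ℂ × ℂ) :=
  {p | ‖p.1 - s₀‖ < r ∧ ‖p.2.1‖ < 2 ∧ ‖p.2.2‖ < 2 ∧ ‖p.2.1 - p.2.2‖ < δ}

/-- `F` is the doubling of the family `f` along the splitting `S` near the diagonal:
`F_s(z,z) = f_s(z)`, `∂₁F ∈ E₁`, `∂₂F ∈ E₂`. -/
structure Dbl (S : Splitting n X) (f : E → Bool → ℂ → X) (s₀ : E) (r δ : ℝ)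
    (F : Bool → E × ℂ × ℂ → X) : Prop where
  hol : ∀ b, ContMDiffOn 𝓘(ℂ, E × ℂ × ℂ) (mI n) ω (F b) (Dg s₀ r δ)
  diag : ∀ b s z, ‖s - s₀‖ < r → ‖z‖ < 2 → F b (s, z, z) = f s b z
  tan1 : ∀ b, ∀ p ∈ Dg s₀ r δ,
    S.proj (F b p) (mfderiv 𝓘(ℂ, E × ℂ × ℂ) (mI n) (F b) p ((0, 1, 0) : E × ℂ × ℂ)) =
      mfderiv 𝓘(ℂ, E × ℂ × ℂ) (mI n) (F b) p ((0, 1, 0) : E × ℂ × ℂ)
  tan2 : ∀ b, ∀ p ∈ Dg s₀ r δ,
    S.proj (F b p) (mfderiv 𝓘(ℂ, E × ℂ × ℂ) (mI n) (F b) p ((0, 0, 1) : E × ℂ × ℂ)) = 0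
  glue : ∀ b s (z₁ z₂ : ℂ), z₁ ≠ 0 → z₂ ≠ 0 → (s, z₁, z₂) ∈ Dg s₀ r δ →
    (s, z₁⁻¹, z₂⁻¹) ∈ Dg s₀ r δ → F (!b) (s, z₁, z₂) = F b (s, z₁⁻¹, z₂⁻¹)

/-- the curve `c : ℂ → X` is tangent to `E₁` at every point (`proj (c') = c'`) -/
def Tan1 (S : Splitting n X) (c : ℂ → X) : Prop :=
  ∀ z, S.proj (c z) (mfderiv 𝓘(ℂ, ℂ) (mI n) c z (1 : ℂ)) = mfderiv 𝓘(ℂ, ℂ) (mI n) c z (1 : ℂ)

/-- the curve `c : ℂ → X` is tangent to `E₂` at every point (`proj (c') = 0`) -/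
def Tan2 (S : Splitting n X) (c : ℂ → X) : Prop :=
  ∀ z, S.proj (c z) (mfderiv 𝓘(ℂ, ℂ) (mI n) c z (1 : ℂ)) = 0

/-- the submersive points of a family in the chart `b` -/
def SubPts (n : ℕ) {X : Type*} [TopologicalSpace X] [ChartedSpace (Model n) X]
    (g : E → Bool → ℂ → X) (b : Bool) : Set (E × ℂ) :=
  {p | Function.Surjective (mfderiv 𝓘(ℂ, E × ℂ) (mI n) (fun p : E × ℂ => g p.1 b p.2) p)}

end Crest.Agent.R266
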