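import Mathlib

/-!
# Row 266, S0404, last step (endGame): chart part

Pure complex-analytic part of the last step of the proof of S0404: a linear ODE for the variation
of a family of curves modulo an involutive distribution `ker Q`.
-/

set_option autoImplicit false
open scoped Topology ContDiff
open Set Filter

namespace Crest.Agent.R266.EndGame

section ODE

variable {E : Type*} [NormedAddCommGroup E] [NormedSpace ℂ E]

/-- a solution of a linear ODE `c' = A c` on a domain of `ℂ` which vanishes at a point vanishes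
identically. -/
theorem zero_of_linear_ode [CompleteSpace E] {c : ℂ → E} {A : ℂ → E →L[ℂ] E} {B : Set ℂ}
    (hB : IsOpen B)
    (hBc : IsPreconnected B) (hc : AnalyticOnNhd ℂ c B) (hA : ContinuousOn A B)
    (hode : ∀ z ∈ B, deriv c z = A z (c z)) {z₀ : ℂ} (hz₀ : z₀ ∈ B) (h0 : c z₀ = 0) :
    ∀ z ∈ B, c z = 0 := by
  suffices h : ∀ᶠ z in 𝓝 z₀, c z = 0 by
    intro z hz
    exact hc.eqOn_zero_of_preconnected_of_eventuallyEq_zero hBc hz₀ h hz
  by_contra hne
  obtain ⟨k, g, hg, hg0, hcg⟩ := (hc z₀ hz₀).exists_eventuallyEq_pow_smul_nonzero_iff.mpr hne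
  have hk : k ≠ 0 := by
    rintro rfl
    have := hcg.self_of_nhds
    simp [h0] at this
    exact hg0 this.symm
  obtain ⟨m, rfl⟩ : ∃ m, k = m + 1 := ⟨k - 1, by omega⟩
  have hAz : ContinuousAt A z₀ := hA.continuousAt (hB.mem_nhds hz₀)
  set F : ℂ → E := fun z => ((m : ℂ) + 1) • g z - (z - z₀) • (A z (g z) - deriv g z) with hF
  have hFcont : ContinuousAt F z₀ := by
    have h1 : ContinuousAt g z₀ := hg.continuousAt
    have h2 : ContinuousAt (deriv g) z₀ := hg.deriv.continuousAt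
    have h3 : ContinuousAt (fun z => A z (g z)) z₀ := hAz.clm_apply h1
    exact (h1.const_smul _).sub (((continuousAt_id.sub continuousAt_const)).smul (h3.sub h2))
  have hzero : ∀ᶠ z in 𝓝[≠] z₀, F z = 0 := by
    have e1 : ∀ᶠ z in 𝓝 z₀, deriv c z = ((m : ℂ) + 1) • (z - z₀) ^ m • g z
        + (z - z₀) ^ (m + 1) • deriv g z := by
      have h1 : ∀ᶠ z in 𝓝 z₀, ∀ᶠ y in 𝓝 z, c y = (y - z₀) ^ (m + 1) • g y := hcg.eventually_nhds
      have h2 : ∀ᶠ z in 𝓝 z₀, AnalyticAt ℂ g z := hg.eventually_analyticAt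
      filter_upwards [h1, h2] with z hz hgz
      have e : deriv c z = deriv (fun y => (y - z₀) ^ (m + 1) • g y) z :=
        Filter.EventuallyEq.deriv_eq hz
      rw [e]
      have hd1 : HasDerivAt (fun y : ℂ => (y - z₀) ^ (m + 1)) (((m + 1 : ℕ) : ℂ) * (z - z₀) ^ m * 1) z := by
        have h0 : HasDerivAt (fun y : ℂ => y - z₀) 1 z := (hasDerivAt_id z).sub_const z₀
        exact (h0.fun_pow (m + 1)).congr_deriv (by simp)
      have hd2 := hgz.differentiableAt.hasDerivAt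
      have := hd1.fun_smul hd2
      rw [this.deriv]
      simp only [mul_one]
      push_cast
      rw [smul_smul, add_comm]
    have e2 : ∀ᶠ z in 𝓝 z₀, z ∈ B := hB.mem_nhds hz₀
    have e3 : ∀ᶠ z in 𝓝[≠] z₀, z ≠ z₀ := self_mem_nhdsWithin
    filter_upwards [e1.filter_mono nhdsWithin_le_nhds, e2.filter_mono nhdsWithin_le_nhds, e3,
      hcg.filter_mono nhdsWithin_le_nhds] with z hz1 hzB hzne hz4
    have h5 := hode z hzB
    rw [hz1, hz4, map_smul] at h5
    have hp : (z - z₀) ^ m ≠ 0 := pow_ne_zero _ (sub_ne_zero.mpr hzne)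
    have h6 : (z - z₀) ^ m • F z = 0 := by
      rw [hF]
      simp only [smul_sub]
      rw [smul_smul, smul_smul, smul_smul, ← pow_succ, ← h5, smul_smul, mul_comm]
      abel
    exact (smul_eq_zero.mp h6).resolve_left hp
  have hF0 : F z₀ = 0 := by
    have h1 : Tendsto F (𝓝[≠] z₀) (𝓝 (F z₀)) := hFcont.tendsto.mono_left nhdsWithin_le_nhds
    have h2 : Tendsto F (𝓝[≠] z₀) (𝓝 0) := by
      refine Tendsto.congr' ?_ tendsto_const_nhds
      filter_upwards [hzero] with z hz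
      exact hz.symm
    exact tendsto_nhds_unique h1 h2
  simp only [hF, sub_self, zero_smul, sub_zero] at hF0
  have : ((m : ℂ) + 1) ≠ 0 := by exact_mod_cast Nat.succ_ne_zero m
  exact hg0 ((smul_eq_zero.mp hF0).resolve_left this)

end ODE

theorem analyticAt_clm_apply {G E F : Type*} [NormedAddCommGroup G] [NormedSpace ℂ G]
    [NormedAddCommGroup E] [NormedSpace ℂ E] [NormedAddCommGroup F] [NormedSpace ℂ F]
    {u : G → E →L[ℂ] F} {v : G → E} {x : G} (hu : AnalyticAt ℂ u x) (hv : AnalyticAt ℂ v x) :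
    AnalyticAt ℂ (fun y => u y (v y)) x :=
  ((ContinuousLinearMap.id ℂ (E →L[ℂ] F)).analyticAt_bilinear (u x, v x)).comp₂ hu hv

section Variation

variable {S E : Type*} [NormedAddCommGroup S] [NormedSpace ℂ S] [NormedAddCommGroup E]
  [NormedSpace ℂ E] [CompleteSpace E]

/-- (EG1) Let `Q` be an analytic idempotent-valued map on `U ⊆ E` with involutive kernel (tensor
form), `f : S × ℂ → E` an analytic family of curves tangent to `ker Q`.  If a variation is in
`ker Q` at `z₁` then it is in `ker Q` at every `z` of a domain. -/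
theorem variation_mem_ker {Q : E → E →L[ℂ] E} {U : Set E} (hQ : AnalyticOnNhd ℂ Q U)
    (hidem : ∀ x ∈ U, ∀ v, Q x (Q x v) = Q x v)
    (hinv : ∀ x ∈ U, ∀ u v, Q x u = 0 → Q x v = 0 → fderiv ℂ Q x u v = fderiv ℂ Q x v u)
    {f : S × ℂ → E} {O : Set (S × ℂ)} (hO : IsOpen O) (hf : AnalyticOnNhd ℂ f O)
    (hfU : MapsTo f O U) (hhor : ∀ p ∈ O, Q (f p) (fderiv ℂ f p (0, 1)) = 0)
    {s : S} {B : Set ℂ} (hB : IsOpen B) (hBc : IsPreconnected B)
    (hBO : ∀ z ∈ B, (s, z) ∈ O) (ξ : S) {z₁ z₂ : ℂ} (hz₁ : z₁ ∈ B) (hz₂ : z₂ ∈ B)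
    (h : Q (f (s, z₁)) (fderiv ℂ f (s, z₁) (ξ, 0)) = 0) :
    Q (f (s, z₂)) (fderiv ℂ f (s, z₂) (ξ, 0)) = 0 := by
  -- the matrix of the ODE
  set A : ℂ → E →L[ℂ] E := fun z => fderiv ℂ Q (f (s, z)) (fderiv ℂ f (s, z) (0, 1)) -
    (fderiv ℂ Q (f (s, z))).flip (fderiv ℂ f (s, z) (0, 1)) with hAdef
  set c : ℂ → E := fun z => Q (f (s, z)) (fderiv ℂ f (s, z) (ξ, 0)) with hcdef
  have hι : AnalyticOnNhd ℂ (fun z : ℂ => (s, z)) B := by
    intro z _
    exact analyticAt_const.prod analyticAt_id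
  have hfs : AnalyticOnNhd ℂ (fun z : ℂ => f (s, z)) B := hf.comp hι hBO
  have hdf : AnalyticOnNhd ℂ (fderiv ℂ f) O := hf.fderiv
  have hdfs : AnalyticOnNhd ℂ (fun z : ℂ => fderiv ℂ f (s, z)) B := hdf.comp hι hBO
  have hQf : AnalyticOnNhd ℂ (fun z : ℂ => Q (f (s, z))) B := hQ.comp hfs (fun z hz => hfU (hBO z hz))
  have hDQf : AnalyticOnNhd ℂ (fun z : ℂ => fderiv ℂ Q (f (s, z))) B :=
    hQ.fderiv.comp hfs (fun z hz => hfU (hBO z hz))
  have hc : AnalyticOnNhd ℂ c B := by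
    intro z hz
    have h1 : AnalyticAt ℂ (fun z : ℂ => fderiv ℂ f (s, z) (ξ, 0)) z :=
      analyticAt_clm_apply (hdfs z hz) analyticAt_const
    exact analyticAt_clm_apply (hQf z hz) h1
  have hA : ContinuousOn A B := by
    have h1 : ContinuousOn (fun z : ℂ => fderiv ℂ f (s, z) (0, 1)) B :=
      (hdfs.continuousOn).clm_apply continuousOn_const
    have h2 : ContinuousOn (fun z : ℂ => fderiv ℂ Q (f (s, z)) (fderiv ℂ f (s, z) (0, 1))) B :=
      hDQf.continuousOn.clm_apply h1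
    have h3 : ContinuousOn (fun z : ℂ => (fderiv ℂ Q (f (s, z))).flip) B :=
      ((ContinuousLinearMap.flipₗᵢ ℂ E E E).continuous.comp_continuousOn hDQf.continuousOn)
    exact h2.sub (h3.clm_apply h1)
  refine zero_of_linear_ode hB hBc hc hA ?_ hz₁ h z₂ hz₂
  intro z hz
  have hp : (s, z) ∈ O := hBO z hz
  have hfa : AnalyticAt ℂ f (s, z) := hf _ hp
  have hdfa : DifferentiableAt ℂ (fderiv ℂ f) (s, z) := (hdf _ hp).differentiableAt
  have hQa : DifferentiableAt ℂ Q (f (s, z)) := (hQ _ (hfU hp)).differentiableAt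
  have hQfa : HasFDerivAt (fun p : S × ℂ => Q (f p))
      ((fderiv ℂ Q (f (s, z))).comp (fderiv ℂ f (s, z))) (s, z) :=
    hQa.hasFDerivAt.comp (s, z) hfa.differentiableAt.hasFDerivAt
  -- derivative of `p ↦ Q (f p) (Df p w)`
  have key : ∀ w : S × ℂ, HasFDerivAt (fun p : S × ℂ => Q (f p) (fderiv ℂ f p w))
      ((Q (f (s, z))).comp ((fderiv ℂ (fderiv ℂ f) (s, z)).flip w) +
        ((fderiv ℂ Q (f (s, z))).comp (fderiv ℂ f (s, z))).flip (fderiv ℂ f (s, z) w)) (s, z) := by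
    intro w
    have h1 : HasFDerivAt (fun p : S × ℂ => fderiv ℂ f p w)
        ((fderiv ℂ (fderiv ℂ f) (s, z)).flip w) (s, z) := by
      have := hdfa.hasFDerivAt.clm_apply (hasFDerivAt_const w (s, z))
      simpa using this
    exact hQfa.clm_apply h1
  -- horizontality differentiated in the direction `(ξ, 0)`
  have hhor' : Q (f (s, z)) (fderiv ℂ (fderiv ℂ f) (s, z) (ξ, 0) (0, 1)) +
      fderiv ℂ Q (f (s, z)) (fderiv ℂ f (s, z) (ξ, 0)) (fderiv ℂ f (s, z) (0, 1)) = 0 := by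
    have h1 := (key (0, 1)).fderiv
    have h2 : fderiv ℂ (fun p : S × ℂ => Q (f p) (fderiv ℂ f p (0, 1))) (s, z) = 0 := by
      have : (fun p : S × ℂ => Q (f p) (fderiv ℂ f p (0, 1))) =ᶠ[𝓝 (s, z)] fun _ => 0 := by
        filter_upwards [hO.mem_nhds hp] with p hp'
        exact hhor p hp'
      rw [this.fderiv_eq]
      simp
    rw [h2] at h1
    have h3 := congrArg (fun T : S × ℂ →L[ℂ] E => T (ξ, 0)) h1
    simpa using h3.symm
  have hsymm : fderiv ℂ (fderiv ℂ f) (s, z) (ξ, 0) (0, 1) =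
      fderiv ℂ (fderiv ℂ f) (s, z) (0, 1) (ξ, 0) := by
    have h1 : ContDiffAt ℂ 2 f (s, z) := hfa.contDiffAt
    have h2 : IsSymmSndFDerivAt ℂ f (s, z) := h1.isSymmSndFDerivAt (by simp)
    exact h2 _ _
  have hderiv : deriv c z = Q (f (s, z)) (fderiv ℂ (fderiv ℂ f) (s, z) (0, 1) (ξ, 0)) +
      fderiv ℂ Q (f (s, z)) (fderiv ℂ f (s, z) (0, 1)) (fderiv ℂ f (s, z) (ξ, 0)) := by
    have h1 : HasDerivAt (fun z : ℂ => (s, z)) ((0, 1) : S × ℂ) z :=
      (hasDerivAt_const z s).prodMk (hasDerivAt_id z)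
    have h2 := (key (ξ, 0)).comp_hasDerivAt z h1
    rw [show deriv c z = _ from h2.deriv]
    simp
  rw [hderiv, ← hsymm]
  have h4 : Q (f (s, z)) (fderiv ℂ (fderiv ℂ f) (s, z) (ξ, 0) (0, 1)) =
      - fderiv ℂ Q (f (s, z)) (fderiv ℂ f (s, z) (ξ, 0)) (fderiv ℂ f (s, z) (0, 1)) :=
    eq_neg_of_add_eq_zero_left hhor'
  rw [h4]
  -- decomposition of the variation
  have hx := hfU hp
  set J := fderiv ℂ f (s, z) (ξ, 0) with hJ
  set w := fderiv ℂ f (s, z) (0, 1) with hw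
  have hw0 : Q (f (s, z)) w = 0 := hhor _ hp
  have hJ0 : Q (f (s, z)) (J - Q (f (s, z)) J) = 0 := by
    rw [map_sub, hidem _ hx, sub_self]
  have h5 := hinv _ hx w (J - Q (f (s, z)) J) hw0 hJ0
  have h6 : A z (c z) = fderiv ℂ Q (f (s, z)) w (Q (f (s, z)) J) -
      fderiv ℂ Q (f (s, z)) (Q (f (s, z)) J) w := by
    simp [hAdef, hcdef, hw, hJ]
  rw [h6]
  rw [map_sub, map_sub, sub_apply] at h5
  have h7 : fderiv ℂ Q (f (s, z)) w J = fderiv ℂ Q (f (s, z)) w (Q (f (s, z)) J)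
      + fderiv ℂ Q (f (s, z)) J w - fderiv ℂ Q (f (s, z)) (Q (f (s, z)) J) w := by
    rw [sub_eq_iff_eq_add] at h5
    rw [h5]; abel
  rw [h7]; abel

/-- (EG2) if moreover the two-point map `(s, z, z') ↦ (f (s, z), f (s, z'))` is submersive at
`(s, z₁, z₂)`, then `Q = 0` at `f (s, z₁)`. -/
theorem proj_eq_zero {Q : E → E →L[ℂ] E} {U : Set E} (hQ : AnalyticOnNhd ℂ Q U)
    (hidem : ∀ x ∈ U, ∀ v, Q x (Q x v) = Q x v)
    (hinv : ∀ x ∈ U, ∀ u v, Q x u = 0 → Q x v = 0 → fderiv ℂ Q x u v = fderiv ℂ Q x v u)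
    {f : S × ℂ → E} {O : Set (S × ℂ)} (hO : IsOpen O) (hf : AnalyticOnNhd ℂ f O)
    (hfU : MapsTo f O U) (hhor : ∀ p ∈ O, Q (f p) (fderiv ℂ f p (0, 1)) = 0)
    {s : S} {B : Set ℂ} (hB : IsOpen B) (hBc : IsPreconnected B)
    (hBO : ∀ z ∈ B, (s, z) ∈ O) {z₁ z₂ : ℂ} (hz₁ : z₁ ∈ B) (hz₂ : z₂ ∈ B)
    (hsurj : ∀ w : E, ∃ (ξ : S) (a a' : ℂ), fderiv ℂ f (s, z₁) (ξ, a) = w ∧
      fderiv ℂ f (s, z₂) (ξ, a') = 0) :
    Q (f (s, z₁)) = 0 := by
  ext w
  obtain ⟨ξ, a, a', h1, h2⟩ := hsurj w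
  have split : ∀ (p : S × ℂ) (b : ℂ), fderiv ℂ f p (ξ, b) =
      fderiv ℂ f p (ξ, 0) + b • fderiv ℂ f p (0, 1) := by
    intro p b
    have : ((ξ, b) : S × ℂ) = (ξ, 0) + b • (0, 1) := by simp
    rw [this, map_add, map_smul]
  have h3 : Q (f (s, z₂)) (fderiv ℂ f (s, z₂) (ξ, 0)) = 0 := by
    have h4 : fderiv ℂ f (s, z₂) (ξ, 0) = - (a' • fderiv ℂ f (s, z₂) (0, 1)) := by
      have := split (s, z₂) a'
      rw [h2] at this
      exact eq_neg_of_add_eq_zero_left this.symm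
    rw [h4, map_neg, map_smul, hhor _ (hBO _ hz₂)]
    simp
  have h5 := variation_mem_ker hQ hidem hinv hO hf hfU hhor hB hBc hBO ξ hz₂ hz₁ h3
  rw [← h1, split, map_add, map_smul, h5, hhor _ (hBO _ hz₁)]
  simp

end Variation

section Frame
open VectorField

variable {E : Type*} [NormedAddCommGroup E] [NormedSpace ℂ E]

/-- synthesis map of a frame `e` and a complement `C` -/
noncomputable def synth {ι : Type*} [Fintype ι] (C : Submodule ℂ E) (e : ι → E → E) (x : E) :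
    ((ι → ℂ) × C) →L[ℂ] E :=
  (∑ i, ((ContinuousLinearMap.proj (R := ℂ) (φ := fun _ : ι => ℂ) i).smulRight (e i x))).comp
    (ContinuousLinearMap.fst ℂ (ι → ℂ) C) + C.subtypeL.comp (ContinuousLinearMap.snd ℂ (ι → ℂ) C)

theorem synth_apply {ι : Type*} [Fintype ι] (C : Submodule ℂ E) (e : ι → E → E) (x : E)
    (p : (ι → ℂ) × C) : synth C e x p = ∑ i, p.1 i • e i x + (p.2 : E) := by
  simp [synth]

theorem exists_proj_of_frame [FiniteDimensional ℂ E] {ι : Type*} [Fintype ι] {e : ι → E → E}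
    {x₀ : E} {U : Set E} (hU : IsOpen U) (hx₀ : x₀ ∈ U)
    (he : ∀ i, AnalyticOnNhd ℂ (e i) U) (hli : LinearIndependent ℂ (fun i => e i x₀))
    (hbr : ∀ i j, ∀ x ∈ U, lieBracket ℂ (e i) (e j) x ∈
      Submodule.span ℂ (range fun i => e i x)) :
    ∃ V : Set E, V ⊆ U ∧ IsOpen V ∧ x₀ ∈ V ∧ ∃ Q : E → E →L[ℂ] E, AnalyticOnNhd ℂ Q V ∧
      (∀ x ∈ V, ∀ v, Q x (Q x v) = Q x v) ∧
      (∀ x ∈ V, ∀ v, Q x v = 0 ↔ v ∈ Submodule.span ℂ (range fun i => e i x)) ∧
      (∀ x ∈ V, ∀ u v, Q x u = 0 → Q x v = 0 → fderiv ℂ Q x u v = fderiv ℂ Q x v u) ∧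
      (∀ x ∈ V, Q x = 0 → ∀ y ∈ V, Q y = 0) := by
  classical
  have : CompleteSpace E := FiniteDimensional.complete ℂ E
  obtain ⟨C, hC⟩ := Submodule.exists_isCompl (Submodule.span ℂ (range fun i => e i x₀))
  -- analyticity of the synthesis map
  have hBan : AnalyticOnNhd ℂ (synth C e) U := by
    intro x hx
    obtain ⟨T, hT⟩ : ∃ T : E → (ι → ℂ) →L[ℂ] E, T = fun x => ∑ i : ι,
      ((ContinuousLinearMap.proj (R := ℂ) (φ := fun _ : ι => ℂ) i).smulRight (e i x)) := ⟨_, rfl⟩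
    have h1 : AnalyticAt ℂ T x := by
      rw [hT]
      refine Finset.analyticAt_fun_sum _ fun i _ => ?_
      have := ((ContinuousLinearMap.smulRightL ℂ (ι → ℂ) E
        (ContinuousLinearMap.proj (R := ℂ) (φ := fun _ : ι => ℂ) i)).analyticAt (e i x)).comp
        (he i x hx)
      simpa [Function.comp_def] using this
    have h3 : AnalyticAt ℂ (fun T : (ι → ℂ) →L[ℂ] E => T.comp
        (ContinuousLinearMap.fst ℂ (ι → ℂ) C)) (T x) :=
      ((ContinuousLinearMap.compL ℂ ((ι → ℂ) × C) (ι → ℂ) E).flip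
        (ContinuousLinearMap.fst ℂ (ι → ℂ) C)).analyticAt _
    have h2 : AnalyticAt ℂ (fun x => (T x).comp (ContinuousLinearMap.fst ℂ (ι → ℂ) C)) x :=
      AnalyticAt.comp (g := fun T : (ι → ℂ) →L[ℂ] E => T.comp
        (ContinuousLinearMap.fst ℂ (ι → ℂ) C)) (f := T) h3 h1
    subst hT
    exact h2.add analyticAt_const
  -- at `x₀` it is an equivalence
  have hker : ∀ p : (ι → ℂ) × C, synth C e x₀ p = 0 → p = 0 := by
    intro p hp
    rw [synth_apply] at hp
    have h1 : (∑ i, p.1 i • e i x₀) ∈ Submodule.span ℂ (range fun i => e i x₀) :=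
      Submodule.sum_mem _ fun i _ => Submodule.smul_mem _ _ (Submodule.subset_span ⟨i, rfl⟩)
    have h2 : (p.2 : E) ∈ Submodule.span ℂ (range fun i => e i x₀) := by
      have : (p.2 : E) = - ∑ i, p.1 i • e i x₀ := by
        rw [add_comm] at hp
        exact eq_neg_of_add_eq_zero_left hp
      rw [this]; exact Submodule.neg_mem _ h1
    have h3 : (p.2 : E) = 0 := Submodule.disjoint_def.mp hC.disjoint _ h2 p.2.2
    rw [h3, add_zero] at hp
    have h4 := Fintype.linearIndependent_iff.mp hli p.1 hp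
    ext i
    · exact h4 i
    · exact h3
  have hinj : Function.Injective (synth C e x₀) := by
    rw [injective_iff_map_eq_zero]
    exact hker
  have hsur : Function.Surjective (synth C e x₀) := by
    intro v
    have hv : v ∈ Submodule.span ℂ (range fun i => e i x₀) ⊔ C := by
      rw [hC.sup_eq_top]; trivial
    obtain ⟨y, hy, z, hz, rfl⟩ := Submodule.mem_sup.mp hv
    obtain ⟨a, ha⟩ := (Submodule.mem_span_range_iff_exists_fun ℂ).mp hy
    exact ⟨(a, ⟨z, hz⟩), by rw [synth_apply]; simp [ha]⟩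
  let Φ₀ : ((ι → ℂ) × C) ≃L[ℂ] E :=
    (LinearEquiv.ofBijective (synth C e x₀ : ((ι → ℂ) × C) →ₗ[ℂ] E) ⟨hinj, hsur⟩).toContinuousLinearEquiv
  have hΦ₀ : (Φ₀ : ((ι → ℂ) × C) →L[ℂ] E) = synth C e x₀ := by
    ext p <;> rfl
  -- the open set
  have hopen : IsOpen (U ∩ synth C e ⁻¹' (range ((↑) : (((ι → ℂ) × C) ≃L[ℂ] E) → _))) :=
    hBan.continuousOn.isOpen_inter_preimage hU ContinuousLinearEquiv.isOpen
  set V : Set E := U ∩ synth C e ⁻¹' (range ((↑) : (((ι → ℂ) × C) ≃L[ℂ] E) → _)) with hV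
  set Q : E → E →L[ℂ] E := fun x => (C.subtypeL.comp (ContinuousLinearMap.snd ℂ (ι → ℂ) C)).comp
    (synth C e x).inverse with hQdef
  have hQval : ∀ x ∈ V, ∀ p : (ι → ℂ) × C, Q x (synth C e x p) = (p.2 : E) := by
    intro x hx p
    obtain ⟨Φ, hΦ⟩ := hx.2
    simp only [hQdef]
    rw [← hΦ, ContinuousLinearMap.inverse_equiv]
    simp
  have hQsur : ∀ x ∈ V, ∀ v : E, ∃ p : (ι → ℂ) × C, v = synth C e x p := by
    intro x hx v
    obtain ⟨Φ, hΦ⟩ := hx.2
    refine ⟨Φ.symm v, ?_⟩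
    rw [← hΦ]
    simp
  have hQan : AnalyticOnNhd ℂ Q V := by
    intro x hx
    obtain ⟨Φ, hΦ⟩ := hx.2
    have h1 : AnalyticAt ℂ (ContinuousLinearMap.inverse : (((ι → ℂ) × C) →L[ℂ] E) → _)
        (synth C e x) := by
      rw [← hΦ]
      have : ContDiffAt ℂ ω (ContinuousLinearMap.inverse : (((ι → ℂ) × C) →L[ℂ] E) → _)
        (Φ : ((ι → ℂ) × C) →L[ℂ] E) := contDiffAt_map_inverse Φ
      exact this.analyticAt
    have h2 := h1.comp (hBan x hx.1)
    have h3 := ((ContinuousLinearMap.compL ℂ E ((ι → ℂ) × C) E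
        (C.subtypeL.comp (ContinuousLinearMap.snd ℂ (ι → ℂ) C))).analyticAt _).comp h2
    simpa [Function.comp_def] using h3
  have hQe : ∀ x ∈ V, ∀ i, Q x (e i x) = 0 := by
    intro x hx i
    have h1 : e i x = synth C e x (Pi.single i 1, 0) := by
      rw [synth_apply]
      simp [Pi.single_apply]
    rw [h1, hQval x hx]
    rfl
  have hQker : ∀ x ∈ V, ∀ v, Q x v = 0 ↔ v ∈ Submodule.span ℂ (range fun i => e i x) := by
    intro x hx v
    constructor
    · intro h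
      obtain ⟨p, rfl⟩ := hQsur x hx v
      rw [hQval x hx] at h
      rw [synth_apply, h, add_zero]
      exact Submodule.sum_mem _ fun i _ => Submodule.smul_mem _ _ (Submodule.subset_span ⟨i, rfl⟩)
    · intro h
      have : Submodule.span ℂ (range fun i => e i x) ≤ LinearMap.ker (Q x : E →ₗ[ℂ] E) := by
        rw [Submodule.span_le]
        rintro _ ⟨i, rfl⟩
        exact hQe x hx i
      exact this h
  refine ⟨V, inter_subset_left, hopen, ⟨hx₀, Φ₀, hΦ₀⟩, Q, hQan, ?_, hQker, ?_, ?_⟩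
  · intro x hx v
    obtain ⟨p, rfl⟩ := hQsur x hx v
    rw [hQval x hx]
    have : (p.2 : E) = synth C e x (0, p.2) := by rw [synth_apply]; simp
    conv_lhs => rw [this]
    rw [hQval x hx]
  · -- tensor form of involutivity
    intro x hx
    have hQd : DifferentiableAt ℂ Q x := (hQan x hx).differentiableAt
    have hed : ∀ i, DifferentiableAt ℂ (e i) x := fun i => (he i x hx.1).differentiableAt
    have hder : ∀ i w, fderiv ℂ Q x w (e i x) = - Q x (fderiv ℂ (e i) x w) := by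
      intro i w
      have h1 : HasFDerivAt (fun y => Q y (e i y)) ((Q x).comp (fderiv ℂ (e i) x) +
          (fderiv ℂ Q x).flip (e i x)) x := hQd.hasFDerivAt.clm_apply (hed i).hasFDerivAt
      have h2 : fderiv ℂ (fun y => Q y (e i y)) x = 0 := by
        have : (fun y => Q y (e i y)) =ᶠ[𝓝 x] fun _ => 0 := by
          filter_upwards [hopen.mem_nhds hx] with y hy
          exact hQe y hy i
        rw [this.fderiv_eq]
        simp
      have h3 := h1.fderiv
      rw [h2] at h3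
      have h4 := congrArg (fun T : E →L[ℂ] E => T w) h3
      simp only [zero_apply, add_apply, ContinuousLinearMap.comp_apply,
        ContinuousLinearMap.flip_apply] at h4
      exact eq_neg_of_add_eq_zero_right h4.symm
    have hee : ∀ i j, fderiv ℂ Q x (e i x) (e j x) = fderiv ℂ Q x (e j x) (e i x) := by
      intro i j
      rw [hder, hder]
      have h1 := (hQker x hx _).mpr (hbr i j x hx.1)
      rw [lieBracket_eq] at h1
      simp only [map_sub] at h1
      rw [sub_eq_zero] at h1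
      rw [h1]
    intro u v hu hv
    rw [hQker x hx] at hu hv
    obtain ⟨a, rfl⟩ := (Submodule.mem_span_range_iff_exists_fun ℂ).mp hu
    obtain ⟨b, rfl⟩ := (Submodule.mem_span_range_iff_exists_fun ℂ).mp hv
    simp only [map_sum, map_smul, sum_apply, smul_apply, Finset.smul_sum]
    rw [Finset.sum_comm]
    refine Finset.sum_congr rfl fun i _ => Finset.sum_congr rfl fun j _ => ?_
    rw [hee, smul_comm]
  · intro x hx h0 y hy
    ext v
    obtain ⟨p, rfl⟩ := hQsur y hy v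
    rw [hQval y hy]
    have h1 := hQval x hx p
    rw [h0] at h1
    simpa using h1.symm

end Frame

end Crest.Agent.R266.EndGame
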