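import Mathlib

/-!
Row 266, S0404, step 4, node (L3): pure complex analysis part.
* `nabla_change`: the expression `Q σ' - (D_σ P) γ'` transforms as a tangent vector;
* `order_nabla`: the operator `(z - z₀)² ∇` raises the exact vanishing order by one;
* `eq_zero_of_growth`: an entire function with growth `≤ C |z|^m` and a zero of order `> m` is `0`.
-/

set_option autoImplicit false

open Filter Topology Set

namespace Crest.Agent.R266.L3

section Change

variable {E : Type*} [NormedAddCommGroup E] [NormedSpace ℂ E]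

/-- Chart change for the partial connection. -/
theorem nabla_change {ψ : E → E} {P Q : E → E →L[ℂ] E} {γ σ : ℂ → E} {z : ℂ}
    (hψ : ContDiffAt ℂ 2 ψ (γ z)) (hP : DifferentiableAt ℂ P (γ z))
    (hQ : DifferentiableAt ℂ Q (ψ (γ z)))
    (hγ : DifferentiableAt ℂ γ z) (hσ : DifferentiableAt ℂ σ z)
    (hcomm : ∀ᶠ y in 𝓝 (γ z), ∀ v, Q (ψ y) (fderiv ℂ ψ y v) = fderiv ℂ ψ y (P y v))
    (hPv : P (γ z) (deriv γ z) = deriv γ z) :
    deriv (fun z' => fderiv ℂ ψ (γ z') (σ z')) z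
      - Q (ψ (γ z)) (deriv (fun z' => fderiv ℂ ψ (γ z') (σ z')) z)
      - (fderiv ℂ Q (ψ (γ z)) (fderiv ℂ ψ (γ z) (σ z))) (deriv (ψ ∘ γ) z)
    = fderiv ℂ ψ (γ z)
        (deriv σ z - P (γ z) (deriv σ z) - (fderiv ℂ P (γ z) (σ z)) (deriv γ z)) := by
  have hψ1 : DifferentiableAt ℂ ψ (γ z) := hψ.differentiableAt (by norm_num)
  have hD : DifferentiableAt ℂ (fderiv ℂ ψ) (γ z) := by
    have := hψ.fderiv_right (m := 1) (by norm_num)
    exact this.differentiableAt (by norm_num)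
  have hsymm : ∀ u v, fderiv ℂ (fderiv ℂ ψ) (γ z) u v = fderiv ℂ (fderiv ℂ ψ) (γ z) v u := by
    have h := hψ.isSymmSndFDerivAt (by simp)
    exact fun u v => h u v
  set u := σ z with hu
  set v := deriv γ z with hv
  set D := fderiv ℂ ψ (γ z) with hDdef
  set D2 := fderiv ℂ (fderiv ℂ ψ) (γ z) with hD2
  -- derivative of the transported section
  have h1 : HasDerivAt (fun z' => fderiv ℂ ψ (γ z') (σ z')) (D2 v u + D (deriv σ z)) z := by
    have ha : HasDerivAt (fun z' => fderiv ℂ ψ (γ z')) (D2 v) z :=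
      hD.hasFDerivAt.comp_hasDerivAt z hγ.hasDerivAt
    exact ha.clm_apply hσ.hasDerivAt
  have h2 : HasDerivAt (ψ ∘ γ) (D v) z := hψ1.hasFDerivAt.comp_hasDerivAt z hγ.hasDerivAt
  -- differentiate the commutation relation in the direction `u`, applied to `v`
  have h3 : (fderiv ℂ Q (ψ (γ z)) (D u)) (D v) + Q (ψ (γ z)) (D2 u v)
      = D2 u (P (γ z) v) + D ((fderiv ℂ P (γ z) u) v) := by
    have ha : HasFDerivAt (fun y => Q (ψ y)) ((fderiv ℂ Q (ψ (γ z))).comp D) (γ z) :=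
      hQ.hasFDerivAt.comp (γ z) hψ1.hasFDerivAt
    have hb : HasFDerivAt (fun y => fderiv ℂ ψ y v) (D2.flip v) (γ z) := by
      have := hD.hasFDerivAt.clm_apply (hasFDerivAt_const v (γ z))
      convert this using 1
      ext w
      simp [hD2]
    have hL := ha.clm_apply hb
    have hc : HasFDerivAt (fun y => P y v) ((fderiv ℂ P (γ z)).flip v) (γ z) := by
      have := hP.hasFDerivAt.clm_apply (hasFDerivAt_const v (γ z))
      convert this using 1
      ext w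
      simp
    have hR := hD.hasFDerivAt.clm_apply hc
    have heq : (fun y => Q (ψ y) (fderiv ℂ ψ y v)) =ᶠ[𝓝 (γ z)]
        fun y => fderiv ℂ ψ y (P y v) := hcomm.mono fun y hy => hy v
    have := (hL.congr_of_eventuallyEq heq.symm).unique hR
    have hu' := congrArg (fun L : E →L[ℂ] E => L u) this
    simp at hu'
    rw [← hDdef, ← hD2] at hu'
    rw [add_comm, hu']
    abel
  have h4 : Q (ψ (γ z)) (D (deriv σ z)) = D (P (γ z) (deriv σ z)) := hcomm.self_of_nhds _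
  rw [h1.deriv, h2.deriv, map_add, map_sub, map_sub, h4]
  rw [hPv] at h3
  rw [hsymm v u]
  have h5 : (fderiv ℂ Q (ψ (γ z)) (D u)) (D v)
      = D2 u v + D ((fderiv ℂ P (γ z) u) v) - Q (ψ (γ z)) (D2 u v) := by
    rw [← h3]; abel
  rw [h5]
  abel

end Change

section Order

variable {D : Type*} [NormedAddCommGroup D] [NormedSpace ℂ D]
variable {E : Type*} [NormedAddCommGroup E] [NormedSpace ℂ E]
variable {F : Type*} [NormedAddCommGroup F] [NormedSpace ℂ F]

theorem analyticAt_clm_apply {A : D → E →L[ℂ] F} {f : D → E} {z : D}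
    (hA : AnalyticAt ℂ A z) (hf : AnalyticAt ℂ f z) : AnalyticAt ℂ (fun z => A z (f z)) z :=
  AnalyticAt.comp₂ (h := fun p : (E →L[ℂ] F) × E => p.1 p.2)
    ((ContinuousLinearMap.id ℂ (E →L[ℂ] F)).analyticAt_bilinear (A z, f z)) hA hf

variable [CompleteSpace E]

/-- `(z - z₀)² ∇` raises the exact vanishing order `K ≥ 1` by one. -/
theorem order_nabla {σ : ℂ → E} {A B : ℂ → E →L[ℂ] E} {z₀ : ℂ} {K : ℕ} (hK : K ≠ 0)
    (hσ : AnalyticAt ℂ σ z₀) (hA : AnalyticAt ℂ A z₀) (hB : AnalyticAt ℂ B z₀)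
    (hAσ : ∀ᶠ z in 𝓝 z₀, A z (σ z) = σ z)
    (hord : analyticOrderAt σ z₀ = K) :
    analyticOrderAt (fun z => (z - z₀) ^ 2 • (A z (deriv σ z) - B z (σ z))) z₀ = (K + 1 : ℕ) := by
  obtain ⟨a, ha, ha0, hσa⟩ := (hσ.analyticOrderAt_eq_natCast).1 hord
  have hda : AnalyticAt ℂ (deriv a) z₀ := ha.deriv
  -- `A a = a` at `z₀`
  have hAa : A z₀ (a z₀) = a z₀ := by
    have h1 : ∀ᶠ z in 𝓝[≠] z₀, A z (a z) = a z := by
      have h2 : ∀ᶠ z in 𝓝[≠] z₀, z ≠ z₀ := eventually_mem_nhdsWithin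
      filter_upwards [hσa.filter_mono nhdsWithin_le_nhds, hAσ.filter_mono nhdsWithin_le_nhds, h2]
        with z hz1 hz2 hz3
      rw [hz1, map_smul] at hz2
      exact smul_right_injective E (pow_ne_zero K (sub_ne_zero.2 hz3)) hz2
    have h3 : Tendsto (fun z => A z (a z)) (𝓝[≠] z₀) (𝓝 (A z₀ (a z₀))) :=
      ((hA.continuousAt.clm_apply ha.continuousAt).tendsto).mono_left nhdsWithin_le_nhds
    have h4 : Tendsto a (𝓝[≠] z₀) (𝓝 (a z₀)) := ha.continuousAt.tendsto.mono_left nhdsWithin_le_nhds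
    exact tendsto_nhds_unique (h3.congr' h1) h4
  have hσ' : ∀ᶠ z in 𝓝 z₀, deriv σ z = ((K : ℂ) * (z - z₀) ^ (K - 1)) • a z + (z - z₀) ^ K • deriv a z := by
    have h1 : ∀ᶠ z in 𝓝 z₀, σ =ᶠ[𝓝 z] fun z => (z - z₀) ^ K • a z := eventually_eventually_nhds.2 hσa
    filter_upwards [h1, ha.eventually_analyticAt] with z hz1 hz2
    rw [hz1.deriv_eq]
    have h5 : HasDerivAt (fun z => (z - z₀) ^ K) ((K : ℂ) * (z - z₀) ^ (K - 1)) z := by
      have := ((hasDerivAt_id z).sub_const z₀).pow K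
      simp only [id_eq, mul_one] at this
      exact this
    have h6 : HasDerivAt (fun z => (z - z₀) ^ K • a z)
        ((z - z₀) ^ K • deriv a z + ((K : ℂ) * (z - z₀) ^ (K - 1)) • a z) z :=
      h5.smul hz2.differentiableAt.hasDerivAt
    rw [h6.deriv]
    abel
  refine (AnalyticAt.analyticOrderAt_eq_natCast ?_).2 ⟨fun z => (K : ℂ) • A z (a z)
    + (z - z₀) • (A z (deriv a z) - B z (a z)), ?_, ?_, ?_⟩
  · exact ((analyticAt_id.sub analyticAt_const).pow 2).smul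
      ((analyticAt_clm_apply hA hσ.deriv).sub (analyticAt_clm_apply hB hσ))
  · exact (analyticAt_const.smul (analyticAt_clm_apply hA ha)).add
      ((analyticAt_id.sub analyticAt_const).smul
        ((analyticAt_clm_apply hA hda).sub (analyticAt_clm_apply hB ha)))
  · simp only [sub_self, zero_smul, add_zero, hAa]
    exact smul_ne_zero (Nat.cast_ne_zero.2 hK) ha0
  · filter_upwards [hσa, hσ'] with z hz1 hz2
    rw [hz1, hz2]
    obtain ⟨k, rfl⟩ := Nat.exists_eq_succ_of_ne_zero hK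
    simp only [Nat.succ_eq_add_one, Nat.add_sub_cancel, map_add, map_smul, smul_sub, smul_add,
      smul_smul]
    have e1 : (z - z₀) ^ 2 * (((k + 1 : ℕ) : ℂ) * (z - z₀) ^ k)
        = (z - z₀) ^ (k + 1 + 1) * ((k + 1 : ℕ) : ℂ) := by ring
    have e2 : (z - z₀) ^ 2 * (z - z₀) ^ (k + 1) = (z - z₀) ^ (k + 1 + 1) * (z - z₀) := by ring
    rw [e1, e2]
    abel

/-- `(z - z₀)² ∇` raises the exact vanishing order `K ≥ 1` by one. -/
theorem order_nabla2 {σ w : ℂ → E} {A : ℂ → E →L[ℂ] E} {L : ℂ → E →L[ℂ] E →L[ℂ] E} {z₀ : ℂ} {K : ℕ} (hK : K ≠ 0)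
    (hσ : AnalyticAt ℂ σ z₀) (hA : AnalyticAt ℂ A z₀) (hL : AnalyticAt ℂ L z₀)
    (hw : AnalyticAt ℂ w z₀)
    (hAσ : ∀ᶠ z in 𝓝 z₀, A z (σ z) = σ z)
    (hord : analyticOrderAt σ z₀ = K) :
    analyticOrderAt (fun z => (z - z₀) ^ 2 • (A z (deriv σ z) - L z (σ z) (w z))) z₀ = (K + 1 : ℕ) := by
  obtain ⟨a, ha, ha0, hσa⟩ := (hσ.analyticOrderAt_eq_natCast).1 hord
  have hda : AnalyticAt ℂ (deriv a) z₀ := ha.deriv
  -- `A a = a` at `z₀`
  have hAa : A z₀ (a z₀) = a z₀ := by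
    have h1 : ∀ᶠ z in 𝓝[≠] z₀, A z (a z) = a z := by
      have h2 : ∀ᶠ z in 𝓝[≠] z₀, z ≠ z₀ := eventually_mem_nhdsWithin
      filter_upwards [hσa.filter_mono nhdsWithin_le_nhds, hAσ.filter_mono nhdsWithin_le_nhds, h2]
        with z hz1 hz2 hz3
      rw [hz1, map_smul] at hz2
      exact smul_right_injective E (pow_ne_zero K (sub_ne_zero.2 hz3)) hz2
    have h3 : Tendsto (fun z => A z (a z)) (𝓝[≠] z₀) (𝓝 (A z₀ (a z₀))) :=
      ((hA.continuousAt.clm_apply ha.continuousAt).tendsto).mono_left nhdsWithin_le_nhds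
    have h4 : Tendsto a (𝓝[≠] z₀) (𝓝 (a z₀)) := ha.continuousAt.tendsto.mono_left nhdsWithin_le_nhds
    exact tendsto_nhds_unique (h3.congr' h1) h4
  have hσ' : ∀ᶠ z in 𝓝 z₀, deriv σ z = ((K : ℂ) * (z - z₀) ^ (K - 1)) • a z + (z - z₀) ^ K • deriv a z := by
    have h1 : ∀ᶠ z in 𝓝 z₀, σ =ᶠ[𝓝 z] fun z => (z - z₀) ^ K • a z := eventually_eventually_nhds.2 hσa
    filter_upwards [h1, ha.eventually_analyticAt] with z hz1 hz2
    rw [hz1.deriv_eq]
    have h5 : HasDerivAt (fun z => (z - z₀) ^ K) ((K : ℂ) * (z - z₀) ^ (K - 1)) z := by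
      have := ((hasDerivAt_id z).sub_const z₀).pow K
      simp only [id_eq, mul_one] at this
      exact this
    have h6 : HasDerivAt (fun z => (z - z₀) ^ K • a z)
        ((z - z₀) ^ K • deriv a z + ((K : ℂ) * (z - z₀) ^ (K - 1)) • a z) z :=
      h5.smul hz2.differentiableAt.hasDerivAt
    rw [h6.deriv]
    abel
  refine (AnalyticAt.analyticOrderAt_eq_natCast ?_).2 ⟨fun z => (K : ℂ) • A z (a z)
    + (z - z₀) • (A z (deriv a z) - L z (a z) (w z)), ?_, ?_, ?_⟩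
  · exact ((analyticAt_id.sub analyticAt_const).pow 2).smul
      ((analyticAt_clm_apply hA hσ.deriv).sub (analyticAt_clm_apply (analyticAt_clm_apply hL hσ) hw))
  · exact (analyticAt_const.smul (analyticAt_clm_apply hA ha)).add
      ((analyticAt_id.sub analyticAt_const).smul
        ((analyticAt_clm_apply hA hda).sub (analyticAt_clm_apply (analyticAt_clm_apply hL ha) hw)))
  · simp only [sub_self, zero_smul, add_zero, hAa]
    exact smul_ne_zero (Nat.cast_ne_zero.2 hK) ha0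
  · filter_upwards [hσa, hσ'] with z hz1 hz2
    rw [hz1, hz2]
    obtain ⟨k, rfl⟩ := Nat.exists_eq_succ_of_ne_zero hK
    simp only [Nat.succ_eq_add_one, Nat.add_sub_cancel, map_add, map_smul, smul_sub, smul_add,
      smul_smul, ContinuousLinearMap.smul_apply]
    have e1 : (z - z₀) ^ 2 * (((k + 1 : ℕ) : ℂ) * (z - z₀) ^ k)
        = (z - z₀) ^ (k + 1 + 1) * ((k + 1 : ℕ) : ℂ) := by ring
    have e2 : (z - z₀) ^ 2 * (z - z₀) ^ (k + 1) = (z - z₀) ^ (k + 1 + 1) * (z - z₀) := by ring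
    rw [e1, e2]
    abel

end Order

section Growth

variable {F : Type*} [NormedAddCommGroup F] [NormedSpace ℂ F]

/-- An entire function with growth `≤ C |z|^m` and a zero of order `> m` vanishes. -/
theorem eq_zero_of_growth {f : ℂ → F} (hf : Differentiable ℂ f) {C : ℝ} {m : ℕ}
    (hgr : ∀ z : ℂ, 1 ≤ ‖z‖ → ‖f z‖ ≤ C * ‖z‖ ^ m) {z₀ : ℂ} {h : ℂ → F}
    (hh : AnalyticAt ℂ h z₀) (hfh : ∀ᶠ z in 𝓝 z₀, f z = (z - z₀) ^ (m + 1) • h z) :
    ∀ z, f z = 0 := by
  classical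
  set g : ℂ → F := fun z => if z = z₀ then h z₀ else ((z - z₀) ^ (m + 1))⁻¹ • f z with hg
  have hgne : ∀ z, z ≠ z₀ → g z = ((z - z₀) ^ (m + 1))⁻¹ • f z := fun z hz => by simp [hg, hz]
  have hg0 : g z₀ = h z₀ := by simp [hg]
  have hgd : Differentiable ℂ g := by
    intro z
    by_cases hz : z = z₀
    · subst hz
      have : g =ᶠ[𝓝 z] h := by
        filter_upwards [hfh] with w hw
        by_cases hwz : w = z
        · rw [hwz, hg0]
        · rw [hgne w hwz, hw, smul_smul, inv_mul_cancel₀ (pow_ne_zero _ (sub_ne_zero.2 hwz)),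
            one_smul]
      exact (hh.differentiableAt).congr_of_eventuallyEq this
    · have : g =ᶠ[𝓝 z] fun w => ((w - z₀) ^ (m + 1))⁻¹ • f w := by
        filter_upwards [isOpen_ne.mem_nhds hz] with w hw using hgne w hw
      refine DifferentiableAt.congr_of_eventuallyEq ?_ this
      exact (((differentiableAt_id.sub_const z₀).pow (m + 1)).inv
        (pow_ne_zero _ (sub_ne_zero.2 hz))).smul (hf z)
  have hlim : Tendsto g (cocompact ℂ) (𝓝 0) := by
    have hC : 0 ≤ C := by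
      have := hgr 1 (by simp)
      simp at this
      exact (norm_nonneg _).trans this
    -- bound `‖g z‖ ≤ C 2^(m+1) / ‖z‖`
    have hb : ∀ z : ℂ, 1 + 2 * ‖z₀‖ ≤ ‖z‖ → ‖g z‖ ≤ (C * 2 ^ (m + 1)) * ‖z‖⁻¹ := by
      intro z hz
      have hz1 : 1 ≤ ‖z‖ := by linarith [norm_nonneg z₀]
      have hzpos : 0 < ‖z‖ := by linarith
      have hsub : ‖z‖ / 2 ≤ ‖z - z₀‖ := by
        have := norm_sub_norm_le z z₀
        linarith
      have hsubpos : 0 < ‖z - z₀‖ := by linarith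
      have hne : z ≠ z₀ := by
        intro h; rw [h, sub_self, norm_zero] at hsubpos; exact lt_irrefl _ hsubpos
      rw [hgne z hne, norm_smul, norm_inv, norm_pow]
      have h1 : ‖z - z₀‖ ^ (m + 1) ≥ (‖z‖ / 2) ^ (m + 1) :=
        pow_le_pow_left₀ (by positivity) hsub _
      have h2 : (‖z - z₀‖ ^ (m + 1))⁻¹ ≤ ((‖z‖ / 2) ^ (m + 1))⁻¹ :=
        inv_anti₀ (by positivity) h1
      calc (‖z - z₀‖ ^ (m + 1))⁻¹ * ‖f z‖
          ≤ ((‖z‖ / 2) ^ (m + 1))⁻¹ * (C * ‖z‖ ^ m) :=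
            mul_le_mul h2 (hgr z hz1) (norm_nonneg _) (by positivity)
        _ = (C * 2 ^ (m + 1)) * ‖z‖⁻¹ := by
            rw [div_pow, pow_succ ‖z‖ m]
            field_simp
    have hinv : Tendsto (fun z : ℂ => (C * 2 ^ (m + 1)) * ‖z‖⁻¹) (cocompact ℂ) (𝓝 0) := by
      have := (tendsto_norm_cocompact_atTop (E := ℂ)).inv_tendsto_atTop
      simpa using this.const_mul (C * 2 ^ (m + 1))
    refine squeeze_zero_norm' ?_ hinv
    have := (tendsto_norm_cocompact_atTop (E := ℂ)).eventually_ge_atTop (1 + 2 * ‖z₀‖)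
    exact this.mono hb
  have hzero : ∀ z, g z = 0 := fun z => hgd.apply_eq_of_tendsto_cocompact z hlim
  intro z
  by_cases hz : z = z₀
  · have := hfh.self_of_nhds
    simpa [hz] using this
  · have h1 := hzero z
    rw [hgne z hz] at h1
    exact (smul_eq_zero.1 h1).resolve_left (inv_ne_zero (pow_ne_zero _ (sub_ne_zero.2 hz)))

end Growth

end Crest.Agent.R266.L3
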