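import Mathlib

/-!
R266 / RatDefs: definitions for Step 3 (RAT) of S0404: curves in projective space given by
homogeneous coordinates `ℂ → ℂ^(N+1)`, degree of a germ, polynomial vectors as coefficient arrays.
-/

set_option autoImplicit false

open scoped Topology
open Set Metric Filter

namespace Crest.Agent.R266.Rat

/-- proportional vectors (all 2×2 minors vanish) -/
def Par {N : ℕ} (a b : Fin (N + 1) → ℂ) : Prop := ∀ i j, a i * b j = a j * b i

/-- value at `z` of the polynomial vector (degree ≤ k) with coefficients `c i j` -/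
noncomputable def pev {N k : ℕ} (c : Fin (N + 1) → Fin (k + 1) → ℂ) (z : ℂ) : Fin (N + 1) → ℂ :=
  fun i => ∑ j, c i j * z ^ (j : ℕ)

/-- the germ at `z0` of the curve `[f]` in projective space has degree ≤ k -/
def DegLE {N : ℕ} (k : ℕ) (f : ℂ → Fin (N + 1) → ℂ) (z0 : ℂ) : Prop :=
  ∃ c : Fin (N + 1) → Fin (k + 1) → ℂ, c ≠ 0 ∧ ∀ᶠ z in 𝓝 z0, Par (pev c z) (f z)

end Crest.Agent.R266.Rat
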