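import Mathlib
import Crest.Prelude.Def_TangentSplitting
import Crest.Agent.R266.RatDefs

/-!
R266 / P1Poly: a holomorphic map from the projective line to a projective manifold is polynomial
(S0404, Step 1).  Pure part: an entire function of polynomial growth is a polynomial, a function
meromorphic on the projective line is rational.
-/

set_option autoImplicit false

open scoped Manifold ContDiff Topology Polynomial
open Crest.AlgGeometry.HolSplit
open Filter Set Metric

namespace Crest.Agent.R266.P1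

/-- An entire function of polynomial growth is a polynomial. -/
theorem entire_poly (M : ℕ) : ∀ (f : ℂ → ℂ), Differentiable ℂ f →
    (∃ C R : ℝ, ∀ z : ℂ, R ≤ ‖z‖ → ‖f z‖ ≤ C * ‖z‖ ^ M) → ∃ p : ℂ[X], ∀ z, f z = p.eval z := by
  induction M with
  | zero =>
    intro f hf ⟨C, R, hC⟩
    have hcomp : IsCompact (closedBall (0 : ℂ) R) := isCompact_closedBall 0 R
    obtain ⟨B, hB⟩ := (hcomp.image hf.continuous).isBounded.exists_norm_le
    have hb : Bornology.IsBounded (range f) := by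
      rw [isBounded_iff_forall_norm_le]
      refine ⟨max B C, ?_⟩
      rintro _ ⟨z, rfl⟩
      rcases le_total R ‖z‖ with h | h
      · have := hC z h
        simp only [pow_zero, mul_one] at this
        exact this.trans (le_max_right _ _)
      · exact (hB (f z) ⟨z, by simpa using h, rfl⟩).trans (le_max_left _ _)
    obtain ⟨c, hc⟩ := hf.exists_const_forall_eq_of_bounded hb
    exact ⟨Polynomial.C c, fun z => by simp [hc z]⟩
  | succ M ih =>
    intro f hf ⟨C, R, hC⟩
    have hg : Differentiable ℂ (dslope f 0) := by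
      rw [← differentiableOn_univ]
      exact (Complex.differentiableOn_dslope univ_mem).2 hf.differentiableOn
    obtain ⟨p, hp⟩ := ih (dslope f 0) hg ⟨|C| + ‖f 0‖, max R 1, fun z hz => by
      have hR : R ≤ ‖z‖ := (le_max_left _ _).trans hz
      have h1 : 1 ≤ ‖z‖ := (le_max_right _ _).trans hz
      have hz0 : z ≠ 0 := by
        rintro rfl
        simp at h1
        linarith
      have hzpos : 0 < ‖z‖ := norm_pos_iff.2 hz0
      rw [dslope_of_ne _ hz0, slope_def_field, sub_zero, norm_div, div_le_iff₀ hzpos]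
      have e1 : ‖f z - f 0‖ ≤ C * ‖z‖ ^ (M + 1) + ‖f 0‖ :=
        (norm_sub_le _ _).trans (add_le_add_left (hC z hR) _)
      have e2 : C * ‖z‖ ^ (M + 1) ≤ |C| * ‖z‖ ^ (M + 1) :=
        mul_le_mul_of_nonneg_right (le_abs_self C) (by positivity)
      have e3 : ‖f 0‖ ≤ ‖f 0‖ * ‖z‖ ^ (M + 1) :=
        le_mul_of_one_le_right (norm_nonneg _) (one_le_pow₀ h1)
      calc ‖f z - f 0‖ ≤ |C| * ‖z‖ ^ (M + 1) + ‖f 0‖ * ‖z‖ ^ (M + 1) := by linarith
        _ = (|C| + ‖f 0‖) * ‖z‖ ^ M * ‖z‖ := by ring⟩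
    refine ⟨Polynomial.C (f 0) + Polynomial.X * p, fun z => ?_⟩
    have : (z - 0) • dslope f 0 z = f z - f 0 := sub_smul_dslope f 0 z
    simp only [Polynomial.eval_add, Polynomial.eval_C, Polynomial.eval_mul, Polynomial.eval_X,
      ← hp z]
    simp only [sub_zero, smul_eq_mul] at this
    rw [this]; ring

/-- growth of a polynomial -/
theorem poly_growth (Q : ℂ[X]) : ∃ (C : ℝ), 0 ≤ C ∧ ∀ z : ℂ, 1 ≤ ‖z‖ →
    ‖Q.eval z‖ ≤ C * ‖z‖ ^ Q.natDegree := by
  refine ⟨∑ i ∈ Finset.range (Q.natDegree + 1), ‖Q.coeff i‖,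
    Finset.sum_nonneg fun _ _ => norm_nonneg _, fun z hz => ?_⟩
  rw [Polynomial.eval_eq_sum_range, Finset.sum_mul]
  refine (norm_sum_le _ _).trans (Finset.sum_le_sum fun i hi => ?_)
  rw [norm_mul, norm_pow]
  refine mul_le_mul_of_nonneg_left ?_ (norm_nonneg _)
  exact pow_le_pow_right₀ hz (by simpa [Nat.lt_succ_iff] using hi)

/-- A function meromorphic on the whole projective line is rational. -/
theorem rat_of_meromorphic (f : ℂ → ℂ) (h : ∀ z, MeromorphicAt f z)
    (hinf : MeromorphicAt (fun w => f w⁻¹) 0) :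
    ∃ P Q : ℂ[X], Q ≠ 0 ∧ ∀ z, Q.eval z * f z = P.eval z := by
  classical
  -- behaviour near infinity
  obtain ⟨k, hk⟩ := hinf
  have hanal := (show MeromorphicAt (fun w => f w⁻¹) 0 from ⟨k, hk⟩).eventually_analyticAt
  have hbd : ∃ C : ℝ, ∀ᶠ w in 𝓝 (0 : ℂ), ‖(w - 0) ^ k • f w⁻¹‖ ≤ C := by
    refine ⟨‖((0 : ℂ) - 0) ^ k • f (0 : ℂ)⁻¹‖ + 1, ?_⟩
    have hc : ContinuousAt (fun w : ℂ => ‖(w - 0) ^ k • f w⁻¹‖) 0 := hk.continuousAt.norm
    exact hc.eventually_le_const (by simp only; linarith) 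
  obtain ⟨C, hC⟩ := hbd
  rw [eventually_nhdsWithin_iff] at hanal
  obtain ⟨r, hr, hball⟩ := Metric.eventually_nhds_iff.1 (hanal.and hC)
  set R : ℝ := max (2 / r) 1 with hRdef
  have hR1 : 1 ≤ R := le_max_right _ _
  have houter : ∀ z : ℂ, R ≤ ‖z‖ → AnalyticAt ℂ f z ∧ ‖f z‖ ≤ C * ‖z‖ ^ k := by
    intro z hz
    have hzpos : 0 < ‖z‖ := by linarith
    have hz0 : z ≠ 0 := norm_pos_iff.1 hzpos
    have hlt : dist z⁻¹ 0 < r := by
      rw [dist_zero_right, norm_inv]
      have h2 : 2 / r ≤ ‖z‖ := (le_max_left _ _).trans hz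
      rw [inv_lt_comm₀ hzpos hr]
      have : r⁻¹ < 2 / r := by
        rw [div_eq_mul_inv]
        have := inv_pos.2 hr
        linarith
      linarith
    obtain ⟨ha, hb⟩ := hball hlt
    have ha' := ha (by simpa using hz0)
    constructor
    · have hcomp : AnalyticAt ℂ ((fun w => f w⁻¹) ∘ (fun w : ℂ => w⁻¹)) z :=
        AnalyticAt.comp (g := fun w => f w⁻¹) (f := fun w : ℂ => w⁻¹) ha' (analyticAt_inv hz0)
      refine hcomp.congr (Eventually.of_forall fun w => ?_)
      simp
    · rw [sub_zero, smul_eq_mul, inv_inv, norm_mul, norm_pow, norm_inv] at hb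
      have hpos : 0 < ‖z‖ ^ k := by positivity
      have : ‖f z‖ = ((‖z‖⁻¹) ^ k * ‖f z‖) * ‖z‖ ^ k := by
        rw [inv_pow]; field_simp
      rw [this]
      exact mul_le_mul_of_nonneg_right hb hpos.le
  -- the poles in the closed ball
  have hloc : ∀ z : ℂ, ∃ (m : ℕ) (U : Set ℂ), U ∈ 𝓝 z ∧
      AnalyticAt ℂ (fun w => (w - z) ^ m * f w) z ∧ ∀ w ∈ U, w ≠ z → AnalyticAt ℂ f w := by
    intro z
    obtain ⟨m, hm⟩ := h z
    have := (h z).eventually_analyticAt
    rw [eventually_nhdsWithin_iff] at this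
    exact ⟨m, {w | w ∈ ({z}ᶜ : Set ℂ) → AnalyticAt ℂ f w}, this, by simpa [smul_eq_mul] using hm,
      fun w hw hne => hw (by simpa using hne)⟩
  choose m U hU hm hUan using hloc
  obtain ⟨t, -, ht⟩ := (isCompact_closedBall (0 : ℂ) R).elim_nhds_subcover U (fun z _ => hU z)
  set Q : ℂ[X] := ∏ x ∈ t, (Polynomial.X - Polynomial.C x) ^ m x with hQ
  have hQ0 : Q ≠ 0 := Finset.prod_ne_zero_iff.2 fun x _ => pow_ne_zero _ (Polynomial.X_sub_C_ne_zero x)
  have hQan : ∀ z, AnalyticAt ℂ (fun w => Q.eval w) z := fun z =>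
    (AnalyticOnNhd.eval_polynomial Q) z (mem_univ z)
  have hentire : ∀ z, AnalyticAt ℂ (fun w => Q.eval w * f w) z := by
    intro z
    rcases le_total R ‖z‖ with hz | hz
    · exact (hQan z).mul (houter z hz).1
    · have hzK : z ∈ closedBall (0 : ℂ) R := by simpa using hz
      obtain ⟨x, hx, hzx⟩ := mem_iUnion₂.1 (ht hzK)
      by_cases hzt : z ∈ t
      · have hsplit : Q = (Polynomial.X - Polynomial.C z) ^ m z *
            ∏ x ∈ t.erase z, (Polynomial.X - Polynomial.C x) ^ m x := by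
          rw [hQ, Finset.mul_prod_erase t (fun x => (Polynomial.X - Polynomial.C x) ^ m x) hzt]
        have h1 : AnalyticAt ℂ (fun w => (∏ x ∈ t.erase z,
            (Polynomial.X - Polynomial.C x) ^ m x : ℂ[X]).eval w) z :=
          (AnalyticOnNhd.eval_polynomial _) z (mem_univ z)
        refine (h1.mul (hm z)).congr (Eventually.of_forall fun w => ?_)
        simp only [hsplit, Polynomial.eval_mul, Polynomial.eval_pow, Polynomial.eval_sub,
          Polynomial.eval_X, Polynomial.eval_C]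
        simp only [Pi.mul_apply]
        ring
      · have hne : z ≠ x := fun h => hzt (h ▸ hx)
        exact (hQan z).mul (hUan x z hzx hne)
  have hdiff : Differentiable ℂ (fun w => Q.eval w * f w) := fun z => (hentire z).differentiableAt
  obtain ⟨CQ, hCQ, hQg⟩ := poly_growth Q
  obtain ⟨P, hP⟩ := entire_poly (Q.natDegree + k) _ hdiff ⟨CQ * C, R, fun z hz => by
    have hz1 : 1 ≤ ‖z‖ := hR1.trans hz
    rw [norm_mul]
    have h1 := hQg z hz1
    have h2 := (houter z hz).2
    calc ‖Q.eval z‖ * ‖f z‖ ≤ (CQ * ‖z‖ ^ Q.natDegree) * (C * ‖z‖ ^ k) :=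
          mul_le_mul h1 h2 (norm_nonneg _) (by positivity)
      _ = CQ * C * ‖z‖ ^ (Q.natDegree + k) := by rw [pow_add]; ring⟩
  exact ⟨P, Q, hQ0, fun z => hP z⟩

open Crest.Agent.R266.Rat (Par pev)

/-- Pure form. `c z` are homogeneous coordinates of the point at `z` (no continuity in `z`), locally
proportional to an analytic nonvanishing vector; the same near infinity. -/
theorem p1_poly_pure {N : ℕ} (c : ℂ → Fin (N + 1) → ℂ) (hc0 : ∀ z, c z ≠ 0)
    (hloc : ∀ z0, ∃ κ : ℂ → Fin (N + 1) → ℂ, AnalyticAt ℂ κ z0 ∧ κ z0 ≠ 0 ∧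
      ∀ᶠ z in 𝓝 z0, ∃ l : ℂ, l ≠ 0 ∧ c z = l • κ z)
    (κi : ℂ → Fin (N + 1) → ℂ) (hκi : AnalyticAt ℂ κi 0) (hκi0 : κi 0 ≠ 0)
    (hinf : ∀ᶠ w in 𝓝[≠] (0 : ℂ), ∃ l : ℂ, l ≠ 0 ∧ c w⁻¹ = l • κi w) :
    ∃ (d : ℕ) (q : Fin (N + 1) → Fin (d + 1) → ℂ), (∀ z, pev q z ≠ 0) ∧
      (∃ i, q i (Fin.last d) ≠ 0) ∧ (∀ z, Par (pev q z) (c z)) ∧
      Par (fun i => q i (Fin.last d)) (κi 0) := by
  classical
  -- choose a coordinate
  obtain ⟨i, hi⟩ : ∃ i, c 0 i ≠ 0 := by
    by_contra h
    push Not at h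
    exact hc0 0 (funext h)
  -- the ratios are meromorphic
  have hmer : ∀ j z, MeromorphicAt (fun z => c z j / c z i) z := by
    intro j z0
    obtain ⟨κ, hκ, -, hev⟩ := hloc z0
    have h1 : MeromorphicAt (fun z => κ z j / κ z i) z0 := by
      have hj : AnalyticAt ℂ (fun z => κ z j) z0 := (analyticAt_pi_iff.1 hκ) j
      have hi' : AnalyticAt ℂ (fun z => κ z i) z0 := (analyticAt_pi_iff.1 hκ) i
      exact hj.meromorphicAt.div hi'.meromorphicAt
    refine h1.congr (Filter.Eventually.filter_mono nhdsWithin_le_nhds ?_)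
    filter_upwards [hev] with z hz
    obtain ⟨l, hl, hcz⟩ := hz
    simp only [hcz, Pi.smul_apply, smul_eq_mul]
    rw [mul_div_mul_left _ _ hl]
  have hmeri : ∀ j, MeromorphicAt (fun w => (fun z => c z j / c z i) w⁻¹) 0 := by
    intro j
    have h1 : MeromorphicAt (fun z => κi z j / κi z i) 0 := by
      have hj : AnalyticAt ℂ (fun z => κi z j) 0 := (analyticAt_pi_iff.1 hκi) j
      have hi' : AnalyticAt ℂ (fun z => κi z i) 0 := (analyticAt_pi_iff.1 hκi) i
      exact hj.meromorphicAt.div hi'.meromorphicAt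
    refine h1.congr ?_
    filter_upwards [hinf] with z hz
    obtain ⟨l, hl, hcz⟩ := hz
    simp only [hcz, Pi.smul_apply, smul_eq_mul]
    rw [mul_div_mul_left _ _ hl]
  choose P Q hQ0 hPQ using fun j => rat_of_meromorphic _ (hmer j) (hmeri j)
  -- common denominator
  set DD : ℂ[X] := ∏ j, Q j with hDD
  have hDD0 : DD ≠ 0 := Finset.prod_ne_zero_iff.2 fun j _ => hQ0 j
  set A : Fin (N + 1) → ℂ[X] := fun j => P j * ∏ k ∈ Finset.univ.erase j, Q k with hA
  have hAz : ∀ j z, (A j).eval z = DD.eval z * (c z j / c z i) := by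
    intro j z
    have h1 : DD = Q j * ∏ k ∈ Finset.univ.erase j, Q k := by
      rw [hDD, Finset.mul_prod_erase Finset.univ Q (Finset.mem_univ j)]
    rw [h1, hA]
    simp only [Polynomial.eval_mul]
    rw [← hPQ j z]; ring
  -- near 0 the ratio c i / c i is one, so A i = DD
  have hAi : A i = DD := by
    obtain ⟨κ, hκ, -, hev⟩ := hloc 0
    have hκi' : AnalyticAt ℂ (fun z => κ z i) 0 := (analyticAt_pi_iff.1 hκ) i
    have hne : κ 0 i ≠ 0 := by
      obtain ⟨l, hl, hcz⟩ := hev.self_of_nhds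
      intro h0
      apply hi
      rw [hcz]; simp [h0]
    have hev2 : ∀ᶠ z in 𝓝 (0 : ℂ), κ z i ≠ 0 := hκi'.continuousAt.eventually_ne hne
    have hev3 : ∀ᶠ z in 𝓝 (0 : ℂ), (A i - DD).eval z = 0 := by
      filter_upwards [hev, hev2] with z hz hz2
      obtain ⟨l, hl, hcz⟩ := hz
      have hcne : c z i ≠ 0 := by
        rw [hcz]; simpa using ⟨hl, hz2⟩
      rw [Polynomial.eval_sub, hAz i z, div_self hcne]; ring
    have : A i - DD = 0 := by
      apply Polynomial.eq_zero_of_infinite_isRoot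
      have : ∃ᶠ z in 𝓝[≠] (0 : ℂ), (A i - DD).IsRoot z :=
        (Filter.Eventually.filter_mono nhdsWithin_le_nhds hev3).frequently
      exact infinite_of_mem_nhds (0 : ℂ) hev3
    exact sub_eq_zero.1 this
  have hcofin : ∀ z, DD.eval z ≠ 0 → c z i ≠ 0 := by
    intro z hz h0
    have := hAz i z
    rw [hAi, h0, div_zero, mul_zero] at this
    exact hz this
  -- divide by the gcd
  let _ : NormalizedGCDMonoid ℂ[X] := Classical.choice inferInstance
  obtain ⟨B, hB, hgcd⟩ := Finset.extract_gcd A (s := (Finset.univ : Finset (Fin (N + 1))))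
    ⟨i, Finset.mem_univ i⟩
  set G : ℂ[X] := Finset.univ.gcd A with hG
  have hG0 : G ≠ 0 := by
    intro h0
    have := hB i (Finset.mem_univ i)
    rw [h0, zero_mul, hAi] at this
    exact hDD0 this
  have hBz : ∀ z, (fun j => (B j).eval z) ≠ 0 := by
    intro z h0
    have hdvd : ∀ j ∈ (Finset.univ : Finset (Fin (N + 1))),
        (Polynomial.X - Polynomial.C z) ∣ B j := fun j _ =>
      Polynomial.dvd_iff_isRoot.2 (congrFun h0 j)
    have h1 := Finset.dvd_gcd hdvd
    rw [hgcd] at h1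
    exact Polynomial.not_isUnit_X_sub_C z (isUnit_of_dvd_one h1)
  -- generic proportionality
  have hgen : ∀ z, DD.eval z ≠ 0 → Par (fun j => (B j).eval z) (c z) := by
    intro z hz
    have hGz : G.eval z ≠ 0 := by
      intro h0
      have := hB i (Finset.mem_univ i)
      rw [hAi] at this
      rw [this, Polynomial.eval_mul, h0, zero_mul] at hz
      exact hz rfl
    have hci := hcofin z hz
    have key : ∀ j, G.eval z * (B j).eval z = DD.eval z / c z i * c z j := by
      intro j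
      have := hAz j z
      rw [hB j (Finset.mem_univ j), Polynomial.eval_mul] at this
      rw [this]; ring
    intro j k
    have h1 := key j
    have h2 := key k
    have : G.eval z * ((B j).eval z * c z k) = G.eval z * ((B k).eval z * c z j) := by
      rw [← mul_assoc, ← mul_assoc, h1, h2]; ring
    exact mul_left_cancel₀ hGz this
  have hrootfin : {z | DD.eval z = 0}.Finite := by
    have := Polynomial.finite_setOfPred_isRoot hDD0
    exact this
  have hBcont : ∀ j, Continuous fun z => (B j).eval z := fun j => (B j).continuous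
  have hpar : ∀ z0, Par (fun j => (B j).eval z0) (c z0) := by
    intro z0
    obtain ⟨κ, hκ, -, hev⟩ := hloc z0
    have hnear : ∀ᶠ z in 𝓝[≠] z0, DD.eval z ≠ 0 := by
      have : ∀ᶠ z in 𝓝[≠] z0, z ∉ {z | DD.eval z = 0} := by
        have := hrootfin.isClosed
        have h2 : ({z | DD.eval z = 0} \ {z0}).Finite := hrootfin.subset sdiff_subset
        have h3 : ({z | DD.eval z = 0} \ {z0})ᶜ ∈ 𝓝 z0 := h2.isClosed.isOpen_compl.mem_nhds (by simp)
        rw [eventually_nhdsWithin_iff]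
        filter_upwards [h3] with z hz hne hmem
        exact hz ⟨hmem, hne⟩
      exact this
    have hκpar : Par (fun j => (B j).eval z0) (κ z0) := by
      intro j k
      have hκj : ∀ j, ContinuousAt (fun z => κ z j) z0 := fun j =>
        ((analyticAt_pi_iff.1 hκ) j).continuousAt
      have hl : Tendsto (fun z => (B j).eval z * κ z k - (B k).eval z * κ z j) (𝓝[≠] z0)
          (𝓝 ((B j).eval z0 * κ z0 k - (B k).eval z0 * κ z0 j)) :=
        ((((hBcont j).continuousAt.mul (hκj k)).sub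
          ((hBcont k).continuousAt.mul (hκj j))).tendsto).mono_left nhdsWithin_le_nhds
      have hz : Tendsto (fun z => (B j).eval z * κ z k - (B k).eval z * κ z j) (𝓝[≠] z0)
          (𝓝 0) := by
        refine tendsto_const_nhds.congr' ?_
        filter_upwards [hnear, Filter.Eventually.filter_mono nhdsWithin_le_nhds hev] with z h1 h2
        obtain ⟨l, hl, hcz⟩ := h2
        have h3 := hgen z h1 j k
        rw [hcz] at h3
        simp only [Pi.smul_apply, smul_eq_mul] at h3
        have : l * ((B j).eval z * κ z k - (B k).eval z * κ z j) = 0 := by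
          linear_combination h3
        exact ((mul_eq_zero.1 this).resolve_left hl).symm
      exact sub_eq_zero.1 (tendsto_nhds_unique hl hz)
    obtain ⟨l, hl, hcz⟩ := hev.self_of_nhds
    intro j k
    rw [hcz]
    simp only [Pi.smul_apply, smul_eq_mul]
    have := hκpar j k
    simp only at this ⊢
    linear_combination l * this
  -- the degree
  set d : ℕ := Finset.univ.sup fun j => (B j).natDegree with hd
  have hdle : ∀ j, (B j).natDegree ≤ d := fun j =>
    Finset.le_sup (f := fun j => (B j).natDegree) (Finset.mem_univ j)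
  obtain ⟨j0, hj0⟩ : ∃ j0, (B j0).coeff d ≠ 0 := by
    by_cases hd0 : d = 0
    · obtain ⟨j, hj⟩ : ∃ j, (B j).eval 0 ≠ 0 := by
        by_contra h
        push Not at h
        exact hBz 0 (funext h)
      refine ⟨j, ?_⟩
      rw [hd0, Polynomial.coeff_zero_eq_eval_zero]
      exact hj
    · obtain ⟨j, -, hj⟩ := Finset.exists_mem_eq_sup (Finset.univ : Finset (Fin (N + 1)))
        ⟨i, Finset.mem_univ i⟩ (fun j => (B j).natDegree)
      refine ⟨j, ?_⟩
      rw [hd, hj]
      have hne : B j ≠ 0 := by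
        rintro h0
        apply hd0
        rw [hd, hj, h0, Polynomial.natDegree_zero]
      simpa using hne
  have hpev : ∀ z, pev (fun j (a : Fin (d + 1)) => (B j).coeff a) z = fun j => (B j).eval z := by
    intro z
    funext j
    simp only [pev]
    rw [Polynomial.eval_eq_sum_range' (lt_of_le_of_lt (hdle j) (Nat.lt_succ_self d)),
      Finset.sum_range]
  refine ⟨d, fun j a => (B j).coeff a, fun z => ?_, ⟨j0, by simpa using hj0⟩, fun z => ?_, ?_⟩
  · rw [hpev z]; exact hBz z
  · rw [hpev z]; exact hpar z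
  · -- infinity: reversed polynomials
    set Rv : Fin (N + 1) → ℂ[X] := fun j => Polynomial.reflect d (B j) with hRv
    have hrev : ∀ j w, w ≠ 0 → (Rv j).eval w = w ^ d * (B j).eval w⁻¹ := by
      intro j w hw
      simp only [hRv]
      have h1 : (B j).eval w⁻¹ = ∑ a ∈ Finset.range (d + 1), (B j).coeff a * w⁻¹ ^ a :=
        Polynomial.eval_eq_sum_range' (lt_of_le_of_lt (hdle j) (Nat.lt_succ_self d)) _
      have h2 : (Polynomial.reflect d (B j)).eval w =
          ∑ a ∈ Finset.range (d + 1), (Polynomial.reflect d (B j)).coeff a * w ^ a := by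
        refine Polynomial.eval_eq_sum_range' ?_ _
        refine lt_of_le_of_lt (Polynomial.natDegree_reflect_le) ?_
        simpa [Nat.lt_succ_iff] using hdle j
      rw [h1, h2, Finset.mul_sum, ← Finset.sum_range_reflect]
      refine Finset.sum_congr rfl fun a ha => ?_
      have ha' : a ≤ d := by simpa [Nat.lt_succ_iff] using ha
      have e1 : d + 1 - 1 - a = d - a := by omega
      rw [e1, Polynomial.coeff_reflect, Polynomial.revAt_le (Nat.sub_le d a),
        Nat.sub_sub_self ha']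
      have e2 : w ^ d = w ^ (d - a) * w ^ a := by rw [← pow_add]; congr 1; omega
      rw [e2, inv_pow]
      field_simp
    have hR0 : ∀ j, (Rv j).eval 0 = (B j).coeff d := by
      intro j
      rw [← Polynomial.coeff_zero_eq_eval_zero, hRv]
      simp only [Polynomial.coeff_reflect]
      rw [Polynomial.revAt_le (Nat.zero_le d), Nat.sub_zero]
    intro j k
    have hκj : ∀ j, ContinuousAt (fun z => κi z j) 0 := fun j =>
      ((analyticAt_pi_iff.1 hκi) j).continuousAt
    have hl : Tendsto (fun z => (Rv j).eval z * κi z k - (Rv k).eval z * κi z j) (𝓝[≠] 0)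
        (𝓝 ((Rv j).eval 0 * κi 0 k - (Rv k).eval 0 * κi 0 j)) :=
      (((((Rv j).continuous).continuousAt.mul (hκj k)).sub
        (((Rv k).continuous).continuousAt.mul (hκj j))).tendsto).mono_left nhdsWithin_le_nhds
    have hz : Tendsto (fun z => (Rv j).eval z * κi z k - (Rv k).eval z * κi z j) (𝓝[≠] 0)
        (𝓝 0) := by
      refine tendsto_const_nhds.congr' ?_
      filter_upwards [hinf, self_mem_nhdsWithin] with w h2 hw
      obtain ⟨l, hl, hcz⟩ := h2
      have hw0 : w ≠ 0 := hw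
      have h3 := hpar w⁻¹ j k
      rw [hcz] at h3
      simp only [Pi.smul_apply, smul_eq_mul] at h3
      rw [hrev j w hw0, hrev k w hw0]
      have : l * (w ^ d * (B j).eval w⁻¹ * κi w k - w ^ d * (B k).eval w⁻¹ * κi w j) = 0 := by
        linear_combination w ^ d * h3
      exact ((mul_eq_zero.1 this).resolve_left hl).symm
    have := sub_eq_zero.1 (tendsto_nhds_unique hl hz)
    rw [hR0, hR0] at this
    simpa using this


section manifold

variable {n : ℕ} {X : Type*} [TopologicalSpace X] [ChartedSpace (Model n) X]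
  [IsManifold (mI n) ω X]

/-- local homogeneous coordinates along a holomorphic curve -/
theorem lift_local {N : ℕ} (pe : ProjEmbedding n X N) {g : ℂ → X} {z0 : ℂ}
    (hg : ContMDiffAt 𝓘(ℂ, ℂ) (mI n) ω g z0) :
    AnalyticAt ℂ (fun z => pe.coords (g z0) (g z)) z0 ∧ pe.coords (g z0) (g z0) ≠ 0 ∧
      ∀ᶠ z in 𝓝 z0, g z ∈ pe.nbhd (g z0) ∧
        ∃ l : ℂ, l ≠ 0 ∧ pe.coords (g z) (g z) = l • pe.coords (g z0) (g z) := by
  have hmem := pe.mem_nbhd (g z0)
  have hopen := pe.isOpen_nbhd (g z0)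
  refine ⟨?_, pe.ne_zero _ _ hmem, ?_⟩
  · have h1 : ContMDiffAt (mI n) 𝓘(ℂ, Fin (N + 1) → ℂ) ω (pe.coords (g z0)) (g z0) :=
      (pe.holomorphic (g z0)).contMDiffAt (hopen.mem_nhds hmem)
    have h2 : ContMDiffAt 𝓘(ℂ, ℂ) 𝓘(ℂ, Fin (N + 1) → ℂ) ω (fun z => pe.coords (g z0) (g z)) z0 :=
      h1.comp z0 hg
    exact h2.contDiffAt.analyticAt
  · have hev : ∀ᶠ z in 𝓝 z0, g z ∈ pe.nbhd (g z0) :=
      hg.continuousAt.eventually_mem (hopen.mem_nhds hmem)
    filter_upwards [hev] with z hz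
    obtain ⟨l, hl⟩ := pe.compatible (g z0) (g z) (g z) ⟨hz, pe.mem_nbhd (g z)⟩
    refine ⟨hz, l, ?_, hl⟩
    rintro rfl
    rw [zero_smul] at hl
    exact pe.ne_zero (g z) (g z) (pe.mem_nbhd _) hl

/-- **P1POLY.** A holomorphic map from the projective line to a projective manifold is given by
polynomials without common zero on the projective line. -/
theorem p1_poly {N : ℕ} (pe : ProjEmbedding n X N) (g0 g1 : ℂ → X)
    (h0 : ContMDiff 𝓘(ℂ, ℂ) (mI n) ω g0) (h1 : ContMDiff 𝓘(ℂ, ℂ) (mI n) ω g1)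
    (h01 : ∀ z : ℂ, z ≠ 0 → g1 z = g0 z⁻¹) :
    ∃ (d : ℕ) (q : Fin (N + 1) → Fin (d + 1) → ℂ), (∀ z, pev q z ≠ 0) ∧
      (∃ i, q i (Fin.last d) ≠ 0) ∧
      (∀ z, ∃ c : ℂ, c ≠ 0 ∧ pev q z = c • pe.coords (g0 z) (g0 z)) ∧
      ∃ c : ℂ, c ≠ 0 ∧ (fun i => q i (Fin.last d)) = c • pe.coords (g1 0) (g1 0) := by
  have hpar : ∀ (a b : Fin (N + 1) → ℂ), a ≠ 0 → b ≠ 0 → Par a b → ∃ c : ℂ, c ≠ 0 ∧ a = c • b := by
    intro a b ha hb hab
    obtain ⟨i, hi⟩ : ∃ i, b i ≠ 0 := by
      by_contra h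
      push Not at h
      exact hb (funext h)
    have he : a = (a i / b i) • b := by
      funext j
      have := hab j i
      simp only [Pi.smul_apply, smul_eq_mul]
      field_simp
      linear_combination this
    refine ⟨a i / b i, fun h => ha ?_, he⟩
    rw [he, h, zero_smul]
  have hinf : ∀ᶠ w in 𝓝[≠] (0 : ℂ), ∃ l : ℂ, l ≠ 0 ∧
      (fun z => pe.coords (g0 z) (g0 z)) w⁻¹ = l • pe.coords (g1 0) (g1 w) := by
    have h := (lift_local pe (h1.contMDiffAt (x := (0 : ℂ)))).2.2
    filter_upwards [Filter.Eventually.filter_mono nhdsWithin_le_nhds h, self_mem_nhdsWithin]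
      with w hw hw0
    obtain ⟨-, l, hl, hcz⟩ := hw
    refine ⟨l, hl, ?_⟩
    have : g0 w⁻¹ = g1 w := (h01 w hw0).symm
    simp only [this, hcz]
  obtain ⟨d, q, hq0, hq1, hq2, hq3⟩ := p1_poly_pure (fun z => pe.coords (g0 z) (g0 z))
    (fun z => pe.ne_zero _ _ (pe.mem_nbhd _))
    (fun z0 => ⟨fun z => pe.coords (g0 z0) (g0 z), (lift_local pe h0.contMDiffAt).1,
      (lift_local pe h0.contMDiffAt).2.1,
      (lift_local pe h0.contMDiffAt).2.2.mono fun z hz => hz.2⟩)
    (fun w => pe.coords (g1 0) (g1 w)) (lift_local pe h1.contMDiffAt).1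
    (lift_local pe h1.contMDiffAt).2.1 hinf
  obtain ⟨i, hi⟩ := hq1
  refine ⟨d, q, hq0, ⟨i, hi⟩, fun z => hpar _ _ (hq0 z) (pe.ne_zero _ _ (pe.mem_nbhd _)) (hq2 z),
    hpar _ _ (fun h => hi (congrFun h i)) (pe.ne_zero _ _ (pe.mem_nbhd _)) hq3⟩

end manifold

end Crest.Agent.R266.P1
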