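import Mathlib
import Crest.Prelude.Def_TangentSplitting
import Crest.Agent.R266.Emb
import Crest.Agent.R266.RatDefs

/-!
R266 / PdAn: the set `Pd pe d` of coefficient arrays of polynomial vectors of degree `≤ d` which
define a map `P¹ → X` is locally the common zero set of a family of analytic functions.
-/

set_option autoImplicit false

open scoped Manifold ContDiff Topology
open Set Metric Filter
open Crest.AlgGeometry.HolSplit
open Crest.Agent.R266.Rat

namespace Crest.Agent.R266.Emb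

/-- coefficient arrays -/
abbrev Cf (N d : ℕ) : Type := Fin (N + 1) → Fin (d + 1) → ℂ

/-- reversed coefficients (the other chart of `P¹`) -/
def revc {N d : ℕ} (q : Cf N d) : Cf N d := fun i j => q i (Fin.rev j)

theorem revc_revc {N d : ℕ} (q : Cf N d) : revc (revc q) = q := by
  ext i j; simp [revc]

theorem pev_revc {N d : ℕ} (q : Cf N d) {z : ℂ} (hz : z ≠ 0) :
    pev (revc q) z = z ^ d • pev q z⁻¹ := by
  ext i
  simp only [pev, revc, Pi.smul_apply, smul_eq_mul, Finset.mul_sum]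
  rw [← Equiv.sum_comp Fin.revPerm (fun j => q i (Fin.rev j) * z ^ (j : ℕ))]
  refine Finset.sum_congr rfl fun j _ => ?_
  simp only [Fin.revPerm_apply, Fin.rev_rev, Fin.val_rev]
  have h1 : d + 1 - (↑j + 1) = d - (j : ℕ) := by omega
  have h2 : (j : ℕ) ≤ d := by omega
  rw [h1, pow_sub₀ _ hz h2, inv_pow]
  ring

theorem pev_revc_zero {N d : ℕ} (q : Cf N d) : pev (revc q) 0 = fun i => q i (Fin.last d) := by
  ext i
  simp only [pev, revc]
  rw [Finset.sum_eq_single 0]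
  · simp
  · intro j _ hj
    have : (j : ℕ) ≠ 0 := fun h => hj (Fin.ext h)
    simp [this]
  · simp

/-- `q` or its reversal -/
def cb {N d : ℕ} (b : Bool) (q : Cf N d) : Cf N d := bif b then revc q else q

theorem analyticAt_pev {N d : ℕ} (b : Bool) (p : Cf N d × ℂ) :
    AnalyticAt ℂ (fun p : Cf N d × ℂ => pev (cb b p.1) p.2) p := by
  have hco : ∀ i j, AnalyticAt ℂ (fun p : Cf N d × ℂ => p.1 i j) p := fun i j =>
    (((ContinuousLinearMap.proj (R := ℂ) (φ := fun _ : Fin (d + 1) => ℂ) j).comp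
      (ContinuousLinearMap.proj (R := ℂ) (φ := fun _ : Fin (N + 1) => Fin (d + 1) → ℂ) i)).comp
      (ContinuousLinearMap.fst ℂ (Cf N d) ℂ)).analyticAt p
  rw [analyticAt_pi_iff]
  intro i
  have : (fun p : Cf N d × ℂ => pev (cb b p.1) p.2 i) =
      fun p : Cf N d × ℂ => ∑ j : Fin (d + 1), (cb b p.1) i j * p.2 ^ (j : ℕ) := rfl
  rw [this]
  apply Finset.analyticAt_fun_sum
  intro j _
  apply AnalyticAt.mul
  · cases b
    · exact hco i j
    · exact hco i (Fin.rev j)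
  · exact analyticAt_snd.pow _

section
variable {n N : ℕ} {X : Type} [TopologicalSpace X] [ChartedSpace (Model n) X]
  [IsManifold (mI n) ω X]

/-- coefficient arrays of rational curves in `X` -/
def Pd (pe : ProjEmbedding n X N) (d : ℕ) : Set (Cf N d) :=
  {q | (∀ z, ∃ x, OnX pe (pev q z) x) ∧ ∃ x, OnX pe (fun i => q i (Fin.last d)) x}

variable {pe : ProjEmbedding n X N} {d : ℕ}

theorem Pd_pev {q : Cf N d} (h : q ∈ Pd pe d) (b : Bool) (z : ℂ) :
    ∃ x, OnX pe (pev (cb b q) z) x := by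
  cases b
  · exact h.1 z
  · show ∃ x, OnX pe (pev (revc q) z) x
    by_cases hz : z = 0
    · rw [hz, pev_revc_zero]; exact h.2
    · rw [pev_revc q hz]
      obtain ⟨x, hx⟩ := h.1 z⁻¹
      exact ⟨x, hx.smul (pow_ne_zero _ hz)⟩

theorem mem_Pd_of {q : Cf N d}
    (h : ∀ b, ∀ z ∈ closedBall (0 : ℂ) 1, ∃ x, OnX pe (pev (cb b q) z) x) : q ∈ Pd pe d := by
  constructor
  · intro z
    by_cases hz : ‖z‖ ≤ 1
    · exact h false z (by simpa using hz)
    · have hz0 : z ≠ 0 := by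
        rintro rfl
        simp at hz
      obtain ⟨x, hx⟩ := h true z⁻¹ (by
        simp only [mem_closedBall, dist_zero_right, norm_inv]
        exact inv_le_one_of_one_le₀ (le_of_not_ge hz))
      have h1 : pev (cb true q) z⁻¹ = z⁻¹ ^ d • pev q z := by
        have := pev_revc q (inv_ne_zero hz0)
        rw [inv_inv] at this
        exact this
      rw [h1] at hx
      have h2 := hx.smul (c := z ^ d) (pow_ne_zero _ hz0)
      rw [smul_smul, ← mul_pow, mul_inv_cancel₀ hz0, one_pow, one_smul] at h2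
      exact ⟨x, h2⟩
  · obtain ⟨x, hx⟩ := h true 0 (by simp)
    have : pev (cb true q) 0 = fun i => q i (Fin.last d) := pev_revc_zero q
    rw [this] at hx
    exact ⟨x, hx⟩

variable [CompactSpace X]

/-- **`P_d` is locally the common zero set of a family of analytic functions.** -/
theorem Pd_local {q₀ : Cf N d} (h : q₀ ∈ Pd pe d) :
    ∃ (O : Set (Cf N d)) (ι : Type) (F : ι → Cf N d → ℂ), IsOpen O ∧ q₀ ∈ O ∧
      (∀ i, AnalyticOnNhd ℂ (F i) O) ∧ ∀ q ∈ O, (q ∈ Pd pe d ↔ ∀ i, F i q = 0) := by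
  classical
  -- local data at each (b, z)
  have hloc : ∀ (b : Bool) (z : ℂ), ∃ (Om : Set (CN N)) (Φ : CN N → CN N) (O : Set (Cf N d))
      (D : Set ℂ), IsOpen O ∧ q₀ ∈ O ∧ IsOpen D ∧ z ∈ D ∧ AnalyticOnNhd ℂ Φ Om ∧
      (∀ v ∈ Om, Φ v = 0 ↔ ∃ x, OnX pe v x) ∧ ∀ q ∈ O, ∀ w ∈ D, pev (cb b q) w ∈ Om := by
    intro b z
    obtain ⟨x, hx⟩ := Pd_pev h b z
    obtain ⟨Om, hOmo, hmem, σ, Φ, _, hΦ, _, hiff, _⟩ := exists_retr hx
    have hc : ContinuousAt (fun p : Cf N d × ℂ => pev (cb b p.1) p.2) (q₀, z) :=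
      (analyticAt_pev b (q₀, z)).continuousAt
    have h1 : ∀ᶠ p : Cf N d × ℂ in 𝓝 (q₀, z), pev (cb b p.1) p.2 ∈ Om :=
      hc.eventually (hOmo.mem_nhds hmem)
    rw [nhds_prod_eq, Filter.eventually_prod_iff] at h1
    obtain ⟨pa, hpa, pb, hpb, hab⟩ := h1
    obtain ⟨O, hO, hOo, hq₀⟩ := _root_.eventually_nhds_iff.mp hpa
    obtain ⟨D, hD, hDo, hzD⟩ := _root_.eventually_nhds_iff.mp hpb
    exact ⟨Om, Φ, O, D, hOo, hq₀, hDo, hzD, hΦ, hiff, fun q hq w hw => hab (hO q hq) (hD w hw)⟩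
  choose Om Φ O D hO hq₀ hD hzD hΦ hiff hmap using hloc
  have hcov : ∀ b, ∃ t : Finset ℂ, closedBall (0 : ℂ) 1 ⊆ ⋃ z ∈ t, D b z := by
    intro b
    obtain ⟨t, ht⟩ := (isCompact_closedBall (0 : ℂ) 1).elim_finite_subcover (D b)
      (fun z => hD b z) (fun z _ => mem_iUnion.mpr ⟨z, hzD b z⟩)
    exact ⟨t, ht⟩
  choose t ht using hcov
  refine ⟨⋂ b, ⋂ z ∈ t b, O b z,
    {j : Bool × ℂ × ℂ × Fin (N + 1) // j.2.1 ∈ t j.1 ∧ j.2.2.1 ∈ D j.1 j.2.1 ∧
      j.2.2.1 ∈ closedBall (0 : ℂ) 1},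
    fun j q => Φ j.1.1 j.1.2.1 (pev (cb j.1.1 q) j.1.2.2.1) j.1.2.2.2, ?_, ?_, ?_, ?_⟩
  · exact isOpen_iInter_of_finite fun b => isOpen_biInter_finset fun z _ => hO b z
  · exact mem_iInter.mpr fun b => mem_iInter₂.mpr fun z _ => hq₀ b z
  · rintro ⟨⟨b, z, w, i⟩, hz, hw, _⟩ q hq
    have hqO : q ∈ O b z := mem_iInter₂.mp (mem_iInter.mp hq b) z hz
    have h1 : AnalyticAt ℂ (Φ b z) (pev (cb b q) w) := hΦ b z _ (hmap b z q hqO w hw)
    have h2 : AnalyticAt ℂ (fun q : Cf N d => pev (cb b q) w) q :=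
      AnalyticAt.comp (g := fun p : Cf N d × ℂ => pev (cb b p.1) p.2) (f := fun q => (q, w))
        (analyticAt_pev b (q, w)) (analyticAt_id.prod analyticAt_const)
    have h3 : AnalyticAt ℂ (fun q : Cf N d => Φ b z (pev (cb b q) w)) q :=
      AnalyticAt.comp (g := Φ b z) (f := fun q : Cf N d => pev (cb b q) w) h1 h2
    exact ((ContinuousLinearMap.proj (R := ℂ) (φ := fun _ : Fin (N + 1) => ℂ) i).analyticAt _).comp h3
  · intro q hq
    have hqO : ∀ b, ∀ z ∈ t b, q ∈ O b z := fun b z hz => mem_iInter₂.mp (mem_iInter.mp hq b) z hz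
    constructor
    · rintro hP ⟨⟨b, z, w, i⟩, hz, hw, _⟩
      have h1 := (hiff b z _ (hmap b z q (hqO b z hz) w hw)).mpr (Pd_pev hP b w)
      simp only [h1, Pi.zero_apply]
    · intro hF
      apply mem_Pd_of
      intro b w hw
      obtain ⟨z, hz, hwz⟩ := mem_iUnion₂.mp (ht b hw)
      rw [← hiff b z _ (hmap b z q (hqO b z hz) w hwz)]
      ext i
      exact hF ⟨⟨b, z, w, i⟩, hz, hwz, hw⟩

/-! ### the family of curves attached to an analytic family of coefficient arrays -/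

theorem exists_fam {S : Type*} [NormedAddCommGroup S] [NormedSpace ℂ S] [Nonempty X]
    {W : Set S} (hW : IsOpen W) {γ : S → Cf N d} (hγ : AnalyticOnNhd ℂ γ W)
    (hP : ∀ s ∈ W, γ s ∈ Pd pe d) :
    ∃ f : S → Bool → ℂ → X,
      (∀ b, ContMDiffOn 𝓘(ℂ, S × ℂ) (mI n) ω (fun p : S × ℂ => f p.1 b p.2) (W ×ˢ univ)) ∧
      (∀ s ∈ W, ∀ b z, OnX pe (pev (cb b (γ s)) z) (f s b z)) ∧
      (∀ s ∈ W, ∀ b, ∀ z : ℂ, z ≠ 0 → f s (!b) z = f s b z⁻¹) := by
  classical
  have hex : ∀ s ∈ W, ∀ b z, ∃ x, OnX pe (pev (cb b (γ s)) z) x := fun s hs b z => Pd_pev (hP s hs) b z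
  set f : S → Bool → ℂ → X := fun s b z =>
    if hs : s ∈ W then (hex s hs b z).choose else Classical.arbitrary X with hf
  have hon : ∀ s ∈ W, ∀ b z, OnX pe (pev (cb b (γ s)) z) (f s b z) := by
    intro s hs b z
    simp only [hf, hs, dif_pos]
    exact (hex s hs b z).choose_spec
  refine ⟨f, ?_, hon, ?_⟩
  · intro b
    apply contMDiffOn_lift (pe := pe) (q := fun p : S × ℂ => pev (cb b (γ p.1)) p.2)
      (hW.prod isOpen_univ)
    · rintro ⟨s, z⟩ ⟨hs, _⟩
      have h2 : AnalyticAt ℂ (fun p : S × ℂ => (γ p.1, p.2)) (s, z) :=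
        (AnalyticAt.comp (g := γ) (f := fun p : S × ℂ => p.1) (hγ s hs) analyticAt_fst).prod
          analyticAt_snd
      exact AnalyticAt.comp (g := fun p : Cf N d × ℂ => pev (cb b p.1) p.2)
        (f := fun p : S × ℂ => (γ p.1, p.2)) (analyticAt_pev b _) h2
    · rintro ⟨s, z⟩ ⟨hs, _⟩
      exact hon s hs b z
  · intro s hs b z hz
    have h1 := hon s hs (!b) z
    have h2 := (hon s hs b z⁻¹).smul (c := z ^ d) (pow_ne_zero _ hz)
    have h3 : pev (cb (!b) (γ s)) z = z ^ d • pev (cb b (γ s)) z⁻¹ := by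
      cases b
      · exact pev_revc (γ s) hz
      · have := pev_revc (revc (γ s)) hz
        rw [revc_revc] at this
        exact this
    rw [h3] at h1
    exact h1.unique h2

end

end Crest.Agent.R266.Emb
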