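import Mathlib
import Crest.Prelude.Def_TangentSplitting
import Crest.Agent.R266.Emb
import Crest.Agent.R266.PdAn
import Crest.Agent.R266.P1Poly

/-! R266 / P1PolyX: `p1_poly` in the `OnX` form. -/

set_option autoImplicit false

open scoped Manifold ContDiff Topology
open Crest.AlgGeometry.HolSplit
open Crest.Agent.R266.Rat

namespace Crest.Agent.R266.P1

variable {n N : ℕ} {X : Type} [TopologicalSpace X] [ChartedSpace (Model n) X]
  [IsManifold (mI n) ω X]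

/-- a holomorphic map from the projective line to a projective manifold is given by polynomials
without common zero -/
theorem p1_poly_onX (pe : ProjEmbedding n X N) (g0 g1 : ℂ → X)
    (h0 : ContMDiff 𝓘(ℂ, ℂ) (mI n) ω g0) (h1 : ContMDiff 𝓘(ℂ, ℂ) (mI n) ω g1)
    (h01 : ∀ z : ℂ, z ≠ 0 → g1 z = g0 z⁻¹) :
    ∃ (d : ℕ) (q : Fin (N + 1) → Fin (d + 1) → ℂ), (∀ z, Emb.OnX pe (pev q z) (g0 z)) ∧
      Emb.OnX pe (fun i => q i (Fin.last d)) (g1 0) := by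
  obtain ⟨d, q, hq0, ⟨i, hi⟩, hq2, c, hc, hcq⟩ := p1_poly pe g0 g1 h0 h1 h01
  refine ⟨d, q, fun z => ?_, ?_⟩
  · obtain ⟨c, hc, hcz⟩ := hq2 z
    rw [hcz]
    exact (Emb.onX_coords pe (pe.mem_nbhd (g0 z))).smul hc
  · rw [hcq]
    exact (Emb.onX_coords pe (pe.mem_nbhd (g1 0))).smul hc

/-- the coefficient array of the previous theorem lies in `Pd` -/
theorem p1_poly_Pd (pe : ProjEmbedding n X N) (g0 g1 : ℂ → X)
    (h0 : ContMDiff 𝓘(ℂ, ℂ) (mI n) ω g0) (h1 : ContMDiff 𝓘(ℂ, ℂ) (mI n) ω g1)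
    (h01 : ∀ z : ℂ, z ≠ 0 → g1 z = g0 z⁻¹) :
    ∃ (d : ℕ) (q : Emb.Cf N d), q ∈ Emb.Pd pe d ∧ (∀ z, Emb.OnX pe (pev q z) (g0 z)) ∧
      Emb.OnX pe (fun i => q i (Fin.last d)) (g1 0) := by
  obtain ⟨d, q, hq, hl⟩ := p1_poly_onX pe g0 g1 h0 h1 h01
  exact ⟨d, q, ⟨fun z => ⟨_, hq z⟩, _, hl⟩, hq, hl⟩

end Crest.Agent.R266.P1
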