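import Mathlib
import Crest.Agent.R266.Chart2

/-!
Row 266 (S0404/S0405): chart layer, part 3 (helper35): change of charts, identity theorem,
constancy of the rank, differentials of maps and sections along maps in charts.
-/

set_option autoImplicit false

open Set Function Filter VectorField
open scoped Manifold ContDiff Topology
open Crest.AlgGeometry.HolSplit

namespace Crest.Agent.R266

noncomputable section

variable {n : ℕ} {X : Type*} [TopologicalSpace X] [ChartedSpace (Model n) X]
  [IsManifold (mI n) ω X]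

/-! ### change of charts -/

/-- derivative of the change of charts -/
lemma hasFDerivAt_change {x y z : X} (hx : z ∈ (chartAt (Model n) x).source)
    (hy : z ∈ (chartAt (Model n) y).source) :
    HasFDerivAt (fun p => chartAt (Model n) y ((chartAt (Model n) x).symm p)) (tcc x y z)
      (chartAt (Model n) x z) := by
  have := hasFDerivWithinAt_tangentCoordChange (I := mI n) (x := x) (y := y) (z := z)
    (by simpa [extChartAt_source] using ⟨hx, hy⟩)
  simpa [extChartAt, hasFDerivWithinAt_univ] using! this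

lemma fderiv_change {x y z : X} (hx : z ∈ (chartAt (Model n) x).source)
    (hy : z ∈ (chartAt (Model n) y).source) :
    fderiv ℂ (fun p => chartAt (Model n) y ((chartAt (Model n) x).symm p)) (chartAt (Model n) x z)
      = tcc x y z := (hasFDerivAt_change hx hy).fderiv

lemma analyticAt_change {x y z : X} (hx : z ∈ (chartAt (Model n) x).source)
    (hy : z ∈ (chartAt (Model n) y).source) :
    AnalyticAt ℂ (fun p => chartAt (Model n) y ((chartAt (Model n) x).symm p))
      (chartAt (Model n) x z) := by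
  have h1 : ContMDiffAt 𝓘(ℂ, Model n) (mI n) ω (chartAt (Model n) x).symm
      (chartAt (Model n) x z) :=
    (contMDiffOn_chart_symm (I := mI n) (n := ω) (x := x)).contMDiffAt
      ((chartAt (Model n) x).open_target.mem_nhds ((chartAt (Model n) x).map_source hx))
  have h2 : ContMDiffAt (mI n) 𝓘(ℂ, Model n) ω (chartAt (Model n) y)
      ((chartAt (Model n) x).symm (chartAt (Model n) x z)) := by
    rw [(chartAt (Model n) x).left_inv hx]
    exact (contMDiffOn_chart (I := mI n) (n := ω) (x := y)).contMDiffAt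
      ((chartAt (Model n) y).open_source.mem_nhds hy)
  have h3 := h2.comp (chartAt (Model n) x z) h1
  have h4 := contMDiffAt_iff_contDiffAt.1 h3
  exact h4.analyticAt

/-- the projection in two charts -/
lemma Pc_change (S : Splitting n X) {x₀ x₁ z : X} (h0 : z ∈ (chartAt (Model n) x₀).source)
    (h1 : z ∈ (chartAt (Model n) x₁).source) (v : Model n) :
    Pc S x₁ (chartAt (Model n) x₁ z) (tcc x₀ x₁ z v) =
      tcc x₀ x₁ z (Pc S x₀ (chartAt (Model n) x₀ z) v) := by
  have hz := mem_chart_source (Model n) z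
  simp only [Pc_apply, (chartAt (Model n) x₀).left_inv h0, (chartAt (Model n) x₁).left_inv h1]
  rw [tcc_comp h0 h1 hz, tcc_comp hz h0 h1]

lemma Pc_at (S : Splitting n X) {x₀ z : X} (h0 : z ∈ (chartAt (Model n) x₀).source) (v : Model n) :
    Pc S x₀ (chartAt (Model n) x₀ z) (tcc z x₀ z v) = tcc z x₀ z (pr S z v) := by
  have := Pc_tcc S ((chartAt (Model n) x₀).map_source h0) v
  rwa [(chartAt (Model n) x₀).left_inv h0] at this

lemma Pc_self (S : Splitting n X) (z : X) :
    Pc S z (chartAt (Model n) z z) = pr S z := by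
  ext1 v
  have := Pc_at S (mem_chart_source (Model n) z) v
  rwa [tcc_self (mem_chart_source _ z), tcc_self (mem_chart_source _ z)] at this

/-- membership in `E₁` in a chart. -/
lemma proj_eq_iff (S : Splitting n X) {x₀ z : X} (h0 : z ∈ (chartAt (Model n) x₀).source)
    (v : Model n) :
    Pc S x₀ (chartAt (Model n) x₀ z) (tcc z x₀ z v) = tcc z x₀ z v ↔ pr S z v = v := by
  rw [Pc_at S h0]
  exact ⟨fun h => tcc_inj h0 h, fun h => by rw [h]⟩

/-- membership in `E₂` in a chart. -/
lemma proj_zero_iff (S : Splitting n X) {x₀ z : X} (h0 : z ∈ (chartAt (Model n) x₀).source)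
    (v : Model n) :
    Pc S x₀ (chartAt (Model n) x₀ z) (tcc z x₀ z v) = 0 ↔ pr S z v = 0 := by
  rw [Pc_at S h0]
  refine ⟨fun h => tcc_inj h0 (h.trans (map_zero _).symm), fun h => by rw [h, map_zero]⟩

lemma Pc_analyticOnNhd (S : Splitting n X) (x₀ : X) :
    AnalyticOnNhd ℂ (Pc S x₀) (chartAt (Model n) x₀).target := by
  intro y hy
  exact ((Pc_contDiffOn S x₀).contDiffAt
    ((chartAt (Model n) x₀).open_target.mem_nhds hy)).analyticAt

lemma an_clm_apply {E F G : Type*} [NormedAddCommGroup E] [NormedSpace ℂ E]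
    [NormedAddCommGroup F] [NormedSpace ℂ F] [NormedAddCommGroup G] [NormedSpace ℂ G]
    [CompleteSpace F] [CompleteSpace G]
    {f : E → F →L[ℂ] G} {g : E → F} {x : E} (hf : AnalyticAt ℂ f x) (hg : AnalyticAt ℂ g x) :
    AnalyticAt ℂ (fun y => f y (g y)) x :=
  (hf.contDiffAt.clm_apply hg.contDiffAt : ContDiffAt ℂ ω _ x).analyticAt

/-! ### identity theorem for integrability -/

lemma analyticAt_T1 {P : Model n → Model n →L[ℂ] Model n} {y : Model n} (hP : AnalyticAt ℂ P y)
    (u v : Model n) :
    AnalyticAt ℂ (fun y => fderiv ℂ P y (P y u) (P y v) - fderiv ℂ P y (P y v) (P y u)) y := by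
  have h1 : AnalyticAt ℂ (fderiv ℂ P) y := hP.fderiv
  have h2 : ∀ u : Model n, AnalyticAt ℂ (fun y => P y u) y :=
    fun u => an_clm_apply hP analyticAt_const
  exact (an_clm_apply (an_clm_apply h1 (h2 u)) (h2 v)).sub
    (an_clm_apply (an_clm_apply h1 (h2 v)) (h2 u))

lemma analyticAt_T2 {P : Model n → Model n →L[ℂ] Model n} {y : Model n} (hP : AnalyticAt ℂ P y)
    (u v : Model n) :
    AnalyticAt ℂ (fun y => fderiv ℂ P y (u - P y u) (v - P y v) -
      fderiv ℂ P y (v - P y v) (u - P y u)) y := by
  have h1 : AnalyticAt ℂ (fderiv ℂ P) y := hP.fderiv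
  have h2 : ∀ u : Model n, AnalyticAt ℂ (fun y => u - P y u) y :=
    fun u => analyticAt_const.sub (an_clm_apply hP analyticAt_const)
  exact (an_clm_apply (an_clm_apply h1 (h2 u)) (h2 v)).sub
    (an_clm_apply (an_clm_apply h1 (h2 v)) (h2 u))

omit [IsManifold (mI n) ω X] in
/-- A property which in all charts is the vanishing of a family of analytic functions, and holds
on a nonempty open subset of a connected manifold, holds everywhere. -/
theorem identity_principle [PreconnectedSpace X] {ι : Type*} (p : X → Prop)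
    (F : X → ι → Model n → Model n)
    (hF : ∀ x₀ i, ∀ y ∈ (chartAt (Model n) x₀).target, AnalyticAt ℂ (F x₀ i) y)
    (hp : ∀ x₀, ∀ z ∈ (chartAt (Model n) x₀).source,
      (p z ↔ ∀ i, F x₀ i (chartAt (Model n) x₀ z) = 0))
    {U : Set X} (hU : IsOpen U) (hne : U.Nonempty) (hUp : ∀ z ∈ U, p z) : ∀ z, p z := by
  have hcl : IsClosed (interior {z | p z}) := by
    rw [← closure_subset_iff_isClosed]
    intro z hz
    set e := chartAt (Model n) z with he
    have hzs : z ∈ e.source := mem_chart_source _ z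
    have hzt : e z ∈ e.target := e.map_source hzs
    obtain ⟨r, hr, hrt⟩ := Metric.isOpen_iff.1 e.open_target (e z) hzt
    have hV : IsOpen (e.source ∩ e ⁻¹' Metric.ball (e z) r) :=
      e.isOpen_inter_preimage Metric.isOpen_ball
    have hzV : z ∈ e.source ∩ e ⁻¹' Metric.ball (e z) r := ⟨hzs, Metric.mem_ball_self hr⟩
    obtain ⟨w, hwV, hwA⟩ := mem_closure_iff.1 hz _ hV hzV
    refine mem_interior.2 ⟨_, ?_, hV, hzV⟩
    intro q hq
    refine (hp z q hq.1).2 fun i => ?_
    have hpre : IsPreconnected (Metric.ball (e z) r) := (convex_ball _ _).isPreconnected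
    have han : AnalyticOnNhd ℂ (F z i) (Metric.ball (e z) r) := fun y hy => hF z i y (hrt hy)
    have hev : F z i =ᶠ[𝓝 (e w)] 0 := by
      have h1 : e.target ∩ e.symm ⁻¹' (interior {z | p z}) ∈ 𝓝 (e w) :=
        (e.isOpen_inter_preimage_symm isOpen_interior).mem_nhds
          ⟨e.map_source hwV.1, by simpa [e.left_inv hwV.1] using hwA⟩
      filter_upwards [h1] with y hy
      have h2 : p (e.symm y) := interior_subset hy.2
      have h3 := (hp z _ (e.map_target hy.1)).1 h2 i
      rwa [e.right_inv hy.1] at h3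
    exact han.eqOn_zero_of_preconnected_of_eventuallyEq_zero hpre hwV.2 hev hq.2
  have hun : interior {z | p z} = univ :=
    IsClopen.eq_univ ⟨hcl, isOpen_interior⟩ (hne.mono (interior_maximal hUp hU))
  intro z
  have : z ∈ interior {z | p z} := by rw [hun]; trivial
  exact interior_subset this

theorem firstIntegrable_of_open [PreconnectedSpace X] (S : Splitting n X) {U : Set X}
    (hU : IsOpen U) (hne : U.Nonempty) (h : ∀ z ∈ U, IntAt1 S z) : S.FirstIntegrable := by
  rw [firstIntegrable_iff_intAt]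
  refine identity_principle (IntAt1 S) (ι := Model n × Model n)
    (fun x₀ i y => fderiv ℂ (Pc S x₀) y (Pc S x₀ y i.1) (Pc S x₀ y i.2) -
      fderiv ℂ (Pc S x₀) y (Pc S x₀ y i.2) (Pc S x₀ y i.1)) ?_ ?_ hU hne h
  · intro x₀ i y hy
    exact analyticAt_T1 (Pc_analyticOnNhd S x₀ y hy) i.1 i.2
  · intro x₀ z hz
    rw [intAt1_iff S hz, T1_iff_of_idem (Pc_idem S ((chartAt (Model n) x₀).map_source hz))]
    constructor
    · intro h i
      rw [h i.1 i.2, sub_self]
    · intro h u v
      exact sub_eq_zero.1 (h (u, v))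

theorem secondIntegrable_of_open [PreconnectedSpace X] (S : Splitting n X) {U : Set X}
    (hU : IsOpen U) (hne : U.Nonempty) (h : ∀ z ∈ U, IntAt2 S z) : S.SecondIntegrable := by
  rw [secondIntegrable_iff_intAt]
  refine identity_principle (IntAt2 S) (ι := Model n × Model n)
    (fun x₀ i y => fderiv ℂ (Pc S x₀) y (i.1 - Pc S x₀ y i.1) (i.2 - Pc S x₀ y i.2) -
      fderiv ℂ (Pc S x₀) y (i.2 - Pc S x₀ y i.2) (i.1 - Pc S x₀ y i.1)) ?_ ?_ hU hne h
  · intro x₀ i y hy
    exact analyticAt_T2 (Pc_analyticOnNhd S x₀ y hy) i.1 i.2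
  · intro x₀ z hz
    rw [intAt2_iff S hz, T2_iff_of_idem (Pc_idem S ((chartAt (Model n) x₀).map_source hz))]
    constructor
    · intro h i
      rw [h i.1 i.2, sub_self]
    · intro h u v
      exact sub_eq_zero.1 (h (u, v))

/-! ### rank -/

/-- rank of the first summand at a point -/
def rk (S : Splitting n X) (z : X) : ℕ := Module.finrank ℂ (LinearMap.range (pr S z).toLinearMap)

lemma trace_idem {P : Model n →L[ℂ] Model n} (h : ∀ v, P (P v) = P v) :
    LinearMap.trace ℂ (Model n) P.toLinearMap =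
      (Module.finrank ℂ (LinearMap.range P.toLinearMap) : ℂ) := by
  have hi : IsIdempotentElem P.toLinearMap := by
    ext1 v
    exact h v
  exact (LinearMap.IsIdempotentElem.isProj_range _ hi).trace

lemma rk_eq_trace (S : Splitting n X) {x₀ z : X} (h0 : z ∈ (chartAt (Model n) x₀).source) :
    LinearMap.trace ℂ (Model n) (Pc S x₀ (chartAt (Model n) x₀ z)).toLinearMap = (rk S z : ℂ) := by
  have h1 : LinearMap.trace ℂ (Model n) (pr S z).toLinearMap = (rk S z : ℂ) :=
    trace_idem (pr_idem S z)
  rw [← h1]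
  have h2 : (Pc S x₀ (chartAt (Model n) x₀ z)).toLinearMap =
      (tcc z x₀ z).toLinearMap ∘ₗ (pr S z).toLinearMap ∘ₗ (tcc x₀ z z).toLinearMap := by
    ext1 v
    have := Pc_apply S x₀ (chartAt (Model n) x₀ z) v
    rwa [(chartAt (Model n) x₀).left_inv h0] at this
  rw [h2, LinearMap.trace_comp_comm', LinearMap.comp_assoc]
  congr 1
  ext1 v
  exact congrArg (pr S z) (tcc_cancel' h0 v)

lemma finrank_range_Pc (S : Splitting n X) {x₀ z : X} (h0 : z ∈ (chartAt (Model n) x₀).source) :
    Module.finrank ℂ (LinearMap.range (Pc S x₀ (chartAt (Model n) x₀ z)).toLinearMap) =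
      rk S z := by
  have h1 := trace_idem (Pc_idem S ((chartAt (Model n) x₀).map_source h0))
  rw [rk_eq_trace S h0] at h1
  exact_mod_cast h1.symm

lemma finrank_ker_Pc (S : Splitting n X) {x₀ z : X} (h0 : z ∈ (chartAt (Model n) x₀).source) :
    Module.finrank ℂ (LinearMap.ker (Pc S x₀ (chartAt (Model n) x₀ z)).toLinearMap) =
      n - rk S z := by
  have h1 := finrank_range_Pc S h0
  have h2 := LinearMap.finrank_range_add_finrank_ker
    (Pc S x₀ (chartAt (Model n) x₀ z)).toLinearMap
  rw [finrank_euclideanSpace_fin] at h2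
  omega

lemma rk_pos (S : Splitting n X) (z : X) : 0 < rk S z := by
  rw [Nat.pos_iff_ne_zero]
  intro h
  apply S.first_ne_zero z
  have h1 : LinearMap.range (pr S z).toLinearMap = ⊥ := Submodule.finrank_eq_zero.1 h
  have h2 : (pr S z).toLinearMap = 0 := LinearMap.range_eq_bot.1 h1
  exact ContinuousLinearMap.ext fun v => LinearMap.congr_fun h2 v

lemma rk_lt (S : Splitting n X) (z : X) : rk S z < n := by
  have h2 := LinearMap.finrank_range_add_finrank_ker (pr S z).toLinearMap
  rw [finrank_euclideanSpace_fin] at h2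
  rcases Nat.lt_or_ge (rk S z) n with h | h
  · exact h
  exfalso
  apply S.second_ne_zero z
  have h3 : Module.finrank ℂ (LinearMap.ker (pr S z).toLinearMap) = 0 := by
    unfold rk at h
    omega
  have h4 : LinearMap.ker (pr S z).toLinearMap = ⊥ := Submodule.finrank_eq_zero.1 h3
  have h6 : ∀ v : Model n, pr S z v = v := by
    intro v
    have h5 : v - pr S z v ∈ LinearMap.ker (pr S z).toLinearMap := by
      rw [LinearMap.mem_ker]
      exact (map_sub (pr S z) _ _).trans (sub_eq_zero.2 (pr_idem S z v).symm)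
    rw [h4, Submodule.mem_bot] at h5
    exact (sub_eq_zero.1 h5).symm
  exact ContinuousLinearMap.ext h6

lemma rk_locallyConstant (S : Splitting n X) : IsLocallyConstant (rk S) := by
  rw [IsLocallyConstant.iff_eventually_eq]
  intro x₀
  set e := chartAt (Model n) x₀ with he
  have hc : ContinuousOn (fun z => LinearMap.trace ℂ (Model n) (Pc S x₀ (e z)).toLinearMap)
      e.source := by
    have h1 : ContinuousOn (fun z => Pc S x₀ (e z)) e.source :=
      (Pc_contDiffOn S x₀).continuousOn.comp e.continuousOn (fun z hz => e.map_source hz)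
    have h2 : Continuous (fun P : Model n →L[ℂ] Model n =>
        LinearMap.trace ℂ (Model n) P.toLinearMap) := by
      exact LinearMap.continuous_of_finiteDimensional
        ((LinearMap.trace ℂ (Model n)) ∘ₗ (ContinuousLinearMap.coeLM ℂ))
    exact h2.comp_continuousOn h1
  have hx : x₀ ∈ e.source := mem_chart_source _ x₀
  have hca := hc.continuousAt (e.open_source.mem_nhds hx)
  have h3 := hca (Metric.ball_mem_nhds _ (by norm_num : (0:ℝ) < 1/2))
  filter_upwards [h3, e.open_source.mem_nhds hx] with z hz hzs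
  have hz' : dist (LinearMap.trace ℂ (Model n) (Pc S x₀ (e z)).toLinearMap)
    (LinearMap.trace ℂ (Model n) (Pc S x₀ (e x₀)).toLinearMap) < 1/2 := hz
  rw [rk_eq_trace S hzs, rk_eq_trace S hx, dist_eq_norm] at hz'
  have h5 : ((rk S z : ℤ) - (rk S x₀ : ℤ) : ℤ) = 0 := by
    have h6 : ‖(((rk S z : ℤ) - (rk S x₀ : ℤ) : ℤ) : ℂ)‖ < 1/2 := by
      push_cast
      exact hz'
    rw [Complex.norm_intCast] at h6
    by_contra hne
    have h7 : (1:ℤ) ≤ |(rk S z : ℤ) - (rk S x₀ : ℤ)| := Int.one_le_abs hne
    have h8 : (1:ℝ) ≤ |(((rk S z : ℤ) - (rk S x₀ : ℤ) : ℤ) : ℝ)| := by exact_mod_cast h7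
    linarith
  omega

lemma rk_const [PreconnectedSpace X] (S : Splitting n X) (x y : X) : rk S x = rk S y :=
  (rk_locallyConstant S).apply_eq_of_isPreconnected isPreconnected_univ trivial trivial

end

end Crest.Agent.R266
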