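import Mathlib

/-! Local analytic charts from the inverse function theorem. -/

set_option autoImplicit false
open Set Filter Topology
open scoped ContDiff

namespace Crest.Agent.R266

variable {E F : Type*} [NormedAddCommGroup E] [NormedSpace ℂ E] [CompleteSpace E]
  [NormedAddCommGroup F] [NormedSpace ℂ F] [CompleteSpace F]

/-- Inverse function theorem, analytic form with localisation of the source. -/
theorem exists_chart {f : E → F} {f' : E ≃L[ℂ] F} {a : E} (hf : AnalyticAt ℂ f a)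
    (hf' : HasFDerivAt f (f' : E →L[ℂ] F) a) {N : Set E} (hN : N ∈ 𝓝 a) :
    ∃ e : OpenPartialHomeomorph E F, a ∈ e.source ∧ e.source ⊆ N ∧ (∀ x, e x = f x) ∧
      AnalyticOnNhd ℂ f e.source ∧ AnalyticOnNhd ℂ e.symm e.target ∧
      ∀ x ∈ e.source, ∃ L : E ≃L[ℂ] F, HasFDerivAt f (L : E →L[ℂ] F) x := by
  have hc : ContDiffAt ℂ ω f a := hf.contDiffAt
  have hω : (ω : WithTop ℕ∞) ≠ 0 := by simp
  let e₀ := hc.toOpenPartialHomeomorph f hf' hω
  have he₀ : ∀ x, e₀ x = f x := fun x => rfl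
  have ha₀ : a ∈ e₀.source := hc.mem_toOpenPartialHomeomorph_source hf' hω
  have h1 : ∀ᶠ x in 𝓝 a, AnalyticAt ℂ f x := hf.eventually_analyticAt
  have h2 : ∀ᶠ x in 𝓝 a, fderiv ℂ f x ∈
      range (ContinuousLinearEquiv.toContinuousLinearMap : (E ≃L[ℂ] F) → (E →L[ℂ] F)) := by
    have h3 : ContinuousAt (fderiv ℂ f) a := hf.fderiv.continuousAt
    apply h3.preimage_mem_nhds
    rw [hf'.fderiv]
    exact f'.nhds
  have h4 : N ∩ {x | AnalyticAt ℂ f x ∧ fderiv ℂ f x ∈
      range (ContinuousLinearEquiv.toContinuousLinearMap : (E ≃L[ℂ] F) → (E →L[ℂ] F))} ∈ 𝓝 a :=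
    Filter.inter_mem hN (h1.and h2)
  obtain ⟨s, hsN, hso, has⟩ := mem_nhds_iff.mp h4
  let e := e₀.restrOpen s hso
  have hes : e.source = e₀.source ∩ s := e₀.restrOpen_source s hso
  have hLs : ∀ x ∈ e.source, ∃ L : E ≃L[ℂ] F, HasFDerivAt f (L : E →L[ℂ] F) x := by
    intro x hx
    rw [hes] at hx
    obtain ⟨L, hL⟩ := (hsN hx.2).2.2
    refine ⟨L, ?_⟩
    have := (hsN hx.2).2.1.differentiableAt.hasFDerivAt
    rw [← hL] at this
    exact this
  refine ⟨e, ?_, ?_, fun x => rfl, ?_, ?_, hLs⟩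
  · rw [hes]; exact ⟨ha₀, has⟩
  · rw [hes]; exact fun x hx => (hsN hx.2).1
  · intro x hx
    rw [hes] at hx
    exact (hsN hx.2).2.1
  · intro y hy
    have hx := e.map_target hy
    obtain ⟨L, hL⟩ := hLs _ hx
    have hx' := hx
    rw [hes] at hx'
    exact e.analyticAt_symm (i := L) hy (hsN hx'.2).2.1 hL.fderiv

end Crest.Agent.R266
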