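import Mathlib

/-!
Row 266, S0404, Step 1 (abstract part, helper207): zero sets of families of analytic functions are
countable unions of images of analytic maps, and a weak form of Sard's theorem.
-/

set_option autoImplicit false
open scoped Topology ContDiff
open Set Metric Module

universe u

namespace Crest.Agent.R266.LZ

section Straighten

variable {E F : Type*} [NormedAddCommGroup E] [NormedSpace ℂ E] [FiniteDimensional ℂ E]
  [NormedAddCommGroup F] [NormedSpace ℂ F] [FiniteDimensional ℂ F]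

/-- Local straightening of an analytic submersion. -/
theorem straighten {A : E → F} {q : E} (hA : AnalyticAt ℂ A q)
    (hs : Function.Surjective (fderiv ℂ A q)) {O : Set E} (hO : O ∈ 𝓝 q) :
    ∃ s : ℕ, finrank ℂ F + s = finrank ℂ E ∧
      ∃ (ε : ℝ) (Γ : F × (Fin s → ℂ) → E) (N : Set E),
        0 < ε ∧ IsOpen N ∧ q ∈ N ∧ N ⊆ O ∧
        AnalyticOnNhd ℂ Γ (ball (A q, 0) ε) ∧
        (∀ p ∈ ball ((A q, 0) : F × (Fin s → ℂ)) ε, Γ p ∈ N ∧ A (Γ p) = p.1) ∧
        (∀ x ∈ N, ∃ w : Fin s → ℂ, ((A x, w) : F × (Fin s → ℂ)) ∈ ball (A q, 0) ε ∧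
          Γ (A x, w) = x) := by
  have : CompleteSpace E := FiniteDimensional.complete ℂ E
  have : CompleteSpace F := FiniteDimensional.complete ℂ F
  set f' := fderiv ℂ A q with hf'
  -- the kernel
  let K : Submodule ℂ E := LinearMap.ker (f' : E →ₗ[ℂ] F)
  obtain ⟨pr, hpr⟩ : ∃ pr : E →L[ℂ] K, ∀ x : K, pr x = x :=
    Submodule.ClosedComplemented.of_finiteDimensional K
  let s : ℕ := finrank ℂ K
  let e : K ≃L[ℂ] (Fin s → ℂ) := ContinuousLinearEquiv.ofFinrankEq (by simp [s])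
  have hdim : finrank ℂ F + s = finrank ℂ E := by
    have h := LinearMap.finrank_range_add_finrank_ker (f' : E →ₗ[ℂ] F)
    have h2 : LinearMap.range (f' : E →ₗ[ℂ] F) = ⊤ := LinearMap.range_eq_top.2 hs
    rw [h2, finrank_top] at h
    exact h
  refine ⟨s, hdim, ?_⟩
  -- the linear iso
  let L0 : E →L[ℂ] F × (Fin s → ℂ) := f'.prod ((e : K →L[ℂ] (Fin s → ℂ)).comp pr)
  have hinj : Function.Injective L0 := by
    rw [injective_iff_map_eq_zero]
    intro x hx
    have h1 : f' x = 0 := congrArg Prod.fst hx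
    have h2 : e (pr x) = 0 := congrArg Prod.snd hx
    have h3 : pr x = 0 := by simpa using h2
    have h4 : pr ((⟨x, h1⟩ : K) : E) = ⟨x, h1⟩ := hpr ⟨x, h1⟩
    have h5 : (⟨x, h1⟩ : K) = 0 := by rw [← h4]; exact h3
    exact congrArg Subtype.val h5
  have hdim2 : finrank ℂ E = finrank ℂ (F × (Fin s → ℂ)) := by
    rw [finrank_prod, ← hdim]; simp
  let L : E ≃L[ℂ] F × (Fin s → ℂ) :=
    (LinearMap.linearEquivOfInjective (L0 : E →ₗ[ℂ] F × (Fin s → ℂ)) hinj hdim2).toContinuousLinearEquiv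
  have hL : ∀ x, L x = (f' x, e (pr x)) := fun x => rfl
  let T : E → F × (Fin s → ℂ) := fun x => (A x, e (pr (x - q)))
  have hT : AnalyticAt ℂ T q := by
    refine hA.prod ?_
    have h1 : AnalyticAt ℂ (fun x : E => x - q) q := analyticAt_id.sub analyticAt_const
    exact (((e : K →L[ℂ] (Fin s → ℂ)).comp pr).analyticAt _).comp h1
  have hT' : HasFDerivAt T (L : E →L[ℂ] F × (Fin s → ℂ)) q := by
    have h1 : HasFDerivAt A f' q := hA.differentiableAt.hasFDerivAt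
    have h2 : HasFDerivAt (fun x : E => e (pr (x - q)))
        ((e : K →L[ℂ] (Fin s → ℂ)).comp pr) q := by
      have h3 : HasFDerivAt (fun x : E => x - q) (ContinuousLinearMap.id ℂ E) q :=
        (hasFDerivAt_id q).sub_const q
      have h4 := (((e : K →L[ℂ] (Fin s → ℂ)).comp pr).hasFDerivAt (x := q - q)).comp
        (g := ((e : K →L[ℂ] (Fin s → ℂ)).comp pr)) (f := fun x : E => x - q) q h3
      exact h4
    have h3 := h1.prodMk h2
    have h4 : (L : E →L[ℂ] F × (Fin s → ℂ)) = f'.prod ((e : K →L[ℂ] (Fin s → ℂ)).comp pr) := by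
      ext x <;> rfl
    rw [h4]; exact h3
  have hTc : ContDiffAt ℂ ω T q := hT.contDiffAt
  let H : OpenPartialHomeomorph E (F × (Fin s → ℂ)) :=
    hTc.toOpenPartialHomeomorph T hT' (by simp)
  have hHq : q ∈ H.source := hTc.mem_toOpenPartialHomeomorph_source hT' (by simp)
  have hHT : ∀ x, H x = T x := fun x => rfl
  have hTq : T q = (A q, 0) := by simp [T]
  have hHt : (A q, (0 : Fin s → ℂ)) ∈ H.target := by
    have := hTc.image_mem_toOpenPartialHomeomorph_target hT' (by simp)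
    rwa [hTq] at this
  have hsymm : AnalyticAt ℂ H.symm (A q, 0) := by
    have := hTc.to_localInverse hT' (by simp)
    rw [hTq] at this
    exact this.analyticAt
  have hsq : H.symm (A q, 0) = q := by
    rw [← hTq, ← hHT, H.left_inv hHq]
  -- choose the ball
  have ev1 : ∀ᶠ p in 𝓝 ((A q, 0) : F × (Fin s → ℂ)), AnalyticAt ℂ H.symm p :=
    (isOpen_analyticAt ℂ H.symm).eventually_mem hsymm
  have ev2 : ∀ᶠ p in 𝓝 ((A q, 0) : F × (Fin s → ℂ)), p ∈ H.target :=
    H.open_target.eventually_mem hHt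
  have ev3 : ∀ᶠ p in 𝓝 ((A q, 0) : F × (Fin s → ℂ)), H.symm p ∈ O := by
    apply hsymm.continuousAt.eventually_mem
    rw [hsq]; exact hO
  obtain ⟨ε, hε, hball⟩ := Metric.eventually_nhds_iff_ball.1 (ev1.and (ev2.and ev3))
  refine ⟨ε, H.symm, H.source ∩ H ⁻¹' ball (A q, 0) ε, hε,
    H.isOpen_inter_preimage isOpen_ball, ⟨hHq, ?_⟩, ?_, fun p hp => (hball p hp).1, ?_, ?_⟩
  · change T q ∈ ball (A q, 0) ε
    rw [hTq]; exact mem_ball_self hε
  · rintro x ⟨hx1, hx2⟩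
    have := (hball _ hx2).2.2
    rwa [H.left_inv hx1] at this
  · intro p hp
    have hpt := (hball p hp).2.1
    refine ⟨⟨H.map_target hpt, ?_⟩, ?_⟩
    · change H (H.symm p) ∈ ball (A q, 0) ε
      rw [H.right_inv hpt]; exact hp
    · have : (T (H.symm p)).1 = p.1 := by
        rw [← hHT, H.right_inv hpt]
      exact this
  · rintro x ⟨hx1, hx2⟩
    refine ⟨e (pr (x - q)), ?_, ?_⟩
    · exact hx2
    · have := H.left_inv hx1
      exact this

end Straighten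

section Cover

/-- Image of an analytic map defined on a convex open subset of `ℂ^m`, `m < M`. -/
def IsAnImage {E : Type*} [NormedAddCommGroup E] [NormedSpace ℂ E] (M : ℕ) (S : Set E) : Prop :=
  ∃ (m : ℕ) (U : Set (Fin m → ℂ)) (γ : (Fin m → ℂ) → E), m < M ∧ IsOpen U ∧ Convex ℝ U ∧
    AnalyticOnNhd ℂ γ U ∧ S = γ '' U

/-- Countable union of images of analytic maps defined on convex open subsets of `ℂ^m`,
`m < M`. -/
def AnCov {E : Type*} [NormedAddCommGroup E] [NormedSpace ℂ E] (M : ℕ) (S : Set E) : Prop :=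
  ∃ 𝒞 : Set (Set E), 𝒞.Countable ∧ (∀ T ∈ 𝒞, IsAnImage M T) ∧ S = ⋃₀ 𝒞

variable {E F : Type*} [NormedAddCommGroup E] [NormedSpace ℂ E]
  [NormedAddCommGroup F] [NormedSpace ℂ F]

theorem IsAnImage.mono {M M' : ℕ} (h : M ≤ M') {S : Set E} (hS : IsAnImage M S) :
    IsAnImage M' S := by
  obtain ⟨m, U, γ, hm, h1⟩ := hS
  exact ⟨m, U, γ, hm.trans_le h, h1⟩

theorem AnCov.mono {M M' : ℕ} (h : M ≤ M') {S : Set E} (hS : AnCov M S) : AnCov M' S := by
  obtain ⟨𝒞, h1, h2, h3⟩ := hS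
  exact ⟨𝒞, h1, fun T hT => (h2 T hT).mono h, h3⟩

theorem AnCov.empty (M : ℕ) : AnCov M (∅ : Set E) := ⟨∅, by simp, by simp, by simp⟩

theorem IsAnImage.anCov {M : ℕ} {S : Set E} (hS : IsAnImage M S) : AnCov M S :=
  ⟨{S}, by simp, by simpa using hS, by simp⟩

theorem AnCov.iUnion {M : ℕ} {ι : Sort*} [Countable ι] {S : ι → Set E} (h : ∀ i, AnCov M (S i)) :
    AnCov M (⋃ i, S i) := by
  choose 𝒞 h1 h2 h3 using h
  refine ⟨⋃ i, 𝒞 i, countable_iUnion h1, ?_, ?_⟩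
  · intro T hT
    obtain ⟨i, hi⟩ := mem_iUnion.1 hT
    exact h2 i T hi
  · rw [sUnion_iUnion]
    exact iUnion_congr h3

theorem AnCov.biUnion {M : ℕ} {α : Type*} {t : Set α} (ht : t.Countable) {S : α → Set E}
    (h : ∀ i ∈ t, AnCov M (S i)) : AnCov M (⋃ i ∈ t, S i) := by
  have : Countable t := ht.to_subtype
  rw [biUnion_eq_iUnion]
  exact AnCov.iUnion (fun i => h i.1 i.2)

theorem AnCov.image {M : ℕ} {S : Set E} (hS : AnCov M S) {f : E → F}
    (hf : AnalyticOnNhd ℂ f S) : AnCov M (f '' S) := by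
  obtain ⟨𝒞, h1, h2, h3⟩ := hS
  refine ⟨(fun T => f '' T) '' 𝒞, h1.image _, ?_, ?_⟩
  · rintro _ ⟨T, hT, rfl⟩
    obtain ⟨m, U, γ, hm, hU, hc, hγ, rfl⟩ := h2 T hT
    refine ⟨m, U, f ∘ γ, hm, hU, hc, ?_, by rw [image_comp]⟩
    intro x hx
    refine (hf (γ x) ?_).comp (hγ x hx)
    rw [h3]
    exact ⟨_, hT, mem_image_of_mem _ hx⟩
  · rw [h3, image_sUnion, sUnion_image]

end Cover

section Derivs

variable {m : ℕ}

/-- Iterated partial derivatives. -/
noncomputable def pder (φ : (Fin m → ℂ) → ℂ) (k : ℕ) (I : Fin k → Fin m) (x : Fin m → ℂ) : ℂ :=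
  iteratedFDeriv ℂ k φ x (fun j => Pi.single (I j) 1)

theorem pder_analytic {φ : (Fin m → ℂ) → ℂ} {Ω : Set (Fin m → ℂ)} (hφ : AnalyticOnNhd ℂ φ Ω)
    (k : ℕ) (I : Fin k → Fin m) : AnalyticOnNhd ℂ (pder φ k I) Ω := by
  intro x hx
  have h1 := hφ.iteratedFDeriv k x hx
  have h2 : AnalyticAt ℂ (ContinuousMultilinearMap.apply ℂ (fun _ : Fin k => (Fin m → ℂ)) ℂ
      (fun j => Pi.single (I j) 1)) (iteratedFDeriv ℂ k φ x) :=
    ContinuousLinearMap.analyticAt _ _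
  exact h2.comp h1

theorem exists_pder {φ : (Fin m → ℂ) → ℂ} {Ω : Set (Fin m → ℂ)} (hφ : AnalyticOnNhd ℂ φ Ω)
    (hΩ : IsPreconnected Ω) {x₀ : Fin m → ℂ} (hx₀ : x₀ ∈ Ω) (h0 : φ x₀ ≠ 0)
    {q : Fin m → ℂ} (hq : q ∈ Ω) (hφq : φ q = 0) :
    ∃ (k : ℕ) (I : Fin k → Fin m), pder φ k I q = 0 ∧ fderiv ℂ (pder φ k I) q ≠ 0 := by
  classical
  have hne : ∃ n, iteratedFDeriv ℂ n φ q ≠ 0 := by
    by_contra hcon
    push Not at hcon
    apply h0
    have hev : φ =ᶠ[𝓝 q] 0 := by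
      obtain ⟨p, r, hp⟩ := hφ q hq
      have hr := hp.r_pos
      filter_upwards [Metric.eball_mem_nhds q hr] with y hy
      have hy' : y - q ∈ Metric.eball (0 : Fin m → ℂ) r := by
        rw [Metric.mem_eball, edist_eq_enorm_sub] at hy ⊢
        simpa using hy
      have hs := hp.hasSum_iteratedFDeriv hy'
      simp only [hcon] at hs
      have h2 : HasSum (fun _ : ℕ => (0 : ℂ)) (φ (q + (y - q))) := by
        simpa using hs
      have h3 := h2.unique hasSum_zero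
      simpa using h3
    exact hφ.eqOn_zero_of_preconnected_of_eventuallyEq_zero hΩ hq hev hx₀
  set n := Nat.find hne with hn
  have h1 : iteratedFDeriv ℂ n φ q ≠ 0 := Nat.find_spec hne
  have h2 : ∀ j < n, iteratedFDeriv ℂ j φ q = 0 := fun j hj => by
    have := Nat.find_min hne hj
    simpa using this
  rcases Nat.eq_zero_or_pos n with h3 | h3
  · exfalso
    apply h1
    rw [h3]
    ext v
    simpa using hφq
  obtain ⟨k, hk⟩ : ∃ k, n = k + 1 := ⟨n - 1, by omega⟩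
  rw [hk] at h1
  -- find basis tuple
  have h4 : ∃ J : Fin (k + 1) → Fin m,
      iteratedFDeriv ℂ (k + 1) φ q (fun j => Pi.single (J j) 1) ≠ 0 := by
    by_contra hcon
    push Not at hcon
    apply h1
    apply ContinuousMultilinearMap.toMultilinearMap_injective
    refine Module.Basis.ext_multilinear (fun _ => Pi.basisFun ℂ (Fin m)) ?_
    intro v
    simpa using hcon v
  obtain ⟨J, hJ⟩ := h4
  refine ⟨k, fun j => J j.succ, ?_, ?_⟩
  · have := h2 k (by omega)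
    simp [pder, this]
  · intro h5
    apply hJ
    rw [iteratedFDeriv_succ_apply_left]
    have hd : DifferentiableAt ℂ (iteratedFDeriv ℂ k φ) q :=
      (hφ.iteratedFDeriv k q hq).differentiableAt
    have h6 : fderiv ℂ (pder φ k (fun j => J j.succ)) q =
        (ContinuousMultilinearMap.apply ℂ (fun _ : Fin k => (Fin m → ℂ)) ℂ
          (fun j => Pi.single (J j.succ) 1)).comp (fderiv ℂ (iteratedFDeriv ℂ k φ) q) := by
      have := ((ContinuousMultilinearMap.apply ℂ (fun _ : Fin k => (Fin m → ℂ)) ℂ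
          (fun j => Pi.single (J j.succ) 1)).hasFDerivAt
            (x := iteratedFDeriv ℂ k φ q)).comp q hd.hasFDerivAt
      exact this.fderiv
    rw [h6] at h5
    have h7 := congrArg (fun L : (Fin m → ℂ) →L[ℂ] ℂ => L (Pi.single (J 0) 1)) h5
    have h8 : ((fderiv ℂ (iteratedFDeriv ℂ k φ) q) (Pi.single (J 0) 1))
        (fun j => Pi.single (J j.succ) 1) = 0 := by simpa using h7
    exact h8

end Derivs

section LemmaZ

/-- **Lemma Z.** Zero sets of arbitrary families of analytic functions on a convex open set of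
`ℂ^m` are countable unions of images of analytic maps; of smaller source dimension if the zero
set is not everything. -/
theorem lemmaZ_pi {ι : Type*} (m : ℕ) : ∀ (Ω : Set (Fin m → ℂ)), IsOpen Ω → Convex ℝ Ω →
    ∀ φ : ι → (Fin m → ℂ) → ℂ, (∀ i, AnalyticOnNhd ℂ (φ i) Ω) →
      AnCov (m + 1) {x | x ∈ Ω ∧ ∀ i, φ i x = 0} ∧
      ((∃ i, ∃ x ∈ Ω, φ i x ≠ 0) → AnCov m {x | x ∈ Ω ∧ ∀ i, φ i x = 0}) := by
  induction m with
  | zero =>
    intro Ω hΩ hc φ hφ
    have key : (∃ i, ∃ x ∈ Ω, φ i x ≠ 0) → AnCov 0 {x | x ∈ Ω ∧ ∀ i, φ i x = 0} := by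
      rintro ⟨i, x, hx, h⟩
      have : {x | x ∈ Ω ∧ ∀ i, φ i x = 0} = ∅ := by
        ext y
        simp only [mem_setOf_eq, mem_empty_iff_false, iff_false, not_and]
        intro hy hall
        exact h (by rw [Subsingleton.elim x y]; exact hall i)
      rw [this]; exact AnCov.empty _
    refine ⟨?_, key⟩
    by_cases h : ∃ i, ∃ x ∈ Ω, φ i x ≠ 0
    · exact (key h).mono (Nat.le_succ _)
    · push Not at h
      have : {x | x ∈ Ω ∧ ∀ i, φ i x = 0} = Ω := by
        ext y; exact ⟨fun hy => hy.1, fun hy => ⟨hy, fun i => h i y hy⟩⟩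
      rw [this]
      exact IsAnImage.anCov ⟨0, Ω, id, by omega, hΩ, hc, analyticOnNhd_id, by simp⟩
  | succ k ih =>
    intro Ω hΩ hc φ hφ
    have key : (∃ i, ∃ x ∈ Ω, φ i x ≠ 0) → AnCov (k + 1) {x | x ∈ Ω ∧ ∀ i, φ i x = 0} := by
      rintro ⟨i₀, x₀, hx₀, h0⟩
      set Z : Set (Fin (k + 1) → ℂ) := {x | x ∈ Ω ∧ ∀ i, φ i x = 0} with hZ
      -- strata
      let W : (Σ n : ℕ, (Fin n → Fin (k + 1))) → Set (Fin (k + 1) → ℂ) := fun a =>
        {x | x ∈ Ω ∧ pder (φ i₀) a.1 a.2 x = 0 ∧ fderiv ℂ (pder (φ i₀) a.1 a.2) x ≠ 0}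
      -- local charts
      have loc : ∀ a, ∀ q ∈ W a, ∃ (N : Set (Fin (k + 1) → ℂ)) (T : Set (Fin (k + 1) → ℂ)),
          IsOpen N ∧ q ∈ N ∧ AnCov (k + 1) T ∧ T ⊆ Z ∧ Z ∩ W a ∩ N ⊆ T := by
        rintro a q ⟨hq, hq0, hq1⟩
        have hA : AnalyticAt ℂ (pder (φ i₀) a.1 a.2) q := pder_analytic (hφ i₀) _ _ q hq
        have hs : Function.Surjective (fderiv ℂ (pder (φ i₀) a.1 a.2) q) := by
          have := LinearMap.surjective
            (f := (fderiv ℂ (pder (φ i₀) a.1 a.2) q : (Fin (k + 1) → ℂ) →ₗ[ℂ] ℂ))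
            (by
              intro h
              apply hq1
              refine ContinuousLinearMap.ext fun v => ?_
              exact congrArg (fun L : (Fin (k + 1) → ℂ) →ₗ[ℂ] ℂ => L v) h)
          exact this
        obtain ⟨s, hsd, ε, Γ, N, hε, hN, hqN, hNO, hΓ, hΓ1, hΓ2⟩ :=
          straighten hA hs (hΩ.mem_nhds hq)
        have hsk : s = k := by
          simp at hsd; omega
        subst hsk
        rw [hq0] at hΓ hΓ1 hΓ2
        have hemb : AnalyticOnNhd ℂ (fun w : Fin s → ℂ => Γ ((0 : ℂ), w)) (ball 0 ε) := by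
          intro w hw
          have h1 : AnalyticAt ℂ (fun w : Fin s → ℂ => ((0 : ℂ), w)) w :=
            analyticAt_const.prod analyticAt_id
          have h2 : ((0 : ℂ), w) ∈ ball ((0 : ℂ), (0 : Fin s → ℂ)) ε := by
            rw [mem_ball, Prod.dist_eq]
            simpa [hε] using hw
          exact (hΓ _ h2).comp h1
        have hmem : ∀ w ∈ ball (0 : Fin s → ℂ) ε,
            ((0 : ℂ), w) ∈ ball ((0 : ℂ), (0 : Fin s → ℂ)) ε := by
          intro w hw
          rw [mem_ball, Prod.dist_eq]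
          simpa [hε] using hw
        have hΩ' : ∀ w ∈ ball (0 : Fin s → ℂ) ε, Γ ((0 : ℂ), w) ∈ Ω := fun w hw =>
          hNO (hΓ1 _ (hmem w hw)).1
        have hZ' := (ih (ball 0 ε) isOpen_ball (convex_ball _ _)
          (fun i w => φ i (Γ ((0 : ℂ), w)))
          (fun i w hw => AnalyticAt.comp (f := fun w : Fin s → ℂ => Γ ((0 : ℂ), w))
            (hφ i _ (hΩ' w hw)) (hemb w hw))).1
        refine ⟨N, (fun w : Fin s → ℂ => Γ ((0 : ℂ), w)) ''
          {w | w ∈ ball (0 : Fin s → ℂ) ε ∧ ∀ i, φ i (Γ ((0 : ℂ), w)) = 0}, hN, hqN, ?_, ?_, ?_⟩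
        · exact hZ'.image (hemb.mono (fun w hw => hw.1))
        · rintro _ ⟨w, ⟨hw, hw2⟩, rfl⟩
          exact ⟨hΩ' w hw, hw2⟩
        · rintro x ⟨⟨⟨hx1, hx2⟩, ⟨_, hx3, _⟩⟩, hx4⟩
          obtain ⟨w, hw1, hw2⟩ := hΓ2 x hx4
          rw [hx3] at hw1 hw2
          refine ⟨w, ⟨?_, ?_⟩, hw2⟩
          · rw [mem_ball, Prod.dist_eq] at hw1
            simpa using (lt_of_le_of_lt (le_max_right _ _) hw1)
          · intro i
            rw [hw2]; exact hx2 i
      choose! N T hN hqN hT hTZ hZT using loc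
      have cov : ∀ a, ∃ t ⊆ W a, t.Countable ∧ W a ⊆ ⋃ x ∈ t, N a x := fun a =>
        TopologicalSpace.countable_cover_nhdsWithin (fun x hx =>
          mem_nhdsWithin_of_mem_nhds ((hN a x hx).mem_nhds (hqN a x hx)))
      choose t ht1 ht2 ht3 using cov
      have hZeq : Z = ⋃ a, ⋃ x ∈ t a, T a x := by
        apply subset_antisymm
        · intro q hq
          obtain ⟨n, I, h1, h2⟩ := exists_pder (hφ i₀) hc.isPreconnected hx₀ h0 hq.1 (hq.2 i₀)
          have hqW : q ∈ W ⟨n, I⟩ := ⟨hq.1, h1, h2⟩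
          have := ht3 _ hqW
          simp only [mem_iUnion, exists_prop] at this ⊢
          obtain ⟨x, hx, hqx⟩ := this
          exact ⟨⟨n, I⟩, x, hx, hZT _ x (ht1 _ hx) ⟨⟨hq, hqW⟩, hqx⟩⟩
        · refine iUnion_subset fun a => iUnion₂_subset fun x hx => hTZ a x (ht1 a hx)
      rw [hZeq]
      exact AnCov.iUnion fun a => AnCov.biUnion (ht2 a) (fun x hx => hT a x (ht1 a hx))
    refine ⟨?_, key⟩
    by_cases h : ∃ i, ∃ x ∈ Ω, φ i x ≠ 0
    · exact (key h).mono (Nat.le_succ _)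
    · push Not at h
      have : {x | x ∈ Ω ∧ ∀ i, φ i x = 0} = Ω := by
        ext y; exact ⟨fun hy => hy.1, fun hy => ⟨hy, fun i => h i y hy⟩⟩
      rw [this]
      exact IsAnImage.anCov ⟨k + 1, Ω, id, by omega, hΩ, hc, analyticOnNhd_id, by simp⟩

/-- Lemma Z, global form for locally analytic sets. -/
theorem anCov_of_local {E : Type*} [NormedAddCommGroup E] [NormedSpace ℂ E]
    [FiniteDimensional ℂ E] {S : Set E}
    (h : ∀ q ∈ S, ∃ (N : Set E) (ι : Type u) (φ : ι → E → ℂ), IsOpen N ∧ q ∈ N ∧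
      (∀ i, AnalyticOnNhd ℂ (φ i) N) ∧ (∀ x ∈ N, x ∈ S ↔ ∀ i, φ i x = 0)) :
    AnCov (finrank ℂ E + 1) S := by
  let e : (Fin (finrank ℂ E) → ℂ) ≃L[ℂ] E := ContinuousLinearEquiv.ofFinrankEq (by simp)
  have : SecondCountableTopology E := e.symm.toHomeomorph.secondCountableTopology
  have : ProperSpace E := FiniteDimensional.proper ℂ E
  have loc : ∀ q ∈ S, ∃ (N : Set E), IsOpen N ∧ q ∈ N ∧ AnCov (finrank ℂ E + 1) (S ∩ N) := by
    intro q hq
    obtain ⟨N, ι, φ, hN, hqN, hφ, hS⟩ := h q hq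
    have h1 : e ⁻¹' N ∈ 𝓝 (e.symm q) :=
      (hN.preimage e.continuous).mem_nhds (by simpa using hqN)
    obtain ⟨r, hr, hball⟩ := Metric.mem_nhds_iff.1 h1
    refine ⟨e.symm ⁻¹' ball (e.symm q) r, isOpen_ball.preimage e.symm.continuous,
      by simpa using hr, ?_⟩
    have hZ := (lemmaZ_pi (finrank ℂ E) (ball (e.symm q) r) isOpen_ball (convex_ball _ _)
      (fun i w => φ i (e w)) (fun i w hw => AnalyticAt.comp (f := fun w => e w)
        (hφ i _ (hball hw)) ((e : (Fin (finrank ℂ E) → ℂ) →L[ℂ] E).analyticAt w))).1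
    have h2 := hZ.image (f := e) (fun w _ => (e : (Fin (finrank ℂ E) → ℂ) →L[ℂ] E).analyticAt w)
    convert h2 using 1
    ext x
    constructor
    · rintro ⟨hx1, hx2⟩
      refine ⟨e.symm x, ⟨hx2, ?_⟩, by simp⟩
      intro i
      have hxN : x ∈ N := by simpa using hball hx2
      simpa using (hS x hxN).1 hx1 i
    · rintro ⟨w, ⟨hw1, hw2⟩, rfl⟩
      exact ⟨(hS _ (hball hw1)).2 hw2, by simpa using hw1⟩
  choose! N hN hqN hT using loc
  obtain ⟨t, ht1, ht2, ht3⟩ := TopologicalSpace.countable_cover_nhdsWithin (s := S) (f := N)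
    (fun x hx => mem_nhdsWithin_of_mem_nhds ((hN x hx).mem_nhds (hqN x hx)))
  have hSeq : S = ⋃ x ∈ t, S ∩ N x := by
    apply subset_antisymm
    · intro x hx
      have := ht3 hx
      simp only [mem_iUnion, exists_prop] at this ⊢
      obtain ⟨y, hy, hxy⟩ := this
      exact ⟨y, hy, hx, hxy⟩
    · exact iUnion₂_subset fun x hx => inter_subset_left
  rw [hSeq]
  exact AnCov.biUnion ht2 (fun x hx => hT x (ht1 hx))

/-- enumeration of the pieces -/
theorem AnCov.enum {E : Type*} [NormedAddCommGroup E] [NormedSpace ℂ E] {M : ℕ} {S : Set E}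
    (h : AnCov M S) :
    ∃ (m : ℕ → ℕ) (V : ∀ k, Set (Fin (m k) → ℂ)) (γ : ∀ k, (Fin (m k) → ℂ) → E),
      (∀ k, IsOpen (V k)) ∧ (∀ k, Convex ℝ (V k)) ∧ (∀ k, AnalyticOnNhd ℂ (γ k) (V k)) ∧
      (∀ k, γ k '' V k ⊆ S) ∧ S ⊆ ⋃ k, γ k '' V k := by
  obtain ⟨𝒞, h1, h2, h3⟩ := h
  rcases 𝒞.eq_empty_or_nonempty with h4 | h4
  · subst h4
    refine ⟨fun _ => 0, fun _ => ∅, fun _ _ => 0, fun _ => isOpen_empty, fun _ => convex_empty,
      fun _ => by intro x hx; exact hx.elim, fun _ => by simp, ?_⟩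
    rw [h3]; simp
  · obtain ⟨f, hf⟩ := h1.exists_eq_range h4
    have h5 : ∀ k, IsAnImage M (f k) := fun k => h2 _ (hf ▸ mem_range_self k)
    choose m V γ _ hV hc hγ hE using h5
    refine ⟨m, V, γ, hV, hc, hγ, fun k => ?_, ?_⟩
    · rw [← hE k, h3, hf]
      exact subset_sUnion_of_mem (mem_range_self k)
    · rw [h3, hf, sUnion_range]
      exact iUnion_mono fun k => (hE k).le

end LemmaZ

end Crest.Agent.R266.LZ

namespace Crest.Agent.R266

/-- **Lemma Z** (global form). -/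
theorem lemmaZ {E : Type*} [NormedAddCommGroup E] [NormedSpace ℂ E] [FiniteDimensional ℂ E]
    {ι : Type*} {U : Set E} (hU : IsOpen U) {F : ι → E → ℂ}
    (hF : ∀ i, AnalyticOnNhd ℂ (F i) U) :
    ∃ (m : ℕ → ℕ) (V : ∀ k, Set (Fin (m k) → ℂ)) (γ : ∀ k, (Fin (m k) → ℂ) → E),
      (∀ k, IsOpen (V k)) ∧ (∀ k, AnalyticOnNhd ℂ (γ k) (V k)) ∧
      (∀ k, γ k '' V k ⊆ {x | x ∈ U ∧ ∀ i, F i x = 0}) ∧
      {x | x ∈ U ∧ ∀ i, F i x = 0} ⊆ ⋃ k, γ k '' V k := by
  have h := LZ.anCov_of_local (S := {x | x ∈ U ∧ ∀ i, F i x = 0})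
    (fun q hq => ⟨U, ι, F, hU, hq.1, hF, fun x hx => ⟨fun h => h.2, fun h => ⟨hx, h⟩⟩⟩)
  obtain ⟨m, V, γ, h1, h2, h3, h4, h5⟩ := h.enum
  exact ⟨m, V, γ, h1, h3, h4, h5⟩

end Crest.Agent.R266
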