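import Mathlib
import Crest.Agent.R266.AnaChart
import Crest.Agent.R266.LemmaZ

/-! Analytic Sard-type lemma: the image of an analytic map with nowhere surjective derivative
is null. -/

set_option autoImplicit false
open Set Filter Topology MeasureTheory Module

namespace Crest.Agent.R266

namespace SardAux

section sq

variable {E G : Type*} [NormedAddCommGroup E] [NormedSpace ℂ E] [FiniteDimensional ℂ E]
  [NormedAddCommGroup G] [NormedSpace ℂ G] [FiniteDimensional ℂ G]
  [MeasurableSpace G] [BorelSpace G] (μ : Measure G) [μ.IsAddHaarMeasure]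

/-- The case `dim E ≤ dim G`. -/
theorem null_of_finrank_le {U : Set E} {φ : E → G} (hle : finrank ℂ E ≤ finrank ℂ G)
    (hφ : ∀ x ∈ U, DifferentiableAt ℂ φ x)
    (h : ∀ x ∈ U, ¬ Function.Surjective (fderiv ℂ φ x)) : μ (φ '' U) = 0 := by
  classical
  -- a surjective continuous linear map `G → E`
  obtain ⟨π, hπ⟩ : ∃ π : G →L[ℂ] E, Function.Surjective π := by
    obtain ⟨j, hj⟩ : ∃ j : E →ₗ[ℂ] G, Function.Injective j :=
      finrank_le_iff_exists_linearMap.mp hle
    obtain ⟨g, hg⟩ := LinearMap.exists_leftInverse_of_injective j (LinearMap.ker_eq_bot.mpr hj)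
    refine ⟨LinearMap.toContinuousLinearMap g, fun x => ⟨j x, ?_⟩⟩
    have := LinearMap.congr_fun hg x
    simpa using this
  have himg : φ '' U ⊆ (φ ∘ π) '' (π ⁻¹' U) := by
    rintro _ ⟨x, hx, rfl⟩
    obtain ⟨y, rfl⟩ := hπ x
    exact ⟨y, hx, rfl⟩
  refine measure_mono_null himg ?_
  have hd : ∀ y ∈ π ⁻¹' U, HasFDerivWithinAt (φ ∘ π)
      (((fderiv ℂ φ (π y)).comp π).restrictScalars ℝ) (π ⁻¹' U) y := by
    intro y hy
    have h1 : HasFDerivAt φ (fderiv ℂ φ (π y)) (π y) := (hφ _ hy).hasFDerivAt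
    have h2 := h1.comp y π.hasFDerivAt
    exact (h2.restrictScalars ℝ).hasFDerivWithinAt
  have : FiniteDimensional ℝ G := FiniteDimensional.complexToReal G
  refine addHaar_image_eq_zero_of_det_fderivWithin_eq_zero μ hd ?_
  intro y hy
  by_contra hne
  apply h _ hy
  have hu : IsUnit (((((fderiv ℂ φ (π y)).comp π).restrictScalars ℝ : G →L[ℝ] G)) : G →ₗ[ℝ] G) := by
    rw [LinearMap.isUnit_iff_isUnit_det]
    exact isUnit_iff_ne_zero.mpr hne
  rw [LinearMap.isUnit_iff_range_eq_top, LinearMap.range_eq_top] at hu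
  intro z
  obtain ⟨w, hw⟩ := hu z
  exact ⟨π w, hw⟩

end sq

section linalg

variable {E G : Type*} [NormedAddCommGroup E] [NormedSpace ℂ E] [FiniteDimensional ℂ E]
  [NormedAddCommGroup G] [NormedSpace ℂ G] [FiniteDimensional ℂ G]

/-- The `r × r` minor of `A` along the vectors `s` and the functionals `p`. -/
noncomputable def minor {r : ℕ} (s : Fin r → E) (p : Fin r → (G →L[ℂ] ℂ)) (A : E →L[ℂ] G) : ℂ :=
  Matrix.det (Matrix.of fun i j => p i (A (s j)))

theorem le_finrank_of_minor_ne_zero {r : ℕ} {s : Fin r → E} {p : Fin r → (G →L[ℂ] ℂ)}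
    {A : E →L[ℂ] G} (h : minor s p A ≠ 0) : r ≤ finrank ℂ (LinearMap.range (A : E →ₗ[ℂ] G)) := by
  classical
  have h1 : LinearIndependent ℂ (Matrix.of fun i j => p i (A (s j))).col :=
    Matrix.linearIndependent_cols_of_det_ne_zero h
  let P : G →ₗ[ℂ] (Fin r → ℂ) := LinearMap.pi fun i => (p i : G →ₗ[ℂ] ℂ)
  let B : LinearMap.range (A : E →ₗ[ℂ] G) →ₗ[ℂ] (Fin r → ℂ) := P.comp (Submodule.subtype _)
  have h2 : LinearIndependent ℂ (fun j => (⟨A (s j), ⟨s j, rfl⟩⟩ :
      LinearMap.range (A : E →ₗ[ℂ] G))) := by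
    refine LinearIndependent.of_comp B ?_
    exact h1
  have := h2.fintype_card_le_finrank
  simpa using this

theorem exists_minor_ne_zero {r : ℕ} {A : E →L[ℂ] G}
    (h : r ≤ finrank ℂ (LinearMap.range (A : E →ₗ[ℂ] G))) :
    ∃ (s : Fin r → E) (p : Fin r → (G →L[ℂ] ℂ)), minor s p A ≠ 0 := by
  classical
  obtain ⟨j, hj⟩ : ∃ j : (Fin r → ℂ) →ₗ[ℂ] LinearMap.range (A : E →ₗ[ℂ] G),
      Function.Injective j := by
    apply finrank_le_iff_exists_linearMap.mp
    simpa using h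
  let J : (Fin r → ℂ) →ₗ[ℂ] G := (Submodule.subtype _).comp j
  have hJ : Function.Injective J := Subtype.val_injective.comp hj
  obtain ⟨g, hg⟩ := LinearMap.exists_leftInverse_of_injective J (LinearMap.ker_eq_bot.mpr hJ)
  have hs : ∀ k : Fin r, ∃ x : E, A x = J (Pi.single k 1) := by
    intro k
    obtain ⟨x, hx⟩ := (j (Pi.single k 1)).2
    exact ⟨x, hx⟩
  choose s hs using hs
  refine ⟨s, fun i => LinearMap.toContinuousLinearMap ((LinearMap.proj i).comp g), ?_⟩
  have : (Matrix.of fun i k => (LinearMap.toContinuousLinearMap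
      ((LinearMap.proj i : (Fin r → ℂ) →ₗ[ℂ] ℂ).comp g)) (A (s k))) = (1 : Matrix (Fin r) (Fin r) ℂ) := by
    ext i k
    simp only [Matrix.of_apply, LinearMap.coe_toContinuousLinearMap', LinearMap.comp_apply,
      LinearMap.proj_apply, hs]
    have := LinearMap.congr_fun hg (Pi.single k 1)
    simp only [LinearMap.comp_apply, LinearMap.id_apply] at this
    rw [this, Matrix.one_apply, Pi.single_apply]
  unfold minor
  rw [this]
  simp

/-- If a minor is nonzero and the rank is at most `r`, the kernel of `P ∘ A` is the kernel of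
`A`. -/
theorem apply_eq_zero_of_minor {r : ℕ} {s : Fin r → E} {p : Fin r → (G →L[ℂ] ℂ)}
    {A : E →L[ℂ] G} (h : minor s p A ≠ 0)
    (hr : finrank ℂ (LinearMap.range (A : E →ₗ[ℂ] G)) ≤ r) {x : E} (hx : ∀ i, p i (A x) = 0) :
    A x = 0 := by
  classical
  have h1 : LinearIndependent ℂ (Matrix.of fun i j => p i (A (s j))).col :=
    Matrix.linearIndependent_cols_of_det_ne_zero h
  let P : G →ₗ[ℂ] (Fin r → ℂ) := LinearMap.pi fun i => (p i : G →ₗ[ℂ] ℂ)
  let B : LinearMap.range (A : E →ₗ[ℂ] G) →ₗ[ℂ] (Fin r → ℂ) := P.comp (Submodule.subtype _)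
  have hle := le_finrank_of_minor_ne_zero h
  have heq : finrank ℂ (LinearMap.range (A : E →ₗ[ℂ] G)) = finrank ℂ (Fin r → ℂ) := by
    simp; omega
  have hsurj : Function.Surjective B := by
    rw [← LinearMap.range_eq_top]
    have hspan : Submodule.span ℂ (range (Matrix.of fun i j => p i (A (s j))).col) = ⊤ :=
      h1.span_eq_top_of_card_eq_finrank' (by simp)
    rw [eq_top_iff, ← hspan, Submodule.span_le]
    rintro _ ⟨j, rfl⟩
    exact ⟨⟨A (s j), ⟨s j, rfl⟩⟩, rfl⟩
  have hinj : Function.Injective B :=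
    (LinearMap.injective_iff_surjective_of_finrank_eq_finrank heq).mpr hsurj
  have h0 : B ⟨A x, ⟨x, rfl⟩⟩ = B 0 := by
    rw [map_zero]
    funext i
    exact hx i
  have := hinj h0
  exact congrArg Subtype.val this

end linalg

section crank

variable {E G : Type*} [NormedAddCommGroup E] [NormedSpace ℂ E] [FiniteDimensional ℂ E]
  [NormedAddCommGroup G] [NormedSpace ℂ G] [FiniteDimensional ℂ G]
  [MeasurableSpace G] [BorelSpace G] (μ : Measure G) [μ.IsAddHaarMeasure]

theorem continuous_minor {r : ℕ} (s : Fin r → E) (p : Fin r → (G →L[ℂ] ℂ)) :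
    Continuous (fun A : E →L[ℂ] G => minor s p A) := by
  unfold minor
  apply Continuous.matrix_det
  apply continuous_matrix
  intro i j
  simp only [Matrix.of_apply]
  exact (p i).continuous.comp (ContinuousLinearMap.apply ℂ G (s j)).continuous

/-- Constant rank: near a point where the rank is maximal `= r < dim G` the image is null. -/
theorem locally_null {U : Set E} {φ : E → G} (hU : IsOpen U) (hφ : AnalyticOnNhd ℂ φ U) {r : ℕ}
    (hr : ∀ x ∈ U, finrank ℂ (LinearMap.range (fderiv ℂ φ x : E →ₗ[ℂ] G)) ≤ r)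
    (hG : r < finrank ℂ G) {x₀ : E} (hx₀ : x₀ ∈ U) {s : Fin r → E} {p : Fin r → (G →L[ℂ] ℂ)}
    (hm : minor s p (fderiv ℂ φ x₀) ≠ 0) : ∃ N ∈ 𝓝 x₀, μ (φ '' N) = 0 := by
  classical
  have : CompleteSpace E := FiniteDimensional.complete ℂ E
  have : CompleteSpace G := FiniteDimensional.complete ℂ G
  set A := fderiv ℂ φ x₀ with hA
  let P : G →L[ℂ] (Fin r → ℂ) := ContinuousLinearMap.pi p
  let T : E →L[ℂ] (Fin r → ℂ) := P.comp A
  have hTsurj : Function.Surjective T := by
    have h1 : LinearIndependent ℂ (Matrix.of fun i j => p i (A (s j))).col :=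
      Matrix.linearIndependent_cols_of_det_ne_zero hm
    have hspan : Submodule.span ℂ (range (Matrix.of fun i j => p i (A (s j))).col) = ⊤ :=
      h1.span_eq_top_of_card_eq_finrank' (by simp)
    have hT : LinearMap.range (T : E →ₗ[ℂ] (Fin r → ℂ)) = ⊤ := by
      rw [eq_top_iff, ← hspan, Submodule.span_le]
      rintro _ ⟨j, rfl⟩
      exact ⟨s j, rfl⟩
    exact LinearMap.range_eq_top.mp hT
  let K : Submodule ℂ E := LinearMap.ker (T : E →ₗ[ℂ] (Fin r → ℂ))
  obtain ⟨g, hg⟩ := LinearMap.exists_leftInverse_of_injective K.subtype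
    (LinearMap.ker_eq_bot.mpr Subtype.val_injective)
  let ρ : E →L[ℂ] K := LinearMap.toContinuousLinearMap g
  have hρK : ∀ x : K, ρ x = x := fun x => LinearMap.congr_fun hg x
  have hρsurj : Function.Surjective ρ := fun x => ⟨x, hρK x⟩
  have hcompl : IsCompl (LinearMap.ker (T : E →ₗ[ℂ] (Fin r → ℂ)))
      (LinearMap.ker (ρ : E →ₗ[ℂ] K)) := LinearMap.isCompl_of_proj hρK
  let e' : E ≃L[ℂ] (Fin r → ℂ) × K :=
    ContinuousLinearMap.equivProdOfSurjectiveOfIsCompl T ρ (LinearMap.range_eq_top.mpr hTsurj)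
      (LinearMap.range_eq_top.mpr hρsurj) hcompl
  let Ψ : E → (Fin r → ℂ) × K := fun x => (P (φ x), ρ x)
  have hΨd : ∀ x ∈ U, HasFDerivAt Ψ ((P.comp (fderiv ℂ φ x)).prod ρ) x := by
    intro x hx
    exact (P.hasFDerivAt.comp x (hφ x hx).differentiableAt.hasFDerivAt).prodMk ρ.hasFDerivAt
  have hΨa : AnalyticAt ℂ Ψ x₀ := by
    exact ((P.analyticAt _).comp (hφ x₀ hx₀)).prod (ρ.analyticAt _)
  have he' : (e' : E →L[ℂ] (Fin r → ℂ) × K) = (P.comp A).prod ρ := by
    ext x <;> rfl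
  have hΨ' : HasFDerivAt Ψ (e' : E →L[ℂ] (Fin r → ℂ) × K) x₀ := by
    rw [he']; exact hΨd x₀ hx₀
  have hN : U ∩ {x | minor s p (fderiv ℂ φ x) ≠ 0} ∈ 𝓝 x₀ := by
    refine inter_mem (hU.mem_nhds hx₀) ?_
    have hc : ContinuousAt (fun x => minor s p (fderiv ℂ φ x)) x₀ :=
      (continuous_minor s p).continuousAt.comp (hφ x₀ hx₀).fderiv.continuousAt
    exact hc.eventually_ne hm
  obtain ⟨e, hex₀, heN, hee, -, hesymm, -⟩ := exists_chart hΨa hΨ' hN
  have hy₀ : Ψ x₀ ∈ e.target := by rw [← hee]; exact e.map_source hex₀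
  obtain ⟨ε, hε, hball⟩ := Metric.isOpen_iff.mp e.open_target _ hy₀
  -- the map in the new coordinates
  let θ : (Fin r → ℂ) × K → G := fun y => φ (e.symm y)
  have hxU : ∀ y ∈ e.target, e.symm y ∈ U := fun y hy => (heN (e.map_target hy)).1
  have hθd : ∀ y ∈ e.target, HasFDerivAt θ
      ((fderiv ℂ φ (e.symm y)).comp (fderiv ℂ e.symm y)) y := by
    intro y hy
    exact ((hφ _ (hxU y hy)).differentiableAt.hasFDerivAt).comp y
      (hesymm y hy).differentiableAt.hasFDerivAt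
  have hid : ∀ y ∈ e.target, ∀ v, ((P.comp (fderiv ℂ φ (e.symm y))).prod ρ)
      (fderiv ℂ e.symm y v) = v := by
    intro y hy v
    have h1 : HasFDerivAt (fun y => Ψ (e.symm y))
        (((P.comp (fderiv ℂ φ (e.symm y))).prod ρ).comp (fderiv ℂ e.symm y)) y :=
      (hΨd _ (hxU y hy)).comp y (hesymm y hy).differentiableAt.hasFDerivAt
    have h2 : (fun y => Ψ (e.symm y)) =ᶠ[𝓝 y] id := by
      filter_upwards [e.open_target.mem_nhds hy] with z hz
      rw [← hee, e.right_inv hz]; rfl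
    have h3 := h1.congr_of_eventuallyEq h2.symm
    have h4 := h3.unique (hasFDerivAt_id y)
    exact congrArg (fun L : ((Fin r → ℂ) × K) →L[ℂ] ((Fin r → ℂ) × K) => L v) h4
  set u₀ := (Ψ x₀).1 with hu₀
  set w₀ := (Ψ x₀).2 with hw₀
  have hprod : Metric.ball (Ψ x₀) ε = Metric.ball u₀ ε ×ˢ Metric.ball w₀ ε := by
    rw [ball_prod_same]
  -- `θ` does not depend on the second variable
  have hconst : ∀ u ∈ Metric.ball u₀ ε, ∀ w ∈ Metric.ball w₀ ε, θ (u, w) = θ (u, w₀) := by
    intro u hu w hw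
    have hmem : ∀ w' ∈ Metric.ball w₀ ε, (u, w') ∈ e.target := fun w' hw' =>
      hball (by rw [hprod]; exact ⟨hu, hw'⟩)
    have hd : ∀ w' ∈ Metric.ball w₀ ε, HasFDerivAt (fun w' => θ (u, w')) (0 : K →L[ℂ] G) w' := by
      intro w' hw'
      have h1 : HasFDerivAt (fun w' => θ (u, w'))
          (((fderiv ℂ φ (e.symm (u, w'))).comp (fderiv ℂ e.symm (u, w'))).comp
            (ContinuousLinearMap.inr ℂ (Fin r → ℂ) K)) w' :=
        HasFDerivAt.comp (g := θ) (f := fun w' : K => (u, w')) w' (hθd _ (hmem w' hw'))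
          (hasFDerivAt_prodMk_right u w')
      have h0 : (((fderiv ℂ φ (e.symm (u, w'))).comp (fderiv ℂ e.symm (u, w'))).comp
            (ContinuousLinearMap.inr ℂ (Fin r → ℂ) K)) = 0 := by
        ext v
        have hxN := heN (e.map_target (hmem w' hw'))
        refine apply_eq_zero_of_minor hxN.2 (hr _ hxN.1) ?_
        intro i
        have h2 := hid _ (hmem w' hw') (ContinuousLinearMap.inr ℂ (Fin r → ℂ) K v)
        have h3 := congrFun (congrArg Prod.fst h2) i
        simp at h3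
        exact h3
      rw [h0] at h1
      exact h1
    refine IsOpen.is_const_of_fderiv_eq_zero (𝕜 := ℂ) Metric.isOpen_ball
      (convex_ball w₀ ε).isPreconnected (fun w' hw' => (hd w' hw').differentiableAt.differentiableWithinAt)
      (fun w' hw' => (hd w' hw').fderiv) hw (Metric.mem_ball_self hε)
  refine ⟨e.source ∩ e ⁻¹' Metric.ball (Ψ x₀) ε, ?_, ?_⟩
  · refine inter_mem (e.open_source.mem_nhds hex₀) ?_
    apply (e.continuousAt hex₀).preimage_mem_nhds
    rw [hee]
    exact Metric.ball_mem_nhds _ hε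
  · have himg : φ '' (e.source ∩ e ⁻¹' Metric.ball (Ψ x₀) ε) ⊆
        (fun u => θ (u, w₀)) '' Metric.ball u₀ ε := by
      rintro _ ⟨x, ⟨hxs, hxb⟩, rfl⟩
      rw [mem_preimage, hprod] at hxb
      refine ⟨(e x).1, hxb.1, ?_⟩
      have h1 := hconst (e x).1 hxb.1 (e x).2 hxb.2
      simp only at h1 ⊢
      rw [← h1]
      show φ (e.symm ((e x).1, (e x).2)) = φ x
      rw [Prod.mk.eta, e.left_inv hxs]
    refine measure_mono_null himg ?_
    have hmem : ∀ u ∈ Metric.ball u₀ ε, (u, w₀) ∈ e.target := fun u hu =>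
      hball (by rw [hprod]; exact ⟨hu, Metric.mem_ball_self hε⟩)
    have hd : ∀ u ∈ Metric.ball u₀ ε, HasFDerivAt (fun u => θ (u, w₀))
        (((fderiv ℂ φ (e.symm (u, w₀))).comp (fderiv ℂ e.symm (u, w₀))).comp
          (ContinuousLinearMap.inl ℂ (Fin r → ℂ) K)) u := by
      intro u hu
      exact HasFDerivAt.comp (g := θ) (f := fun u : Fin r → ℂ => (u, w₀)) u (hθd _ (hmem u hu))
        (hasFDerivAt_prodMk_left u w₀)
    refine null_of_finrank_le μ (by simpa using hG.le) (fun u hu => (hd u hu).differentiableAt) ?_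
    intro u hu hsurj
    rw [(hd u hu).fderiv] at hsurj
    have h1 : Function.Surjective (fderiv ℂ φ (e.symm (u, w₀))) := by
      intro z
      obtain ⟨v, hv⟩ := hsurj z
      exact ⟨_, hv⟩
    have h2 := hr _ (hxU _ (hmem u hu))
    rw [LinearMap.range_eq_top.mpr h1, finrank_top] at h2
    omega

end crank

section main

variable {G : Type*}
  [NormedAddCommGroup G] [NormedSpace ℂ G] [FiniteDimensional ℂ G]
  [MeasurableSpace G] [BorelSpace G] (μ : Measure G) [μ.IsAddHaarMeasure]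

theorem analyticAt_minor {E : Type*} [NormedAddCommGroup E] [NormedSpace ℂ E] {r : ℕ}
    (s : Fin r → E) (p : Fin r → (G →L[ℂ] ℂ)) {A : E → (E →L[ℂ] G)} {x : E}
    (hA : AnalyticAt ℂ A x) : AnalyticAt ℂ (fun x => minor s p (A x)) x := by
  unfold minor
  simp only [Matrix.det_apply]
  apply Finset.analyticAt_fun_sum
  intro σ _
  apply AnalyticAt.const_smul
  apply Finset.analyticAt_fun_prod
  intro i _
  simp only [Matrix.of_apply]
  exact ((p (σ i)).analyticAt _).comp
    (((ContinuousLinearMap.apply ℂ G (s i)).analyticAt _).comp hA)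

theorem null_pi (r : ℕ) : ∀ (m : ℕ) (U : Set (Fin m → ℂ)) (φ : (Fin m → ℂ) → G), IsOpen U →
    AnalyticOnNhd ℂ φ U →
    (∀ x ∈ U, finrank ℂ (LinearMap.range (fderiv ℂ φ x : (Fin m → ℂ) →ₗ[ℂ] G)) < r) →
    r ≤ finrank ℂ G → μ (φ '' U) = 0 := by
  classical
  induction r with
  | zero =>
    intro m U φ _ _ h _
    have : U = ∅ := by
      ext x; constructor
      · intro hx; exact absurd (h x hx) (Nat.not_lt_zero _)
      · intro hx; exact absurd hx (notMem_empty x)
    rw [this]; simp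
  | succ r ih =>
    intro m U φ hU hφ h hG
    set U₁ : Set (Fin m → ℂ) := {x | x ∈ U ∧ ∃ (s : Fin r → (Fin m → ℂ)) (p : Fin r → (G →L[ℂ] ℂ)),
      minor s p (fderiv ℂ φ x) ≠ 0} with hU₁
    set Z : Set (Fin m → ℂ) := {x | x ∈ U ∧ ∀ i : (Fin r → (Fin m → ℂ)) × (Fin r → (G →L[ℂ] ℂ)),
      minor i.1 i.2 (fderiv ℂ φ x) = 0} with hZ
    have hcov : U ⊆ U₁ ∪ Z := by
      intro x hx
      by_cases hx1 : ∃ (s : Fin r → (Fin m → ℂ)) (p : Fin r → (G →L[ℂ] ℂ)),
          minor s p (fderiv ℂ φ x) ≠ 0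
      · exact Or.inl ⟨hx, hx1⟩
      · right
        push Not at hx1
        exact ⟨hx, fun i => hx1 i.1 i.2⟩
    have h1 : μ (φ '' U₁) = 0 := by
      have hloc : ∀ x ∈ U₁, ∃ N ∈ 𝓝 x, μ (φ '' N) = 0 := by
        rintro x ⟨hx, s, p, hm⟩
        exact locally_null μ hU hφ (fun y hy => Nat.lt_succ_iff.mp (h y hy)) hG hx hm
      choose! N hN hN0 using hloc
      obtain ⟨t, htU, htc, ht⟩ := TopologicalSpace.countable_cover_nhdsWithin
        (f := N) (s := U₁) (fun x hx => mem_nhdsWithin_of_mem_nhds (hN x hx))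
      refine measure_mono_null (t := ⋃ x ∈ t, φ '' N x) ?_ ?_
      · rintro _ ⟨x, hx, rfl⟩
        obtain ⟨y, hy, hxy⟩ := mem_iUnion₂.mp (ht hx)
        exact mem_iUnion₂.mpr ⟨y, hy, x, hxy, rfl⟩
      · exact (measure_biUnion_null_iff htc).mpr fun x hx => hN0 x (htU hx)
    have h2 : μ (φ '' Z) = 0 := by
      obtain ⟨k, V, γ, hVo, hγa, hγZ, hZγ⟩ := lemmaZ hU
        (F := fun (i : (Fin r → (Fin m → ℂ)) × (Fin r → (G →L[ℂ] ℂ))) x =>
          minor i.1 i.2 (fderiv ℂ φ x))
        (fun i x hx => analyticAt_minor i.1 i.2 (hφ x hx).fderiv)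
      refine measure_mono_null (t := ⋃ j, (φ ∘ γ j) '' V j) ?_ ?_
      · rintro _ ⟨x, hx, rfl⟩
        obtain ⟨j, v, hv, rfl⟩ := mem_iUnion.mp (hZγ hx)
        exact mem_iUnion.mpr ⟨j, v, hv, rfl⟩
      · refine measure_iUnion_null fun j => ?_
        have hmem : ∀ v ∈ V j, γ j v ∈ Z := fun v hv => hγZ j ⟨v, hv, rfl⟩
        refine ih (k j) (V j) (φ ∘ γ j) (hVo j)
          (fun v hv => (hφ _ (hmem v hv).1).comp (hγa j v hv)) ?_ (by omega)
        intro v hv
        have hd : fderiv ℂ (φ ∘ γ j) v = (fderiv ℂ φ (γ j v)).comp (fderiv ℂ (γ j) v) :=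
          fderiv_comp v (hφ _ (hmem v hv).1).differentiableAt (hγa j v hv).differentiableAt
        have h3 : finrank ℂ (LinearMap.range (fderiv ℂ φ (γ j v) : (Fin m → ℂ) →ₗ[ℂ] G)) < r := by
          by_contra hcon
          obtain ⟨s, p, hsp⟩ := exists_minor_ne_zero (not_lt.mp hcon)
          exact hsp ((hmem v hv).2 (s, p))
        refine lt_of_le_of_lt (Submodule.finrank_mono ?_) h3
        rw [hd]
        rintro _ ⟨w, rfl⟩
        exact ⟨fderiv ℂ (γ j) v w, rfl⟩
    refine measure_mono_null (image_mono hcov) ?_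
    rw [image_union]
    exact measure_union_null h1 h2

end main

end SardAux

/-- **Sard-type lemma** for analytic maps: if the derivative is nowhere surjective, the image is
null. -/
theorem null_image {E G : Type*} [NormedAddCommGroup E] [NormedSpace ℂ E] [FiniteDimensional ℂ E]
    [NormedAddCommGroup G] [NormedSpace ℂ G] [FiniteDimensional ℂ G]
    [MeasurableSpace G] [BorelSpace G] (μ : Measure G) [μ.IsAddHaarMeasure]
    {U : Set E} {φ : E → G} (hU : IsOpen U) (hφ : AnalyticOnNhd ℂ φ U)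
    (h : ∀ x ∈ U, ¬ Function.Surjective (fderiv ℂ φ x)) : μ (φ '' U) = 0 := by
  classical
  let e : E ≃L[ℂ] (Fin (finrank ℂ E) → ℂ) :=
    ContinuousLinearEquiv.ofFinrankEq (by simp)
  have himg : φ '' U = (φ ∘ e.symm) '' (e.symm ⁻¹' U) := by
    ext y; constructor
    · rintro ⟨x, hx, rfl⟩
      exact ⟨e x, by simpa using hx, by simp⟩
    · rintro ⟨z, hz, rfl⟩
      exact ⟨e.symm z, hz, rfl⟩
  rw [himg]
  refine SardAux.null_pi μ (finrank ℂ G) _ _ _ (hU.preimage e.symm.continuous) ?_ ?_ le_rfl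
  · intro z hz
    exact (hφ _ hz).comp ((e.symm : (Fin (finrank ℂ E) → ℂ) →L[ℂ] E).analyticAt z)
  · intro z hz
    have hd : fderiv ℂ (φ ∘ e.symm) z = (fderiv ℂ φ (e.symm z)).comp
        (e.symm : (Fin (finrank ℂ E) → ℂ) →L[ℂ] E) := by
      have := fderiv_comp (𝕜 := ℂ) (g := φ) (f := e.symm) z (hφ _ hz).differentiableAt
        e.symm.differentiableAt
      rw [this, e.symm.fderiv]
    rw [hd]
    have hns : LinearMap.range (fderiv ℂ φ (e.symm z) : E →ₗ[ℂ] G) ≠ ⊤ := by
      intro ht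
      exact h _ hz (LinearMap.range_eq_top.mp ht)
    refine lt_of_le_of_lt (Submodule.finrank_mono ?_) (Submodule.finrank_lt hns)
    rintro _ ⟨w, rfl⟩
    exact ⟨e.symm w, rfl⟩

end Crest.Agent.R266
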