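import Crest.Prelude.Def_TangentSplitting

/-!
R266 / StepOneA: elementary reductions for Step 1 of S0404.
-/

set_option autoImplicit false

open scoped Manifold ContDiff Topology
open Set Filter Metric Crest.AlgGeometry.HolSplit

namespace Crest.Agent.R266.S1

variable {n : ℕ} {X : Type} [TopologicalSpace X] [ChartedSpace (Model n) X]
  [IsManifold (mI n) ω X]

/-- two points on a rational curve may be assumed to be at finite parameters -/
theorem mobius {x y : X} (h : OnRationalCurve (n := n) x y) :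
    ∃ g₀ g₁ : ℂ → X, ContMDiff 𝓘(ℂ, ℂ) (mI n) ω g₀ ∧ ContMDiff 𝓘(ℂ, ℂ) (mI n) ω g₁ ∧
      (∀ z : ℂ, z ≠ 0 → g₁ z = g₀ z⁻¹) ∧ ∃ z z' : ℂ, x = g₀ z ∧ y = g₀ z' := by
  obtain ⟨g₀, g₁, h₀, h₁, h01, hx, hy⟩ := h
  have key : ∀ w : X, w ∈ range g₀ ∪ {g₁ 0} → ∃ S : Finset ℂ, ∀ c ∉ S,
      ∃ z : ℂ, w = if z = 0 then g₁ 0 else g₀ (c + z⁻¹) := by
    intro w hw
    rcases hw with ⟨a, rfl⟩ | hw
    · refine ⟨{a}, fun c hc => ⟨(a - c)⁻¹, ?_⟩⟩
      have hac : a - c ≠ 0 := by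
        intro h
        apply hc
        simp only [Finset.mem_singleton]
        exact (sub_eq_zero.mp h).symm
      rw [if_neg (inv_ne_zero hac), inv_inv]
      congr 1
      ring
    · refine ⟨∅, fun c _ => ⟨0, ?_⟩⟩
      simpa using hw
  obtain ⟨Sx, hSx⟩ := key x hx
  obtain ⟨Sy, hSy⟩ := key y hy
  obtain ⟨c, hc⟩ := Infinite.exists_notMem_finset (Sx ∪ Sy)
  rw [Finset.mem_union, not_or] at hc
  obtain ⟨z, hz⟩ := hSx c hc.1
  obtain ⟨z', hz'⟩ := hSy c hc.2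
  refine ⟨fun z => if z = 0 then g₁ 0 else g₀ (c + z⁻¹), fun z => g₀ (c + z), ?_, ?_, ?_,
    z, z', hz, hz'⟩
  · intro z
    by_cases hz0 : z = 0
    · subst hz0
      have e1 : (fun z : ℂ => if z = 0 then g₁ 0 else g₀ (c + z⁻¹)) =ᶠ[𝓝 0]
          fun z => g₁ (z / (c * z + 1)) := by
        have : ∀ᶠ z : ℂ in 𝓝 0, c * z + 1 ≠ 0 := by
          apply ContinuousAt.eventually_ne (by fun_prop)
          simp
        filter_upwards [this] with z hz
        by_cases h0 : z = 0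
        · simp [h0]
        · rw [if_neg h0, h01 _ (div_ne_zero h0 hz), inv_div]
          congr 1
          field_simp
      refine ContMDiffAt.congr_of_eventuallyEq ?_ e1
      have h2 : ContMDiffAt 𝓘(ℂ, ℂ) 𝓘(ℂ, ℂ) ω (fun z : ℂ => z / (c * z + 1)) 0 := by
        rw [contMDiffAt_iff_contDiffAt]
        apply ContDiffAt.div contDiffAt_id
        · fun_prop
        · simp
      exact (h₁.contMDiffAt (x := (0 : ℂ) / (c * 0 + 1))).comp (0 : ℂ) h2
    · have e1 : (fun z : ℂ => if z = 0 then g₁ 0 else g₀ (c + z⁻¹)) =ᶠ[𝓝 z]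
          fun z => g₀ (c + z⁻¹) := by
        filter_upwards [isOpen_ne.mem_nhds hz0] with w hw
        rw [if_neg hw]
      refine ContMDiffAt.congr_of_eventuallyEq ?_ e1
      have h2 : ContMDiffAt 𝓘(ℂ, ℂ) 𝓘(ℂ, ℂ) ω (fun z : ℂ => c + z⁻¹) z := by
        rw [contMDiffAt_iff_contDiffAt]
        exact contDiffAt_const.add (contDiffAt_inv ℂ hz0)
      exact (h₀.contMDiffAt (x := c + z⁻¹)).comp z h2
  · have h2 : ContMDiff 𝓘(ℂ, ℂ) 𝓘(ℂ, ℂ) ω (fun z : ℂ => c + z) := by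
      rw [contMDiff_iff_contDiff]
      fun_prop
    exact h₀.comp h2
  · intro w hw
    simp only [inv_inv]
    rw [if_neg (inv_ne_zero hw)]

/-- an analytic subset is closed -/
theorem isClosed_analytic {A : Set (X × X)} (hA : IsAnalyticSubset (n := n) A) : IsClosed A := by
  rw [← isOpen_compl_iff, isOpen_iff_mem_nhds]
  intro p hp
  obtain ⟨U, k, f, hU, hpU, hf, hAU⟩ := hA p
  have : ∃ i, f i p ≠ 0 := by
    by_contra hcon
    push Not at hcon
    have : p ∈ A ∩ U := by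
      rw [hAU]
      exact ⟨hpU, hcon⟩
    exact hp this.1
  obtain ⟨i, hi⟩ := this
  have hc : ContinuousAt (f i) p := ((hf i).continuousOn).continuousAt (hU.mem_nhds hpU)
  filter_upwards [hc.eventually_ne hi, hU.mem_nhds hpU] with q hq hqU hqA
  have : q ∈ A ∩ U := ⟨hqA, hqU⟩
  rw [hAU] at this
  exact hq (this.2 i)

/-- output of rational connectedness: a nonempty open set of pairs joined by curves at finite
parameters -/
theorem exists_open_pairs (hrc : IsRationallyConnected n X) :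
    ∃ O : Set (X × X), IsOpen O ∧ O.Nonempty ∧ ∀ p ∈ O, ∃ g₀ g₁ : ℂ → X,
      ContMDiff 𝓘(ℂ, ℂ) (mI n) ω g₀ ∧ ContMDiff 𝓘(ℂ, ℂ) (mI n) ω g₁ ∧
      (∀ z : ℂ, z ≠ 0 → g₁ z = g₀ z⁻¹) ∧ ∃ z z' : ℂ, p = (g₀ z, g₀ z') := by
  obtain ⟨A, hA, hne, hcur⟩ := hrc
  refine ⟨Aᶜ, (isClosed_analytic hA).isOpen_compl, Set.nonempty_compl.mpr hne, ?_⟩
  rintro ⟨x, y⟩ hp
  obtain ⟨g₀, g₁, h0, h1, h01, z, z', hx, hy⟩ := mobius (hcur x y hp)
  exact ⟨g₀, g₁, h0, h1, h01, z, z', by rw [hx, hy]⟩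

end Crest.Agent.R266.S1
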