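import Mathlib
import Crest.Prelude.Def_TangentSplitting
import Crest.Agent.R266.RatDefs
import Crest.Agent.R266.Emb
import Crest.Agent.R266.StepThreeDefs

/-!
R266 / StepOneB: polynomial rational curves in `X ⊆ ℙ^N` (both charts), the set `Sd` of coefficient
vectors of such curves is locally an analytic set, and analytic families of such coefficient vectors
give holomorphic families of rational curves.
-/

set_option autoImplicit false

open scoped Manifold ContDiff Topology
open Set Filter Metric Crest.AlgGeometry.HolSplit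
open Crest.Agent.R266.Rat Crest.Agent.R266.Emb

namespace Crest.Agent.R266.S1

/-- coefficient vectors -/
abbrev Cf (N d : ℕ) : Type := Fin (N + 1) → Fin (d + 1) → ℂ

/-- reversed coefficients = the chart at infinity -/
def revc {N d : ℕ} (q : Cf N d) : Cf N d := fun i j => q i (Fin.rev j)

/-- the curve in both charts -/
noncomputable def pevb {N d : ℕ} (b : Bool) (q : Cf N d) (z : ℂ) : Fin (N + 1) → ℂ :=
  pev (if b then revc q else q) z

theorem revc_revc {N d : ℕ} (q : Cf N d) : revc (revc q) = q := by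
  funext i j
  simp [revc]

theorem pev_revc {N d : ℕ} (q : Cf N d) {z : ℂ} (hz : z ≠ 0) :
    pev (revc q) z = z ^ d • pev q z⁻¹ := by
  funext i
  simp only [pev, revc, Pi.smul_apply, smul_eq_mul, Finset.mul_sum]
  rw [← Equiv.sum_comp Fin.revPerm]
  apply Finset.sum_congr rfl
  intro j _
  simp only [Fin.revPerm_apply, Fin.rev_rev]
  have h1 : z ^ d = z ^ ((Fin.rev j : Fin (d + 1)) : ℕ) * z ^ (j : ℕ) := by
    rw [← pow_add]
    congr 1
    have := j.2
    simp only [Fin.val_rev]
    omega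
  rw [h1, inv_pow]
  field_simp

theorem pevb_not {N d : ℕ} (b : Bool) (q : Cf N d) {z : ℂ} (hz : z ≠ 0) :
    pevb (!b) q z = z ^ d • pevb b q z⁻¹ := by
  cases b
  · simpa [pevb] using pev_revc q hz
  · have := pev_revc (revc q) hz
    rw [revc_revc] at this
    simpa [pevb] using this

theorem pev_revc_zero {N d : ℕ} (q : Cf N d) :
    pev (revc q) 0 = fun i => q i (Fin.last d) := by
  funext i
  simp only [pev, revc]
  rw [Finset.sum_eq_single (0 : Fin (d + 1))]
  · simp
  · intro j _ hj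
    have : (j : ℕ) ≠ 0 := by
      intro h
      exact hj (Fin.ext h)
    simp [this]
  · simp

theorem pevb_analytic {N d : ℕ} (b : Bool) :
    AnalyticOnNhd ℂ (fun p : Cf N d × ℂ => pevb b p.1 p.2) univ := by
  intro p _
  rw [analyticAt_pi_iff]
  intro i
  cases b
  · simp only [pevb, pev, Bool.false_eq_true, if_false]
    apply Finset.analyticAt_fun_sum
    intro j _
    apply AnalyticAt.mul
    · have h1 : (fun p : Cf N d × ℂ => p.1 i j) = fun p : Cf N d × ℂ =>
        ((ContinuousLinearMap.proj (R := ℂ) (φ := fun _ : Fin (d + 1) => ℂ) j).comp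
          ((ContinuousLinearMap.proj (R := ℂ) (φ := fun _ : Fin (N + 1) => Fin (d + 1) → ℂ) i).comp
            (ContinuousLinearMap.fst ℂ (Cf N d) ℂ))) p := by
        funext p; rfl
      rw [h1]
      exact ContinuousLinearMap.analyticAt _ _
    · exact analyticAt_snd.pow _
  · simp only [pevb, pev, if_true, revc]
    apply Finset.analyticAt_fun_sum
    intro j _
    apply AnalyticAt.mul
    · have h1 : (fun p : Cf N d × ℂ => p.1 i (Fin.rev j)) = fun p : Cf N d × ℂ =>
        ((ContinuousLinearMap.proj (R := ℂ) (φ := fun _ : Fin (d + 1) => ℂ) (Fin.rev j)).comp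
          ((ContinuousLinearMap.proj (R := ℂ) (φ := fun _ : Fin (N + 1) => Fin (d + 1) → ℂ) i).comp
            (ContinuousLinearMap.fst ℂ (Cf N d) ℂ))) p := by
        funext p; rfl
      rw [h1]
      exact ContinuousLinearMap.analyticAt _ _
    · exact analyticAt_snd.pow _

theorem pevb_continuous {N d : ℕ} (b : Bool) :
    Continuous (fun p : Cf N d × ℂ => pevb b p.1 p.2) := by
  rw [continuous_iff_continuousAt]
  intro p
  exact (pevb_analytic b p (mem_univ _)).continuousAt

/-- nonvanishing at all points of `ℙ¹` is an open condition -/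
theorem eventually_ne_zero {N d : ℕ} {q₀ : Cf N d} (h : ∀ b z, pevb b q₀ z ≠ 0) :
    ∀ᶠ q in 𝓝 q₀, ∀ b z, pevb b q z ≠ 0 := by
  have key : ∀ b, ∀ᶠ q in 𝓝 q₀, ∀ z ∈ closedBall (0 : ℂ) 1, pevb b q z ≠ 0 := by
    intro b
    apply (isCompact_closedBall (0 : ℂ) 1).eventually_forall_of_forall_eventually
    intro z _
    exact ((pevb_continuous b).continuousAt (x := (q₀, z))).eventually_ne (h b z)
  filter_upwards [key false, key true] with q h0 h1 b z
  have hall : ∀ b, ∀ z ∈ closedBall (0 : ℂ) 1, pevb b q z ≠ 0 := by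
    intro b
    cases b
    · exact h0
    · exact h1
  by_cases hz : ‖z‖ ≤ 1
  · exact hall b z (by simpa using hz)
  · have hz0 : z ≠ 0 := by
      rintro rfl
      simp at hz
    have h2 := pevb_not (!b) q hz0
    rw [Bool.not_not] at h2
    rw [h2]
    refine smul_ne_zero (pow_ne_zero _ hz0) (hall _ _ ?_)
    rw [mem_closedBall, dist_zero_right, norm_inv]
    exact inv_le_one_of_one_le₀ (le_of_lt (not_le.1 hz))

section

variable {n N : ℕ} {X : Type} [TopologicalSpace X] [ChartedSpace (Model n) X]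
  [IsManifold (mI n) ω X]

/-- coefficient vectors of polynomial rational curves on `X` -/
def Sd (pe : ProjEmbedding n X N) (d : ℕ) : Set (Cf N d) :=
  {q | ∀ b z, ∃ x, OnX pe (pevb b q z) x}

/-- the rational curve of a coefficient vector -/
noncomputable def cv [Nonempty X] (pe : ProjEmbedding n X N) {d : ℕ} (q : Cf N d) (b : Bool)
    (z : ℂ) : X :=
  Classical.epsilon fun x => OnX pe (pevb b q z) x

theorem cv_spec [Nonempty X] {pe : ProjEmbedding n X N} {d : ℕ} {q : Cf N d} (hq : q ∈ Sd pe d)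
    (b : Bool) (z : ℂ) : OnX pe (pevb b q z) (cv pe q b z) :=
  Classical.epsilon_spec (hq b z)

theorem cv_eq [Nonempty X] {pe : ProjEmbedding n X N} {d : ℕ} {q : Cf N d} {b : Bool}
    {z : ℂ} {x : X} (h : OnX pe (pevb b q z) x) : cv pe q b z = x :=
  OnX.unique (Classical.epsilon_spec (p := fun x => OnX pe (pevb b q z) x) ⟨x, h⟩) h

theorem cv_not [Nonempty X] {pe : ProjEmbedding n X N} {d : ℕ} {q : Cf N d} (hq : q ∈ Sd pe d)
    (b : Bool) {z : ℂ} (hz : z ≠ 0) : cv pe q (!b) z = cv pe q b z⁻¹ := by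
  apply cv_eq
  rw [pevb_not b q hz]
  exact (cv_spec hq b z⁻¹).smul (pow_ne_zero _ hz)

/-- a coefficient vector which lies on `X` near one parameter of the chart `false` and vanishes
nowhere lies in `Sd`. -/
theorem mem_Sd_of_local [CompactSpace X] [T2Space X] {pe : ProjEmbedding n X N} {d : ℕ}
    {q : Cf N d} (h0 : ∀ b z, pevb b q z ≠ 0) {r : ℝ} (hr : 0 < r)
    (h : ∀ z ∈ ball (0 : ℂ) r, ∃ x, OnX pe (pevb false q z) x) : q ∈ Sd pe d := by
  have han : ∀ b, AnalyticOnNhd ℂ (fun z : ℂ => pevb b q z) univ := by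
    intro b z _
    exact (pevb_analytic b (q, z) (mem_univ _)).comp (analyticAt_const.prod analyticAt_id)
  have hF : ∀ z, ∃ x, OnX pe (pevb false q z) x := by
    intro z
    refine onX_ident (pe := pe) (W := univ) (V := ball 0 r) isOpen_univ isPreconnected_univ
      (han false) (fun w _ => h0 false w) isOpen_ball ⟨0, mem_ball_self hr, mem_univ _⟩
      (fun w hw => h w hw.1) z (mem_univ _)
  have hT : ∀ z, ∃ x, OnX pe (pevb true q z) x := by
    intro z
    refine onX_ident (pe := pe) (W := univ) (V := {0}ᶜ) isOpen_univ isPreconnected_univ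
      (han true) (fun w _ => h0 true w) isOpen_compl_singleton
      ⟨1, by simp, mem_univ _⟩ (fun w hw => ?_) z (mem_univ _)
    have hw0 : w ≠ 0 := by simpa using hw.1
    obtain ⟨x, hx⟩ := hF w⁻¹
    refine ⟨x, ?_⟩
    have h2 := pevb_not false q hw0
    rw [Bool.not_false] at h2
    rw [h2]
    exact hx.smul (pow_ne_zero _ hw0)
  intro b z
  cases b
  · exact hF z
  · exact hT z

/-- **E4**: `Sd` is locally the common zero set of analytic functions. -/
theorem Sd_local [CompactSpace X] [T2Space X] (pe : ProjEmbedding n X N) (d : ℕ) (q₀ : Cf N d)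
    (hq₀ : q₀ ∈ Sd pe d) :
    ∃ (O : Set (Cf N d)) (ι : Type) (φ : ι → Cf N d → ℂ), IsOpen O ∧ q₀ ∈ O ∧
      (∀ i, AnalyticOnNhd ℂ (φ i) O) ∧ (∀ q ∈ O, q ∈ Sd pe d ↔ ∀ i, φ i q = 0) := by
  obtain ⟨x₀, hx₀⟩ := hq₀ false 0
  obtain ⟨Om, hOm, hmem, σ, Φ, hσ, hΦ, hne, hiff, hon⟩ := exists_retr hx₀
  -- a neighbourhood where everything is defined
  have h1 : ∀ᶠ p : Cf N d × ℂ in 𝓝 (q₀, (0 : ℂ)), pevb false p.1 p.2 ∈ Om :=
    ((pevb_continuous false).continuousAt (x := (q₀, (0 : ℂ)))).eventually (hOm.mem_nhds hmem)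
  obtain ⟨A, hA, B, hB, hAB⟩ := eventually_prod_iff.1 (by rwa [nhds_prod_eq] at h1)
  obtain ⟨r, hr, hrB⟩ := Metric.eventually_nhds_iff_ball.1 hB
  have h2 : ∀ᶠ q in 𝓝 q₀, A q ∧ ∀ b z, pevb b q z ≠ 0 :=
    hA.and (eventually_ne_zero fun b z => (hq₀ b z).choose_spec.1)
  obtain ⟨O, hOsub, hO, hqO⟩ := _root_.eventually_nhds_iff.1 h2
  refine ⟨O, (ball (0 : ℂ) r) × Fin (N + 1), fun i q => Φ (pevb false q i.1) i.2, hO, hqO, ?_, ?_⟩
  · rintro ⟨⟨z, hz⟩, i⟩ q hq
    have h3 : pevb false q z ∈ Om := hAB (hOsub q hq).1 (hrB z hz)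
    have h4 : AnalyticAt ℂ (fun q : Cf N d => pevb false q z) q :=
      AnalyticAt.comp (g := fun p : Cf N d × ℂ => pevb false p.1 p.2)
        (f := fun q : Cf N d => (q, z)) (pevb_analytic false (q, z) (mem_univ _))
        (analyticAt_id.prod analyticAt_const)
    have h5 : AnalyticAt ℂ (fun q : Cf N d => Φ (pevb false q z)) q :=
      AnalyticAt.comp (g := Φ) (f := fun q : Cf N d => pevb false q z) (hΦ _ h3) h4
    exact (analyticAt_pi_iff.1 h5) i
  · intro q hq
    constructor
    · rintro hS ⟨⟨z, hz⟩, i⟩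
      have h3 : pevb false q z ∈ Om := hAB (hOsub q hq).1 (hrB z hz)
      have := (hiff _ h3).2 (hS false z)
      simp [this]
    · intro hz
      refine mem_Sd_of_local (hOsub q hq).2 hr fun z hzr => ?_
      have h3 : pevb false q z ∈ Om := hAB (hOsub q hq).1 (hrB z hzr)
      refine (hiff _ h3).1 ?_
      funext i
      exact hz (⟨z, hzr⟩, i)

/-- **A4**: analytic families of coefficient vectors give holomorphic families of curves. -/
theorem isFam_of_analytic [CompactSpace X] [T2Space X] [Nonempty X] (pe : ProjEmbedding n X N)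
    {d : ℕ} {E : Type*} [NormedAddCommGroup E] [NormedSpace ℂ E] {V : Set E} (hV : IsOpen V)
    {γ : E → Cf N d} (hγ : AnalyticOnNhd ℂ γ V) (hS : ∀ s ∈ V, γ s ∈ Sd pe d) :
    IsFam n V (fun s b z => cv pe (γ s) b z) := by
  constructor
  · intro b
    apply contMDiffOn_lift (pe := pe) (hV.prod isOpen_univ)
      (q := fun p : E × ℂ => pevb b (γ p.1) p.2)
    · intro p hp
      exact AnalyticAt.comp (g := fun p : Cf N d × ℂ => pevb b p.1 p.2)
        (f := fun p : E × ℂ => (γ p.1, p.2)) (pevb_analytic b _ (mem_univ _))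
        (((hγ p.1 hp.1).comp analyticAt_fst).prod analyticAt_snd)
    · intro p hp
      exact cv_spec (hS p.1 hp.1) b p.2
  · intro s hs b z hz
    exact cv_not (hS s hs) b hz

end

end Crest.Agent.R266.S1
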