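import Mathlib

/-!
R266 / SurjDense: the locus where the differential of a holomorphic map (from an open preconnected
subset of a complex normed space to a complex manifold of finite dimension) is surjective is open,
and it is dense as soon as it is nonempty.
-/

set_option autoImplicit false

open scoped Topology Manifold ContDiff
open Set Metric Filter

namespace Crest.Agent.R266.SD

section Vector

variable {E F : Type*} [NormedAddCommGroup E] [NormedSpace ℂ E] [NormedAddCommGroup F]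
  [NormedSpace ℂ F] [FiniteDimensional ℂ F]

/-- the determinant of `A ∘ R` with respect to a basis of `F`. -/
noncomputable def dt (R : F →L[ℂ] E) (A : E →L[ℂ] F) : ℂ :=
  Matrix.det (LinearMap.toMatrix (Module.finBasis ℂ F) (Module.finBasis ℂ F)
    ((A.comp R : F →L[ℂ] F) : F →ₗ[ℂ] F))

omit [FiniteDimensional ℂ F] in
theorem entry_analytic [FiniteDimensional ℂ F] (R : F →L[ℂ] E) (i j : Fin (Module.finrank ℂ F))
    {g : E → (E →L[ℂ] F)} {U : Set E} (hg : AnalyticOnNhd ℂ g U) :
    AnalyticOnNhd ℂ (fun x => (LinearMap.toMatrix (Module.finBasis ℂ F) (Module.finBasis ℂ F)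
      (((g x).comp R : F →L[ℂ] F) : F →ₗ[ℂ] F)) i j) U := by
  let v : F := Module.finBasis ℂ F j
  let L : F →L[ℂ] ℂ := LinearMap.toContinuousLinearMap ((Module.finBasis ℂ F).coord i)
  have h : (fun x => (LinearMap.toMatrix (Module.finBasis ℂ F) (Module.finBasis ℂ F)
      (((g x).comp R : F →L[ℂ] F) : F →ₗ[ℂ] F)) i j) =
      fun x => L ((ContinuousLinearMap.apply ℂ F (R v)) (g x)) := by
    funext x
    simp [LinearMap.toMatrix_apply, L, v]
  rw [h]
  intro x hx
  exact (L.analyticAt _).comp (((ContinuousLinearMap.apply ℂ F (R v)).analyticAt _).comp (hg x hx))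

theorem dt_analytic (R : F →L[ℂ] E) {g : E → (E →L[ℂ] F)} {U : Set E}
    (hg : AnalyticOnNhd ℂ g U) : AnalyticOnNhd ℂ (fun x => dt R (g x)) U := by
  unfold dt
  simp only [Matrix.det_apply']
  intro x hx
  apply Finset.analyticAt_fun_sum
  intro σ _
  apply analyticAt_const.mul
  apply Finset.analyticAt_fun_prod
  intro i _
  exact entry_analytic R _ _ hg x hx

theorem surj_of_dt {R : F →L[ℂ] E} {A : E →L[ℂ] F} (h : dt R A ≠ 0) :
    Function.Surjective A := by
  have h1 : IsUnit (LinearMap.det ((A.comp R : F →L[ℂ] F) : F →ₗ[ℂ] F)) := by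
    rw [isUnit_iff_ne_zero]
    unfold dt at h
    rwa [LinearMap.det_toMatrix] at h
  have h2 : IsUnit ((A.comp R : F →L[ℂ] F) : F →ₗ[ℂ] F) := by
    exact (LinearMap.isUnit_iff_isUnit_det _).2 h1
  have h3 := (Module.End.isUnit_iff _).1 h2
  intro y
  obtain ⟨x, hx⟩ := h3.2 y
  exact ⟨R x, by simpa using hx⟩

theorem exists_dt {A : E →L[ℂ] F} (h : Function.Surjective A) :
    ∃ R : F →L[ℂ] E, dt R A ≠ 0 := by
  obtain ⟨R, hR⟩ := (A : E →ₗ[ℂ] F).exists_rightInverse_of_surjective (LinearMap.range_eq_top.2 h)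
  refine ⟨LinearMap.toContinuousLinearMap R, ?_⟩
  have h2 : ((A.comp (LinearMap.toContinuousLinearMap R) : F →L[ℂ] F) : F →ₗ[ℂ] F) =
      LinearMap.id := by
    ext x
    have := congrArg (fun f => f x) hR
    simpa using this
  unfold dt
  rw [h2]
  simp

/-- local density for maps between vector spaces -/
theorem dense_vec {B : Set E} (hB : IsOpen B) (hBc : IsPreconnected B) {G : E → F}
    (hG : AnalyticOnNhd ℂ G B) {p : E} (hp : p ∈ B) (hs : Function.Surjective (fderiv ℂ G p)) :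
    B ⊆ closure {x | x ∈ B ∧ Function.Surjective (fderiv ℂ G x)} := by
  obtain ⟨R, hR⟩ := exists_dt hs
  have han := dt_analytic R hG.fderiv
  intro q hq
  by_contra hcon
  -- then near q the determinant vanishes
  have hev : ∀ᶠ x in 𝓝 q, dt R (fderiv ℂ G x) = 0 := by
    have h1 : (closure {x | x ∈ B ∧ Function.Surjective (fderiv ℂ G x)})ᶜ ∈ 𝓝 q :=
      isClosed_closure.isOpen_compl.mem_nhds hcon
    filter_upwards [h1, hB.mem_nhds hq] with x hx hxB
    by_contra hne
    exact hx (subset_closure ⟨hxB, surj_of_dt hne⟩)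
  have h0 := han.eqOn_zero_of_preconnected_of_eventuallyEq_zero hBc hq hev
  exact hR (h0 hp)

theorem open_vec {B : Set E} (hB : IsOpen B) {G : E → F}
    (hG : AnalyticOnNhd ℂ G B) :
    IsOpen {x | x ∈ B ∧ Function.Surjective (fderiv ℂ G x)} := by
  rw [isOpen_iff_mem_nhds]
  rintro p ⟨hp, hs⟩
  obtain ⟨R, hR⟩ := exists_dt hs
  have han := dt_analytic R hG.fderiv
  filter_upwards [(han p hp).continuousAt.eventually_ne hR, hB.mem_nhds hp] with x hx hxB
  exact ⟨hxB, surj_of_dt hx⟩

end Vector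

section Manifold

variable {E F : Type*} [NormedAddCommGroup E] [NormedSpace ℂ E] [NormedAddCommGroup F]
  [NormedSpace ℂ F] [FiniteDimensional ℂ F]
  {H : Type*} [TopologicalSpace H] {I : ModelWithCorners ℂ F H}
  {M : Type*} [TopologicalSpace M] [ChartedSpace H M] [IsManifold I ω M]

omit [FiniteDimensional ℂ F] in
/-- The chart expression of a holomorphic map near a point is analytic and the surjectivity of the
differential can be read off in the chart. -/
theorem local_form {W : Set E} (hW : IsOpen W) {f : E → M} (hf : ContMDiffOn 𝓘(ℂ, E) I ω f W)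
    (x0 : M) :
    IsOpen (W ∩ f ⁻¹' (chartAt H x0).source) ∧
    AnalyticOnNhd ℂ (fun x => extChartAt I x0 (f x)) (W ∩ f ⁻¹' (chartAt H x0).source) ∧
    ∀ x ∈ W ∩ f ⁻¹' (chartAt H x0).source,
      (Function.Surjective (fderiv ℂ (fun x => extChartAt I x0 (f x)) x) ↔
        Function.Surjective (mfderiv 𝓘(ℂ, E) I f x)) := by
  have hop : IsOpen (W ∩ f ⁻¹' (chartAt H x0).source) :=
    hf.continuousOn.isOpen_inter_preimage hW (chartAt H x0).open_source
  have hm : ContMDiffOn 𝓘(ℂ, E) 𝓘(ℂ, F) ω (fun x => extChartAt I x0 (f x))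
      (W ∩ f ⁻¹' (chartAt H x0).source) := by
    have h1 : ContMDiffOn I 𝓘(ℂ, F) ω (extChartAt I x0) (chartAt H x0).source :=
      contMDiffOn_extChartAt
    exact h1.comp (hf.mono inter_subset_left) (fun x hx => hx.2)
  refine ⟨hop, ?_, ?_⟩
  · have h2 : ContDiffOn ℂ ω (fun x => extChartAt I x0 (f x))
      (W ∩ f ⁻¹' (chartAt H x0).source) := contMDiffOn_iff_contDiffOn.1 hm
    exact (hop.analyticOn_iff_analyticOnNhd).1 (contDiffOn_omega_iff_analyticOn hop.uniqueDiffOn |>.1 h2)
  · intro x hx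
    have hfd : MDifferentiableAt 𝓘(ℂ, E) I f x :=
      ((hf x hx.1).contMDiffAt (hW.mem_nhds hx.1)).mdifferentiableAt (by simp)
    have hcd : MDifferentiableAt I 𝓘(ℂ, F) (extChartAt I x0) (f x) :=
      mdifferentiableAt_extChartAt hx.2
    have hinv : (mfderiv I 𝓘(ℂ, F) (extChartAt I x0) (f x)).IsInvertible :=
      isInvertible_mfderiv_extChartAt (by simpa using hx.2)
    have hcomp : mfderiv 𝓘(ℂ, E) 𝓘(ℂ, F) (fun x => extChartAt I x0 (f x)) x =
        (mfderiv I 𝓘(ℂ, F) (extChartAt I x0) (f x)).comp (mfderiv 𝓘(ℂ, E) I f x) :=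
      mfderiv_comp x hcd hfd
    rw [← mfderiv_eq_fderiv, hcomp]
    obtain ⟨e, he⟩ := hinv
    rw [← he]
    constructor
    · intro hs y
      obtain ⟨v, hv⟩ := hs (e y)
      refine ⟨v, ?_⟩
      apply e.injective
      exact hv
    · intro hs y
      obtain ⟨v, hv⟩ := hs (e.symm y)
      refine ⟨v, ?_⟩
      change e (mfderiv 𝓘(ℂ, E) I f x v) = y
      rw [hv]
      exact e.apply_symm_apply y

theorem isOpen_surj {W : Set E} (hW : IsOpen W) {f : E → M}
    (hf : ContMDiffOn 𝓘(ℂ, E) I ω f W) :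
    IsOpen {x | x ∈ W ∧ Function.Surjective (mfderiv 𝓘(ℂ, E) I f x)} := by
  rw [isOpen_iff_mem_nhds]
  rintro p ⟨hp, hs⟩
  obtain ⟨hop, han, hiff⟩ := local_form hW hf (f p)
  have hp' : p ∈ W ∩ f ⁻¹' (chartAt H (f p)).source := ⟨hp, mem_chart_source H (f p)⟩
  have h1 := (open_vec hop han).mem_nhds ⟨hp', (hiff p hp').2 hs⟩
  filter_upwards [h1] with x hx
  exact ⟨hx.1.1, (hiff x hx.1).1 hx.2⟩

/-- **Density of the submersive points.** -/
theorem dense_surj {W : Set E} (hW : IsOpen W) (hWc : IsPreconnected W) {f : E → M}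
    (hf : ContMDiffOn 𝓘(ℂ, E) I ω f W) {p : E} (hp : p ∈ W)
    (hs : Function.Surjective (mfderiv 𝓘(ℂ, E) I f p)) :
    W ⊆ closure {x | x ∈ W ∧ Function.Surjective (mfderiv 𝓘(ℂ, E) I f x)} := by
  set D := {x | x ∈ W ∧ Function.Surjective (mfderiv 𝓘(ℂ, E) I f x)} with hD
  have hloc : ∀ q ∈ W, q ∈ closure D → q ∈ interior (closure D) := by
    intro q hq hqD
    obtain ⟨hop, han, hiff⟩ := local_form hW hf (f q)
    have hq' : q ∈ W ∩ f ⁻¹' (chartAt H (f q)).source := ⟨hq, mem_chart_source H (f q)⟩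
    obtain ⟨r, hr, hball⟩ := Metric.isOpen_iff.1 hop q hq'
    obtain ⟨x, hxB, hxD⟩ := mem_closure_iff.1 hqD (ball q r) isOpen_ball (mem_ball_self hr)
    have h1 := dense_vec isOpen_ball (convex_ball q r).isPreconnected (han.mono hball) hxB
      ((hiff x (hball hxB)).2 hxD.2)
    rw [mem_interior]
    refine ⟨ball q r, ?_, isOpen_ball, mem_ball_self hr⟩
    refine h1.trans (closure_mono ?_)
    rintro y ⟨hy1, hy2⟩
    exact ⟨(hball hy1).1, (hiff y (hball hy1)).1 hy2⟩
  have hDo : IsOpen D := isOpen_surj hW hf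
  have h2 : W ⊆ interior (closure D) := by
    apply hWc.subset_of_closure_inter_subset isOpen_interior
    · exact ⟨p, hp, (interior_mono subset_closure) (by rw [hDo.interior_eq]; exact ⟨hp, hs⟩)⟩
    · rintro q ⟨hq1, hq2⟩
      exact hloc q hq2 (closure_minimal interior_subset isClosed_closure hq1)
  exact h2.trans interior_subset

/-- The same in the form "every nonempty open subset of `W` contains a submersive point". -/
theorem exists_surj {W : Set E} (hW : IsOpen W) (hWc : IsPreconnected W) {f : E → M}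
    (hf : ContMDiffOn 𝓘(ℂ, E) I ω f W) {p : E} (hp : p ∈ W)
    (hs : Function.Surjective (mfderiv 𝓘(ℂ, E) I f p)) (V : Set E) (hV : IsOpen V)
    (hVne : V.Nonempty) (hVW : V ⊆ W) :
    ∃ x ∈ V, Function.Surjective (mfderiv 𝓘(ℂ, E) I f x) := by
  obtain ⟨q, hq⟩ := hVne
  obtain ⟨x, hxV, hx⟩ := mem_closure_iff.1 (dense_surj hW hWc hf hp hs (hVW hq)) V hV hq
  exact ⟨x, hxV, hx.2⟩

end Manifold

end Crest.Agent.R266.SD
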