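import Mathlib
import Crest.Prelude.Def_TangentSplitting
import Crest.Agent.R266.RatDefs
import Crest.Agent.R266.Emb
import Crest.Agent.R266.StepThreeDefs
import Crest.Agent.R266.StepOneA
import Crest.Agent.R266.StepOneB
import Crest.Agent.R266.SurjDense
import Crest.Agent.R266.LemmaZ
import Crest.Agent.R266.Sard
import Crest.Agent.R266.P1PolyX
import Crest.Agent.R266.A.Iface404

/-!
R266 / StepOne: final assembly of Step 1 of S0404: a projective rationally connected manifold has a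
holomorphic family of rational curves whose two-point differential is surjective on a dense set.
-/

set_option autoImplicit false

open scoped Manifold ContDiff Topology
open Set Filter Metric Crest.AlgGeometry.HolSplit MeasureTheory
open Crest.Agent.R266.Rat Crest.Agent.R266.Emb

namespace Crest.Agent.R266.S1

section

variable {n N : ℕ} {X : Type} [TopologicalSpace X] [ChartedSpace (Model n) X]
  [IsManifold (mI n) ω X]

/-- The P1POLY property: every rational curve on `X` is given by a polynomial vector. -/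
def PolyCurves (pe : ProjEmbedding n X N) : Prop :=
  ∀ g₀ g₁ : ℂ → X, ContMDiff 𝓘(ℂ, ℂ) (mI n) ω g₀ → ContMDiff 𝓘(ℂ, ℂ) (mI n) ω g₁ →
    (∀ z : ℂ, z ≠ 0 → g₁ z = g₀ z⁻¹) →
    ∃ (d : ℕ) (q : Cf N d), (∀ z, OnX pe (pev q z) (g₀ z)) ∧
      OnX pe (fun i => q i (Fin.last d)) (g₁ 0)

theorem exists_Sd {pe : ProjEmbedding n X N} (hP : PolyCurves pe) [Nonempty X] {g₀ g₁ : ℂ → X}
    (h0 : ContMDiff 𝓘(ℂ, ℂ) (mI n) ω g₀) (h1 : ContMDiff 𝓘(ℂ, ℂ) (mI n) ω g₁)
    (h01 : ∀ z : ℂ, z ≠ 0 → g₁ z = g₀ z⁻¹) :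
    ∃ (d : ℕ) (q : Cf N d), q ∈ Sd pe d ∧ ∀ z, cv pe q false z = g₀ z := by
  obtain ⟨d, q, hq, hq'⟩ := hP g₀ g₁ h0 h1 h01
  have hF : ∀ z, OnX pe (pevb false q z) (g₀ z) := fun z => by simpa [pevb] using hq z
  refine ⟨d, q, ?_, fun z => cv_eq (hF z)⟩
  intro b z
  cases b
  · exact ⟨_, hF z⟩
  · by_cases hz : z = 0
    · subst hz
      refine ⟨g₁ 0, ?_⟩
      simp only [pevb, if_true]
      rw [pev_revc_zero]
      exact hq'
    · refine ⟨g₀ z⁻¹, ?_⟩
      have h2 := pevb_not false q hz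
      rw [Bool.not_false] at h2
      rw [h2]
      exact (hF z⁻¹).smul (pow_ne_zero _ hz)

/-- the two-point map of a family in the charts `b`, `b'` -/
def tp {E : Type*} (f : E → Bool → ℂ → X) (b b' : Bool) (p : E × ℂ × ℂ) : X × X :=
  (f p.1 b p.2.1, f p.1 b' p.2.2)

omit [IsManifold (mI n) ω X] in
theorem tp_hol {E : Type*} [NormedAddCommGroup E] [NormedSpace ℂ E] {W : Set E}
    {f : E → Bool → ℂ → X} (hf : IsFam n W f) (b b' : Bool) :
    ContMDiffOn 𝓘(ℂ, E × ℂ × ℂ) ((mI n).prod (mI n)) ω (tp f b b')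
      (W ×ˢ (univ : Set ℂ) ×ˢ (univ : Set ℂ)) := by
  apply ContMDiffOn.prodMk
  · have h1 : ContMDiff 𝓘(ℂ, E × ℂ × ℂ) 𝓘(ℂ, E × ℂ) ω
        (fun p : E × ℂ × ℂ => ((p.1, p.2.1) : E × ℂ)) := by
      rw [contMDiff_iff_contDiff]
      fun_prop
    exact (hf.hol b).comp h1.contMDiffOn (fun p hp => ⟨hp.1, mem_univ _⟩)
  · have h1 : ContMDiff 𝓘(ℂ, E × ℂ × ℂ) 𝓘(ℂ, E × ℂ) ω
        (fun p : E × ℂ × ℂ => ((p.1, p.2.2) : E × ℂ)) := by
      rw [contMDiff_iff_contDiff]
      fun_prop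
    exact (hf.hol b').comp h1.contMDiffOn (fun p hp => ⟨hp.1, mem_univ _⟩)

/-- Some family has a surjective two-point differential somewhere. -/
theorem exists_family [CompactSpace X] [T2Space X] (pe : ProjEmbedding n X N)
    (hP : PolyCurves pe) (hrc : IsRationallyConnected n X) :
    ∃ (m : ℕ) (V : Set (Fin m → ℂ)) (f : (Fin m → ℂ) → Bool → ℂ → X), IsOpen V ∧ Convex ℝ V ∧
      IsFam n V f ∧ ∃ p ∈ V ×ˢ (univ : Set ℂ) ×ˢ (univ : Set ℂ),
        Function.Surjective (mfderiv 𝓘(ℂ, (Fin m → ℂ) × ℂ × ℂ) ((mI n).prod (mI n))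
          (tp f false false) p) := by
  obtain ⟨O, hO, ⟨p₀, hp₀⟩, hcur⟩ := S1.exists_open_pairs hrc
  have : Nonempty X := ⟨p₀.1⟩
  -- the countable cover of `Sd`
  have hcov : ∀ d : ℕ, ∃ (m : ℕ → ℕ) (V : ∀ k, Set (Fin (m k) → ℂ))
      (γ : ∀ k, (Fin (m k) → ℂ) → Cf N d),
      (∀ k, IsOpen (V k)) ∧ (∀ k, Convex ℝ (V k)) ∧ (∀ k, AnalyticOnNhd ℂ (γ k) (V k)) ∧
      (∀ k, γ k '' V k ⊆ Sd pe d) ∧ Sd pe d ⊆ ⋃ k, γ k '' V k :=
    fun d => (LZ.anCov_of_local (fun q hq => Sd_local pe d q hq)).enum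
  choose m V γ hVo hVc hγ hγS hSγ using hcov
  by_contra hcon
  push Not at hcon
  have hnot : ∀ d k, ∀ p ∈ V d k ×ˢ (univ : Set ℂ) ×ˢ (univ : Set ℂ),
      ¬ Function.Surjective (mfderiv 𝓘(ℂ, (Fin (m d k) → ℂ) × ℂ × ℂ) ((mI n).prod (mI n))
          (tp (fun s b z => cv pe (γ d k s) b z) false false) p) := by
    intro d k
    exact hcon (m d k) (V d k) _ (hVo d k) (hVc d k)
      (isFam_of_analytic pe (hVo d k) (hγ d k) (fun s hs => hγS d k ⟨s, hs, rfl⟩))
  -- the chart at `p₀`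
  set O' := O ∩ (chartAt (ModelProd (Model n) (Model n)) p₀).source with hO'
  have hO'o : IsOpen O' := hO.inter (chartAt (ModelProd (Model n) (Model n)) p₀).open_source
  have hO's : O' ⊆ (extChartAt ((mI n).prod (mI n)) p₀).source := by
    intro x hx
    rw [extChartAt_source]
    exact hx.2
  have hφO : IsOpen (extChartAt ((mI n).prod (mI n)) p₀ '' O') := by
    rw [PartialEquiv.image_eq_target_inter_inv_preimage _ hO's]
    exact (continuousOn_extChartAt_symm p₀).isOpen_inter_preimage (isOpen_extChartAt_target p₀) hO'o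
  have hφne : (extChartAt ((mI n).prod (mI n)) p₀ '' O').Nonempty :=
    ⟨_, p₀, ⟨hp₀, mem_chart_source _ _⟩, rfl⟩
  have hnull : ∀ d k, (Measure.addHaar : Measure (Model n × Model n))
      ((fun p => extChartAt ((mI n).prod (mI n)) p₀
          (tp (fun s b z => cv pe (γ d k s) b z) false false p)) ''
        ((V d k ×ˢ (univ : Set ℂ) ×ˢ (univ : Set ℂ)) ∩
          (tp (fun s b z => cv pe (γ d k s) b z) false false) ⁻¹'
            (chartAt (ModelProd (Model n) (Model n)) p₀).source)) = 0 := by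
    intro d k
    have hfam := isFam_of_analytic pe (hVo d k) (hγ d k) (fun s hs => hγS d k ⟨s, hs, rfl⟩)
    obtain ⟨h1, h2, h3⟩ := SD.local_form ((hVo d k).prod (isOpen_univ.prod isOpen_univ))
      (tp_hol hfam false false) p₀
    apply null_image _ h1 h2
    intro x hx hs
    exact hnot d k x hx.1 ((h3 x hx).1 hs)
  have hsub : extChartAt ((mI n).prod (mI n)) p₀ '' O' ⊆ ⋃ d, ⋃ k,
      ((fun p => extChartAt ((mI n).prod (mI n)) p₀
          (tp (fun s b z => cv pe (γ d k s) b z) false false p)) ''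
        ((V d k ×ˢ (univ : Set ℂ) ×ˢ (univ : Set ℂ)) ∩
          (tp (fun s b z => cv pe (γ d k s) b z) false false) ⁻¹'
            (chartAt (ModelProd (Model n) (Model n)) p₀).source)) := by
    rintro _ ⟨p, hp, rfl⟩
    obtain ⟨g₀, g₁, h0, h1, h01, z, z', hpz⟩ := hcur p hp.1
    obtain ⟨d, q, hq, hqz⟩ := exists_Sd hP h0 h1 h01
    obtain ⟨k, s, hs, hsq⟩ := mem_iUnion.1 (hSγ d hq)
    have htp : tp (fun s b z => cv pe (γ d k s) b z) false false (s, z, z') = p := by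
      simp only [tp]
      rw [hsq, hqz, hqz, hpz]
    refine mem_iUnion.2 ⟨d, mem_iUnion.2 ⟨k, (s, z, z'), ⟨⟨hs, mem_univ _, mem_univ _⟩, ?_⟩, ?_⟩⟩
    · rw [mem_preimage, htp]
      exact hp.2
    · simp only []
      rw [htp]
  have hpos := hφO.measure_pos (Measure.addHaar : Measure (Model n × Model n)) hφne
  have hzero : (Measure.addHaar : Measure (Model n × Model n))
      (extChartAt ((mI n).prod (mI n)) p₀ '' O') = 0 :=
    measure_mono_null hsub (measure_iUnion_null fun d => measure_iUnion_null fun k => hnull d k)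
  exact hpos.ne' hzero

/-- change of chart of `ℙ¹` -/
noncomputable def iv (b : Bool) (z : ℂ) : ℂ := if b then z⁻¹ else z

theorem iv_iv (b : Bool) (z : ℂ) : iv b (iv b z) = z := by
  cases b <;> simp [iv]

theorem iv_ne (b : Bool) {z : ℂ} (hz : z ≠ 0) : iv b z ≠ 0 := by
  cases b <;> simpa [iv] using hz

theorem iv_diff (b : Bool) {z : ℂ} (hz : z ≠ 0) : DifferentiableAt ℂ (iv b) z := by
  cases b
  · have : iv false = fun z => z := by funext z; simp [iv]
    rw [this]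
    exact differentiableAt_id
  · have : iv true = fun z => z⁻¹ := by funext z; simp [iv]
    rw [this]
    exact differentiableAt_inv hz

/-- change of charts on `E × ℙ¹ × ℙ¹` -/
noncomputable def iot {E : Type*} (b b' : Bool) (p : E × ℂ × ℂ) : E × ℂ × ℂ :=
  (p.1, iv b p.2.1, iv b' p.2.2)

theorem iot_iot {E : Type*} (b b' : Bool) (p : E × ℂ × ℂ) : iot b b' (iot b b' p) = p := by
  simp [iot, iv_iv]

theorem iot_diff {E : Type*} [NormedAddCommGroup E] [NormedSpace ℂ E] (b b' : Bool)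
    {p : E × ℂ × ℂ} (h1 : p.2.1 ≠ 0) (h2 : p.2.2 ≠ 0) : DifferentiableAt ℂ (iot b b') p := by
  unfold iot
  have f1 : DifferentiableAt ℂ (fun p : E × ℂ × ℂ => p.2.1) p := by fun_prop
  have f2 : DifferentiableAt ℂ (fun p : E × ℂ × ℂ => p.2.2) p := by fun_prop
  have e1 : DifferentiableAt ℂ (fun p : E × ℂ × ℂ => iv b p.2.1) p :=
    DifferentiableAt.comp (g := iv b) (f := fun p : E × ℂ × ℂ => p.2.1) p (iv_diff b h1) f1
  have e2 : DifferentiableAt ℂ (fun p : E × ℂ × ℂ => iv b' p.2.2) p :=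
    DifferentiableAt.comp (g := iv b') (f := fun p : E × ℂ × ℂ => p.2.2) p (iv_diff b' h2) f2
  exact differentiableAt_fst.prodMk (e1.prodMk e2)

theorem iot_surj {E : Type*} [NormedAddCommGroup E] [NormedSpace ℂ E] (b b' : Bool)
    {p : E × ℂ × ℂ} (h1 : p.2.1 ≠ 0) (h2 : p.2.2 ≠ 0) :
    Function.Surjective (fderiv ℂ (iot b b') p) := by
  have hq : iot b b' (iot b b' p) = p := iot_iot b b' p
  have hd1 : DifferentiableAt ℂ (iot b b' : E × ℂ × ℂ → E × ℂ × ℂ) (iot b b' p) :=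
    iot_diff b b' (iv_ne b h1) (iv_ne b' h2)
  have hd2 : DifferentiableAt ℂ (iot b b' : E × ℂ × ℂ → E × ℂ × ℂ) (iot b b' (iot b b' p)) := by
    rw [hq]; exact iot_diff b b' h1 h2
  have hcomp := fderiv_comp (iot b b' p) hd2 hd1
  have hid : (iot b b' : E × ℂ × ℂ → E × ℂ × ℂ) ∘ iot b b' = id := by
    funext x; exact iot_iot b b' x
  rw [hid, fderiv_id, hq] at hcomp
  intro v
  refine ⟨fderiv ℂ (iot b b') (iot b b' p) v, ?_⟩
  have := congrArg (fun A => A v) hcomp
  simpa using this.symm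

omit [IsManifold (mI n) ω X] in
theorem tp_iot {E : Type*} [NormedAddCommGroup E] [NormedSpace ℂ E] {W : Set E}
    {f : E → Bool → ℂ → X} (hf : IsFam n W f) (b b' : Bool) {p : E × ℂ × ℂ} (hp : p.1 ∈ W)
    (h1 : p.2.1 ≠ 0) (h2 : p.2.2 ≠ 0) :
    tp f b b' p = tp f false false (iot b b' p) := by
  have key : ∀ (b : Bool) (z : ℂ), z ≠ 0 → f p.1 b z = f p.1 false (iv b z) := by
    intro b z hz
    cases b
    · simp [iv]
    · have := hf.glue p.1 hp false z hz
      simpa [iv] using this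
  simp only [tp, iot]
  rw [key b _ h1, key b' _ h2]

/-- the two-point differential is surjective on a dense set, in all pairs of charts, as soon as it
is surjective at one point -/
theorem dense_twopoint {E : Type*} [NormedAddCommGroup E] [NormedSpace ℂ E] {W : Set E}
    (hW : IsOpen W) (hWc : IsPreconnected W) {f : E → Bool → ℂ → X} (hf : IsFam n W f)
    {p₀ : E × ℂ × ℂ} (hp₀ : p₀ ∈ W ×ˢ (univ : Set ℂ) ×ˢ (univ : Set ℂ))
    (hs : Function.Surjective (mfderiv 𝓘(ℂ, E × ℂ × ℂ) ((mI n).prod (mI n))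
      (tp f false false) p₀)) (b b' : Bool) (U : Set (E × ℂ × ℂ)) (hU : IsOpen U)
    (hUne : U.Nonempty) (hUW : U ⊆ W ×ˢ (univ : Set ℂ) ×ˢ (univ : Set ℂ)) :
    ∃ p ∈ U, Function.Surjective (mfderiv 𝓘(ℂ, E × ℂ × ℂ) ((mI n).prod (mI n))
      (tp f b b') p) := by
  have hWo : IsOpen (W ×ˢ (univ : Set ℂ) ×ˢ (univ : Set ℂ)) :=
    hW.prod (isOpen_univ.prod isOpen_univ)
  have hWoc : IsPreconnected (W ×ˢ (univ : Set ℂ) ×ˢ (univ : Set ℂ)) :=
    hWc.prod (isPreconnected_univ.prod isPreconnected_univ)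
  set Ω : Set (E × ℂ × ℂ) := (univ : Set E) ×ˢ ({0}ᶜ : Set ℂ) ×ˢ ({0}ᶜ : Set ℂ) with hΩ
  have hΩo : IsOpen Ω := isOpen_univ.prod (isOpen_compl_singleton.prod isOpen_compl_singleton)
  have hΩd : Dense Ω := dense_univ.prod ((dense_compl_singleton 0).prod (dense_compl_singleton 0))
  obtain ⟨x, hx1, hx2⟩ := hΩd.inter_open_nonempty U hU hUne
  have hcont : ContinuousOn (iot b b') Ω := fun p hp =>
    (iot_diff b b' (by simpa using hp.2.1) (by simpa using hp.2.2)).continuousAt.continuousWithinAt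
  have hU' : IsOpen (Ω ∩ iot b b' ⁻¹' (U ∩ Ω)) := hcont.isOpen_inter_preimage hΩo (hU.inter hΩo)
  have hmaps : ∀ p ∈ Ω, iot b b' p ∈ Ω := by
    intro p hp
    exact ⟨mem_univ _, iv_ne b (by simpa using hp.2.1), iv_ne b' (by simpa using hp.2.2)⟩
  obtain ⟨p, hp, hps⟩ := SD.exists_surj hWo hWoc (tp_hol hf false false) hp₀ hs _ hU'
    ⟨iot b b' x, hmaps x hx2, by rw [mem_preimage, iot_iot]; exact ⟨hx1, hx2⟩⟩
    (fun p hp => ⟨(hUW hp.2.1).1, mem_univ _, mem_univ _⟩)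
  refine ⟨iot b b' p, hp.2.1, ?_⟩
  have hp1 : p.2.1 ≠ 0 := by simpa using hp.1.2.1
  have hp2 : p.2.2 ≠ 0 := by simpa using hp.1.2.2
  have hpW : p.1 ∈ W := (hUW hp.2.1).1
  have hev : tp f b b' =ᶠ[𝓝 (iot b b' p)] (tp f false false) ∘ (iot b b') := by
    filter_upwards [hU.mem_nhds hp.2.1, hΩo.mem_nhds (hmaps p hp.1)] with y hy1 hy2
    exact tp_iot hf b b' (hUW hy1).1 (by simpa using hy2.2.1) (by simpa using hy2.2.2)
  rw [hev.mfderiv_eq]
  have hd1 : MDifferentiableAt 𝓘(ℂ, E × ℂ × ℂ) ((mI n).prod (mI n)) (tp f false false)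
      (iot b b' (iot b b' p)) := by
    rw [iot_iot]
    exact ((tp_hol hf false false).contMDiffAt
      (hWo.mem_nhds ⟨hpW, mem_univ _, mem_univ _⟩)).mdifferentiableAt (by simp)
  have hd2 : MDifferentiableAt 𝓘(ℂ, E × ℂ × ℂ) 𝓘(ℂ, E × ℂ × ℂ)
      (iot b b' : E × ℂ × ℂ → E × ℂ × ℂ) (iot b b' p) :=
    (iot_diff b b' (iv_ne b hp1) (iv_ne b' hp2)).mdifferentiableAt
  rw [mfderiv_comp (iot b b' p) hd1 hd2, mfderiv_eq_fderiv]
  have h1 : Function.Surjective (fderiv ℂ (iot b b') (iot b b' p)) :=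
    iot_surj b b' (iv_ne b hp1) (iv_ne b' hp2)
  have h2 : Function.Surjective (mfderiv 𝓘(ℂ, E × ℂ × ℂ) ((mI n).prod (mI n))
      (tp f false false) (iot b b' (iot b b' p))) := by
    rw [iot_iot]; exact hps
  exact h2.comp h1

omit [IsManifold (mI n) ω X] in
/-- affine reparametrisation of the parameter space -/
theorem isFam_affine {E : Type*} [NormedAddCommGroup E] [NormedSpace ℂ E] {W : Set E}
    {f : E → Bool → ℂ → X} (hf : IsFam n W f) {s₁ : E} {r : ℝ} (hr : 0 < r)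
    (hb : ball s₁ r ⊆ W) :
    IsFam n (ball (0 : E) 1) (fun s => f (s₁ + (r : ℂ) • s)) := by
  have hmem : ∀ s ∈ ball (0 : E) 1, s₁ + (r : ℂ) • s ∈ W := by
    intro s hs
    apply hb
    rw [mem_ball_zero_iff] at hs
    rw [mem_ball, dist_eq_norm, add_sub_cancel_left, norm_smul, Complex.norm_real,
      Real.norm_eq_abs, abs_of_pos hr]
    nlinarith
  constructor
  · intro b
    have h1 : ContMDiff 𝓘(ℂ, E × ℂ) 𝓘(ℂ, E × ℂ) ω
        (fun p : E × ℂ => ((s₁ + (r : ℂ) • p.1, p.2) : E × ℂ)) := by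
      rw [contMDiff_iff_contDiff]
      fun_prop
    exact (hf.hol b).comp h1.contMDiffOn (fun p hp => ⟨hmem p.1 hp.1, mem_univ _⟩)
  · intro s hs b z hz
    exact hf.glue _ (hmem s hs) b z hz

omit [IsManifold (mI n) ω X] in
theorem surj_affine {E : Type*} [NormedAddCommGroup E] [NormedSpace ℂ E] {W : Set E}
    (hW : IsOpen W) {f : E → Bool → ℂ → X} (hf : IsFam n W f) {s₁ : E} {r : ℝ} (hr : 0 < r)
    (hs₁ : s₁ ∈ W) {z z' : ℂ}
    (hs : Function.Surjective (mfderiv 𝓘(ℂ, E × ℂ × ℂ) ((mI n).prod (mI n))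
      (tp f false false) (s₁, z, z'))) :
    Function.Surjective (mfderiv 𝓘(ℂ, E × ℂ × ℂ) ((mI n).prod (mI n))
      (tp (fun s => f (s₁ + (r : ℂ) • s)) false false) (0, z, z')) := by
  have hr' : (r : ℂ) ≠ 0 := by exact_mod_cast hr.ne'
  let A : E × ℂ × ℂ → E × ℂ × ℂ := fun p => (s₁ + (r : ℂ) • p.1, p.2.1, p.2.2)
  let B : E × ℂ × ℂ → E × ℂ × ℂ := fun p => ((r : ℂ)⁻¹ • (p.1 - s₁), p.2.1, p.2.2)
  have hA : Differentiable ℂ A := by
    intro p
    simp only [A]
    fun_prop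
  have hB : Differentiable ℂ B := by
    intro p
    simp only [B]
    fun_prop
  have hAB : A ∘ B = id := by
    funext p
    simp only [A, B, Function.comp, smul_smul, mul_inv_cancel₀ hr', one_smul, id]
    simp
  have hB0 : B (s₁, z, z') = (0, z, z') := by simp [B]
  have hA0 : A (0, z, z') = (s₁, z, z') := by simp [A]
  have hsA : Function.Surjective (fderiv ℂ A (0, z, z')) := by
    have hcomp := fderiv_comp (s₁, z, z') (hA (B (s₁, z, z'))) (hB (s₁, z, z'))
    rw [hAB, fderiv_id, hB0] at hcomp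
    intro v
    refine ⟨fderiv ℂ B (s₁, z, z') v, ?_⟩
    have := congrArg (fun L => L v) hcomp
    simpa using this.symm
  have he : tp (fun s => f (s₁ + (r : ℂ) • s)) false false = tp f false false ∘ A := rfl
  have hd1 : MDifferentiableAt 𝓘(ℂ, E × ℂ × ℂ) ((mI n).prod (mI n)) (tp f false false)
      (A (0, z, z')) := by
    rw [hA0]
    exact ((tp_hol hf false false).contMDiffAt
      ((hW.prod (isOpen_univ.prod isOpen_univ)).mem_nhds
        ⟨hs₁, mem_univ _, mem_univ _⟩)).mdifferentiableAt (by simp)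
  rw [he, mfderiv_comp (0, z, z') hd1 (hA _).mdifferentiableAt, mfderiv_eq_fderiv]
  have h2 : Function.Surjective (mfderiv 𝓘(ℂ, E × ℂ × ℂ) ((mI n).prod (mI n))
      (tp f false false) (A (0, z, z'))) := by
    rw [hA0]; exact hs
  exact h2.comp hsA

end

end Crest.Agent.R266.S1

namespace Crest.Agent.R266.F404

open Crest.Agent.R266.S1

/-- **Step 1 of S0404**: a projective rationally connected manifold has a holomorphic
family of rational curves whose two-point differential is surjective on a dense set (in all pairs of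
charts of `ℙ¹`). -/
theorem one_holds (n : ℕ) (X : Type) [TopologicalSpace X] [T2Space X] [SecondCountableTopology X]
    [CompactSpace X] [ConnectedSpace X] [ChartedSpace (Model n) X] [IsManifold (mI n) ω X] :
    St_one n X := by
  rintro ⟨N, ⟨pe⟩⟩ hrc
  obtain ⟨m, W, f, hWo, hWc, hf, ⟨s₁, z, z'⟩, hp, hs⟩ :=
    exists_family pe (fun g₀ g₁ h0 h1 h01 => P1.p1_poly_onX pe g₀ g₁ h0 h1 h01) hrc
  obtain ⟨r, hr, hball⟩ := Metric.isOpen_iff.1 hWo s₁ hp.1
  have hf' := isFam_affine hf hr hball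
  have hs' := surj_affine hWo hf hr hp.1 hs
  refine ⟨m, _, hf', fun b b' U hU hUne hUW => ?_⟩
  exact dense_twopoint isOpen_ball (convex_ball _ _).isPreconnected hf'
    (p₀ := (0, z, z')) ⟨mem_ball_self one_pos, mem_univ _, mem_univ _⟩ hs' b b' U hU hUne hUW

end Crest.Agent.R266.F404
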