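import Mathlib
import Crest.Agent.R266.Chart3

/-!
Row 266 (S0404/S0405): chart layer, part 4 (helper35): the swapped splitting; differentials of maps
into `X` in charts; sections along maps in charts.
-/

set_option autoImplicit false
set_option linter.unusedSectionVars false

open Set Function Filter VectorField
open scoped Manifold ContDiff Topology
open Crest.AlgGeometry.HolSplit

namespace Crest.Agent.R266

noncomputable section

variable {n : ℕ} {X : Type*} [TopologicalSpace X] [ChartedSpace (Model n) X]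
  [IsManifold (mI n) ω X]

/-! ### the swapped splitting -/

lemma holField_sub {U : Set X} {V W : (x : X) → TangentSpace (mI n) x}
    (hV : IsHolVectorFieldOn U V) (hW : IsHolVectorFieldOn U W) :
    IsHolVectorFieldOn U (fun x => V x - W x) :=
  ContMDiffOn.sub_section hV hW

/-- the same splitting with the two summands exchanged. -/
def swap (S : Splitting n X) : Splitting n X where
  proj x := ContinuousLinearMap.id ℂ (TangentSpace (mI n) x) - S.proj x
  idem x v := by
    simp only [sub_apply, ContinuousLinearMap.id_apply, map_sub, S.idem,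
      sub_self, sub_zero]
  holomorphic U hU V hV := by
    have h1 := S.holomorphic U hU V hV
    exact holField_sub hV h1
  first_ne_zero x h := by
    apply S.second_ne_zero x
    exact (sub_eq_zero.1 h).symm
  second_ne_zero x h := by
    apply S.first_ne_zero x
    have : ContinuousLinearMap.id ℂ (TangentSpace (mI n) x) - S.proj x =
      ContinuousLinearMap.id ℂ (TangentSpace (mI n) x) := h
    exact sub_eq_self.1 this

lemma swap_proj (S : Splitting n X) (x : X) (v : TangentSpace (mI n) x) :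
    (swap S).proj x v = v - S.proj x v := rfl

lemma swap_proj_eq_iff (S : Splitting n X) (x : X) (v : TangentSpace (mI n) x) :
    (swap S).proj x v = v ↔ S.proj x v = 0 := by
  rw [swap_proj, sub_eq_self]

lemma swap_proj_zero_iff (S : Splitting n X) (x : X) (v : TangentSpace (mI n) x) :
    (swap S).proj x v = 0 ↔ S.proj x v = v := by
  rw [swap_proj, sub_eq_zero, eq_comm]

lemma swap_intAt1 (S : Splitting n X) (z : X) : IntAt1 (swap S) z ↔ IntAt2 S z := by
  unfold IntAt1 IntAt2
  simp only [swap_proj_eq_iff]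

lemma swap_intAt2 (S : Splitting n X) (z : X) : IntAt2 (swap S) z ↔ IntAt1 S z := by
  unfold IntAt1 IntAt2
  simp only [swap_proj_zero_iff]

lemma swap_firstIntegrable (S : Splitting n X) :
    (swap S).FirstIntegrable ↔ S.SecondIntegrable := by
  rw [firstIntegrable_iff_intAt, secondIntegrable_iff_intAt]
  exact forall_congr' fun z => swap_intAt1 S z

lemma swap_secondIntegrable (S : Splitting n X) :
    (swap S).SecondIntegrable ↔ S.FirstIntegrable := by
  rw [firstIntegrable_iff_intAt, secondIntegrable_iff_intAt]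
  exact forall_congr' fun z => swap_intAt2 S z

/-! ### differentials of maps into `X` -/

section Maps

variable {E' : Type*} [NormedAddCommGroup E'] [NormedSpace ℂ E']
variable {H' : Type*} [TopologicalSpace H'] {I' : ModelWithCorners ℂ E' H'}
  {M : Type*} [TopologicalSpace M] [ChartedSpace H' M]

lemma mdifferentiableAt_chart {x₀ x : X} (hx : x ∈ (chartAt (Model n) x₀).source) :
    MDifferentiableAt (mI n) 𝓘(ℂ, Model n) (chartAt (Model n) x₀) x :=
  (contMDiffOn_chart (I := mI n) (n := ω) (x := x₀)).contMDiffAt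
    ((chartAt (Model n) x₀).open_source.mem_nhds hx) |>.mdifferentiableAt (by simp)

lemma mfderiv_chart {x₀ x : X} (hx : x ∈ (chartAt (Model n) x₀).source) :
    (mfderiv (mI n) 𝓘(ℂ, Model n) (chartAt (Model n) x₀) x : Model n →L[ℂ] Model n)
      = tcc x x₀ x := by
  have h := mfderiv_extChart (x₀ := x₀) hx
  have h2 : (extChartAt (mI n) x₀ : X → Model n) = chartAt (Model n) x₀ := by
    ext1 y
    simp [extChartAt]
  rw [h2] at h
  exact h

/-- differential of a map in an arbitrary chart of the target. -/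
lemma mfderiv_chart_comp {f : M → X} {z : M} (hf : MDifferentiableAt I' (mI n) f z) {x₀ : X}
    (hz : f z ∈ (chartAt (Model n) x₀).source) (v : TangentSpace I' z) :
    (mfderiv I' 𝓘(ℂ, Model n) (fun w => chartAt (Model n) x₀ (f w)) z v : Model n) =
      tcc (f z) x₀ (f z) (mfderiv I' (mI n) f z v) := by
  have h1 := mfderiv_comp z (mdifferentiableAt_chart hz) hf
  have h2 : mfderiv I' 𝓘(ℂ, Model n) (fun w => chartAt (Model n) x₀ (f w)) z v =
    mfderiv (mI n) 𝓘(ℂ, Model n) (chartAt (Model n) x₀) (f z) (mfderiv I' (mI n) f z v) :=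
    congrArg (fun L => L v) h1
  refine h2.trans ?_
  exact congrArg (fun L : Model n →L[ℂ] Model n => L (mfderiv I' (mI n) f z v)) (mfderiv_chart hz)

/-- differential of a map from a vector space in an arbitrary chart of the target. -/
lemma tcc_mfderiv {f : E' → X} {z : E'} (hf : MDifferentiableAt 𝓘(ℂ, E') (mI n) f z) {x₀ : X}
    (hz : f z ∈ (chartAt (Model n) x₀).source) (v : E') :
    tcc (f z) x₀ (f z) (mfderiv 𝓘(ℂ, E') (mI n) f z v) =
      fderiv ℂ (fun w => chartAt (Model n) x₀ (f w)) z v := by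
  have h := mfderiv_chart_comp hf hz v
  refine h.symm.trans ?_
  exact congrArg (fun L : E' →L[ℂ] Model n => L v) mfderiv_eq_fderiv

/-- holomorphic maps from a vector space to `X` in charts. -/
lemma contMDiffAt_iff_chart {f : E' → X} {z : E'} {x₀ : X}
    (hz : f z ∈ (chartAt (Model n) x₀).source) :
    ContMDiffAt 𝓘(ℂ, E') (mI n) ω f z ↔
      ContinuousAt f z ∧ AnalyticAt ℂ (fun w => chartAt (Model n) x₀ (f w)) z := by
  rw [contMDiffAt_iff_target_of_mem_source hz]
  have h2 : (extChartAt (mI n) x₀ : X → Model n) ∘ f = fun w => chartAt (Model n) x₀ (f w) := by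
    ext1 y
    simp [extChartAt]
  rw [h2, contMDiffAt_iff_contDiffAt]
  exact and_congr_right fun _ => ⟨fun h => h.analyticAt, fun h => h.contDiffAt⟩

lemma ContMDiffAt.analyticAt_chart {f : E' → X} {z : E'} {x₀ : X}
    (hf : ContMDiffAt 𝓘(ℂ, E') (mI n) ω f z) (hz : f z ∈ (chartAt (Model n) x₀).source) :
    AnalyticAt ℂ (fun w => chartAt (Model n) x₀ (f w)) z :=
  ((contMDiffAt_iff_chart hz).1 hf).2

/-- the coordinates of a section along a map, in the chart at `x₀`. -/
def sc (x₀ : X) (g : E' → X) (s : E' → Model n) (w : E') : Model n := tcc (g w) x₀ (g w) (s w)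

/-- holomorphic sections along a map. -/
def IsHolSec (g : E' → X) (s : E' → Model n) (z : E') : Prop :=
  ContMDiffAt 𝓘(ℂ, E') (mI n).tangent ω
    (fun w => (Bundle.TotalSpace.mk' (Model n) (g w) (s w) : TangentBundle (mI n) X)) z

lemma isHolSec_iff {g : E' → X} {s : E' → Model n} {z : E'} {x₀ : X}
    (hz : g z ∈ (chartAt (Model n) x₀).source) :
    IsHolSec g s z ↔ ContMDiffAt 𝓘(ℂ, E') (mI n) ω g z ∧ AnalyticAt ℂ (sc x₀ g s) z := by
  have h := (trivializationAt (Model n) (TangentSpace (mI n)) x₀).contMDiffAt_iff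
    (IM := 𝓘(ℂ, E')) (IB := mI n) (n := ω)
    (f := fun w => (Bundle.TotalSpace.mk' (Model n) (g w) (s w) : TangentBundle (mI n) X))
    (x₀ := z) (by simpa [Bundle.Trivialization.mem_source] using hz)
  refine Iff.trans h ?_
  refine and_congr_right fun _ => ?_
  rw [contMDiffAt_iff_contDiffAt]
  exact ⟨fun h => h.analyticAt, fun h => h.contDiffAt⟩

lemma sc_eq_Vc {x₀ : X} (V : (x : X) → TangentSpace (mI n) x) (y : Model n) :
    sc x₀ (chartAt (Model n) x₀).symm (fun w => V ((chartAt (Model n) x₀).symm w)) y =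
      Vc x₀ V y := rfl

lemma sc_proj (S : Splitting n X) {g : E' → X} {w : E'} {x₀ : X}
    (hw : g w ∈ (chartAt (Model n) x₀).source) (s : E' → Model n) :
    sc x₀ g (fun w => pr S (g w) (s w)) w =
      Pc S x₀ (chartAt (Model n) x₀ (g w)) (sc x₀ g s w) :=
  (Pc_at S hw (s w)).symm

lemma IsHolSec.contMDiffAt {g : E' → X} {s : E' → Model n} {z : E'} (hs : IsHolSec g s z) :
    ContMDiffAt 𝓘(ℂ, E') (mI n) ω g z :=
  ((isHolSec_iff (mem_chart_source _ (g z))).1 hs).1

lemma IsHolSec.analyticAt {g : E' → X} {s : E' → Model n} {z : E'} (hs : IsHolSec g s z)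
    {x₀ : X} (hz : g z ∈ (chartAt (Model n) x₀).source) : AnalyticAt ℂ (sc x₀ g s) z :=
  ((isHolSec_iff hz).1 hs).2

lemma IsHolSec.congr {g : E' → X} {s t : E' → Model n} {z : E'} (hs : IsHolSec g s z)
    (h : ∀ᶠ w in 𝓝 z, t w = s w) : IsHolSec g t z := by
  refine ContMDiffAt.congr_of_eventuallyEq hs ?_
  filter_upwards [h] with w hw
  rw [hw]

/-- projections of holomorphic sections along a map are holomorphic. -/
lemma IsHolSec.proj (S : Splitting n X) {g : E' → X} {s : E' → Model n} {z : E'}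
    (hs : IsHolSec g s z) : IsHolSec g (fun w => pr S (g w) (s w)) z := by
  have hz := mem_chart_source (Model n) (g z)
  refine (isHolSec_iff hz).2 ⟨hs.contMDiffAt, ?_⟩
  have h0 : AnalyticAt ℂ (fun w => chartAt (Model n) (g z) (g w)) z :=
    ContMDiffAt.analyticAt_chart hs.contMDiffAt hz
  have h1 : AnalyticAt ℂ (fun w => Pc S (g z) (chartAt (Model n) (g z) (g w))) z :=
    AnalyticAt.comp (g := Pc S (g z))
      (Pc_analyticOnNhd S (g z) _ ((chartAt (Model n) (g z)).map_source hz)) h0
  refine (an_clm_apply h1 (hs.analyticAt hz)).congr ?_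
  have hc := hs.contMDiffAt.continuousAt
  filter_upwards [hc ((chartAt (Model n) (g z)).open_source.mem_nhds hz)] with w hw
  exact (sc_proj S hw s).symm

lemma sc_add {x₀ : X} {g : E' → X} {s t : E' → Model n} :
    sc x₀ g (fun w => s w + t w) = fun w => sc x₀ g s w + sc x₀ g t w := by
  ext1 w
  exact map_add (tcc (g w) x₀ (g w)) _ _

lemma sc_sub {x₀ : X} {g : E' → X} {s t : E' → Model n} :
    sc x₀ g (fun w => s w - t w) = fun w => sc x₀ g s w - sc x₀ g t w := by
  ext1 w
  exact map_sub (tcc (g w) x₀ (g w)) _ _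

lemma sc_neg {x₀ : X} {g : E' → X} {s : E' → Model n} :
    sc x₀ g (fun w => - s w) = fun w => - sc x₀ g s w := by
  ext1 w
  exact map_neg (tcc (g w) x₀ (g w)) _

lemma sc_zero {x₀ : X} {g : E' → X} : sc x₀ g (fun _ => (0 : Model n)) = fun _ => 0 := by
  ext1 w
  exact map_zero (tcc (g w) x₀ (g w))

lemma sc_smul {x₀ : X} {g : E' → X} {s : E' → Model n} (f : E' → ℂ) :
    sc x₀ g (fun w => f w • s w) = fun w => f w • sc x₀ g s w := by
  ext1 w
  exact map_smul (tcc (g w) x₀ (g w)) _ _

lemma sc_sum {x₀ : X} {g : E' → X} {ι : Type*} (A : Finset ι) (s : ι → E' → Model n) :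
    sc x₀ g (fun w => ∑ i ∈ A, s i w) = fun w => ∑ i ∈ A, sc x₀ g (s i) w := by
  ext1 w
  exact map_sum (tcc (g w) x₀ (g w)) _ _

lemma sc_inj {x₀ : X} {g : E' → X} {s t : E' → Model n} {w : E'}
    (hw : g w ∈ (chartAt (Model n) x₀).source) : sc x₀ g s w = sc x₀ g t w ↔ s w = t w :=
  ⟨fun h => tcc_inj hw h, fun h => by unfold sc; rw [h]⟩

lemma sc_eq_zero {x₀ : X} {g : E' → X} {s : E' → Model n} {w : E'}
    (hw : g w ∈ (chartAt (Model n) x₀).source) : sc x₀ g s w = 0 ↔ s w = 0 :=
  ⟨fun h => tcc_inj hw (h.trans (map_zero _).symm), fun h => by unfold sc; rw [h, map_zero]⟩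

/-- change of chart for the coordinates of a section. -/
lemma sc_change {x₀ x₁ : X} {g : E' → X} (s : E' → Model n) {w : E'}
    (h0 : g w ∈ (chartAt (Model n) x₀).source) (h1 : g w ∈ (chartAt (Model n) x₁).source) :
    sc x₁ g s w = tcc x₀ x₁ (g w) (sc x₀ g s w) :=
  (tcc_comp (mem_chart_source _ (g w)) h0 h1 (s w)).symm

lemma IsHolSec.add {g : E' → X} {s t : E' → Model n} {z : E'} (hs : IsHolSec g s z)
    (ht : IsHolSec g t z) : IsHolSec g (fun w => s w + t w) z := by
  have hz := mem_chart_source (Model n) (g z)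
  refine (isHolSec_iff hz).2 ⟨hs.contMDiffAt, ?_⟩
  rw [sc_add]
  exact (hs.analyticAt hz).add (ht.analyticAt hz)

lemma IsHolSec.sub {g : E' → X} {s t : E' → Model n} {z : E'} (hs : IsHolSec g s z)
    (ht : IsHolSec g t z) : IsHolSec g (fun w => s w - t w) z := by
  have hz := mem_chart_source (Model n) (g z)
  refine (isHolSec_iff hz).2 ⟨hs.contMDiffAt, ?_⟩
  rw [sc_sub]
  exact (hs.analyticAt hz).sub (ht.analyticAt hz)

lemma IsHolSec.neg {g : E' → X} {s : E' → Model n} {z : E'} (hs : IsHolSec g s z) :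
    IsHolSec g (fun w => - s w) z := by
  have hz := mem_chart_source (Model n) (g z)
  refine (isHolSec_iff hz).2 ⟨hs.contMDiffAt, ?_⟩
  rw [sc_neg]
  exact (hs.analyticAt hz).neg

lemma isHolSec_zero {g : E' → X} {z : E'} (hg : ContMDiffAt 𝓘(ℂ, E') (mI n) ω g z) :
    IsHolSec g (fun _ => (0 : Model n)) z := by
  have hz := mem_chart_source (Model n) (g z)
  refine (isHolSec_iff hz).2 ⟨hg, ?_⟩
  rw [sc_zero]
  exact analyticAt_const

lemma IsHolSec.smul {g : E' → X} {s : E' → Model n} {z : E'} {f : E' → ℂ}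
    (hf : AnalyticAt ℂ f z) (hs : IsHolSec g s z) : IsHolSec g (fun w => f w • s w) z := by
  have hz := mem_chart_source (Model n) (g z)
  refine (isHolSec_iff hz).2 ⟨hs.contMDiffAt, ?_⟩
  rw [sc_smul]
  exact hf.smul (hs.analyticAt hz)

lemma IsHolSec.sum {ι : Type*} {A : Finset ι} {g : E' → X} {s : ι → E' → Model n} {z : E'}
    (hg : ContMDiffAt 𝓘(ℂ, E') (mI n) ω g z)
    (hs : ∀ i ∈ A, IsHolSec g (s i) z) : IsHolSec g (fun w => ∑ i ∈ A, s i w) z := by
  have hz := mem_chart_source (Model n) (g z)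
  refine (isHolSec_iff hz).2 ⟨hg, ?_⟩
  rw [sc_sum]
  exact Finset.analyticAt_fun_sum _ fun i hi => (hs i hi).analyticAt hz

/-- the derivative of a holomorphic map is a holomorphic section. -/
lemma isHolSec_mfderiv [CompleteSpace E'] {g : E' → X} {z : E'}
    (hg : ContMDiffAt 𝓘(ℂ, E') (mI n) ω g z) {v : E' → E'} (hv : AnalyticAt ℂ v z) :
    IsHolSec g (fun w => mfderiv 𝓘(ℂ, E') (mI n) g w (v w)) z := by
  have hz := mem_chart_source (Model n) (g z)
  refine (isHolSec_iff hz).2 ⟨hg, ?_⟩
  have h1 := (ContMDiffAt.analyticAt_chart hg hz).fderiv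
  refine (an_clm_apply h1 hv).congr ?_
  have hc := hg.continuousAt
  have hev : ∀ᶠ w in 𝓝 z, ContMDiffAt 𝓘(ℂ, E') (mI n) ω g w := by
    exact (contMDiffAt_iff_contMDiffAt_nhds (by simp)).1 hg
  filter_upwards [hc ((chartAt (Model n) (g z)).open_source.mem_nhds hz), hev] with w hw hw2
  exact (tcc_mfderiv (hw2.mdifferentiableAt (by simp)) hw (v w)).symm

/-- tangency to `E₁` in an arbitrary chart -/
lemma mfderiv_mem_iff (S : Splitting n X) {f : E' → X} {z : E'}
    (hf : MDifferentiableAt 𝓘(ℂ, E') (mI n) f z) {x₀ : X}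
    (hz : f z ∈ (chartAt (Model n) x₀).source) (v : E') :
    S.proj (f z) (mfderiv 𝓘(ℂ, E') (mI n) f z v) = mfderiv 𝓘(ℂ, E') (mI n) f z v ↔
      Pc S x₀ (chartAt (Model n) x₀ (f z)) (fderiv ℂ (fun w => chartAt (Model n) x₀ (f w)) z v) =
        fderiv ℂ (fun w => chartAt (Model n) x₀ (f w)) z v := by
  rw [← tcc_mfderiv hf hz v]
  exact (proj_eq_iff S hz _).symm

/-- tangency to `E₂` in an arbitrary chart -/
lemma mfderiv_ker_iff (S : Splitting n X) {f : E' → X} {z : E'}
    (hf : MDifferentiableAt 𝓘(ℂ, E') (mI n) f z) {x₀ : X}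
    (hz : f z ∈ (chartAt (Model n) x₀).source) (v : E') :
    S.proj (f z) (mfderiv 𝓘(ℂ, E') (mI n) f z v) = 0 ↔
      Pc S x₀ (chartAt (Model n) x₀ (f z)) (fderiv ℂ (fun w => chartAt (Model n) x₀ (f w)) z v) =
        0 := by
  rw [← tcc_mfderiv hf hz v]
  exact (proj_zero_iff S hz _).symm

end Maps

end

end Crest.Agent.R266
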