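import Crest.Agent.R266.RatMain
import Crest.Agent.R266.RatDefs
import Crest.Agent.R266.Osgood

/-! Row 266, S0404 Step 3 (RAT): final form `rat_family` (interface of helper994, RatDefs names). -/

set_option autoImplicit false

open scoped Topology
open Set Metric Filter

namespace Crest.Agent.R266.Rat

theorem rat_family {E : Type*} [NormedAddCommGroup E] [NormedSpace ℂ E] [FiniteDimensional ℂ E]
    {N : ℕ} (G : E × ℂ × ℂ → Fin (N + 1) → ℂ) (U : Set (E × ℂ × ℂ)) (hU : IsOpen U)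
    (hG : AnalyticOnNhd ℂ G U) (hG0 : ∀ u ∈ U, G u ≠ 0) (s0 : E) (z0 : ℂ)
    (h0 : (s0, z0, z0) ∈ U)
    (hline : ∀ᶠ t : E × ℂ × ℂ in 𝓝 (s0, 1, 0), ∃ k,
      DegLE k (fun z => G (t.1, z, t.2.1 * z + t.2.2)) z0)
    (V : Set (E × ℂ)) (hV : V ∈ 𝓝 (s0, z0)) :
    ∃ r > 0, ball s0 r ×ˢ ball z0 r ×ˢ ball z0 r ⊆ U ∧
      ∃ W : Set (E × ℂ), IsOpen W ∧ W.Nonempty ∧ W ⊆ V ∧ W ⊆ ball s0 r ×ˢ ball z0 r ∧
        ∃ (d : ℕ) (q : E × ℂ → Fin (N + 1) → Fin (d + 1) → ℂ), AnalyticOnNhd ℂ q W ∧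
          (∀ w ∈ W, ∀ z, pev (q w) z ≠ 0) ∧ (∀ w ∈ W, ∃ i, q w i (Fin.last d) ≠ 0) ∧
          ∀ w ∈ W, ∀ z ∈ ball z0 r, Par (pev (q w) z) (G (w.1, z, w.2)) := by
  have : CompleteSpace E := FiniteDimensional.complete ℂ E
  obtain ⟨r, hr, hrU⟩ := Metric.isOpen_iff.1 hU _ h0
  have hrU' : ball s0 r ×ˢ ball z0 r ×ˢ ball z0 r ⊆ U := by
    rw [ball_prod_same, ball_prod_same]
    exact hrU
  obtain ⟨W, hWo, hWne, hWV, hWb, n, a, ha, haw⟩ := RatK.rat_main (F := G) (s0 := s0) (ζ := z0)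
    (r := r) hr (fun p hp => ((hG p (hrU' hp)).differentiableAt).differentiableWithinAt)
    (fun p hp => hG0 p (hrU' hp)) (by
      filter_upwards [hline] with t ht
      obtain ⟨k, c, hc, hp⟩ := ht
      refine ⟨k + 1, fun m i => c i m, ?_, ?_⟩
      · intro h
        apply hc
        funext i m
        exact congrFun (congrFun h m) i
      · filter_upwards [hp] with z hz
        exact hz) hV
  refine ⟨r, hr, hrU', W, hWo, hWne, hWV, hWb, n, fun w i m => a w m i, ?_, ?_, ?_, ?_⟩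
  · refine SCV.analyticOnNhd_of_differentiableOn hWo ?_
    refine differentiableOn_pi.2 fun i => differentiableOn_pi.2 fun m => ?_
    exact differentiableOn_pi.1 (differentiableOn_pi.1 ha m) i
  · exact fun w hw z => (haw w hw).1 z
  · intro w hw
    have := (haw w hw).2.1
    obtain ⟨i, hi⟩ := Function.ne_iff.1 this
    exact ⟨i, hi⟩
  · exact fun w hw z hz => (haw w hw).2.2 z hz

end Crest.Agent.R266.Rat
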