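import Crest.Agent.R266.StepThreeD
import Crest.Agent.R266.P1PolyX
import Crest.Agent.R266.RatFinal
import Crest.Agent.R266.Chart4
import Crest.Agent.R266.A.Iface404

/-!
R266 / StepThree (helper338): Step 3 of S0404, `three_holds : St_three n X`.
-/

set_option autoImplicit false

open scoped Manifold ContDiff Topology
open Set Metric Filter
open Crest.AlgGeometry.HolSplit
open Crest.Agent.R266.Rat Crest.Agent.R266.Emb Crest.Agent.R266.St4

namespace Crest.Agent.R266.St3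

section
variable {n N : ℕ} {X : Type} [TopologicalSpace X] [ChartedSpace (Model n) X]
  [IsManifold (mI n) ω X]
variable {E : Type} [NormedAddCommGroup E] [NormedSpace ℂ E]

theorem P1_holds (pe : ProjEmbedding n X N) : St_P1 pe := by
  intro h hh hg
  obtain ⟨d, q, hq, _⟩ := P1.p1_poly_onX pe (h false) (h true) (hh false) (hh true)
    (fun z hz => hg false z hz)
  exact ⟨d, q, hq⟩

theorem Rat_holds [FiniteDimensional ℂ E] : St_Rat E N := by
  intro G U hU hG hG0 s₀ z₀ h0 hline V hV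
  obtain ⟨r, hr, hb, W, hW, hWne, hWV, hWb, d, q, h1, h2, h3, h4⟩ :=
    rat_family G U hU hG hG0 s₀ z₀ h0 hline V hV
  exact ⟨r, hr, W, hW, hWne, hWV, hWb, hb, d, q, h1, h2, h3, h4⟩

/-- the doubling for the swapped splitting -/
theorem Dbl_swap {S : Splitting n X} {f : E → Bool → ℂ → X} {s₀ : E} {r δ : ℝ}
    {F : Bool → E × ℂ × ℂ → X} (hD : Dbl S f s₀ r δ F) :
    Dbl (swap S) f s₀ r δ (fun b p => F b (p.1, p.2.2, p.2.1)) := by
  have hsw : ∀ p : E × ℂ × ℂ, p ∈ Dg s₀ r δ → ((p.1, p.2.2, p.2.1) : E × ℂ × ℂ) ∈ Dg s₀ r δ := by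
    rintro p ⟨h1, h2, h3, h4⟩
    exact ⟨h1, h3, h2, by rw [norm_sub_rev]; exact h4⟩
  have hL : ∀ p : E × ℂ × ℂ, HasFDerivAt (fun p : E × ℂ × ℂ => ((p.1, p.2.2, p.2.1) : E × ℂ × ℂ))
      ((ContinuousLinearMap.fst ℂ E (ℂ × ℂ)).prod
        (((ContinuousLinearMap.snd ℂ ℂ ℂ).comp (ContinuousLinearMap.snd ℂ E (ℂ × ℂ))).prod
          ((ContinuousLinearMap.fst ℂ ℂ ℂ).comp (ContinuousLinearMap.snd ℂ E (ℂ × ℂ))))) p := by
    intro p
    exact hasFDerivAt_fst.prodMk ((hasFDerivAt_snd.comp p hasFDerivAt_snd).prodMk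
      (hasFDerivAt_fst.comp p hasFDerivAt_snd))
  have hmd : ∀ b, ∀ p ∈ Dg s₀ r δ, MDifferentiableAt 𝓘(ℂ, E × ℂ × ℂ) (mI n) (F b) p := fun b p hp =>
    ((hD.hol b).contMDiffAt ((isOpen_Dg s₀ r δ).mem_nhds hp)).mdifferentiableAt (by simp)
  refine ⟨?_, ?_, ?_, ?_, ?_⟩
  · intro b
    have h1 : ContMDiffOn 𝓘(ℂ, E × ℂ × ℂ) 𝓘(ℂ, E × ℂ × ℂ) ω
        (fun p : E × ℂ × ℂ => ((p.1, p.2.2, p.2.1) : E × ℂ × ℂ)) (Dg s₀ r δ) := by
      rw [contMDiffOn_iff_contDiffOn]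
      fun_prop
    exact (hD.hol b).comp h1 (fun p hp => hsw p hp)
  · intro b s z hs hz
    exact hD.diag b s z hs hz
  · intro b p hp
    have h1 := mfderiv_comp_affine (hL p) rfl (hmd b _ (hsw p hp))
      (Filter.EventuallyEq.refl (𝓝 p) (F b ∘ (fun p : E × ℂ × ℂ => ((p.1, p.2.2, p.2.1) : E × ℂ × ℂ))))
      ((0, 1, 0) : E × ℂ × ℂ)
    have h2 := hD.tan2 b _ (hsw p hp)
    rw [swap_proj_eq_iff]
    refine (congrArg (pr S (F b (p.1, p.2.2, p.2.1))) h1).trans ?_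
    exact h2
  · intro b p hp
    have h1 := mfderiv_comp_affine (hL p) rfl (hmd b _ (hsw p hp))
      (Filter.EventuallyEq.refl (𝓝 p) (F b ∘ (fun p : E × ℂ × ℂ => ((p.1, p.2.2, p.2.1) : E × ℂ × ℂ))))
      ((0, 0, 1) : E × ℂ × ℂ)
    have h2 := hD.tan1 b _ (hsw p hp)
    rw [swap_proj_zero_iff]
    refine (congrArg (pr S (F b (p.1, p.2.2, p.2.1))) h1).trans ?_
    exact h2.trans h1.symm
  · intro b s z₁ z₂ h1 h2 h3 h4
    exact hD.glue b s z₂ z₁ h2 h1 (hsw _ h3) (hsw _ h4)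

end

/-- **Step 3 of S0404.** -/
theorem three_holds (n : ℕ) (X : Type) [TopologicalSpace X] [T2Space X]
    [SecondCountableTopology X] [CompactSpace X] [ConnectedSpace X] [ChartedSpace (Model n) X]
    [IsManifold (mI n) ω X] : F404.St_three n X := by
  intro S hproj E _ _ _ f s₀ r δ F hr hδ hf hD V hV hVne hVs hsub
  obtain ⟨N, ⟨pe⟩⟩ := hproj
  have hsub' : ∀ O : Set (E × ℂ), IsOpen O → O.Nonempty → O ⊆ V →
      ∃ p ∈ O, Function.Surjective (dfam n f false p) := hsub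
  constructor
  · obtain ⟨W, g, h1, h2, h3, h4, h5, h6⟩ := step_three_core S pe (P1_holds pe) Rat_holds hδ hD
      hV hVne hVs hsub'
    exact ⟨W, g, h2, h1, h3, h4, h5, h6⟩
  · obtain ⟨W, g, h1, h2, h3, h4, h5, h6⟩ := step_three_core (swap S) pe (P1_holds pe) Rat_holds hδ
      (Dbl_swap hD) hV hVne hVs hsub'
    refine ⟨W, g, h2, h1, h3, ?_, h5, h6⟩
    intro w hw b z
    obtain ⟨u, hu⟩ := h4 w hw b z
    have h7 : (swap S).proj (g w b z) (vel n (g w b) z) = vel n (g w b) z := by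
      rw [← hu]
      exact (swap S).idem _ u
    exact (swap_proj_eq_iff S _ _).1 h7

end Crest.Agent.R266.St3

theorem Crest.Agent.R266.F404.three_holds (n : ℕ) (X : Type) [TopologicalSpace X] [T2Space X]
    [SecondCountableTopology X] [CompactSpace X] [ConnectedSpace X] [ChartedSpace (Model n) X]
    [IsManifold (mI n) ω X] : Crest.Agent.R266.F404.St_three n X :=
  Crest.Agent.R266.St3.three_holds n X
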