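import Crest.Agent.R266.Chart
import Crest.Agent.R266.StepThreeDefs
import Crest.Agent.R266.SCV

/-!
R266 / DblGlue (helper256): gluing of the local doublings near the diagonal of `P¹ × P¹`
(existence of `Dbl`), from the local existence (EX) and uniqueness (UQ) statements.
-/

set_option autoImplicit false
set_option linter.unusedSectionVars false

open scoped Manifold ContDiff Topology
open Set Metric Filter
open Crest.AlgGeometry.HolSplit

namespace Crest.Agent.R266.DblGlue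

/-- local existence of the doubling, in a chart -/
def EXStmt (Sp M : Type*) [NormedAddCommGroup Sp] [NormedSpace ℂ Sp]
    [NormedAddCommGroup M] [NormedSpace ℂ M] : Prop :=
  ∀ (U : Set M) (P : M → M →L[ℂ] M) (f : Sp × ℂ → M) (s₀ : Sp) (z₀ : ℂ), IsOpen U →
    AnalyticOnNhd ℂ P U → (∀ x ∈ U, ∀ v, P x (P x v) = P x v) → AnalyticAt ℂ f (s₀, z₀) →
    f (s₀, z₀) ∈ U →
    ∃ r > 0, ∃ F : Sp × ℂ × ℂ → M,
      AnalyticOnNhd ℂ F (ball s₀ r ×ˢ ball z₀ r ×ˢ ball z₀ r) ∧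
      (∀ p ∈ ball s₀ r ×ˢ ball z₀ r ×ˢ ball z₀ r, F p ∈ U ∧
        P (F p) (fderiv ℂ F p (0, 1, 0)) = fderiv ℂ F p (0, 1, 0) ∧
        P (F p) (fderiv ℂ F p (0, 0, 1)) = 0) ∧
      ∀ s ∈ ball s₀ r, ∀ z ∈ ball z₀ r, F (s, z, z) = f (s, z)

/-- local uniqueness of the doubling, in a chart -/
def UQStmt (Sp M : Type*) [NormedAddCommGroup Sp] [NormedSpace ℂ Sp]
    [NormedAddCommGroup M] [NormedSpace ℂ M] : Prop :=
  ∀ (U : Set M) (P : M → M →L[ℂ] M) (F F' : Sp × ℂ × ℂ → M) (s₀ : Sp) (z₀ : ℂ), IsOpen U →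
    AnalyticOnNhd ℂ P U → (∀ x ∈ U, ∀ v, P x (P x v) = P x v) →
    (∀ᶠ p in 𝓝 (s₀, z₀, z₀), AnalyticAt ℂ F p ∧ F p ∈ U ∧
      P (F p) (fderiv ℂ F p (0, 1, 0)) = fderiv ℂ F p (0, 1, 0) ∧
        P (F p) (fderiv ℂ F p (0, 0, 1)) = 0) →
    (∀ᶠ p in 𝓝 (s₀, z₀, z₀), AnalyticAt ℂ F' p ∧ F' p ∈ U ∧
      P (F' p) (fderiv ℂ F' p (0, 1, 0)) = fderiv ℂ F' p (0, 1, 0) ∧
        P (F' p) (fderiv ℂ F' p (0, 0, 1)) = 0) →
    (∀ᶠ q : Sp × ℂ in 𝓝 (s₀, z₀), F (q.1, q.2, q.2) = F' (q.1, q.2, q.2)) →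
    F =ᶠ[𝓝 (s₀, z₀, z₀)] F'

section Charts

variable {n : ℕ} {X : Type*} [TopologicalSpace X] [ChartedSpace (Model n) X]
  [IsManifold (mI n) ω X]
variable {V : Type*} [NormedAddCommGroup V] [NormedSpace ℂ V]

lemma contMDiffAt_iff_chart {F : V → X} {p : V} {x₀ : X}
    (hx : F p ∈ (chartAt (Model n) x₀).source) :
    ContMDiffAt 𝓘(ℂ, V) (mI n) ω F p ↔
      ContinuousAt F p ∧ AnalyticAt ℂ (fun q => chartAt (Model n) x₀ (F q)) p := by
  rw [contMDiffAt_iff_target_of_mem_source hx, contMDiffAt_iff_contDiffAt]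
  exact and_congr Iff.rfl ⟨fun h => h.analyticAt, fun h => h.contDiffAt⟩

lemma tcc_mfderiv {F : V → X} {p : V} {x₀ : X} (hx : F p ∈ (chartAt (Model n) x₀).source)
    (hF : ContMDiffAt 𝓘(ℂ, V) (mI n) ω F p) (v : V) :
    tcc (F p) x₀ (F p) (mfderiv 𝓘(ℂ, V) (mI n) F p v : Model n) =
      fderiv ℂ (fun q => chartAt (Model n) x₀ (F q)) p v := by
  have h1 : MDifferentiableAt (mI n) 𝓘(ℂ, Model n) (extChartAt (mI n) x₀) (F p) :=
    mdifferentiableAt_extChartAt (I := mI n) hx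
  have h2 : MDifferentiableAt 𝓘(ℂ, V) (mI n) F p := hF.mdifferentiableAt (by simp)
  have h3 := mfderiv_comp p h1 h2
  rw [mfderiv_eq_fderiv] at h3
  have h4 : fderiv ℂ (fun q => chartAt (Model n) x₀ (F q)) p v =
      (mfderiv (mI n) 𝓘(ℂ, Model n) (extChartAt (mI n) x₀) (F p))
        (mfderiv 𝓘(ℂ, V) (mI n) F p v) := by
    have := congrArg (fun L : V →L[ℂ] Model n => L v) h3
    exact this
  rw [h4]
  exact (congrArg (fun L : Model n →L[ℂ] Model n => L (mfderiv 𝓘(ℂ, V) (mI n) F p v))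
    (mfderiv_extChart (x₀ := x₀) hx)).symm

lemma tan1_iff (S : Splitting n X) {F : V → X} {p : V} {x₀ : X}
    (hx : F p ∈ (chartAt (Model n) x₀).source)
    (hF : ContMDiffAt 𝓘(ℂ, V) (mI n) ω F p) (v : V) :
    S.proj (F p) (mfderiv 𝓘(ℂ, V) (mI n) F p v) = mfderiv 𝓘(ℂ, V) (mI n) F p v ↔
      Pc S x₀ (chartAt (Model n) x₀ (F p)) (fderiv ℂ (fun q => chartAt (Model n) x₀ (F q)) p v) =
        fderiv ℂ (fun q => chartAt (Model n) x₀ (F q)) p v := by
  have hy : chartAt (Model n) x₀ (F p) ∈ (chartAt (Model n) x₀).target :=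
    (chartAt (Model n) x₀).map_source hx
  have h1 := Pc_tcc S hy (mfderiv 𝓘(ℂ, V) (mI n) F p v : Model n)
  rw [(chartAt (Model n) x₀).left_inv hx] at h1
  rw [← tcc_mfderiv hx hF v, h1]
  constructor
  · intro h
    exact congrArg (fun w : Model n => tcc (F p) x₀ (F p) w) h
  · intro h
    exact (tcc_cancel' hx _).symm.trans ((congrArg (fun w : Model n => tcc x₀ (F p) (F p) w)
      h).trans (tcc_cancel' hx _))

lemma tan2_iff (S : Splitting n X) {F : V → X} {p : V} {x₀ : X}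
    (hx : F p ∈ (chartAt (Model n) x₀).source)
    (hF : ContMDiffAt 𝓘(ℂ, V) (mI n) ω F p) (v : V) :
    S.proj (F p) (mfderiv 𝓘(ℂ, V) (mI n) F p v) = 0 ↔
      Pc S x₀ (chartAt (Model n) x₀ (F p)) (fderiv ℂ (fun q => chartAt (Model n) x₀ (F q)) p v) =
        0 := by
  have hy : chartAt (Model n) x₀ (F p) ∈ (chartAt (Model n) x₀).target :=
    (chartAt (Model n) x₀).map_source hx
  have h1 := Pc_tcc S hy (mfderiv 𝓘(ℂ, V) (mI n) F p v : Model n)
  rw [(chartAt (Model n) x₀).left_inv hx] at h1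
  rw [← tcc_mfderiv hx hF v, h1]
  constructor
  · intro h
    have h2 : pr S (F p) (mfderiv 𝓘(ℂ, V) (mI n) F p v : Model n) = 0 := h
    rw [h2, map_zero]
  · intro h
    exact (tcc_cancel' hx _).symm.trans ((congrArg (fun w : Model n => tcc x₀ (F p) (F p) w)
      h).trans (map_zero _))

/-- identity theorem for maps into a complex manifold -/
theorem ident [T2Space X] {F F' : V → X} {Ω : Set V} (hc : IsPreconnected Ω)
    (hF : ∀ p ∈ Ω, ContMDiffAt 𝓘(ℂ, V) (mI n) ω F p)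
    (hF' : ∀ p ∈ Ω, ContMDiffAt 𝓘(ℂ, V) (mI n) ω F' p) {p₀ : V} (hp₀ : p₀ ∈ Ω)
    (h : F =ᶠ[𝓝 p₀] F') : ∀ p ∈ Ω, F p = F' p := by
  set T : Set V := {p | F =ᶠ[𝓝 p] F'} with hT
  have hTo : IsOpen T := by
    rw [isOpen_iff_mem_nhds]
    intro p hp
    exact eventually_eventually_nhds.2 hp
  have hsub : Ω ⊆ T := by
    refine hc.subset_of_closure_inter_subset hTo ⟨p₀, hp₀, h⟩ ?_
    rintro p ⟨hpT, hpΩ⟩
    have hcF := (hF p hpΩ).continuousAt
    have hcF' := (hF' p hpΩ).continuousAt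
    have heq : F p = F' p := by
      refine tendsto_nhds_unique_of_frequently_eq hcF hcF' ?_
      rw [mem_closure_iff_frequently] at hpT
      refine hpT.mono (fun q hq => ?_)
      exact Filter.EventuallyEq.eq_of_nhds hq
    have hx : F p ∈ (chartAt (Model n) (F p)).source := mem_chart_source _ _
    have hx' : F' p ∈ (chartAt (Model n) (F p)).source := heq ▸ hx
    have ha := ((contMDiffAt_iff_chart hx).1 (hF p hpΩ)).2
    have ha' := ((contMDiffAt_iff_chart hx').1 (hF' p hpΩ)).2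
    have hs : ∀ᶠ q in 𝓝 p, F q ∈ (chartAt (Model n) (F p)).source :=
      hcF.eventually ((chartAt (Model n) (F p)).open_source.mem_nhds hx)
    have hs' : ∀ᶠ q in 𝓝 p, F' q ∈ (chartAt (Model n) (F p)).source :=
      hcF'.eventually ((chartAt (Model n) (F p)).open_source.mem_nhds hx')
    obtain ⟨ε, hε, hball⟩ := Metric.eventually_nhds_iff_ball.1
      ((ha.eventually_analyticAt.and ha'.eventually_analyticAt).and (hs.and hs'))
    obtain ⟨q, hqT, hqb⟩ : ∃ q, q ∈ T ∧ q ∈ ball p ε := by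
      rw [mem_closure_iff_nhds] at hpT
      obtain ⟨q, hq1, hq2⟩ := hpT (ball p ε) (ball_mem_nhds p hε)
      exact ⟨q, hq2, hq1⟩
    have hid : EqOn (fun q => chartAt (Model n) (F p) (F q))
        (fun q => chartAt (Model n) (F p) (F' q)) (ball p ε) := by
      refine AnalyticOnNhd.eqOn_of_preconnected_of_eventuallyEq
        (fun q hq => (hball q hq).1.1) (fun q hq => (hball q hq).1.2)
        (convex_ball p ε).isPreconnected hqb ?_
      filter_upwards [hqT] with z hz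
      rw [hz]
    filter_upwards [ball_mem_nhds p hε] with z hz
    exact (chartAt (Model n) (F p)).injOn (hball z hz).2.1 (hball z hz).2.2 (hid hz)
  intro p hp
  exact Filter.EventuallyEq.eq_of_nhds (hsub hp)

end Charts

section Doubling

variable {n : ℕ} {X : Type*} [TopologicalSpace X] [ChartedSpace (Model n) X]
  [IsManifold (mI n) ω X]
variable {E : Type*} [NormedAddCommGroup E] [NormedSpace ℂ E]

/-- `F` is holomorphic and doubly split at `p` -/
structure DS (S : Splitting n X) (F : E × ℂ × ℂ → X) (p : E × ℂ × ℂ) : Prop where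
  hol : ContMDiffAt 𝓘(ℂ, E × ℂ × ℂ) (mI n) ω F p
  tan1 : S.proj (F p) (mfderiv 𝓘(ℂ, E × ℂ × ℂ) (mI n) F p ((0, 1, 0) : E × ℂ × ℂ)) =
      mfderiv 𝓘(ℂ, E × ℂ × ℂ) (mI n) F p ((0, 1, 0) : E × ℂ × ℂ)
  tan2 : S.proj (F p) (mfderiv 𝓘(ℂ, E × ℂ × ℂ) (mI n) F p ((0, 0, 1) : E × ℂ × ℂ)) = 0

lemma DS.congr {S : Splitting n X} {F F' : E × ℂ × ℂ → X} {p : E × ℂ × ℂ} (h : DS S F p)
    (he : F' =ᶠ[𝓝 p] F) : DS S F' p := by
  have h1 : F' p = F p := he.eq_of_nhds
  have h2 : ∀ v : E × ℂ × ℂ, (mfderiv 𝓘(ℂ, E × ℂ × ℂ) (mI n) F' p v : Model n) =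
      mfderiv 𝓘(ℂ, E × ℂ × ℂ) (mI n) F p v := by
    intro v
    have := he.mfderiv_eq (I := 𝓘(ℂ, E × ℂ × ℂ)) (I' := mI n)
    exact congrArg (fun L : (E × ℂ × ℂ) →L[ℂ] Model n => L v) this
  refine ⟨h.hol.congr_of_eventuallyEq he, ?_, ?_⟩
  · have h3 := h.tan1
    have h4 : pr S (F' p) (mfderiv 𝓘(ℂ, E × ℂ × ℂ) (mI n) F' p ((0, 1, 0) : E × ℂ × ℂ)) =
        (mfderiv 𝓘(ℂ, E × ℂ × ℂ) (mI n) F' p ((0, 1, 0) : E × ℂ × ℂ) : Model n) := by
      rw [h2, h1]
      exact h3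
    exact h4
  · have h3 := h.tan2
    have h4 : pr S (F' p) (mfderiv 𝓘(ℂ, E × ℂ × ℂ) (mI n) F' p ((0, 0, 1) : E × ℂ × ℂ)) =
        (0 : Model n) := by
      rw [h2, h1]
      exact h3
    exact h4

/-- chart form of `DS` near a point -/
lemma DS.chart {S : Splitting n X} {F : E × ℂ × ℂ → X} {p : E × ℂ × ℂ} (h : DS S F p) {x₀ : X}
    (hx : F p ∈ (chartAt (Model n) x₀).source) :
    AnalyticAt ℂ (fun q => chartAt (Model n) x₀ (F q)) p ∧
      chartAt (Model n) x₀ (F p) ∈ (chartAt (Model n) x₀).target ∧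
      Pc S x₀ (chartAt (Model n) x₀ (F p))
        (fderiv ℂ (fun q => chartAt (Model n) x₀ (F q)) p (0, 1, 0)) =
          fderiv ℂ (fun q => chartAt (Model n) x₀ (F q)) p (0, 1, 0) ∧
      Pc S x₀ (chartAt (Model n) x₀ (F p))
        (fderiv ℂ (fun q => chartAt (Model n) x₀ (F q)) p (0, 0, 1)) = 0 :=
  ⟨((contMDiffAt_iff_chart hx).1 h.hol).2, (chartAt (Model n) x₀).map_source hx,
    (tan1_iff S hx h.hol _).1 h.tan1, (tan2_iff S hx h.hol _).1 h.tan2⟩

lemma DS.of_chart {S : Splitting n X} {F : E × ℂ × ℂ → X} {p : E × ℂ × ℂ} {x₀ : X}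
    (hx : F p ∈ (chartAt (Model n) x₀).source) (hc : ContinuousAt F p)
    (ha : AnalyticAt ℂ (fun q => chartAt (Model n) x₀ (F q)) p)
    (h1 : Pc S x₀ (chartAt (Model n) x₀ (F p))
        (fderiv ℂ (fun q => chartAt (Model n) x₀ (F q)) p (0, 1, 0)) =
          fderiv ℂ (fun q => chartAt (Model n) x₀ (F q)) p (0, 1, 0))
    (h2 : Pc S x₀ (chartAt (Model n) x₀ (F p))
        (fderiv ℂ (fun q => chartAt (Model n) x₀ (F q)) p (0, 0, 1)) = 0) : DS S F p := by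
  have hF := (contMDiffAt_iff_chart hx).2 ⟨hc, ha⟩
  exact ⟨hF, (tan1_iff S hx hF _).2 h1, (tan2_iff S hx hF _).2 h2⟩

/-- composition with a map scaling the last two directions -/
lemma DS.comp {S : Splitting n X} {F : E × ℂ × ℂ → X} {i : E × ℂ × ℂ → E × ℂ × ℂ}
    {p : E × ℂ × ℂ} (h : DS S F (i p)) (hi : AnalyticAt ℂ i p) {a b : ℂ}
    (h1 : fderiv ℂ i p (0, 1, 0) = a • ((0, 1, 0) : E × ℂ × ℂ))
    (h2 : fderiv ℂ i p (0, 0, 1) = b • ((0, 0, 1) : E × ℂ × ℂ)) :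
    DS S (fun q => F (i q)) p := by
  have hx : F (i p) ∈ (chartAt (Model n) (F (i p))).source := mem_chart_source _ _
  obtain ⟨ha, -, h3, h4⟩ := h.chart hx
  have hd : ∀ v, fderiv ℂ (fun q => chartAt (Model n) (F (i p)) (F (i q))) p v =
      fderiv ℂ (fun q => chartAt (Model n) (F (i p)) (F q)) (i p) (fderiv ℂ i p v) := by
    intro v
    have := fderiv_comp (𝕜 := ℂ) p (g := fun q => chartAt (Model n) (F (i p)) (F q)) (f := i)
      ha.differentiableAt hi.differentiableAt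
    exact congrArg (fun L : (E × ℂ × ℂ) →L[ℂ] Model n => L v) this
  refine DS.of_chart (x₀ := F (i p)) hx ?_ ?_ ?_ ?_
  · exact ContinuousAt.comp (f := i) (g := F) h.hol.continuousAt hi.continuousAt
  · exact ha.comp_of_eq (f := i) hi rfl
  · rw [hd, h1, map_smul, map_smul, h3]
  · rw [hd, h2, map_smul, map_smul, h4, smul_zero]

/-- local existence of the doubling -/
theorem local_exists (hEX : EXStmt E (Model n)) (S : Splitting n X) {g : E → ℂ → X}
    {s₀ : E} {z₀ : ℂ}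
    (hg : ContMDiffAt 𝓘(ℂ, E × ℂ) (mI n) ω (fun p : E × ℂ => g p.1 p.2) (s₀, z₀)) :
    ∃ r > 0, ∃ F : E × ℂ × ℂ → X,
      (∀ p ∈ ball s₀ r ×ˢ ball z₀ r ×ˢ ball z₀ r, DS S F p) ∧
      ∀ s ∈ ball s₀ r, ∀ z ∈ ball z₀ r, F (s, z, z) = g s z := by
  set x₀ := g s₀ z₀ with hx₀
  have hx : g s₀ z₀ ∈ (chartAt (Model n) x₀).source := mem_chart_source _ _
  obtain ⟨hgc, hga⟩ := (contMDiffAt_iff_chart (x₀ := x₀) (p := (s₀, z₀)) hx).1 hg
  have hPa : AnalyticOnNhd ℂ (Pc S x₀) (chartAt (Model n) x₀).target := by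
    intro y hy
    exact ((Pc_contDiffOn S x₀).contDiffAt
      ((chartAt (Model n) x₀).open_target.mem_nhds hy)).analyticAt
  obtain ⟨r, hr, F, hFa, hF, hFd⟩ := hEX (chartAt (Model n) x₀).target (Pc S x₀)
    (fun p : E × ℂ => chartAt (Model n) x₀ (g p.1 p.2)) s₀ z₀ (chartAt (Model n) x₀).open_target
    hPa (fun x hx v => Pc_idem S hx v) hga ((chartAt (Model n) x₀).map_source hx)
  -- shrink so that `g` stays in the chart
  have hsrc : ∀ᶠ p : E × ℂ in 𝓝 (s₀, z₀), g p.1 p.2 ∈ (chartAt (Model n) x₀).source :=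
    hgc.eventually ((chartAt (Model n) x₀).open_source.mem_nhds hx)
  obtain ⟨ε, hε, hball⟩ := Metric.eventually_nhds_iff_ball.1 hsrc
  refine ⟨min r ε, lt_min hr hε, fun p => (chartAt (Model n) x₀).symm (F p), ?_, ?_⟩
  · intro p hp
    have hp' : p ∈ ball s₀ r ×ˢ ball z₀ r ×ˢ ball z₀ r :=
      ⟨ball_subset_ball (min_le_left _ _) hp.1, ball_subset_ball (min_le_left _ _) hp.2.1,
        ball_subset_ball (min_le_left _ _) hp.2.2⟩
    have hopen : IsOpen (ball s₀ r ×ˢ ball z₀ r ×ˢ ball z₀ r) :=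
      isOpen_ball.prod (isOpen_ball.prod isOpen_ball)
    obtain ⟨hU, h1, h2⟩ := hF p hp'
    have hev : (fun q => chartAt (Model n) x₀ ((chartAt (Model n) x₀).symm (F q))) =ᶠ[𝓝 p] F := by
      filter_upwards [hopen.mem_nhds hp'] with q hq
      exact (chartAt (Model n) x₀).right_inv (hF q hq).1
    have hsrc' : (chartAt (Model n) x₀).symm (F p) ∈ (chartAt (Model n) x₀).source :=
      (chartAt (Model n) x₀).map_target hU
    have hfd : fderiv ℂ (fun q => chartAt (Model n) x₀ ((chartAt (Model n) x₀).symm (F q))) p =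
        fderiv ℂ F p := hev.fderiv_eq
    refine DS.of_chart (x₀ := x₀) hsrc' ?_ ?_ ?_ ?_
    · exact ContinuousAt.comp (f := F) ((chartAt (Model n) x₀).continuousAt_symm hU)
        (hFa p hp').continuousAt
    · exact (hFa p hp').congr hev.symm
    · rw [hfd, (chartAt (Model n) x₀).right_inv hU]
      exact h1
    · rw [hfd, (chartAt (Model n) x₀).right_inv hU]
      exact h2
  · intro s hs z hz
    change (chartAt (Model n) x₀).symm (F (s, z, z)) = g s z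
    rw [hFd s (ball_subset_ball (min_le_left _ _) hs) z (ball_subset_ball (min_le_left _ _) hz)]
    refine (chartAt (Model n) x₀).left_inv (hball (s, z) ?_)
    rw [mem_ball, Prod.dist_eq]
    exact max_lt (lt_of_lt_of_le hs (min_le_right _ _)) (lt_of_lt_of_le hz (min_le_right _ _))

/-- uniqueness of doublings on products of balls -/
theorem unique_ball [T2Space X] (hUQ : UQStmt E (Model n)) (S : Splitting n X)
    {F F' : E × ℂ × ℂ → X} {s₀ : E} {z₀ : ℂ} {r ρ : ℝ} (hr : 0 < r) (hρ : 0 < ρ)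
    (hF : ∀ p ∈ ball s₀ r ×ˢ ball z₀ ρ ×ˢ ball z₀ ρ, DS S F p)
    (hF' : ∀ p ∈ ball s₀ r ×ˢ ball z₀ ρ ×ˢ ball z₀ ρ, DS S F' p)
    (hd : ∀ s ∈ ball s₀ r, ∀ z ∈ ball z₀ ρ, F (s, z, z) = F' (s, z, z)) :
    ∀ p ∈ ball s₀ r ×ˢ ball z₀ ρ ×ˢ ball z₀ ρ, F p = F' p := by
  set Ω := ball s₀ r ×ˢ ball z₀ ρ ×ˢ ball z₀ ρ with hΩdef
  have hopen : IsOpen Ω := isOpen_ball.prod (isOpen_ball.prod isOpen_ball)
  have hconv : Convex ℝ Ω := (convex_ball _ _).prod ((convex_ball _ _).prod (convex_ball _ _))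
  have hp₀ : (s₀, z₀, z₀) ∈ Ω := ⟨mem_ball_self hr, mem_ball_self hρ, mem_ball_self hρ⟩
  have heq0 : F (s₀, z₀, z₀) = F' (s₀, z₀, z₀) := hd _ (mem_ball_self hr) _ (mem_ball_self hρ)
  set x₀ := F (s₀, z₀, z₀) with hx₀
  have hx : F (s₀, z₀, z₀) ∈ (chartAt (Model n) x₀).source := mem_chart_source _ _
  have hx' : F' (s₀, z₀, z₀) ∈ (chartAt (Model n) x₀).source := heq0 ▸ hx
  have hPa : AnalyticOnNhd ℂ (Pc S x₀) (chartAt (Model n) x₀).target := by
    intro y hy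
    exact ((Pc_contDiffOn S x₀).contDiffAt
      ((chartAt (Model n) x₀).open_target.mem_nhds hy)).analyticAt
  have hs : ∀ᶠ p in 𝓝 (s₀, z₀, z₀), F p ∈ (chartAt (Model n) x₀).source :=
    (hF _ hp₀).hol.continuousAt.eventually ((chartAt (Model n) x₀).open_source.mem_nhds hx)
  have hs' : ∀ᶠ p in 𝓝 (s₀, z₀, z₀), F' p ∈ (chartAt (Model n) x₀).source :=
    (hF' _ hp₀).hol.continuousAt.eventually ((chartAt (Model n) x₀).open_source.mem_nhds hx')
  have hΩn := hopen.mem_nhds hp₀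
  have key := hUQ (chartAt (Model n) x₀).target (Pc S x₀)
    (fun q => chartAt (Model n) x₀ (F q)) (fun q => chartAt (Model n) x₀ (F' q)) s₀ z₀
    (chartAt (Model n) x₀).open_target hPa (fun x hx v => Pc_idem S hx v)
    (by
      filter_upwards [hs, hΩn] with p hp hpΩ
      exact (hF p hpΩ).chart hp)
    (by
      filter_upwards [hs', hΩn] with p hp hpΩ
      exact (hF' p hpΩ).chart hp)
    (by
      have : ∀ᶠ q : E × ℂ in 𝓝 (s₀, z₀), q ∈ ball s₀ r ×ˢ ball z₀ ρ :=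
        (isOpen_ball.prod isOpen_ball).mem_nhds ⟨mem_ball_self hr, mem_ball_self hρ⟩
      filter_upwards [this] with q hq
      rw [hd q.1 hq.1 q.2 hq.2])
  refine ident hconv.isPreconnected (fun p hp => (hF p hp).hol) (fun p hp => (hF' p hp).hol)
    hp₀ ?_
  filter_upwards [key, hs, hs'] with p h1 h2 h3
  exact (chartAt (Model n) x₀).injOn h2 h3 h1

/-- local solutions of uniform size -/
theorem uniform_exists (hEX : EXStmt E (Model n)) (S : Splitting n X) {W : Set E}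
    (hW : IsOpen W) {f : E → Bool → ℂ → X} (hf : IsFam n W f) {s₀ : E} (hs : s₀ ∈ W) (R : ℝ) :
    ∃ r > 0, ball s₀ r ⊆ W ∧ ∀ b, ∀ z₀ ∈ closedBall (0 : ℂ) R, ∃ F : E × ℂ × ℂ → X,
      (∀ p ∈ ball s₀ r ×ˢ ball z₀ r ×ˢ ball z₀ r, DS S F p) ∧
      ∀ s ∈ ball s₀ r, ∀ z ∈ ball z₀ r, F (s, z, z) = f s b z := by
  have key : ∀ b, ∃ r > 0, ∀ z₀ ∈ closedBall (0 : ℂ) R, ∃ F : E × ℂ × ℂ → X,
      (∀ p ∈ ball s₀ r ×ˢ ball z₀ r ×ˢ ball z₀ r, DS S F p) ∧
      ∀ s ∈ ball s₀ r, ∀ z ∈ ball z₀ r, F (s, z, z) = f s b z := by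
    intro b
    refine (isCompact_closedBall (0 : ℂ) R).induction_on
      (p := fun A => ∃ r > 0, ∀ z₀ ∈ A, ∃ F : E × ℂ × ℂ → X,
      (∀ p ∈ ball s₀ r ×ˢ ball z₀ r ×ˢ ball z₀ r, DS S F p) ∧
      ∀ s ∈ ball s₀ r, ∀ z ∈ ball z₀ r, F (s, z, z) = f s b z) ?_ ?_ ?_ ?_
    · exact ⟨1, one_pos, fun z hz => hz.elim⟩
    · rintro A B hAB ⟨r, hr, h⟩
      exact ⟨r, hr, fun z hz => h z (hAB hz)⟩
    · rintro A B ⟨r, hr, h⟩ ⟨r', hr', h'⟩
      refine ⟨min r r', lt_min hr hr', fun z hz => ?_⟩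
      rcases hz with hz | hz
      · obtain ⟨F, h1, h2⟩ := h z hz
        exact ⟨F, fun p hp => h1 p ⟨ball_subset_ball (min_le_left _ _) hp.1,
          ball_subset_ball (min_le_left _ _) hp.2.1, ball_subset_ball (min_le_left _ _) hp.2.2⟩,
          fun s hs z hz => h2 s (ball_subset_ball (min_le_left _ _) hs) z
            (ball_subset_ball (min_le_left _ _) hz)⟩
      · obtain ⟨F, h1, h2⟩ := h' z hz
        exact ⟨F, fun p hp => h1 p ⟨ball_subset_ball (min_le_right _ _) hp.1,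
          ball_subset_ball (min_le_right _ _) hp.2.1, ball_subset_ball (min_le_right _ _) hp.2.2⟩,
          fun s hs z hz => h2 s (ball_subset_ball (min_le_right _ _) hs) z
            (ball_subset_ball (min_le_right _ _) hz)⟩
    · intro z₁ _
      have hg : ContMDiffAt 𝓘(ℂ, E × ℂ) (mI n) ω (fun p : E × ℂ => f p.1 b p.2) (s₀, z₁) :=
        (hf.hol b).contMDiffAt ((hW.prod isOpen_univ).mem_nhds ⟨hs, mem_univ _⟩)
      obtain ⟨r, hr, F, h1, h2⟩ := local_exists hEX S (g := fun s z => f s b z) hg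
      refine ⟨ball z₁ (r / 2), mem_nhdsWithin_of_mem_nhds (ball_mem_nhds _ (half_pos hr)),
        r / 2, half_pos hr, fun z hz => ⟨F, ?_, ?_⟩⟩
      · have hsub : ball z (r / 2) ⊆ ball z₁ r := by
          intro w hw
          rw [mem_ball] at hw hz ⊢
          calc dist w z₁ ≤ dist w z + dist z z₁ := dist_triangle _ _ _
            _ < r / 2 + r / 2 := by linarith
            _ = r := by ring
        intro p hp
        exact h1 p ⟨ball_subset_ball (by linarith) hp.1, hsub hp.2.1, hsub hp.2.2⟩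
      · intro s hs' w hw
        refine h2 s (ball_subset_ball (by linarith) hs') w ?_
        rw [mem_ball] at hw hz ⊢
        calc dist w z₁ ≤ dist w z + dist z z₁ := dist_triangle _ _ _
          _ < r / 2 + r / 2 := by linarith
          _ = r := by ring
  obtain ⟨r₁, hr₁, h₁⟩ := key true
  obtain ⟨r₂, hr₂, h₂⟩ := key false
  obtain ⟨r₃, hr₃, h₃⟩ := Metric.isOpen_iff.1 hW s₀ hs
  refine ⟨min r₃ (min r₁ r₂), lt_min hr₃ (lt_min hr₁ hr₂),
    (ball_subset_ball (min_le_left _ _)).trans h₃, ?_⟩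
  intro b z hz
  cases b with
  | true =>
    obtain ⟨F, h1, h2⟩ := h₁ z hz
    have hle : min r₃ (min r₁ r₂) ≤ r₁ := (min_le_right _ _).trans (min_le_left _ _)
    exact ⟨F, fun p hp => h1 p ⟨ball_subset_ball hle hp.1,
          ball_subset_ball hle hp.2.1, ball_subset_ball hle hp.2.2⟩,
          fun s hs z hz => h2 s (ball_subset_ball hle hs) z (ball_subset_ball hle hz)⟩
  | false =>
    obtain ⟨F, h1, h2⟩ := h₂ z hz
    have hle : min r₃ (min r₁ r₂) ≤ r₂ := (min_le_right _ _).trans (min_le_right _ _)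
    exact ⟨F, fun p hp => h1 p ⟨ball_subset_ball hle hp.1,
          ball_subset_ball hle hp.2.1, ball_subset_ball hle hp.2.2⟩,
          fun s hs z hz => h2 s (ball_subset_ball hle hs) z (ball_subset_ball hle hz)⟩

/-- **existence of the doubling near the diagonal** -/
theorem exists_dbl_of [T2Space X] (hEX : EXStmt E (Model n)) (hUQ : UQStmt E (Model n))
    (S : Splitting n X) {W : Set E} (hW : IsOpen W) {f : E → Bool → ℂ → X} (hf : IsFam n W f)
    {s₀ : E} (hs : s₀ ∈ W) :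
    ∃ r > 0, ∃ δ > 0, ball s₀ r ⊆ W ∧ ∃ F : Bool → E × ℂ × ℂ → X, Dbl S f s₀ r δ F := by
  classical
  have : Nonempty X := ⟨f s₀ true 0⟩
  obtain ⟨r, hr, hrW, hsol⟩ := uniform_exists hEX S hW hf hs 2
  choose! F₀ hF₀ hF₀d using hsol
  set δ := min (1 / 4) (r / 16) with hδ
  have hδ0 : 0 < δ := lt_min (by norm_num) (by positivity)
  have hδ1 : δ ≤ 1 / 4 := min_le_left _ _
  have hδ2 : δ ≤ r / 16 := min_le_right _ _
  set F : Bool → E × ℂ × ℂ → X := fun b p => F₀ b p.2.1 p with hF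
  -- agreement of neighbouring local solutions
  have hagree : ∀ b, ∀ u ∈ closedBall (0 : ℂ) 2, ∀ w ∈ closedBall (0 : ℂ) 2, dist w u < r / 2 →
      ∀ s ∈ ball s₀ r, ∀ z ∈ ball w (r / 2), F₀ b w (s, w, z) = F₀ b u (s, w, z) := by
    intro b u hu w hw hwu s hs' z hz
    refine unique_ball hUQ S (s₀ := s₀) (z₀ := w) (r := r) (ρ := r / 2) hr (half_pos hr)
      (fun p hp => hF₀ b w hw p ⟨hp.1, ball_subset_ball (by linarith) hp.2.1,
        ball_subset_ball (by linarith) hp.2.2⟩)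
      (fun p hp => hF₀ b u hu p ?_) ?_ (s, w, z) ⟨hs', mem_ball_self (half_pos hr), hz⟩
    · have hsub : ball w (r / 2) ⊆ ball u r := by
        intro v hv
        rw [mem_ball] at hv ⊢
        calc dist v u ≤ dist v w + dist w u := dist_triangle _ _ _
          _ < r / 2 + r / 2 := by linarith
          _ = r := by ring
      exact ⟨hp.1, hsub hp.2.1, hsub hp.2.2⟩
    · intro s hs' v hv
      have hv' : v ∈ ball u r := by
        rw [mem_ball] at hv ⊢
        calc dist v u ≤ dist v w + dist w u := dist_triangle _ _ _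
          _ < r / 2 + r / 2 := by linarith
          _ = r := by ring
      rw [hF₀d b w hw s hs' v (ball_subset_ball (by linarith) hv), hF₀d b u hu s hs' v hv']
  have hDg : IsOpen (Dg s₀ r δ) := by
    have h1 : Dg s₀ r δ = {p : E × ℂ × ℂ | ‖p.1 - s₀‖ < r} ∩ {p | ‖p.2.1‖ < 2} ∩
        {p | ‖p.2.2‖ < 2} ∩ {p | ‖p.2.1 - p.2.2‖ < δ} := by
      ext p
      simp only [Dg, mem_inter_iff, mem_ofPred_eq, and_assoc]
    rw [h1]
    refine ((IsOpen.inter ?_ ?_).inter ?_).inter ?_ <;>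
      exact isOpen_lt (by fun_prop) continuous_const
  have hlocal : ∀ b, ∀ p ∈ Dg s₀ r δ, F b =ᶠ[𝓝 p] F₀ b p.2.1 := by
    rintro b p hp
    have h2 : ∀ᶠ q : E × ℂ × ℂ in 𝓝 p, dist q.2.1 p.2.1 < r / 2 := by
      have : ContinuousAt (fun q : E × ℂ × ℂ => q.2.1) p := by fun_prop
      exact this.eventually (Metric.ball_mem_nhds _ (half_pos hr))
    filter_upwards [hDg.mem_nhds hp, h2] with q hq hq2
    have h3 := hagree b p.2.1 (by simpa using hp.2.1.le) q.2.1 (by simpa using hq.2.1.le) hq2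
      q.1 (by simpa [dist_eq_norm] using hq.1) q.2.2 (by
        rw [mem_ball, dist_comm, dist_eq_norm]
        calc ‖q.2.1 - q.2.2‖ < δ := hq.2.2.2
          _ ≤ r / 2 := by linarith)
    exact h3
  have hDS : ∀ b, ∀ p ∈ Dg s₀ r δ, DS S (F b) p := by
    intro b p hp
    refine (hF₀ b p.2.1 (by simpa using hp.2.1.le) p ⟨?_, ?_, ?_⟩).congr (hlocal b p hp)
    · simpa [dist_eq_norm] using hp.1
    · exact mem_ball_self hr
    · rw [mem_ball, dist_comm, dist_eq_norm]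
      calc ‖p.2.1 - p.2.2‖ < δ := hp.2.2.2
        _ ≤ r := by linarith
  refine ⟨r, hr, δ, hδ0, hrW, F, ?_⟩
  refine ⟨fun b p hp => ((hDS b p hp).hol).contMDiffWithinAt, ?_, fun b p hp => (hDS b p hp).tan1,
    fun b p hp => (hDS b p hp).tan2, ?_⟩
  · intro b s z hs' hz
    have := hF₀d b z (by simpa using hz.le) s (by simpa [dist_eq_norm] using hs') z
      (mem_ball_self hr)
    exact this
  · intro b s z₁ z₂ hz₁ hz₂ hp hp'
    obtain ⟨hps, hp1, hp2, hp3⟩ := hp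
    obtain ⟨-, hq1, hq2, hq3⟩ := hp'
    simp only at hps hp1 hp2 hp3 hq1 hq2 hq3
    have hz₁pos : 0 < ‖z₁‖ := norm_pos_iff.2 hz₁
    have hz₁half : 1 / 2 < ‖z₁‖ := by
      rw [norm_inv] at hq1
      rw [inv_lt_comm₀ hz₁pos (by norm_num)] at hq1
      linarith
    have hball : ∀ u ∈ ball z₁ δ, u ≠ 0 ∧ u⁻¹ ∈ ball z₁⁻¹ r := by
      intro u hu
      rw [mem_ball, dist_eq_norm] at hu
      have hu' : 1 / 4 < ‖u‖ := by
        have := norm_sub_norm_le z₁ u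
        rw [norm_sub_rev] at hu
        linarith
      have hu0 : u ≠ 0 := by
        rintro rfl
        simp at hu'
        linarith
      refine ⟨hu0, ?_⟩
      rw [mem_ball, dist_eq_norm]
      have h1 : u⁻¹ - z₁⁻¹ = (z₁ - u) / (u * z₁) := by
        field_simp
      rw [h1, norm_div, norm_mul, div_lt_iff₀ (by positivity)]
      rw [norm_sub_rev] at hu
      have h16 : 1 / 16 ≤ ‖u‖ * ‖z₁‖ := by nlinarith
      calc ‖z₁ - u‖ < δ := hu
        _ ≤ r / 16 := hδ2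
        _ = r * (1 / 16) := by ring
        _ ≤ r * (‖u‖ * ‖z₁‖) := by gcongr
    have hz₁' : z₁⁻¹ ∈ closedBall (0 : ℂ) 2 := by simpa using hq1.le
    have hz₁'' : z₁ ∈ closedBall (0 : ℂ) 2 := by simpa using hp1.le
    have key := unique_ball hUQ S (s₀ := s₀) (z₀ := z₁) (r := r) (ρ := δ) hr hδ0
      (F := F₀ (!b) z₁) (F' := fun q => F₀ b z₁⁻¹ (q.1, q.2.1⁻¹, q.2.2⁻¹))
      (fun p hp => hF₀ (!b) z₁ hz₁'' p ⟨hp.1, ball_subset_ball (by linarith) hp.2.1,
        ball_subset_ball (by linarith) hp.2.2⟩)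
      (fun p hp => ?_) (fun s hs' z hz => ?_) (s, z₁, z₂)
      ⟨by simpa [dist_eq_norm] using hps, mem_ball_self hδ0, by
        rw [mem_ball, dist_comm, dist_eq_norm]; exact hp3⟩
    · exact key
    · obtain ⟨hp1', hp2', hp3'⟩ := hp
      obtain ⟨hu0, hu⟩ := hball _ hp2'
      obtain ⟨hv0, hv⟩ := hball _ hp3'
      have hi : AnalyticAt ℂ (fun q : E × ℂ × ℂ => ((q.1, q.2.1⁻¹, q.2.2⁻¹) : E × ℂ × ℂ)) p := by
        have ha1 : AnalyticAt ℂ (fun q : E × ℂ × ℂ => q.2.1) p :=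
          analyticAt_fst.comp_of_eq analyticAt_snd rfl
        have ha2 : AnalyticAt ℂ (fun q : E × ℂ × ℂ => q.2.2) p :=
          analyticAt_snd.comp_of_eq analyticAt_snd rfl
        exact analyticAt_fst.prod ((ha1.inv hu0).prod (ha2.inv hv0))
      have hd1 : HasFDerivAt (fun q : E × ℂ × ℂ => ((q.1, q.2.1⁻¹, q.2.2⁻¹) : E × ℂ × ℂ))
          ((ContinuousLinearMap.fst ℂ E (ℂ × ℂ)).prod
            ((-(p.2.1 ^ 2)⁻¹ • ((ContinuousLinearMap.fst ℂ ℂ ℂ).comp
              (ContinuousLinearMap.snd ℂ E (ℂ × ℂ)))).prod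
            (-(p.2.2 ^ 2)⁻¹ • ((ContinuousLinearMap.snd ℂ ℂ ℂ).comp
              (ContinuousLinearMap.snd ℂ E (ℂ × ℂ)))))) p := by
        have ha1 : HasFDerivAt (fun q : E × ℂ × ℂ => q.2.1) ((ContinuousLinearMap.fst ℂ ℂ ℂ).comp
              (ContinuousLinearMap.snd ℂ E (ℂ × ℂ))) p :=
          ((ContinuousLinearMap.fst ℂ ℂ ℂ).comp
              (ContinuousLinearMap.snd ℂ E (ℂ × ℂ))).hasFDerivAt
        have ha2 : HasFDerivAt (fun q : E × ℂ × ℂ => q.2.2) ((ContinuousLinearMap.snd ℂ ℂ ℂ).comp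
              (ContinuousLinearMap.snd ℂ E (ℂ × ℂ))) p :=
          ((ContinuousLinearMap.snd ℂ ℂ ℂ).comp
              (ContinuousLinearMap.snd ℂ E (ℂ × ℂ))).hasFDerivAt
        have hb1 := (hasDerivAt_inv hu0).comp_hasFDerivAt p ha1
        have hb2 := (hasDerivAt_inv hv0).comp_hasFDerivAt p ha2
        exact (ContinuousLinearMap.fst ℂ E (ℂ × ℂ)).hasFDerivAt.prodMk (hb1.prodMk hb2)
      refine DS.comp (i := fun q : E × ℂ × ℂ => ((q.1, q.2.1⁻¹, q.2.2⁻¹) : E × ℂ × ℂ))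
        (hF₀ b z₁⁻¹ hz₁' _ ⟨hp1', hu, hv⟩) hi (a := -(p.2.1 ^ 2)⁻¹) (b := -(p.2.2 ^ 2)⁻¹) ?_ ?_
      · rw [hd1.fderiv]
        simp
      · rw [hd1.fderiv]
        simp
    · obtain ⟨hz0, hz'⟩ := hball z hz
      rw [hF₀d (!b) z₁ hz₁'' s hs' z (ball_subset_ball (by linarith) hz)]
      simp only
      rw [hF₀d b z₁⁻¹ hz₁' s hs' z⁻¹ hz']
      exact hf.glue s (hrW hs') b z hz0

end Doubling

end Crest.Agent.R266.DblGlue
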