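import Crest.Agent.R266.Goursat
import Crest.Agent.R266.DblGlue
import Crest.Agent.R266.A.Iface404

/-! Row 266, S0404 Step 2: the doubling of a family of rational curves near the diagonal. -/

set_option autoImplicit false
set_option linter.unusedSectionVars false
open Set Filter Topology Metric
open scoped Manifold ContDiff
open Crest.AlgGeometry.HolSplit

noncomputable section
namespace Crest.Agent.R266.Goursat

lemma ball3 {S : Type*} [PseudoMetricSpace S] (s0 : S) (z0 : ℂ) (r : ℝ) :
    ball s0 r ×ˢ ball z0 r ×ˢ ball z0 r = ball ((s0, z0, z0) : S × ℂ × ℂ) r := by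
  rw [ball_prod_same, ball_prod_same]

theorem ex_holds (Sp M : Type*) [NormedAddCommGroup Sp] [NormedSpace ℂ Sp]
    [FiniteDimensional ℂ Sp] [NormedAddCommGroup M] [NormedSpace ℂ M] [CompleteSpace M] :
    DblGlue.EXStmt Sp M := by
  intro U P f s0 z0 hU hP hid hf hfU
  obtain ⟨r, hr, F, hF, hFU, hd, h1, h2⟩ := goursat_exists hU hP hid hf hfU
  refine ⟨r, hr, F, ?_, ?_, fun s hs z hz => hd s z hs hz⟩
  · rw [ball3]; exact hF
  · rw [ball3]; exact fun p hp => ⟨hFU p hp, h1 p hp, h2 p hp⟩

theorem uq_holds (Sp M : Type*) [NormedAddCommGroup Sp] [NormedSpace ℂ Sp]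
    [FiniteDimensional ℂ Sp] [NormedAddCommGroup M] [NormedSpace ℂ M] [CompleteSpace M] :
    DblGlue.UQStmt Sp M := by
  intro U P F F' s0 z0 hU hP hid h h' heq
  exact goursat_unique hU hP h.self_of_nhds.1 h'.self_of_nhds.1 h.self_of_nhds.2.1
    (h.mono fun p hp => hp.2.2.1) (h.mono fun p hp => hp.2.2.2)
    (h'.mono fun p hp => hp.2.2.1) (h'.mono fun p hp => hp.2.2.2) heq

end Crest.Agent.R266.Goursat

namespace Crest.Agent.R266.F404

variable (n : ℕ) (X : Type) [TopologicalSpace X] [T2Space X] [SecondCountableTopology X]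
  [CompactSpace X] [ConnectedSpace X] [ChartedSpace (Model n) X] [IsManifold (mI n) ω X]

theorem two_holds : St_two n X := by
  intro S E _ _ _ W f s0 hW hs hf
  obtain ⟨r, hr, δ, hδ, hsub, F, hF⟩ := DblGlue.exists_dbl_of (Goursat.ex_holds E (Model n))
    (Goursat.uq_holds E (Model n)) S hW hf hs
  exact ⟨r, hr, δ, hδ, F, hsub, hF⟩

end Crest.Agent.R266.F404
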