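import Crest.Agent.R266.DStmts

/-!
R266 / AreaD (helper464): the area bound `St_area` for the disc lemma.
-/

set_option autoImplicit false

open scoped Manifold ContDiff Topology ENNReal
open Set Metric Filter MeasureTheory

namespace Crest.Agent.R266
namespace AreaD

/-- real basis of `ℂ²` -/
def bs : Fin 4 → ℂ × ℂ := ![(1, 0), (Complex.I, 0), (0, 1), (0, Complex.I)]

/-- real coordinates of `ℂ²` -/
noncomputable def co : Fin 4 → ((ℂ × ℂ) →L[ℝ] ℝ) :=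
  ![Complex.reCLM.comp (ContinuousLinearMap.fst ℝ ℂ ℂ),
    Complex.imCLM.comp (ContinuousLinearMap.fst ℝ ℂ ℂ),
    Complex.reCLM.comp (ContinuousLinearMap.snd ℝ ℂ ℂ),
    Complex.imCLM.comp (ContinuousLinearMap.snd ℝ ℂ ℂ)]

lemma sum_co (u : ℂ × ℂ) : ∑ k, co k u • bs k = u := by
  simp only [Fin.sum_univ_four, co, bs]
  ext <;> simp

/-- the bilinear map associated with `γ z` -/
noncomputable def toB (γ : ℂ × ℂ → ℂ × ℂ → ℂ × ℂ → ℝ) (z : ℂ × ℂ) :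
    (ℂ × ℂ) →L[ℝ] (ℂ × ℂ) →L[ℝ] ℝ :=
  ∑ k, ∑ l, γ z (bs k) (bs l) • ((co k).smulRight (co l))

variable {Ω : Set (ℂ × ℂ)} {γ : ℂ × ℂ → ℂ × ℂ → ℂ × ℂ → ℝ}

lemma expand_left (hγ : CForm Ω γ) {z : ℂ × ℂ} (hz : z ∈ Ω) (u v : ℂ × ℂ) :
    γ z u v = ∑ k, co k u * γ z (bs k) v := by
  have hl : IsLinearMap ℝ (fun u => γ z u v) :=
    ⟨fun u u' => hγ.add_left z hz u u' v, fun c u => by simp [hγ.smul_left z hz c u v]⟩
  have h := map_sum (IsLinearMap.mk' _ hl) (fun k => co k u • bs k) Finset.univ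
  rw [sum_co] at h
  simp only [IsLinearMap.mk'_apply] at h
  rw [h]
  exact Finset.sum_congr rfl fun k _ => hγ.smul_left z hz _ _ _

lemma toB_apply (hγ : CForm Ω γ) {z : ℂ × ℂ} (hz : z ∈ Ω) (u v : ℂ × ℂ) :
    toB γ z u v = γ z u v := by
  rw [expand_left hγ hz u v]
  simp only [toB, sum_apply, smul_apply,
    ContinuousLinearMap.smulRight_apply, smul_eq_mul]
  refine Finset.sum_congr rfl fun k _ => ?_
  rw [hγ.symm z hz (bs k) v, expand_left hγ hz v (bs k), Finset.mul_sum]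
  refine Finset.sum_congr rfl fun l _ => ?_
  rw [hγ.symm z hz (bs l) (bs k)]
  ring

lemma smul_aux {F : Type*} [NormedAddCommGroup F] [NormedSpace ℝ F] (c : F) (f : ℂ × ℂ → ℝ)
    (hf : ContDiffOn ℝ ∞ f Ω) : ContDiffOn ℝ ∞ (fun z => f z • c) Ω :=
  hf.smul contDiffOn_const

lemma toB_contDiffOn (hγ : CForm Ω γ) : ContDiffOn ℝ ∞ (toB γ) Ω := by
  unfold toB
  refine ContDiffOn.sum fun k _ => ContDiffOn.sum fun l _ => ?_
  exact smul_aux _ _ (hγ.smooth (bs k) (bs l))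

lemma toB_diffAt (hΩ : IsOpen Ω) (hγ : CForm Ω γ) {z : ℂ × ℂ} (hz : z ∈ Ω) :
    DifferentiableAt ℝ (toB γ) z :=
  ((toB_contDiffOn hγ).contDiffAt (hΩ.mem_nhds hz)).differentiableAt (by simp)

lemma fderiv_gamma (hΩ : IsOpen Ω) (hγ : CForm Ω γ) {z : ℂ × ℂ} (hz : z ∈ Ω) (a u v : ℂ × ℂ) :
    fderiv ℝ (fun q => γ q u v) z a = fderiv ℝ (toB γ) z a u v := by
  have h1 : (fun q => γ q u v) =ᶠ[𝓝 z] fun q => toB γ q u v := by
    filter_upwards [hΩ.mem_nhds hz] with q hq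
    rw [toB_apply hγ hq]
  rw [h1.fderiv_eq]
  have hd := (toB_diffAt hΩ hγ hz).hasFDerivAt
  have h2 := (hd.clm_apply (hasFDerivAt_const u z)).clm_apply (hasFDerivAt_const v z)
  rw [h2.fderiv]
  simp

lemma closed' (hΩ : IsOpen Ω) (hγ : CForm Ω γ) {z : ℂ × ℂ} (hz : z ∈ Ω) (a b c : ℂ × ℂ) :
    fderiv ℝ (toB γ) z a (Complex.I • b) c - fderiv ℝ (toB γ) z b (Complex.I • a) c
      + fderiv ℝ (toB γ) z c (Complex.I • a) b = 0 := by
  have h := hγ.closed z hz a b c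
  rwa [fderiv_gamma hΩ hγ hz, fderiv_gamma hΩ hγ hz, fderiv_gamma hΩ hγ hz] at h

lemma herm' (hΩ : IsOpen Ω) (hγ : CForm Ω γ) {z : ℂ × ℂ} (hz : z ∈ Ω) (a u v : ℂ × ℂ) :
    fderiv ℝ (toB γ) z a (Complex.I • u) (Complex.I • v) = fderiv ℝ (toB γ) z a u v := by
  rw [← fderiv_gamma hΩ hγ hz, ← fderiv_gamma hΩ hγ hz]
  have h1 : (fun q => γ q (Complex.I • u) (Complex.I • v)) =ᶠ[𝓝 z] fun q => γ q u v := by
    filter_upwards [hΩ.mem_nhds hz] with q hq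
    exact hγ.herm q hq u v
  rw [h1.fderiv_eq]

/-! ### the curves -/

/-- `A_s : t ↦ pt t (H t + s)` -/
noncomputable def cv (H : ℂ → ℂ) (s : ℝ) (t : ℂ) : ℂ × ℂ := pt t (H t + s)

/-- its complex derivative -/
noncomputable def uu (H : ℂ → ℂ) (t : ℂ) : ℂ × ℂ := ((deriv H t + 1) / 2, (deriv H t - 1) / 2)

/-- the second derivative -/
noncomputable def uu' (H : ℂ → ℂ) (t : ℂ) : ℂ × ℂ :=
  (deriv (deriv H) t / 2, deriv (deriv H) t / 2)

/-- the direction `∂_s` -/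
noncomputable def e0 : ℂ × ℂ := (1 / 2, 1 / 2)

lemma cv_hasDerivAt {H : ℂ → ℂ} {t : ℂ} (hH : AnalyticAt ℂ H t) (s : ℝ) :
    HasDerivAt (cv H s) (uu H t) t := by
  have h := hH.differentiableAt.hasDerivAt
  have h1 : HasDerivAt (fun t => (H t + s + t) / 2) ((deriv H t + 1) / 2) t :=
    ((h.add_const (s : ℂ)).add (hasDerivAt_id t)).div_const 2
  have h2 : HasDerivAt (fun t => (H t + s - t) / 2) ((deriv H t - 1) / 2) t :=
    ((h.add_const (s : ℂ)).sub (hasDerivAt_id t)).div_const 2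
  exact h1.prodMk h2

lemma uu_hasDerivAt {H : ℂ → ℂ} {t : ℂ} (hH : AnalyticAt ℂ H t) :
    HasDerivAt (uu H) (uu' H t) t := by
  have h := hH.deriv.differentiableAt.hasDerivAt
  have h1 : HasDerivAt (fun t => (deriv H t + 1) / 2) (deriv (deriv H) t / 2) t :=
    (h.add_const (1 : ℂ)).div_const 2
  have h2 : HasDerivAt (fun t => (deriv H t - 1) / 2) (deriv (deriv H) t / 2) t :=
    (h.sub_const (1 : ℂ)).div_const 2
  exact h1.prodMk h2

lemma cv_hasDerivAt_s (H : ℂ → ℂ) (t : ℂ) (s : ℝ) :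
    HasDerivAt (fun s : ℝ => cv H s t) e0 s := by
  have h0 : HasDerivAt (fun s : ℝ => (s : ℂ)) 1 s := Complex.ofRealCLM.hasDerivAt (x := s)
  have h1 : HasDerivAt (fun s : ℝ => (H t + s + t) / 2) (1 / 2) s :=
    ((h0.const_add (H t)).add_const t).div_const 2
  have h2 : HasDerivAt (fun s : ℝ => (H t + s - t) / 2) (1 / 2) s :=
    ((h0.const_add (H t)).sub_const t).div_const 2
  exact h1.prodMk h2

/-- area density of `A_s` -/
noncomputable def FF (γ : ℂ × ℂ → ℂ × ℂ → ℂ × ℂ → ℝ) (H : ℂ → ℂ) (s : ℝ) (t : ℂ) : ℝ :=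
  toB γ (cv H s t) (uu H t) (uu H t)

noncomputable def PP (γ : ℂ × ℂ → ℂ × ℂ → ℂ × ℂ → ℝ) (H : ℂ → ℂ) (s : ℝ) (t : ℂ) : ℝ :=
  toB γ (cv H s t) (Complex.I • e0) (Complex.I • uu H t)

noncomputable def QQ (γ : ℂ × ℂ → ℂ × ℂ → ℂ × ℂ → ℝ) (H : ℂ → ℂ) (s : ℝ) (t : ℂ) : ℝ :=
  toB γ (cv H s t) (Complex.I • e0) (uu H t)

noncomputable def FS (γ : ℂ × ℂ → ℂ × ℂ → ℂ × ℂ → ℝ) (H : ℂ → ℂ) (s : ℝ) (t : ℂ) : ℝ :=
  fderiv ℝ (toB γ) (cv H s t) e0 (uu H t) (uu H t)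

/-- shorthand -/
abbrev BB : Type := (ℂ × ℂ) →L[ℝ] (ℂ × ℂ) →L[ℝ] ℝ

lemma comp_aux (F : Type) [NormedAddCommGroup F] [NormedSpace ℝ F] {f : ℂ × ℂ → F}
    {f' : (ℂ × ℂ) →L[ℝ] F} {g : ℝ → ℂ × ℂ} {g' : ℂ × ℂ} {s : ℝ} (hf : HasFDerivAt f f' (g s))
    (hg : HasDerivAt g g' s) : HasDerivAt (fun s => f (g s)) (f' g') s :=
  hf.comp_hasDerivAt s hg

lemma comp_aux' (F : Type) [NormedAddCommGroup F] [NormedSpace ℝ F] {f : ℂ × ℂ → F}
    {f' : (ℂ × ℂ) →L[ℝ] F} {g : ℂ → ℂ × ℂ} {g' : ℂ →L[ℝ] ℂ × ℂ} {s : ℂ} (hf : HasFDerivAt f f' (g s))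
    (hg : HasFDerivAt g g' s) : HasFDerivAt (fun s => f (g s)) (f'.comp g') s :=
  hf.comp s hg

lemma FF_hasDerivAt (hΩ : IsOpen Ω) (hγ : CForm Ω γ) {H : ℂ → ℂ} {s : ℝ} {t : ℂ}
    (hz : cv H s t ∈ Ω) : HasDerivAt (fun s => FF γ H s t) (FS γ H s t) s := by
  have hd := (toB_diffAt hΩ hγ hz).hasFDerivAt
  have h1 := comp_aux BB hd (cv_hasDerivAt_s H t s)
  have h2 := (h1.clm_apply (hasDerivAt_const s (uu H t))).clm_apply (hasDerivAt_const s (uu H t))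
  simpa [FF, FS] using h2

lemma PP_hasFDerivAt (hΩ : IsOpen Ω) (hγ : CForm Ω γ) {H : ℂ → ℂ} {s : ℝ} {t : ℂ}
    (hH : AnalyticAt ℂ H t) (hz : cv H s t ∈ Ω) :
    DifferentiableAt ℝ (PP γ H s) t ∧ ∀ c : ℂ, fderiv ℝ (PP γ H s) t c =
      fderiv ℝ (toB γ) (cv H s t) (c • uu H t) (Complex.I • e0) (Complex.I • uu H t)
      + toB γ (cv H s t) (Complex.I • e0) (Complex.I • c • uu' H t) := by
  have hd := (toB_diffAt hΩ hγ hz).hasFDerivAt
  have hc := (cv_hasDerivAt hH s).hasFDerivAt.restrictScalars ℝ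
  have hu := ((uu_hasDerivAt hH).const_smul Complex.I).hasFDerivAt.restrictScalars ℝ
  have h1 := comp_aux' BB hd hc
  have h2 := (h1.clm_apply (hasFDerivAt_const (Complex.I • e0) t)).clm_apply hu
  refine ⟨h2.differentiableAt, fun c => ?_⟩
  have h3 := h2.fderiv
  have h4 : fderiv ℝ (PP γ H s) t c = _ := congrArg (fun L => L c) h3
  rw [h4]
  simp only [add_apply, ContinuousLinearMap.comp_apply, ContinuousLinearMap.flip_apply,
    ContinuousLinearMap.coe_restrictScalars', ContinuousLinearMap.toSpanSingleton_apply,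
    Pi.smul_apply, zero_apply, map_zero, zero_add]
  rw [smul_comm c Complex.I (uu' H t), add_comm]

lemma QQ_hasFDerivAt (hΩ : IsOpen Ω) (hγ : CForm Ω γ) {H : ℂ → ℂ} {s : ℝ} {t : ℂ}
    (hH : AnalyticAt ℂ H t) (hz : cv H s t ∈ Ω) :
    DifferentiableAt ℝ (QQ γ H s) t ∧ ∀ c : ℂ, fderiv ℝ (QQ γ H s) t c =
      fderiv ℝ (toB γ) (cv H s t) (c • uu H t) (Complex.I • e0) (uu H t)
      + toB γ (cv H s t) (Complex.I • e0) (c • uu' H t) := by
  have hd := (toB_diffAt hΩ hγ hz).hasFDerivAt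
  have hc := (cv_hasDerivAt hH s).hasFDerivAt.restrictScalars ℝ
  have hu := ((uu_hasDerivAt hH)).hasFDerivAt.restrictScalars ℝ
  have h1 := comp_aux' BB hd hc
  have h2 := (h1.clm_apply (hasFDerivAt_const (Complex.I • e0) t)).clm_apply hu
  refine ⟨h2.differentiableAt, fun c => ?_⟩
  have h3 := h2.fderiv
  have h4 : fderiv ℝ (QQ γ H s) t c = _ := congrArg (fun L => L c) h3
  rw [h4]
  simp only [add_apply, ContinuousLinearMap.comp_apply, ContinuousLinearMap.flip_apply,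
    ContinuousLinearMap.coe_restrictScalars', ContinuousLinearMap.toSpanSingleton_apply,
    zero_apply, map_zero, zero_add]
  rw [add_comm]

/-- closedness along the family -/
lemma stokes_pointwise (hΩ : IsOpen Ω) (hγ : CForm Ω γ) {H : ℂ → ℂ} {s : ℝ} {t : ℂ}
    (hH : AnalyticAt ℂ H t) (hz : cv H s t ∈ Ω) :
    FS γ H s t = fderiv ℝ (PP γ H s) t 1 - fderiv ℝ (QQ γ H s) t Complex.I := by
  rw [(PP_hasFDerivAt hΩ hγ hH hz).2, (QQ_hasFDerivAt hΩ hγ hH hz).2]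
  have h := closed' hΩ hγ hz e0 (uu H t) (Complex.I • uu H t)
  rw [herm' hΩ hγ hz] at h
  simp only [one_smul]
  unfold FS
  linarith

/-! ### continuity of the densities -/

lemma cv_contAt {H : ℂ → ℂ} {s : ℝ} {t : ℂ} (hH : AnalyticAt ℂ H t) :
    ContinuousAt (fun p : ℝ × ℂ => cv H p.1 p.2) (s, t) := by
  have h1 : ContinuousAt (fun p : ℝ × ℂ => H p.2) (s, t) :=
    ContinuousAt.comp (x := (s, t)) (f := fun p : ℝ × ℂ => p.2) (g := H) hH.continuousAt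
      continuousAt_snd
  have h2 : ContinuousAt (fun p : ℝ × ℂ => ((p.1 : ℝ) : ℂ)) (s, t) :=
    (Complex.continuous_ofReal.comp continuous_fst).continuousAt
  have h3 : ContinuousAt (fun p : ℝ × ℂ => p.2) (s, t) := continuousAt_snd
  exact (((h1.add h2).add h3).div_const 2).prodMk (((h1.add h2).sub h3).div_const 2)

lemma cv_contOn {H : ℂ → ℂ} {W : Set (ℝ × ℂ)} (hH : ∀ p ∈ W, AnalyticAt ℂ H p.2) :
    ContinuousOn (fun p : ℝ × ℂ => cv H p.1 p.2) W :=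
  fun p hp => (cv_contAt (s := p.1) (hH p hp)).continuousWithinAt

lemma uu_contOn {H : ℂ → ℂ} {W : Set (ℝ × ℂ)} (hH : ∀ p ∈ W, AnalyticAt ℂ H p.2) :
    ContinuousOn (fun p : ℝ × ℂ => uu H p.2) W := by
  intro p hp
  have h : ContinuousAt (uu H) p.2 := (uu_hasDerivAt (hH p hp)).continuousAt
  exact (ContinuousAt.comp (x := p) (f := fun p : ℝ × ℂ => p.2) (g := uu H) h
      continuousAt_snd).continuousWithinAt

lemma uu'_contOn {H : ℂ → ℂ} {W : Set (ℝ × ℂ)} (hH : ∀ p ∈ W, AnalyticAt ℂ H p.2) :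
    ContinuousOn (fun p : ℝ × ℂ => uu' H p.2) W := by
  intro p hp
  have h0 : ContinuousAt (deriv (deriv H)) p.2 := (hH p hp).deriv.deriv.continuousAt
  have h1 : ContinuousAt (fun p : ℝ × ℂ => deriv (deriv H) p.2) p :=
    ContinuousAt.comp (x := p) (f := fun p : ℝ × ℂ => p.2) (g := deriv (deriv H)) h0
      continuousAt_snd
  exact ((h1.div_const 2).prodMk (h1.div_const 2)).continuousWithinAt

lemma T_contOn {H : ℂ → ℂ} {W : Set (ℝ × ℂ)} (F : Type) [NormedAddCommGroup F] [NormedSpace ℝ F]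
    {T : ℂ × ℂ → F}
    (hT : ContinuousOn T Ω) (hW : ∀ p ∈ W, AnalyticAt ℂ H p.2 ∧ cv H p.1 p.2 ∈ Ω) :
    ContinuousOn (fun p : ℝ × ℂ => T (cv H p.1 p.2)) W :=
  hT.comp (cv_contOn fun p hp => (hW p hp).1) fun p hp => (hW p hp).2

lemma clm2 (W : Set (ℝ × ℂ)) {T : ℝ × ℂ → BB} {a b : ℝ × ℂ → ℂ × ℂ} (hT : ContinuousOn T W)
    (ha : ContinuousOn a W) (hb : ContinuousOn b W) : ContinuousOn (fun p => T p (a p) (b p)) W :=
  (hT.clm_apply ha).clm_apply hb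

lemma gamma_expand (hγ : CForm Ω γ) {z : ℂ × ℂ} (hz : z ∈ Ω) (u v : ℂ × ℂ) :
    γ z u v = ∑ k, ∑ l, (co k u * co l v) * γ z (bs k) (bs l) := by
  rw [expand_left hγ hz u v]
  refine Finset.sum_congr rfl fun k _ => ?_
  rw [hγ.symm z hz (bs k) v, expand_left hγ hz v (bs k), Finset.mul_sum]
  refine Finset.sum_congr rfl fun l _ => ?_
  rw [hγ.symm z hz (bs l) (bs k)]
  ring

lemma dB_expand (hΩ : IsOpen Ω) (hγ : CForm Ω γ) {z : ℂ × ℂ} (hz : z ∈ Ω) (a u v : ℂ × ℂ) :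
    fderiv ℝ (toB γ) z a u v =
      ∑ k, ∑ l, (co k u * co l v) * fderiv ℝ (fun q => γ q (bs k) (bs l)) z a := by
  rw [← fderiv_gamma hΩ hγ hz]
  have h1 : (fun q => γ q u v) =ᶠ[𝓝 z]
      fun q => ∑ k, ∑ l, (co k u * co l v) * γ q (bs k) (bs l) := by
    filter_upwards [hΩ.mem_nhds hz] with q hq
    exact gamma_expand hγ hq u v
  rw [h1.fderiv_eq]
  have hM : ∀ k l, HasFDerivAt (fun q => γ q (bs k) (bs l))
      (fderiv ℝ (fun q => γ q (bs k) (bs l)) z) z := fun k l =>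
    (((hγ.smooth (bs k) (bs l)).contDiffAt (hΩ.mem_nhds hz)).differentiableAt
      (by simp)).hasFDerivAt
  have h2 := HasFDerivAt.fun_sum (u := Finset.univ) (fun k _ => HasFDerivAt.fun_sum
    (u := Finset.univ) (fun l _ => (hM k l).const_mul (co k u * co l v)))
  rw [h2.fderiv]
  simp [sum_apply]

lemma clm3 (hΩ : IsOpen Ω) (hγ : CForm Ω γ) {H : ℂ → ℂ} {W : Set (ℝ × ℂ)}
    (hW : ∀ p ∈ W, AnalyticAt ℂ H p.2 ∧ cv H p.1 p.2 ∈ Ω) {a b c : ℝ × ℂ → ℂ × ℂ}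
    (ha : ContinuousOn a W) (hb : ContinuousOn b W) (hc : ContinuousOn c W) :
    ContinuousOn (fun p => fderiv ℝ (toB γ) (cv H p.1 p.2) (a p) (b p) (c p)) W := by
  have h : ContinuousOn (fun p => ∑ k, ∑ l, (co k (b p) * co l (c p)) *
      fderiv ℝ (fun q => γ q (bs k) (bs l)) (cv H p.1 p.2) (a p)) W := by
    refine continuousOn_finsetSum _ fun k _ => continuousOn_finsetSum _ fun l _ => ?_
    refine ContinuousOn.mul (((co k).continuous.comp_continuousOn hb).mul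
      ((co l).continuous.comp_continuousOn hc)) ?_
    have h1 : ContinuousOn (fderiv ℝ (fun q => γ q (bs k) (bs l))) Ω :=
      (hγ.smooth (bs k) (bs l)).continuousOn_fderiv_of_isOpen hΩ (by simp)
    exact (T_contOn ((ℂ × ℂ) →L[ℝ] ℝ) h1 hW).clm_apply ha
  exact h.congr fun p hp => dB_expand hΩ hγ (hW p hp).2 _ _ _

lemma smulI_contOn {W : Set (ℝ × ℂ)} (c : ℂ) {f : ℝ × ℂ → ℂ × ℂ} (hf : ContinuousOn f W) :
    ContinuousOn (fun p => c • f p) W := hf.const_smul c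

section
variable {H : ℂ → ℂ} {W : Set (ℝ × ℂ)}

lemma FF_contOn (hγ : CForm Ω γ)
    (hW : ∀ p ∈ W, AnalyticAt ℂ H p.2 ∧ cv H p.1 p.2 ∈ Ω) :
    ContinuousOn (fun p : ℝ × ℂ => FF γ H p.1 p.2) W :=
  clm2 W (T_contOn BB (toB_contDiffOn hγ).continuousOn hW) (uu_contOn fun p hp => (hW p hp).1)
    (uu_contOn fun p hp => (hW p hp).1)

lemma PP_contOn (hγ : CForm Ω γ)
    (hW : ∀ p ∈ W, AnalyticAt ℂ H p.2 ∧ cv H p.1 p.2 ∈ Ω) :
    ContinuousOn (fun p : ℝ × ℂ => PP γ H p.1 p.2) W :=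
  clm2 W (T_contOn BB (toB_contDiffOn hγ).continuousOn hW) continuousOn_const
    (smulI_contOn _ (uu_contOn fun p hp => (hW p hp).1))

lemma QQ_contOn (hγ : CForm Ω γ)
    (hW : ∀ p ∈ W, AnalyticAt ℂ H p.2 ∧ cv H p.1 p.2 ∈ Ω) :
    ContinuousOn (fun p : ℝ × ℂ => QQ γ H p.1 p.2) W :=
  clm2 W (T_contOn BB (toB_contDiffOn hγ).continuousOn hW) continuousOn_const
    (uu_contOn fun p hp => (hW p hp).1)

lemma FS_contOn (hΩ : IsOpen Ω) (hγ : CForm Ω γ)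
    (hW : ∀ p ∈ W, AnalyticAt ℂ H p.2 ∧ cv H p.1 p.2 ∈ Ω) :
    ContinuousOn (fun p : ℝ × ℂ => FS γ H p.1 p.2) W :=
  clm3 hΩ hγ hW continuousOn_const
    (uu_contOn fun p hp => (hW p hp).1) (uu_contOn fun p hp => (hW p hp).1)

lemma dPP_contOn (hΩ : IsOpen Ω) (hγ : CForm Ω γ)
    (hW : ∀ p ∈ W, AnalyticAt ℂ H p.2 ∧ cv H p.1 p.2 ∈ Ω) (c : ℂ) :
    ContinuousOn (fun p : ℝ × ℂ => fderiv ℝ (PP γ H p.1) p.2 c) W := by
  have h : ContinuousOn (fun p : ℝ × ℂ =>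
      fderiv ℝ (toB γ) (cv H p.1 p.2) (c • uu H p.2) (Complex.I • e0) (Complex.I • uu H p.2)
      + toB γ (cv H p.1 p.2) (Complex.I • e0) (Complex.I • c • uu' H p.2)) W := by
    refine ContinuousOn.add ?_ ?_
    · exact clm3 hΩ hγ hW
        (smulI_contOn _ (uu_contOn fun p hp => (hW p hp).1)) continuousOn_const
        (smulI_contOn _ (uu_contOn fun p hp => (hW p hp).1))
    · exact clm2 W (T_contOn BB (toB_contDiffOn hγ).continuousOn hW) continuousOn_const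
        (smulI_contOn _ (smulI_contOn _ (uu'_contOn fun p hp => (hW p hp).1)))
  exact h.congr fun p hp => (PP_hasFDerivAt hΩ hγ (hW p hp).1 (hW p hp).2).2 c

lemma dQQ_contOn (hΩ : IsOpen Ω) (hγ : CForm Ω γ)
    (hW : ∀ p ∈ W, AnalyticAt ℂ H p.2 ∧ cv H p.1 p.2 ∈ Ω) (c : ℂ) :
    ContinuousOn (fun p : ℝ × ℂ => fderiv ℝ (QQ γ H p.1) p.2 c) W := by
  have h : ContinuousOn (fun p : ℝ × ℂ =>
      fderiv ℝ (toB γ) (cv H p.1 p.2) (c • uu H p.2) (Complex.I • e0) (uu H p.2)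
      + toB γ (cv H p.1 p.2) (Complex.I • e0) (c • uu' H p.2)) W := by
    refine ContinuousOn.add ?_ ?_
    · exact clm3 hΩ hγ hW
        (smulI_contOn _ (uu_contOn fun p hp => (hW p hp).1)) continuousOn_const
        (uu_contOn fun p hp => (hW p hp).1)
    · exact clm2 W (T_contOn BB (toB_contDiffOn hγ).continuousOn hW) continuousOn_const
        (smulI_contOn _ (uu'_contOn fun p hp => (hW p hp).1))
  exact h.congr fun p hp => (QQ_hasFDerivAt hΩ hγ (hW p hp).1 (hW p hp).2).2 c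
end

section main
variable {H : ℂ → ℂ} {t₀ : ℂ} {R : ℝ}

/-- all points of the closed disc are mapped into `Ω` -/
def Good (Ω : Set (ℂ × ℂ)) (H : ℂ → ℂ) (t₀ : ℂ) (R s : ℝ) : Prop :=
  ∀ t ∈ closedBall t₀ R, cv H s t ∈ Ω

lemma good_open (hΩ : IsOpen Ω) (hH : AnalyticOnNhd ℂ H (closedBall t₀ R)) {s : ℝ}
    (hs : Good Ω H t₀ R s) : ∀ᶠ s' in 𝓝 s, Good Ω H t₀ R s' := by
  refine (isCompact_closedBall t₀ R).eventually_forall_of_forall_eventually fun t ht => ?_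
  exact (cv_contAt (hH t ht)).eventually (hΩ.mem_nhds (hs t ht))

lemma cont_mul {χ : ℂ → ℝ} (hχ : Continuous χ) (hsupp : tsupport χ ⊆ ball t₀ R) {g : ℂ → ℝ}
    (hg : ContinuousOn g (ball t₀ R)) : Continuous (fun t => χ t * g t) := by
  refine continuous_of_tsupport fun x hx => ?_
  have hx' : x ∈ tsupport χ := tsupport_mul_subset_left hx
  exact hχ.continuousAt.mul (hg.continuousAt (isOpen_ball.mem_nhds (hsupp hx')))

lemma int_mul {χ : ℂ → ℝ} (hχ : Continuous χ) (hc : HasCompactSupport χ)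
    (hsupp : tsupport χ ⊆ ball t₀ R) {g : ℂ → ℝ}
    (hg : ContinuousOn g (ball t₀ R)) : Integrable (fun t => χ t * g t) :=
  (cont_mul hχ hsupp hg).integrable_of_hasCompactSupport hc.mul_right

lemma slice {g : ℝ → ℂ → ℝ} {s : ℝ} {S : Set ℂ}
    (h : ContinuousOn (fun p : ℝ × ℂ => g p.1 p.2) ({s} ×ˢ S)) : ContinuousOn (g s) S := by
  have := ContinuousOn.comp (f := fun t : ℂ => (s, t)) (s := S) h
    (Continuous.continuousOn (by fun_prop)) (fun t ht => ⟨rfl, ht⟩)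
  exact this

lemma good_W (hH : AnalyticOnNhd ℂ H (closedBall t₀ R)) {s : ℝ} (hs : Good Ω H t₀ R s) :
    ∀ p ∈ ({s} : Set ℝ) ×ˢ ball t₀ R, AnalyticAt ℂ H p.2 ∧ cv H p.1 p.2 ∈ Ω := by
  rintro ⟨s', t⟩ ⟨h1, h2⟩
  have h1' : s' = s := h1
  subst h1'
  exact ⟨hH t (ball_subset_closedBall h2), hs t (ball_subset_closedBall h2)⟩

lemma hasDeriv_A (hΩ : IsOpen Ω) (hγ : CForm Ω γ) (hH : AnalyticOnNhd ℂ H (closedBall t₀ R))
    {χ : ℂ → ℝ} (hχ : Continuous χ) (hc : HasCompactSupport χ) (hsupp : tsupport χ ⊆ ball t₀ R)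
    {s : ℝ} (hs : Good Ω H t₀ R s) :
    HasDerivAt (fun s => ∫ t, χ t * FF γ H s t) (∫ t, χ t * FS γ H s t) s := by
  obtain ⟨ε, hε, hball⟩ := Metric.eventually_nhds_iff_ball.1 (good_open hΩ hH hs)
  have hε2 : 0 < ε / 2 := by linarith
  set Kc : Set (ℝ × ℂ) := closedBall s (ε / 2) ×ˢ closedBall t₀ R with hKc
  have hKcomp : IsCompact Kc := (isCompact_closedBall _ _).prod (isCompact_closedBall _ _)
  have hW : ∀ p ∈ Kc, AnalyticAt ℂ H p.2 ∧ cv H p.1 p.2 ∈ Ω := by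
    rintro ⟨s', t⟩ ⟨h1, h2⟩
    refine ⟨hH t h2, hball s' ?_ t h2⟩
    have : dist s' s ≤ ε / 2 := h1
    exact lt_of_le_of_lt this (by linarith)
  obtain ⟨M, hM⟩ := hKcomp.exists_bound_of_continuousOn (FS_contOn hΩ hγ hW)
  have hout : ∀ t, t ∉ closedBall t₀ R → χ t = 0 := fun t ht =>
    image_eq_zero_of_notMem_tsupport fun h => ht (ball_subset_closedBall (hsupp h))
  refine (hasDerivAt_integral_of_dominated_loc_of_deriv_le (F := fun s t => χ t * FF γ H s t)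
    (F' := fun s t => χ t * FS γ H s t) (bound := fun t => |χ t| * M)
    (closedBall_mem_nhds s hε2) ?_ ?_ ?_ ?_ ?_ ?_).2
  · filter_upwards [good_open hΩ hH hs] with s' hs'
    exact (cont_mul hχ hsupp (slice (FF_contOn hγ (good_W hH hs')))).aestronglyMeasurable
  · exact int_mul hχ hc hsupp (slice (FF_contOn hγ (good_W hH hs)))
  · exact (cont_mul hχ hsupp (slice (FS_contOn hΩ hγ (good_W hH hs)))).aestronglyMeasurable
  · refine Eventually.of_forall fun t s' hs' => ?_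
    by_cases ht : t ∈ closedBall t₀ R
    · have h1 := hM (s', t) ⟨hs', ht⟩
      simp only [norm_mul, Real.norm_eq_abs] at h1 ⊢
      exact mul_le_mul_of_nonneg_left h1 (abs_nonneg _)
    · simp [hout t ht]
  · exact (hχ.abs.integrable_of_hasCompactSupport hc.norm).mul_const M
  · refine Eventually.of_forall fun t s' hs' => ?_
    by_cases ht : t ∈ closedBall t₀ R
    · exact (FF_hasDerivAt hΩ hγ (hW (s', t) ⟨hs', ht⟩).2).const_mul (χ t)
    · simp only [hout t ht, zero_mul]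
      exact hasDerivAt_const _ _

lemma parts {χ : ℂ → ℝ} (hχ : ContDiff ℝ ∞ χ) (hc : HasCompactSupport χ)
    (hsupp : tsupport χ ⊆ ball t₀ R) {P : ℂ → ℝ} (c : ℂ) (hP : ContinuousOn P (ball t₀ R))
    (hdP : ContinuousOn (fun t => fderiv ℝ P t c) (ball t₀ R))
    (hd : ∀ t ∈ ball t₀ R, DifferentiableAt ℝ P t) :
    ∫ t, χ t * fderiv ℝ P t c = - ∫ t, fderiv ℝ χ t c * P t := by
  have hcd : Continuous (fun t => fderiv ℝ χ t c) :=
    (hχ.continuous_fderiv (by simp)).clm_apply continuous_const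
  have hsd : HasCompactSupport (fun t => fderiv ℝ χ t c) := hc.fderiv_apply ℝ c
  have hsd' : tsupport (fun t => fderiv ℝ χ t c) ⊆ ball t₀ R :=
    (tsupport_fderiv_apply_subset ℝ c).trans hsupp
  exact integral_mul_fderiv_eq_neg_fderiv_mul_of_integrable
    (int_mul hcd hsd hsd' hP) (int_mul hχ.continuous hc hsupp hdP)
    (int_mul hχ.continuous hc hsupp hP)
    (fun x _ => (hχ.differentiable (by simp)).differentiableAt) (fun x hx => hd x (hsupp hx))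

lemma A'_eq (hΩ : IsOpen Ω) (hγ : CForm Ω γ) (hH : AnalyticOnNhd ℂ H (closedBall t₀ R))
    {χ : ℂ → ℝ} (hχ : ContDiff ℝ ∞ χ) (hc : HasCompactSupport χ) (hsupp : tsupport χ ⊆ ball t₀ R)
    {s : ℝ} (hs : Good Ω H t₀ R s) :
    ∫ t, χ t * FS γ H s t = - (∫ t, fderiv ℝ χ t 1 * PP γ H s t)
      + ∫ t, fderiv ℝ χ t Complex.I * QQ γ H s t := by
  have hg := good_W hH hs
  have hg' : ∀ t ∈ ball t₀ R, AnalyticAt ℂ H t ∧ cv H s t ∈ Ω := fun t ht => hg (s, t) ⟨rfl, ht⟩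
  have h1 := parts hχ hc hsupp (P := PP γ H s) 1 (slice (PP_contOn hγ hg))
    (slice (g := fun s t => fderiv ℝ (PP γ H s) t 1) (dPP_contOn hΩ hγ hg 1))
    (fun t ht => (PP_hasFDerivAt hΩ hγ (hg' t ht).1 (hg' t ht).2).1)
  have h2 := parts hχ hc hsupp (P := QQ γ H s) Complex.I (slice (QQ_contOn hγ hg))
    (slice (g := fun s t => fderiv ℝ (QQ γ H s) t Complex.I) (dQQ_contOn hΩ hγ hg Complex.I))
    (fun t ht => (QQ_hasFDerivAt hΩ hγ (hg' t ht).1 (hg' t ht).2).1)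
  have h3 : ∀ t, χ t * FS γ H s t = χ t * fderiv ℝ (PP γ H s) t 1
      - χ t * fderiv ℝ (QQ γ H s) t Complex.I := by
    intro t
    by_cases ht : t ∈ tsupport χ
    · rw [stokes_pointwise hΩ hγ (hg' t (hsupp ht)).1 (hg' t (hsupp ht)).2]
      ring
    · simp [image_eq_zero_of_notMem_tsupport ht]
  simp_rw [h3]
  rw [integral_sub, h1, h2]
  · ring
  · exact int_mul hχ.continuous hc hsupp
      (slice (g := fun s t => fderiv ℝ (PP γ H s) t 1) (dPP_contOn hΩ hγ hg 1))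
  · exact int_mul hχ.continuous hc hsupp
      (slice (g := fun s t => fderiv ℝ (QQ γ H s) t Complex.I) (dQQ_contOn hΩ hγ hg Complex.I))

lemma trace_le (hγ : CForm Ω γ) {c₀ : ℝ} (hc : 0 < c₀) (hs : Slack c₀ Ω γ) {z : ℂ × ℂ}
    (hz : z ∈ Ω) {a b : ℂ} (ha : 1 / 4 ≤ ‖a‖) (hb : 1 / 4 ≤ ‖b‖) :
    γ z (1, 0) (1, 0) + γ z (0, 1) (0, 1) ≤ 16 / c₀ * γ z (a, b) (a, b) := by
  have key : ∀ (w : ℂ) (v : ℂ × ℂ), γ z (w • v) (w • v) = ‖w‖ ^ 2 * γ z v v := by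
    intro w v
    have hre : w • v = w.re • v + w.im • (Complex.I • v) := by
      conv_lhs => rw [← Complex.re_add_im w]
      rw [add_smul, mul_smul]
      simp
    have hsr : ∀ (c : ℝ) (u v : ℂ × ℂ), γ z u (c • v) = c * γ z u v := fun c u v => by
      rw [hγ.symm z hz, hγ.smul_left z hz, hγ.symm z hz v]
    have har : ∀ (u v v' : ℂ × ℂ), γ z u (v + v') = γ z u v + γ z u v' := fun u v v' => by
      rw [hγ.symm z hz, hγ.add_left z hz, hγ.symm z hz v, hγ.symm z hz v']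
    have hI : γ z v (Complex.I • v) = 0 := by
      have h1 := hγ.herm z hz v (Complex.I • v)
      have h2 : Complex.I • Complex.I • v = (-1 : ℝ) • v := by
        rw [smul_smul, Complex.I_mul_I]
        simp
      rw [h2, hsr, hγ.symm z hz (Complex.I • v) v] at h1
      linarith
    have hI' : γ z (Complex.I • v) v = 0 := by rw [hγ.symm z hz]; exact hI
    rw [hre, hγ.add_left z hz, har, har, hγ.smul_left z hz, hγ.smul_left z hz, hγ.smul_left z hz,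
      hγ.smul_left z hz, hsr, hsr, hsr, hsr, hI, hI', hγ.herm z hz, Complex.sq_norm,
      Complex.normSq_apply]
    ring
  have h1 := key a (1, 0)
  have h2 := key b (0, 1)
  have h3 : a • ((1 : ℂ), (0 : ℂ)) = (a, 0) := by simp
  have h4 : b • ((0 : ℂ), (1 : ℂ)) = (0, b) := by simp
  rw [h3] at h1
  rw [h4] at h2
  have h5 := hs z hz a b
  have n1 := hγ.nonneg z hz (1, 0)
  have n2 := hγ.nonneg z hz (0, 1)
  have h6 : (1 / 16 : ℝ) * γ z (1, 0) (1, 0) ≤ γ z (a, 0) (a, 0) := by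
    rw [h1]
    refine mul_le_mul_of_nonneg_right ?_ n1
    nlinarith
  have h7 : (1 / 16 : ℝ) * γ z (0, 1) (0, 1) ≤ γ z (0, b) (0, b) := by
    rw [h2]
    refine mul_le_mul_of_nonneg_right ?_ n2
    nlinarith
  have h8 : c₀ * ((1 / 16 : ℝ) * (γ z (1, 0) (1, 0) + γ z (0, 1) (0, 1))) ≤ γ z (a, b) (a, b) := by
    refine le_trans (mul_le_mul_of_nonneg_left ?_ hc.le) h5
    linarith
  have h9 : 16 / c₀ * γ z (a, b) (a, b) ≥
      16 / c₀ * (c₀ * ((1 / 16 : ℝ) * (γ z (1, 0) (1, 0) + γ z (0, 1) (0, 1)))) :=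
    mul_le_mul_of_nonneg_left h8 (by positivity)
  have h10 : 16 / c₀ * (c₀ * ((1 / 16 : ℝ) * (γ z (1, 0) (1, 0) + γ z (0, 1) (0, 1))))
      = γ z (1, 0) (1, 0) + γ z (0, 1) (0, 1) := by
    field_simp
  linarith

lemma uu_norm {t : ℂ} (h : ‖deriv H t‖ ≤ 1 / 2) : 1 / 4 ≤ ‖(uu H t).1‖ ∧ 1 / 4 ≤ ‖(uu H t).2‖ := by
  have h1 : (1 : ℝ) - ‖deriv H t‖ ≤ ‖deriv H t + 1‖ := by
    have := norm_sub_norm_le (1 : ℂ) (-deriv H t)
    rw [norm_neg, sub_neg_eq_add, norm_one, add_comm (1 : ℂ)] at this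
    exact this
  have h2 : (1 : ℝ) - ‖deriv H t‖ ≤ ‖deriv H t - 1‖ := by
    have := norm_sub_norm_le (1 : ℂ) (deriv H t)
    rw [norm_one, norm_sub_rev] at this
    exact this
  unfold uu
  constructor
  · simp only [norm_div]
    norm_num
    linarith
  · simp only [norm_div]
    norm_num
    linarith

theorem area_bound (hΩ : IsOpen Ω) (hγ : CForm Ω γ) {c₀ : ℝ} (hc₀ : 0 < c₀) (hsl : Slack c₀ Ω γ)
    (H : ℂ → ℂ) (t₀ : ℂ) (R' R s₀ S : ℝ) (hR' : 0 < R') (hRR : R' < R)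
    (hH : AnalyticOnNhd ℂ H (closedBall t₀ R)) (hd : ∀ t ∈ closedBall t₀ R, ‖deriv H t‖ ≤ 1 / 2)
    (hin : ∀ s : ℝ, s₀ < s → s ≤ S → ∀ t ∈ closedBall t₀ R, pt t (H t + s) ∈ Ω)
    (hbd : ∀ t ∈ closedBall t₀ R, R' ≤ dist t t₀ → pt t (H t + s₀) ∈ Ω) :
    ∃ B : ℝ, ∀ s : ℝ, s₀ < s → s ≤ S →
      ∫⁻ t in ball t₀ R', ENNReal.ofReal (γ (pt t (H t + s)) (1, 0) (1, 0)
        + γ (pt t (H t + s)) (0, 1) (0, 1)) ≤ ENNReal.ofReal B := by
  set R₁ : ℝ := (R' + R) / 2 with hR₁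
  have hR'1 : R' < R₁ := by rw [hR₁]; linarith
  have hR1R : R₁ < R := by rw [hR₁]; linarith
  let χ : ContDiffBump t₀ := ⟨R', R₁, hR', hR'1⟩
  have hχc : ContDiff ℝ ∞ (χ : ℂ → ℝ) := χ.contDiff
  have hχs : HasCompactSupport (χ : ℂ → ℝ) := χ.hasCompactSupport
  have hts : tsupport (χ : ℂ → ℝ) = closedBall t₀ R₁ := χ.tsupport_eq
  have hsupp : tsupport (χ : ℂ → ℝ) ⊆ ball t₀ R := by
    rw [hts]; exact closedBall_subset_ball hR1R
  -- the annulus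
  set N : Set ℂ := closedBall t₀ R ∩ {t | R' ≤ dist t t₀} with hN
  have hNc : IsCompact N := (isCompact_closedBall _ _).inter_right
    (isClosed_le continuous_const (continuous_id.dist continuous_const))
  set Kc : Set (ℝ × ℂ) := Icc s₀ S ×ˢ N with hKc
  have hKcomp : IsCompact Kc := isCompact_Icc.prod hNc
  have hW : ∀ p ∈ Kc, AnalyticAt ℂ H p.2 ∧ cv H p.1 p.2 ∈ Ω := by
    rintro ⟨s', t⟩ ⟨h1, h2⟩
    refine ⟨hH t h2.1, ?_⟩
    rcases eq_or_lt_of_le h1.1 with h | h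
    · have h' : s₀ = s' := h
      subst h'
      exact hbd t h2.1 h2.2
    · exact hin s' h h1.2 t h2.1
  obtain ⟨M₁, hM₁⟩ := hKcomp.exists_bound_of_continuousOn (PP_contOn hγ hW)
  obtain ⟨M₂, hM₂⟩ := hKcomp.exists_bound_of_continuousOn (QQ_contOn hγ hW)
  have hfd : ∀ (t c : ℂ), fderiv ℝ (χ : ℂ → ℝ) t c ≠ 0 → t ∈ N := by
    intro t c h
    have ht : t ∈ tsupport (χ : ℂ → ℝ) := by
      by_contra h'
      apply h
      have : (χ : ℂ → ℝ) =ᶠ[𝓝 t] 0 := notMem_tsupport_iff_eventuallyEq.1 h'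
      rw [this.fderiv_eq]
      simp
    rw [hts] at ht
    refine ⟨closedBall_subset_closedBall hR1R.le ht, ?_⟩
    by_contra h'
    have h'' : t ∈ ball t₀ χ.rIn := mem_ball.2 (not_le.1 (show ¬ R' ≤ dist t t₀ from h'))
    apply h
    rw [(χ.eventuallyEq_one_of_mem_ball h'').fderiv_eq]
    simp
  have hcd : ∀ c : ℂ, Continuous (fun t => fderiv ℝ (χ : ℂ → ℝ) t c) := fun c =>
    (hχc.continuous_fderiv (by simp)).clm_apply continuous_const
  have hsd : ∀ c : ℂ, HasCompactSupport (fun t => fderiv ℝ (χ : ℂ → ℝ) t c) := fun c =>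
    hχs.fderiv_apply ℝ c
  have hID : ∀ c : ℂ, Integrable (fun t => |fderiv ℝ (χ : ℂ → ℝ) t c|) := fun c =>
    (hcd c).abs.integrable_of_hasCompactSupport (hsd c).norm
  set C : ℝ := (∫ t, |fderiv ℝ (χ : ℂ → ℝ) t 1| * M₁)
    + ∫ t, |fderiv ℝ (χ : ℂ → ℝ) t Complex.I| * M₂ with hC
  set A : ℝ → ℝ := fun s => ∫ t, χ t * FF γ H s t with hA
  have hgood : ∀ s, s₀ < s → s ≤ S → Good Ω H t₀ R s := fun s h1 h2 t ht => hin s h1 h2 t ht
  have hA' : ∀ s, s₀ < s → s ≤ S → ‖∫ t, χ t * FS γ H s t‖ ≤ C := by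
    intro s h1 h2
    rw [A'_eq hΩ hγ hH hχc hχs hsupp (hgood s h1 h2)]
    have e1 : ‖∫ t, fderiv ℝ (χ : ℂ → ℝ) t 1 * PP γ H s t‖
        ≤ ∫ t, |fderiv ℝ (χ : ℂ → ℝ) t 1| * M₁ := by
      refine norm_integral_le_of_norm_le ((hID 1).mul_const M₁) (Eventually.of_forall fun t => ?_)
      rw [norm_mul, Real.norm_eq_abs]
      by_cases h0 : fderiv ℝ (χ : ℂ → ℝ) t 1 = 0
      · simp [h0]
      · exact mul_le_mul_of_nonneg_left (hM₁ (s, t) ⟨⟨h1.le, h2⟩, hfd t 1 h0⟩) (abs_nonneg _)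
    have e2 : ‖∫ t, fderiv ℝ (χ : ℂ → ℝ) t Complex.I * QQ γ H s t‖
        ≤ ∫ t, |fderiv ℝ (χ : ℂ → ℝ) t Complex.I| * M₂ := by
      refine norm_integral_le_of_norm_le ((hID Complex.I).mul_const M₂)
        (Eventually.of_forall fun t => ?_)
      rw [norm_mul, Real.norm_eq_abs]
      by_cases h0 : fderiv ℝ (χ : ℂ → ℝ) t Complex.I = 0
      · simp [h0]
      · exact mul_le_mul_of_nonneg_left (hM₂ (s, t) ⟨⟨h1.le, h2⟩, hfd t _ h0⟩) (abs_nonneg _)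
    calc ‖-(∫ t, fderiv ℝ (χ : ℂ → ℝ) t 1 * PP γ H s t)
          + ∫ t, fderiv ℝ (χ : ℂ → ℝ) t Complex.I * QQ γ H s t‖
        ≤ ‖-(∫ t, fderiv ℝ (χ : ℂ → ℝ) t 1 * PP γ H s t)‖
          + ‖∫ t, fderiv ℝ (χ : ℂ → ℝ) t Complex.I * QQ γ H s t‖ := norm_add_le _ _
      _ ≤ C := by rw [norm_neg]; exact add_le_add e1 e2
  by_cases hsS : s₀ < S
  swap
  · exact ⟨0, fun s h1 h2 => absurd (lt_of_lt_of_le h1 h2) hsS⟩
  have hC0 : 0 ≤ C := le_trans (norm_nonneg _) (hA' S hsS le_rfl)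
  have hAb : ∀ s, s₀ < s → s ≤ S → A s ≤ A S + C * (S - s₀) := by
    intro s h1 h2
    have h3 := Convex.norm_image_sub_le_of_norm_hasDerivWithin_le (f := A)
      (f' := fun s => ∫ t, χ t * FS γ H s t) (C := C) (s := Icc s S) (x := S) (y := s)
      (fun x hx => (hasDeriv_A hΩ hγ hH hχc.continuous hχs hsupp
        (hgood x (lt_of_lt_of_le h1 hx.1) hx.2)).hasDerivWithinAt)
      (fun x hx => hA' x (lt_of_lt_of_le h1 hx.1) hx.2) (convex_Icc _ _) ⟨h2, le_rfl⟩ ⟨le_rfl, h2⟩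
    rw [Real.norm_eq_abs, Real.norm_eq_abs] at h3
    have h4 := (abs_le.1 h3).2
    have h5 : |s - S| ≤ S - s₀ := by
      rw [abs_sub_comm, abs_of_nonneg (by linarith)]; linarith
    have h6 : C * |s - S| ≤ C * (S - s₀) := mul_le_mul_of_nonneg_left h5 hC0
    linarith
  refine ⟨16 / c₀ * (A S + C * (S - s₀)), fun s h1 h2 => ?_⟩
  have hg := good_W hH (hgood s h1 h2)
  have hFF : ContinuousOn (FF γ H s) (ball t₀ R) := slice (FF_contOn hγ hg)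
  have hFFe : ∀ t ∈ ball t₀ R, FF γ H s t = γ (cv H s t) (uu H t) (uu H t) := fun t ht =>
    toB_apply hγ (hg (s, t) ⟨rfl, ht⟩).2 _ _
  have hFF0 : ∀ t ∈ ball t₀ R, 0 ≤ FF γ H s t := fun t ht => by
    rw [hFFe t ht]; exact hγ.nonneg _ (hg (s, t) ⟨rfl, ht⟩).2 _
  have hI : Integrable (fun t => 16 / c₀ * (χ t * FF γ H s t)) :=
    (int_mul hχc.continuous hχs hsupp hFF).const_mul _
  have hnn : ∀ t, 0 ≤ 16 / c₀ * (χ t * FF γ H s t) := by
    intro t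
    by_cases ht : t ∈ ball t₀ R
    · have := hFF0 t ht
      have := χ.nonneg' t
      positivity
    · have : (χ : ℂ → ℝ) t = 0 := image_eq_zero_of_notMem_tsupport fun h => ht (hsupp h)
      simp [this]
  calc ∫⁻ t in ball t₀ R', ENNReal.ofReal (γ (pt t (H t + s)) (1, 0) (1, 0)
        + γ (pt t (H t + s)) (0, 1) (0, 1))
      ≤ ∫⁻ t in ball t₀ R', ENNReal.ofReal (16 / c₀ * (χ t * FF γ H s t)) := by
        refine setLIntegral_mono' measurableSet_ball fun t ht => ENNReal.ofReal_le_ofReal ?_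
        have ht' : t ∈ ball t₀ R := ball_subset_ball hRR.le ht
        have h1' : (χ : ℂ → ℝ) t = 1 := χ.one_of_mem_closedBall (ball_subset_closedBall ht)
        rw [h1', one_mul, hFFe t ht']
        have hu := uu_norm (hd t (ball_subset_closedBall ht'))
        exact trace_le hγ hc₀ hsl (hg (s, t) ⟨rfl, ht'⟩).2 hu.1 hu.2
    _ ≤ ∫⁻ t, ENNReal.ofReal (16 / c₀ * (χ t * FF γ H s t)) := setLIntegral_le_lintegral _ _
    _ = ENNReal.ofReal (∫ t, 16 / c₀ * (χ t * FF γ H s t)) :=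
        (ofReal_integral_eq_lintegral_ofReal hI (Eventually.of_forall hnn)).symm
    _ ≤ ENNReal.ofReal (16 / c₀ * (A S + C * (S - s₀))) := by
        apply ENNReal.ofReal_le_ofReal
        rw [integral_const_mul]
        exact mul_le_mul_of_nonneg_left (hAb s h1 h2) (by positivity)

end main

end AreaD

section
variable {n₁ n₂ : ℕ} {X : Type} [TopologicalSpace X]

theorem area_holds {A : PFol n₁ n₂ X} (K : KMet A) (hp : St_pull K) (hs : St_slack K) :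
    St_area K := by
  obtain ⟨c₀, hc₀, κ, hκ, hsl⟩ := hs
  intro Ω G H t₀ R' R s₀ S hR' hRR _ hΩ hG hH hd hin hbd
  exact AreaD.area_bound hΩ (hp Ω G hΩ hG) hc₀ (hsl Ω G hΩ hG).1 H t₀ R' R s₀ S hR' hRR hH hd
    hin hbd

end

end Crest.Agent.R266
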