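import Crest.Agent.R266.Stmts

/-!
R266 / Basic: elementary facts on product-compatible maps: product form in every chart
(`St_chart`), identity theorem (`St_unique`, for Hausdorff `X`), restriction, congruence,
continuity, gluing.
-/

set_option autoImplicit false

open scoped Manifold ContDiff Topology
open Set Metric Filter

namespace Crest.Agent.R266

section
variable {n₁ n₂ : ℕ} {X : Type} [TopologicalSpace X] {A : PFol n₁ n₂ X}

/-- product form at a point -/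
def PCAt (A : PFol n₁ n₂ X) (G : ℂ × ℂ → X) (z : ℂ × ℂ) : Prop :=
  ∃ (i : A.ι) (a : ℂ → EV n₁) (b : ℂ → EV n₂), AnalyticAt ℂ a z.1 ∧ AnalyticAt ℂ b z.2 ∧
    ∀ᶠ w in 𝓝 z, G w ∈ (A.ch i).source ∧ A.ch i (G w) = (a w.1, b w.2)

theorem isPC_iff {Ω : Set (ℂ × ℂ)} {G : ℂ × ℂ → X} : IsPC A Ω G ↔ ∀ z ∈ Ω, PCAt A G z := Iff.rfl

theorem IsPC.at {Ω : Set (ℂ × ℂ)} {G : ℂ × ℂ → X} (h : IsPC A Ω G) {z : ℂ × ℂ} (hz : z ∈ Ω) :
    PCAt A G z := h z hz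

theorem PCAt.congr {G G' : ℂ × ℂ → X} {z : ℂ × ℂ} (h : PCAt A G z) (hG : G =ᶠ[𝓝 z] G') :
    PCAt A G' z := by
  obtain ⟨i, a, b, ha, hb, hw⟩ := h
  refine ⟨i, a, b, ha, hb, ?_⟩
  filter_upwards [hw, hG] with w h1 h2
  rw [← h2]; exact h1

theorem PCAt.continuousAt {G : ℂ × ℂ → X} {z : ℂ × ℂ} (h : PCAt A G z) : ContinuousAt G z := by
  obtain ⟨i, a, b, ha, hb, hw⟩ := h
  have hz := hw.self_of_nhds
  have h1 : G =ᶠ[𝓝 z] fun w => (A.ch i).symm (a w.1, b w.2) := by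
    filter_upwards [hw] with w h2
    rw [← h2.2, (A.ch i).left_inv h2.1]
  have h3 : ContinuousAt (fun w : ℂ × ℂ => (a w.1, b w.2)) z :=
    (ha.continuousAt.comp continuousAt_fst).prodMk (hb.continuousAt.comp continuousAt_snd)
  have h4 : ContinuousAt (A.ch i).symm (a z.1, b z.2) := by
    apply (A.ch i).symm.continuousAt
    rw [← hz.2]
    exact (A.ch i).map_source hz.1
  exact ContinuousAt.congr (ContinuousAt.comp (f := fun w : ℂ × ℂ => (a w.1, b w.2)) h4 h3) h1.symm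

theorem PCAt.eventually {G : ℂ × ℂ → X} {z : ℂ × ℂ} (h : PCAt A G z) :
    ∀ᶠ w in 𝓝 z, PCAt A G w := by
  obtain ⟨i, a, b, ha, hb, hw⟩ := h
  have h1 : ∀ᶠ w : ℂ × ℂ in 𝓝 z, AnalyticAt ℂ a w.1 :=
    continuousAt_fst.eventually ha.eventually_analyticAt
  have h2 : ∀ᶠ w : ℂ × ℂ in 𝓝 z, AnalyticAt ℂ b w.2 :=
    continuousAt_snd.eventually hb.eventually_analyticAt
  filter_upwards [h1, h2, hw.eventually_nhds] with w h3 h4 h5
  exact ⟨i, a, b, h3, h4, h5⟩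

/-- a p.c. germ is p.c. on a ball -/
theorem PCAt.exists_ball {G : ℂ × ℂ → X} {z : ℂ × ℂ} (h : PCAt A G z) :
    ∃ ρ > 0, IsPC A (ball z ρ) G := by
  obtain ⟨ρ, hρ, h1⟩ := Metric.eventually_nhds_iff_ball.1 h.eventually
  exact ⟨ρ, hρ, h1⟩

/-- product form in every chart around the point -/
theorem PCAt.chart {G : ℂ × ℂ → X} {z : ℂ × ℂ} (h : PCAt A G z) {j : A.ι}
    (hj : G z ∈ (A.ch j).source) :
    ∃ (a : ℂ → EV n₁) (b : ℂ → EV n₂), AnalyticAt ℂ a z.1 ∧ AnalyticAt ℂ b z.2 ∧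
      ∀ᶠ w in 𝓝 z, G w ∈ (A.ch j).source ∧ A.ch j (G w) = (a w.1, b w.2) := by
  have hc := h.continuousAt
  obtain ⟨i, a, b, ha, hb, hw⟩ := h
  have hz := hw.self_of_nhds
  obtain ⟨φ, ψ, hφ, hψ, hp⟩ := A.compat i j (G z) ⟨hz.1, hj⟩
  rw [hz.2] at hφ hψ hp
  have h3 : ContinuousAt (fun w : ℂ × ℂ => (a w.1, b w.2)) z :=
    (ha.continuousAt.comp continuousAt_fst).prodMk (hb.continuousAt.comp continuousAt_snd)
  refine ⟨fun t => φ (a t), fun t => ψ (b t), AnalyticAt.comp hφ ha, AnalyticAt.comp hψ hb, ?_⟩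
  have h5 : ∀ᶠ w in 𝓝 z, G w ∈ (A.ch j).source :=
    hc.eventually ((A.ch j).open_source.mem_nhds hj)
  have h6 : ∀ᶠ w in 𝓝 z, A.ch j ((A.ch i).symm (a w.1, b w.2)) = (φ (a w.1), ψ (b w.2)) :=
    h3.eventually hp
  filter_upwards [hw, h5, h6] with w h7 h8 h9
  refine ⟨h8, ?_⟩
  rw [← h7.2, (A.ch i).left_inv h7.1] at h9
  exact h9

theorem chart_holds (A : PFol n₁ n₂ X) : St_chart A := by
  intro Ω G hG z hz i hi
  exact (hG.at hz).chart hi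

theorem IsPC.mono {Ω Ω' : Set (ℂ × ℂ)} {G : ℂ × ℂ → X} (h : IsPC A Ω G) (hs : Ω' ⊆ Ω) :
    IsPC A Ω' G := fun z hz => h z (hs hz)

theorem IsPC.congr {Ω : Set (ℂ × ℂ)} {G G' : ℂ × ℂ → X} (h : IsPC A Ω G)
    (hG : ∀ z ∈ Ω, G =ᶠ[𝓝 z] G') : IsPC A Ω G' :=
  fun z hz => (h.at hz).congr (hG z hz)

theorem IsPC.congr_of_isOpen {Ω : Set (ℂ × ℂ)} {G G' : ℂ × ℂ → X} (h : IsPC A Ω G)
    (hΩ : IsOpen Ω) (hG : EqOn G G' Ω) : IsPC A Ω G' :=
  h.congr fun _ hz => hG.eventuallyEq_of_mem (hΩ.mem_nhds hz)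

theorem IsPC.continuousAt {Ω : Set (ℂ × ℂ)} {G : ℂ × ℂ → X} (h : IsPC A Ω G) {z : ℂ × ℂ}
    (hz : z ∈ Ω) : ContinuousAt G z := (h.at hz).continuousAt

theorem IsPC.continuousOn {Ω : Set (ℂ × ℂ)} {G : ℂ × ℂ → X} (h : IsPC A Ω G) :
    ContinuousOn G Ω := fun _ hz => (h.continuousAt hz).continuousWithinAt

theorem IsPC.union {Ω Ω' : Set (ℂ × ℂ)} {G : ℂ × ℂ → X} (h : IsPC A Ω G) (h' : IsPC A Ω' G) :
    IsPC A (Ω ∪ Ω') G := by
  rintro z (hz | hz)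
  · exact h z hz
  · exact h' z hz

theorem isPC_iUnion {κ : Sort*} {Ω : κ → Set (ℂ × ℂ)} {G : ℂ × ℂ → X}
    (h : ∀ k, IsPC A (Ω k) G) : IsPC A (⋃ k, Ω k) G := by
  intro z hz
  obtain ⟨k, hk⟩ := mem_iUnion.1 hz
  exact h k z hk

/-- gluing of a family of p.c. maps on open sets that agree on overlaps -/
theorem IsPC.glue {κ : Type*} [Nonempty X] {Ω : κ → Set (ℂ × ℂ)} {G : κ → ℂ × ℂ → X}
    (hΩ : ∀ k, IsOpen (Ω k)) (h : ∀ k, IsPC A (Ω k) (G k))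
    (hag : ∀ k l, ∀ z ∈ Ω k ∩ Ω l, G k z = G l z) :
    ∃ F : ℂ × ℂ → X, IsPC A (⋃ k, Ω k) F ∧ ∀ k, ∀ z ∈ Ω k, F z = G k z := by
  classical
  have hF : ∀ k, ∀ z ∈ Ω k,
      (fun z => if h : ∃ k, z ∈ Ω k then G (Classical.choose h) z
        else Classical.arbitrary X) z = G k z := by
    intro k z hz
    have hex : ∃ k, z ∈ Ω k := ⟨k, hz⟩
    simp only [hex, dite_true]
    exact hag _ _ z ⟨Classical.choose_spec hex, hz⟩
  refine ⟨fun z => if h : ∃ k, z ∈ Ω k then G (Classical.choose h) z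
    else Classical.arbitrary X, ?_, hF⟩
  apply isPC_iUnion
  intro k
  exact (h k).congr_of_isOpen (hΩ k) fun z hz => (hF k z hz).symm

/-- gluing of two p.c. maps -/
theorem IsPC.glue₂ {Ω Ω' : Set (ℂ × ℂ)} {G G' : ℂ × ℂ → X} (hΩ : IsOpen Ω) (hΩ' : IsOpen Ω')
    (h : IsPC A Ω G) (h' : IsPC A Ω' G') (hag : ∀ z ∈ Ω ∩ Ω', G z = G' z) :
    ∃ F : ℂ × ℂ → X, IsPC A (Ω ∪ Ω') F ∧ (∀ z ∈ Ω, F z = G z) ∧ ∀ z ∈ Ω', F z = G' z := by
  classical
  have h1 : ∀ z ∈ Ω, (fun z => if z ∈ Ω then G z else G' z) z = G z := by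
    intro z hz; simp [hz]
  have h2 : ∀ z ∈ Ω', (fun z => if z ∈ Ω then G z else G' z) z = G' z := by
    intro z hz
    by_cases hz' : z ∈ Ω
    · simp only [hz', if_true]; exact hag z ⟨hz', hz⟩
    · simp [hz']
  refine ⟨fun z => if z ∈ Ω then G z else G' z, ?_, h1, h2⟩
  exact (h.congr_of_isOpen hΩ fun z hz => (h1 z hz).symm).union
    (h'.congr_of_isOpen hΩ' fun z hz => (h2 z hz).symm)

/-- p.c. maps given by product formulas in one chart -/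
theorem isPC_of_chart (A : PFol n₁ n₂ X) (i : A.ι) {U V : Set ℂ} {a : ℂ → EV n₁}
    {b : ℂ → EV n₂} (ha : AnalyticOnNhd ℂ a U) (hb : AnalyticOnNhd ℂ b V)
    (ha1 : ∀ x ∈ U, a x ∈ ball (0 : EV n₁) 1) (hb1 : ∀ y ∈ V, b y ∈ ball (0 : EV n₂) 1) :
    IsPC A (U ×ˢ V) (fun w => (A.ch i).symm (a w.1, b w.2)) := by
  rintro ⟨x, y⟩ ⟨hx, hy⟩
  refine ⟨i, a, b, ha x hx, hb y hy, ?_⟩
  have h1 : ∀ᶠ w : ℂ × ℂ in 𝓝 (x, y), a w.1 ∈ ball (0 : EV n₁) 1 :=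
    ((ha x hx).continuousAt.comp (x := (x, y)) continuousAt_fst).eventually
      (isOpen_ball.mem_nhds (ha1 x hx))
  have h2 : ∀ᶠ w : ℂ × ℂ in 𝓝 (x, y), b w.2 ∈ ball (0 : EV n₂) 1 :=
    ((hb y hy).continuousAt.comp (x := (x, y)) continuousAt_snd).eventually
      (isOpen_ball.mem_nhds (hb1 y hy))
  filter_upwards [h1, h2] with w h3 h4
  have h5 : (a w.1, b w.2) ∈ (A.ch i).target := by
    rw [A.target_eq]; exact ⟨h3, h4⟩
  exact ⟨(A.ch i).map_target h5, (A.ch i).right_inv h5⟩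

/-- the values of a chart lie in the product of the unit balls -/
theorem ch_mem_ball (A : PFol n₁ n₂ X) {i : A.ι} {x : X} (hx : x ∈ (A.ch i).source) :
    (A.ch i x).1 ∈ ball (0 : EV n₁) 1 ∧ (A.ch i x).2 ∈ ball (0 : EV n₂) 1 := by
  have := (A.ch i).map_source hx
  rw [A.target_eq] at this
  exact this

/-- germs: local form on a common bidisc -/
theorem PCAt.exists_bidisc {G : ℂ × ℂ → X} {z : ℂ × ℂ} (h : PCAt A G z) {j : A.ι}
    (hj : G z ∈ (A.ch j).source) :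
    ∃ ρ > 0, ∃ (a : ℂ → EV n₁) (b : ℂ → EV n₂), AnalyticOnNhd ℂ a (ball z.1 ρ) ∧
      AnalyticOnNhd ℂ b (ball z.2 ρ) ∧ ∀ w ∈ ball z.1 ρ ×ˢ ball z.2 ρ,
        G w ∈ (A.ch j).source ∧ A.ch j (G w) = (a w.1, b w.2) := by
  obtain ⟨a, b, ha, hb, hw⟩ := h.chart hj
  obtain ⟨r1, hr1, h1⟩ := Metric.eventually_nhds_iff_ball.1 ha.eventually_analyticAt
  obtain ⟨r2, hr2, h2⟩ := Metric.eventually_nhds_iff_ball.1 hb.eventually_analyticAt
  obtain ⟨r3, hr3, h3⟩ := Metric.eventually_nhds_iff_ball.1 hw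
  refine ⟨min r1 (min r2 r3), by positivity, a, b, fun x hx => h1 x ?_, fun y hy => h2 y ?_,
    fun w hw' => h3 w ?_⟩
  · exact ball_subset_ball (min_le_left _ _) hx
  · exact ball_subset_ball ((min_le_right _ _).trans (min_le_left _ _)) hy
  · have : w ∈ ball z (min r1 (min r2 r3)) := by
      rw [← ball_prod_same]; exact hw'
    exact ball_subset_ball ((min_le_right _ _).trans (min_le_right _ _)) this

/-- two p.c. germs with the same value that agree frequently near the point (as germs) agree -/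
theorem PCAt.eventuallyEq_of_frequently {G G' : ℂ × ℂ → X} {z : ℂ × ℂ} (h : PCAt A G z)
    (h' : PCAt A G' z) (hz : G z = G' z) (hf : ∃ᶠ w in 𝓝 z, G =ᶠ[𝓝 w] G') :
    G =ᶠ[𝓝 z] G' := by
  obtain ⟨i, _, _, _, _, hi⟩ := id h
  have hi1 : G z ∈ (A.ch i).source := hi.self_of_nhds.1
  have hi2 : G' z ∈ (A.ch i).source := hz ▸ hi1
  obtain ⟨ρ, hρ, a, b, ha, hb, hab⟩ := h.exists_bidisc hi1
  obtain ⟨ρ', hρ', a', b', ha', hb', hab'⟩ := h'.exists_bidisc hi2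
  set r := min ρ ρ' with hr
  have hr0 : 0 < r := lt_min hρ hρ'
  have hsub : ball z.1 r ×ˢ ball z.2 r ∈ 𝓝 z := by
    rw [ball_prod_same]
    exact ball_mem_nhds _ hr0
  obtain ⟨w, hw1, hw2⟩ := (hf.and_eventually hsub).exists
  have hwopen : IsOpen (ball z.1 r ×ˢ ball z.2 r) := isOpen_ball.prod isOpen_ball
  have key : ∀ᶠ v in 𝓝 w, (a v.1, b v.2) = (a' v.1, b' v.2) := by
    filter_upwards [hw1, hwopen.mem_nhds hw2] with v h1 h2
    have h3 := hab v ⟨ball_subset_ball (min_le_left _ _) h2.1,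
      ball_subset_ball (min_le_left _ _) h2.2⟩
    have h4 := hab' v ⟨ball_subset_ball (min_le_right _ _) h2.1,
      ball_subset_ball (min_le_right _ _) h2.2⟩
    rw [← h3.2, ← h4.2, h1]
  have k1 : a =ᶠ[𝓝 w.1] a' := by
    have hc : ContinuousAt (fun x : ℂ => (x, w.2)) w.1 := by fun_prop
    have := hc.eventually (p := fun v : ℂ × ℂ => (a v.1, b v.2) = (a' v.1, b' v.2)) key
    filter_upwards [this] with x hx
    exact (Prod.mk.inj hx).1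
  have k2 : b =ᶠ[𝓝 w.2] b' := by
    have hc : ContinuousAt (fun y : ℂ => (w.1, y)) w.2 := by fun_prop
    have := hc.eventually (p := fun v : ℂ × ℂ => (a v.1, b v.2) = (a' v.1, b' v.2)) key
    filter_upwards [this] with x hx
    exact (Prod.mk.inj hx).2
  have e1 : EqOn a a' (ball z.1 r) :=
    (ha.mono (ball_subset_ball (min_le_left _ _))).eqOn_of_preconnected_of_eventuallyEq
      (ha'.mono (ball_subset_ball (min_le_right _ _))) (convex_ball _ _).isPreconnected hw2.1 k1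
  have e2 : EqOn b b' (ball z.2 r) :=
    (hb.mono (ball_subset_ball (min_le_left _ _))).eqOn_of_preconnected_of_eventuallyEq
      (hb'.mono (ball_subset_ball (min_le_right _ _))) (convex_ball _ _).isPreconnected hw2.2 k2
  filter_upwards [hsub] with v hv
  have h3 := hab v ⟨ball_subset_ball (min_le_left _ _) hv.1,
    ball_subset_ball (min_le_left _ _) hv.2⟩
  have h4 := hab' v ⟨ball_subset_ball (min_le_right _ _) hv.1,
    ball_subset_ball (min_le_right _ _) hv.2⟩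
  apply (A.ch i).injOn h3.1 h4.1
  rw [h3.2, h4.2, e1 hv.1, e2 hv.2]

/-- identity theorem, germ version -/
theorem IsPC.eventuallyEq_of_preconnected [T2Space X] {Ω : Set (ℂ × ℂ)} {G G' : ℂ × ℂ → X}
    (hΩ : IsPreconnected Ω) (h : IsPC A Ω G) (h' : IsPC A Ω G')
    (hz : ∃ z ∈ Ω, G =ᶠ[𝓝 z] G') : ∀ z ∈ Ω, G =ᶠ[𝓝 z] G' := by
  have hu : IsOpen {z | G =ᶠ[𝓝 z] G'} := isOpen_setOfPred_eventually_nhds
  have := hΩ.subset_of_closure_inter_subset hu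
    (by obtain ⟨z, h1, h2⟩ := hz; exact ⟨z, h1, h2⟩) ?_
  · exact fun z hz => this hz
  rintro z ⟨hz1, hz2⟩
  have hf : ∃ᶠ w in 𝓝 z, G =ᶠ[𝓝 w] G' := mem_closure_iff_frequently.1 hz1
  have hval : G z = G' z :=
    tendsto_nhds_unique_of_frequently_eq (h.continuousAt hz2) (h'.continuousAt hz2)
      (hf.mono fun w hw => hw.self_of_nhds)
  exact (h.at hz2).eventuallyEq_of_frequently (h'.at hz2) hval hf

/-- identity theorem -/
theorem IsPC.eqOn_of_preconnected [T2Space X] {Ω : Set (ℂ × ℂ)} {G G' : ℂ × ℂ → X}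
    (hΩ : IsPreconnected Ω) (h : IsPC A Ω G) (h' : IsPC A Ω G')
    (hz : ∃ z ∈ Ω, G =ᶠ[𝓝 z] G') : EqOn G G' Ω :=
  fun z hz' => (IsPC.eventuallyEq_of_preconnected hΩ h h' hz z hz').self_of_nhds

theorem unique_holds [T2Space X] (A : PFol n₁ n₂ X) : St_unique A := by
  intro Ω G G' _ hc hG hG' hz z hz'
  exact IsPC.eqOn_of_preconnected hc hG hG' hz hz'

/-- extension/gluing lemma: `G` on `Ω`, `G'` on `Ω'`, `Ω ∩ Ω'` preconnected, agreement near one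
point of `Ω ∩ Ω'` -/
theorem IsPC.glue_of_preconnected [T2Space X] {Ω Ω' : Set (ℂ × ℂ)} {G G' : ℂ × ℂ → X}
    (hΩ : IsOpen Ω) (hΩ' : IsOpen Ω') (hc : IsPreconnected (Ω ∩ Ω')) (h : IsPC A Ω G)
    (h' : IsPC A Ω' G') (hz : ∃ z ∈ Ω ∩ Ω', G =ᶠ[𝓝 z] G') :
    ∃ F : ℂ × ℂ → X, IsPC A (Ω ∪ Ω') F ∧ (∀ z ∈ Ω, F z = G z) ∧ ∀ z ∈ Ω', F z = G' z :=
  IsPC.glue₂ hΩ hΩ' h h'
    (IsPC.eqOn_of_preconnected hc (h.mono inter_subset_left) (h'.mono inter_subset_right) hz)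

/-- identity theorem along a segment contained in both domains -/
theorem IsPC.eventuallyEq_of_segment [T2Space X] {Ω Ω' : Set (ℂ × ℂ)} {G G' : ℂ × ℂ → X}
    (h : IsPC A Ω G) (h' : IsPC A Ω' G') {z w : ℂ × ℂ} (hs : segment ℝ z w ⊆ Ω ∩ Ω')
    (hw : G =ᶠ[𝓝 w] G') : G =ᶠ[𝓝 z] G' :=
  IsPC.eventuallyEq_of_preconnected (Ω := segment ℝ z w) (convex_segment z w).isPreconnected
    (h.mono (hs.trans inter_subset_left)) (h'.mono (hs.trans inter_subset_right))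
    ⟨w, right_mem_segment ℝ z w, hw⟩ z (left_mem_segment ℝ z w)

/-- gluing when every point of the overlap can be joined inside the overlap by a segment to a
point where the germs agree ("boxes with connected vertical fibres") -/
theorem IsPC.glue_of_segments [T2Space X] {Ω Ω' : Set (ℂ × ℂ)} {G G' : ℂ × ℂ → X}
    (hΩ : IsOpen Ω) (hΩ' : IsOpen Ω') (h : IsPC A Ω G) (h' : IsPC A Ω' G')
    (hz : ∀ z ∈ Ω ∩ Ω', ∃ w, segment ℝ z w ⊆ Ω ∩ Ω' ∧ G =ᶠ[𝓝 w] G') :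
    ∃ F : ℂ × ℂ → X, IsPC A (Ω ∪ Ω') F ∧ (∀ z ∈ Ω, F z = G z) ∧ ∀ z ∈ Ω', F z = G' z :=
  IsPC.glue₂ hΩ hΩ' h h' fun z hz' => by
    obtain ⟨w, h1, h2⟩ := hz z hz'
    exact (IsPC.eventuallyEq_of_segment h h' h1 h2).self_of_nhds

/-- a p.c. map on an open set stays in a chart near a point: bidisc of product form -/
theorem IsPC.exists_bidisc {Ω : Set (ℂ × ℂ)} {G : ℂ × ℂ → X} (h : IsPC A Ω G) {z : ℂ × ℂ}
    (hz : z ∈ Ω) {j : A.ι} (hj : G z ∈ (A.ch j).source) :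
    ∃ ρ > 0, ∃ (a : ℂ → EV n₁) (b : ℂ → EV n₂), AnalyticOnNhd ℂ a (ball z.1 ρ) ∧
      AnalyticOnNhd ℂ b (ball z.2 ρ) ∧ ∀ w ∈ ball z.1 ρ ×ˢ ball z.2 ρ,
        G w ∈ (A.ch j).source ∧ A.ch j (G w) = (a w.1, b w.2) := (h.at hz).exists_bidisc hj

/-- the chart representation of a p.c. map is analytic -/
theorem PCAt.analyticAt_ch {G : ℂ × ℂ → X} {z : ℂ × ℂ} (h : PCAt A G z) {j : A.ι}
    (hj : G z ∈ (A.ch j).source) : AnalyticAt ℂ (fun w => A.ch j (G w)) z := by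
  obtain ⟨a, b, ha, hb, hw⟩ := h.chart hj
  have h1 : AnalyticAt ℂ (fun w : ℂ × ℂ => (a w.1, b w.2)) z :=
    (AnalyticAt.comp (f := fun w : ℂ × ℂ => w.1) ha analyticAt_fst).prod
      (AnalyticAt.comp (f := fun w : ℂ × ℂ => w.2) hb analyticAt_snd)
  refine h1.congr ?_
  filter_upwards [hw] with w hw'
  exact hw'.2.symm

end

end Crest.Agent.R266
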