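import Crest.Agent.R266.Stmts

/-!
R266 / CE: product extension along a holomorphic curve graph, and St_CE from the small area
lemma `St_E0` (small area along the curve: half of the curve is mapped into one chart).
-/

set_option autoImplicit false

open scoped Manifold ContDiff Topology ENNReal
open Set Metric Filter MeasureTheory

namespace Crest.Agent.R266

section
variable {n₁ n₂ : ℕ} {X : Type} [TopologicalSpace X]

/-- small area along the holomorphic curve `t ↦ pt t (H t)`: the half curve lies in one chart -/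
def St_E0 {A : PFol n₁ n₂ X} (K : KMet A) : Prop :=
  ∃ a₀ > 0, ∀ (Ω : Set (ℂ × ℂ)) (G : ℂ × ℂ → X) (H : ℂ → ℂ) (t₀ : ℂ) (r : ℝ), 0 < r → IsOpen Ω →
    IsPC A Ω G → DifferentiableOn ℂ H (ball t₀ r) → (∀ t ∈ ball t₀ r, ‖deriv H t‖ ≤ 1 / 2) →
    (∀ t ∈ ball t₀ r, pt t (H t) ∈ Ω) →
    (∫⁻ t in ball t₀ r, ENNReal.ofReal (trM K G (pt t (H t))) ≤ ENNReal.ofReal a₀) →
    ∃ i, ∀ t ∈ ball t₀ (r / 2), G (pt t (H t)) ∈ (A.ch i).source

/-- A function on a disc with derivative close to a constant is invertible, the image contains a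
disc of comparable radius. -/
theorem exists_branch {f : ℂ → ℂ} {t₀ c : ℂ} {ρ : ℝ} (hρ : 0 < ρ) (hc : ‖c‖ = 1 / 2)
    (hf : DifferentiableOn ℂ f (ball t₀ ρ)) (hd : ∀ t ∈ ball t₀ ρ, ‖deriv f t - c‖ ≤ 1 / 4) :
    ∃ g : ℂ → ℂ, (∀ t ∈ ball t₀ ρ, g (f t) = t) ∧ IsOpen (f '' ball t₀ ρ) ∧
      (∀ t ∈ ball t₀ ρ, ContinuousAt g (f t)) ∧ ball (f t₀) (ρ / 16) ⊆ f '' ball t₀ ρ := by
  have hB : IsOpen (ball t₀ ρ) := isOpen_ball
  have hconv : Convex ℝ (ball t₀ ρ) := convex_ball _ _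
  -- bilipschitz estimate
  have key : ∀ s ∈ ball t₀ ρ, ∀ t ∈ ball t₀ ρ, ‖(f t - f s) - c * (t - s)‖ ≤ 1 / 4 * ‖t - s‖ := by
    intro s hs t ht
    have h1 : ∀ u ∈ ball t₀ ρ, HasDerivWithinAt (fun u => f u - c * u) (deriv f u - c)
        (ball t₀ ρ) u := by
      intro u hu
      have h2 : HasDerivAt f (deriv f u) u :=
        ((hf u hu).differentiableAt (hB.mem_nhds hu)).hasDerivAt
      have h3 : HasDerivAt (fun u : ℂ => c * u) c u := by
        simpa using (hasDerivAt_id u).const_mul c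
      exact (h2.sub h3).hasDerivWithinAt
    have h4 := hconv.norm_image_sub_le_of_norm_hasDerivWithin_le h1 hd hs ht
    have h5 : (f t - c * t) - (f s - c * s) = (f t - f s) - c * (t - s) := by ring
    rw [h5] at h4
    exact h4
  have low : ∀ s ∈ ball t₀ ρ, ∀ t ∈ ball t₀ ρ, ‖t - s‖ ≤ 4 * ‖f t - f s‖ := by
    intro s hs t ht
    have h1 := key s hs t ht
    have h2 : ‖c * (t - s)‖ = 1 / 2 * ‖t - s‖ := by rw [norm_mul, hc]
    have h3 : ‖c * (t - s)‖ ≤ ‖f t - f s‖ + ‖(f t - f s) - c * (t - s)‖ := by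
      have : c * (t - s) = (f t - f s) - ((f t - f s) - c * (t - s)) := by ring
      calc ‖c * (t - s)‖ = ‖(f t - f s) - ((f t - f s) - c * (t - s))‖ := by rw [← this]
        _ ≤ _ := norm_sub_le _ _
    linarith
  have inj : InjOn f (ball t₀ ρ) := by
    intro s hs t ht hst
    have := low s hs t ht
    rw [hst] at this
    simp at this
    exact (sub_eq_zero.mp this).symm
  have hder : ∀ t ∈ ball t₀ ρ, deriv f t ≠ 0 := by
    intro t ht h0
    have := hd t ht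
    rw [h0] at this
    simp [hc] at this
    norm_num at this
  have hstrict : ∀ t ∈ ball t₀ ρ, HasStrictDerivAt f (deriv f t) t := by
    intro t ht
    have h1 : AnalyticAt ℂ f t := hf.analyticAt (hB.mem_nhds ht)
    exact h1.hasStrictDerivAt
  have hopen : ∀ t ∈ ball t₀ ρ, map f (𝓝 t) = 𝓝 (f t) := fun t ht =>
    (hstrict t ht).map_nhds_eq (hder t ht)
  have himg : IsOpen (f '' ball t₀ ρ) := by
    rw [isOpen_iff_mem_nhds]
    rintro _ ⟨t, ht, rfl⟩
    rw [← hopen t ht]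
    exact image_mem_map (hB.mem_nhds ht)
  refine ⟨Function.invFunOn f (ball t₀ ρ), fun t ht => inj.leftInvOn_invFunOn ht, himg, ?_, ?_⟩
  · intro t ht
    rw [Metric.continuousAt_iff]
    intro ε hε
    obtain ⟨δ, hδ, hδs⟩ := Metric.isOpen_iff.1 himg (f t) (mem_image_of_mem f ht)
    refine ⟨min δ (ε / 4), lt_min hδ (by positivity), ?_⟩
    intro x hx
    have hx1 : x ∈ f '' ball t₀ ρ := hδs (mem_ball.2 (lt_of_lt_of_le hx (min_le_left _ _)))
    obtain ⟨s, hs, rfl⟩ := hx1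
    rw [inj.leftInvOn_invFunOn hs, inj.leftInvOn_invFunOn ht]
    have h1 := low t ht s hs
    have h2 : dist (f s) (f t) < ε / 4 := lt_of_lt_of_le hx (min_le_right _ _)
    rw [dist_eq_norm] at h2 ⊢
    linarith
  · set ρ' : ℝ := ρ / 2 with hρ'
    have hρ'0 : 0 < ρ' := by positivity
    have hsub : closedBall t₀ ρ' ⊆ ball t₀ ρ := closedBall_subset_ball (by rw [hρ']; linarith)
    have ht₀ : t₀ ∈ ball t₀ ρ := mem_ball_self hρ
    have h1 : DiffContOnCl ℂ f (ball t₀ ρ') := by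
      apply DifferentiableOn.diffContOnCl
      rw [closure_ball _ hρ'0.ne']
      exact hf.mono hsub
    have h2 : ∀ z ∈ sphere t₀ ρ', ρ' / 4 ≤ ‖f z - f t₀‖ := by
      intro z hz
      have h3 := low t₀ ht₀ z (hsub (sphere_subset_closedBall hz))
      have h4 : ‖z - t₀‖ = ρ' := by rw [← dist_eq_norm]; exact hz
      rw [h4] at h3
      linarith
    have h3 : ∃ᶠ z in 𝓝 t₀, f z ≠ f t₀ := by
      have h4 : ∃ᶠ z in 𝓝 t₀, z ≠ t₀ := by
        have : (𝓝[≠] t₀).NeBot := inferInstance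
        exact (frequently_iff_neBot).2 this
      refine (h4.and_eventually (hB.mem_nhds ht₀)).mono ?_
      rintro z ⟨hz, hzB⟩ heq
      exact hz (inj hzB ht₀ heq)
    have h4 := h1.ball_subset_image_closedBall hρ'0 h2 h3
    refine (ball_subset_ball ?_).trans (h4.trans (image_mono hsub))
    rw [hρ']
    linarith

/-- PRODUCT EXTENSION: if the p.c. map `G` maps the whole curve `t ↦ pt t (H t)`, `t ∈ ball t₀ ρ`,
into one chart, it extends (as a p.c. map) from a neighbourhood of the centre to the bidisc of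
radius `ρ/16`. -/
theorem product_extension {A : PFol n₁ n₂ X} (hch : St_chart A) {Ω : Set (ℂ × ℂ)}
    {G : ℂ × ℂ → X} (hG : IsPC A Ω G) {H : ℂ → ℂ} {t₀ : ℂ} {ρ : ℝ} (hρ : 0 < ρ)
    (hH : DifferentiableOn ℂ H (ball t₀ ρ)) (hH' : ∀ t ∈ ball t₀ ρ, ‖deriv H t‖ ≤ 1 / 2)
    (hΩ : ∀ t ∈ ball t₀ ρ, pt t (H t) ∈ Ω) (i : A.ι)
    (hi : ∀ t ∈ ball t₀ ρ, G (pt t (H t)) ∈ (A.ch i).source) :
    ∃ (U₁ U₂ : Set ℂ) (a : ℂ → EV n₁) (b : ℂ → EV n₂), IsOpen U₁ ∧ IsOpen U₂ ∧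
      ball (pt t₀ (H t₀)).1 (ρ / 16) ⊆ U₁ ∧ ball (pt t₀ (H t₀)).2 (ρ / 16) ⊆ U₂ ∧
      (∀ x ∈ U₁, AnalyticAt ℂ a x ∧ a x ∈ ball (0 : EV n₁) 1) ∧
      (∀ y ∈ U₂, AnalyticAt ℂ b y ∧ b y ∈ ball (0 : EV n₂) 1) ∧
      (∀ t ∈ ball t₀ ρ, (pt t (H t)).1 ∈ U₁ ∧ (pt t (H t)).2 ∈ U₂ ∧
        ∀ᶠ w in 𝓝 (pt t (H t)), G w ∈ (A.ch i).source ∧ A.ch i (G w) = (a w.1, b w.2)) := by
  classical
  set B := ball t₀ ρ with hBdef
  have hB : IsOpen B := isOpen_ball
  have ht₀ : t₀ ∈ B := mem_ball_self hρ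
  -- coordinates along the curve
  have hHd : ∀ t ∈ B, HasDerivAt H (deriv H t) t := fun t ht =>
    ((hH t ht).differentiableAt (hB.mem_nhds ht)).hasDerivAt
  have hxd : ∀ t ∈ B, HasDerivAt (fun t => (pt t (H t)).1) ((deriv H t + 1) / 2) t := by
    intro t ht
    have := ((hHd t ht).add (hasDerivAt_id t)).div_const 2
    simpa [pt] using this
  have hyd : ∀ t ∈ B, HasDerivAt (fun t => (pt t (H t)).2) ((deriv H t - 1) / 2) t := by
    intro t ht
    have := ((hHd t ht).sub (hasDerivAt_id t)).div_const 2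
    simpa [pt] using this
  obtain ⟨gx, hgx, hxo, hgxc, hxball⟩ := exists_branch (f := fun t => (pt t (H t)).1) (c := 1 / 2)
    hρ (by norm_num) (fun t ht => (hxd t ht).differentiableAt.differentiableWithinAt) (by
      intro t ht
      rw [(hxd t ht).deriv]
      have h1 : (deriv H t + 1) / 2 - 1 / 2 = deriv H t / 2 := by ring
      rw [h1, norm_div]
      have := hH' t ht
      norm_num
      linarith)
  obtain ⟨gy, hgy, hyo, hgyc, hyball⟩ := exists_branch (f := fun t => (pt t (H t)).2)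
    (c := -(1 / 2)) hρ (by norm_num)
    (fun t ht => (hyd t ht).differentiableAt.differentiableWithinAt) (by
      intro t ht
      rw [(hyd t ht).deriv]
      have h1 : (deriv H t - 1) / 2 - -(1 / 2) = deriv H t / 2 := by ring
      rw [h1, norm_div]
      have := hH' t ht
      norm_num
      linarith)
  -- the curve is continuous
  have hpc : ∀ t ∈ B, ContinuousAt (fun t => pt t (H t)) t := by
    intro t ht
    exact (hxd t ht).continuousAt.prodMk (hyd t ht).continuousAt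
  set a : ℂ → EV n₁ := fun x => (A.ch i (G (pt (gx x) (H (gx x))))).1 with ha
  set b : ℂ → EV n₂ := fun y => (A.ch i (G (pt (gy y) (H (gy y))))).2 with hb
  -- local comparison
  have hloc : ∀ t ∈ B, ∃ (a' : ℂ → EV n₁) (b' : ℂ → EV n₂), AnalyticAt ℂ a' (pt t (H t)).1 ∧
      AnalyticAt ℂ b' (pt t (H t)).2 ∧ (a =ᶠ[𝓝 (pt t (H t)).1] a') ∧
      (b =ᶠ[𝓝 (pt t (H t)).2] b') ∧
      ∀ᶠ w in 𝓝 (pt t (H t)), G w ∈ (A.ch i).source ∧ A.ch i (G w) = (a' w.1, b' w.2) := by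
    intro t ht
    obtain ⟨a', b', ha', hb', hev⟩ := hch Ω G hG _ (hΩ t ht) i (hi t ht)
    refine ⟨a', b', ha', hb', ?_, ?_, hev⟩
    · have h1 : Tendsto (fun x => pt (gx x) (H (gx x))) (𝓝 (pt t (H t)).1) (𝓝 (pt t (H t))) := by
        have h2 : Tendsto gx (𝓝 (pt t (H t)).1) (𝓝 t) := by
          have := hgxc t ht
          rw [ContinuousAt, hgx t ht] at this
          exact this
        exact (hpc t ht).tendsto.comp h2
      have h3 : ∀ᶠ x in 𝓝 (pt t (H t)).1, x ∈ (fun t => (pt t (H t)).1) '' B :=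
        hxo.mem_nhds (mem_image_of_mem (fun t => (pt t (H t)).1) ht)
      filter_upwards [h1.eventually hev, h3] with x hx hx3
      obtain ⟨s, hs, rfl⟩ := hx3
      simp only at hx ⊢
      rw [ha]
      simp only
      rw [hx.2]
      simp only
      rw [hgx s hs]
    · have h1 : Tendsto (fun x => pt (gy x) (H (gy x))) (𝓝 (pt t (H t)).2) (𝓝 (pt t (H t))) := by
        have h2 : Tendsto gy (𝓝 (pt t (H t)).2) (𝓝 t) := by
          have := hgyc t ht
          rw [ContinuousAt, hgy t ht] at this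
          exact this
        exact (hpc t ht).tendsto.comp h2
      have h3 : ∀ᶠ x in 𝓝 (pt t (H t)).2, x ∈ (fun t => (pt t (H t)).2) '' B :=
        hyo.mem_nhds (mem_image_of_mem (fun t => (pt t (H t)).2) ht)
      filter_upwards [h1.eventually hev, h3] with x hx hx3
      obtain ⟨s, hs, rfl⟩ := hx3
      simp only at hx ⊢
      rw [hb]
      simp only
      rw [hx.2]
      simp only
      rw [hgy s hs]
  have htar : ∀ t ∈ B, A.ch i (G (pt t (H t))) ∈ ball (0 : EV n₁) 1 ×ˢ ball (0 : EV n₂) 1 := by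
    intro t ht
    rw [← A.target_eq i]
    exact (A.ch i).map_source (hi t ht)
  refine ⟨(fun t => (pt t (H t)).1) '' B, (fun t => (pt t (H t)).2) '' B, a, b, hxo, hyo,
    hxball, hyball, ?_, ?_, ?_⟩
  · rintro _ ⟨t, ht, rfl⟩
    obtain ⟨a', b', ha', hb', hea, heb, hev⟩ := hloc t ht
    refine ⟨ha'.congr hea.symm, ?_⟩
    have := (htar t ht).1
    simp only [ha]
    rw [hgx t ht]
    exact this
  · rintro _ ⟨t, ht, rfl⟩
    obtain ⟨a', b', ha', hb', hea, heb, hev⟩ := hloc t ht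
    refine ⟨hb'.congr heb.symm, ?_⟩
    have := (htar t ht).2
    simp only [hb]
    rw [hgy t ht]
    exact this
  · intro t ht
    refine ⟨mem_image_of_mem (fun t => (pt t (H t)).1) ht,
      mem_image_of_mem (fun t => (pt t (H t)).2) ht, ?_⟩
    obtain ⟨a', b', ha', hb', hea, heb, hev⟩ := hloc t ht
    have h1 : ∀ᶠ w : ℂ × ℂ in 𝓝 (pt t (H t)), a w.1 = a' w.1 :=
      (continuous_fst.tendsto (pt t (H t))).eventually hea
    have h2 : ∀ᶠ w : ℂ × ℂ in 𝓝 (pt t (H t)), b w.2 = b' w.2 :=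
      (continuous_snd.tendsto (pt t (H t))).eventually heb
    filter_upwards [hev, h1, h2] with w hw hw1 hw2
    rw [hw1, hw2]
    exact hw

/-- the product map of two curves in one chart -/
theorem isPC_prod {A : PFol n₁ n₂ X} (i : A.ι) {U₁ U₂ : Set ℂ} (h1 : IsOpen U₁) (h2 : IsOpen U₂)
    {a : ℂ → EV n₁} {b : ℂ → EV n₂}
    (ha : ∀ x ∈ U₁, AnalyticAt ℂ a x ∧ a x ∈ ball (0 : EV n₁) 1)
    (hb : ∀ y ∈ U₂, AnalyticAt ℂ b y ∧ b y ∈ ball (0 : EV n₂) 1) :
    IsPC A (U₁ ×ˢ U₂) (fun w => (A.ch i).symm (a w.1, b w.2)) := by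
  rintro z ⟨hz1, hz2⟩
  refine ⟨i, a, b, (ha _ hz1).1, (hb _ hz2).1, ?_⟩
  have h3 : U₁ ×ˢ U₂ ∈ 𝓝 z := (h1.prod h2).mem_nhds ⟨hz1, hz2⟩
  filter_upwards [h3] with w hw
  have h4 : (a w.1, b w.2) ∈ (A.ch i).target := by
    rw [A.target_eq i]
    exact ⟨(ha _ hw.1).2, (hb _ hw.2).2⟩
  exact ⟨(A.ch i).map_target h4, (A.ch i).right_inv h4⟩

/-- St_CE from the small area lemma -/
theorem CE_of_E0 {A : PFol n₁ n₂ X} (K : KMet A) (hch : St_chart A) (hE0 : St_E0 K) :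
    St_CE K := by
  obtain ⟨a₀, ha₀, h⟩ := hE0
  refine ⟨a₀, ha₀, ?_⟩
  intro Ω G H t₀ r hr hΩ hG hH hH' hmem harea
  obtain ⟨i, hi⟩ := h Ω G H t₀ r hr hΩ hG hH hH' hmem harea
  have hsub : ball t₀ (r / 2) ⊆ ball t₀ r := ball_subset_ball (by linarith)
  obtain ⟨U₁, U₂, a, b, hU₁, hU₂, hb₁, hb₂, ha, hb, hloc⟩ :=
    product_extension (ρ := r / 2) hch hG (by positivity) (hH.mono hsub)
      (fun t ht => hH' t (hsub ht)) (fun t ht => hmem t (hsub ht)) i hi
  refine ⟨fun w => (A.ch i).symm (a w.1, b w.2), ?_, ?_⟩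
  · intro z hz
    have h1 : z ∈ U₁ ×ˢ U₂ := by
      have h2 : dist z (pt t₀ (H t₀)) < r / 32 := hz
      rw [Prod.dist_eq, max_lt_iff] at h2
      refine ⟨hb₁ ?_, hb₂ ?_⟩
      · rw [mem_ball]; linarith [h2.1]
      · rw [mem_ball]; linarith [h2.2]
    exact isPC_prod i hU₁ hU₂ ha hb z h1
  · have h1 := (hloc t₀ (mem_ball_self (by positivity))).2.2
    filter_upwards [h1] with w hw
    rw [← hw.2]
    exact (A.ch i).left_inv hw.1

end

end Crest.Agent.R266
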