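import Mathlib

/-!
R266 / ClosedPull: the pullback of a closed hermitian form under a holomorphic map is closed
(pure calculus in normed spaces), and smoothness of the pulled back coefficients.
-/

set_option autoImplicit false

open scoped Manifold ContDiff Topology
open Set Metric Filter

namespace Crest.Agent.R266

section
variable {E F : Type*} [NormedAddCommGroup E] [NormedSpace ℂ E]
  [NormedAddCommGroup F] [NormedSpace ℂ F] [CompleteSpace F]

/-- derivative of `q ↦ g (f q) (Df q v) (Df q w)` -/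
lemma hasFDerivAt_pull (g : F → (F →L[ℝ] F →L[ℝ] ℝ)) (f : E → F) (z : E)
    (hf : AnalyticAt ℂ f z) (hg : DifferentiableAt ℝ g (f z)) (v w u : E) :
    DifferentiableAt ℝ (fun q => g (f q) (fderiv ℂ f q v) (fderiv ℂ f q w)) z ∧
    fderiv ℝ (fun q => g (f q) (fderiv ℂ f q v) (fderiv ℂ f q w)) z u =
      fderiv ℝ g (f z) (fderiv ℂ f z u) (fderiv ℂ f z v) (fderiv ℂ f z w)
      + g (f z) (fderiv ℂ (fun q => fderiv ℂ f q) z u v) (fderiv ℂ f z w)
      + g (f z) (fderiv ℂ f z v) (fderiv ℂ (fun q => fderiv ℂ f q) z u w) := by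
  have h1 : HasFDerivAt f ((fderiv ℂ f z).restrictScalars ℝ) z :=
    hf.differentiableAt.hasFDerivAt.restrictScalars ℝ
  have h2 : HasFDerivAt (fun q => g (f q)) ((fderiv ℝ g (f z)).comp
      ((fderiv ℂ f z).restrictScalars ℝ)) z := by
    have := HasFDerivAt.comp (g := g) (f := f) z hg.hasFDerivAt h1
    exact this
  have h3 : HasFDerivAt (fun q => fderiv ℂ f q)
      ((fderiv ℂ (fun q => fderiv ℂ f q) z).restrictScalars ℝ) z :=
    (hf.fderiv.differentiableAt.hasFDerivAt).restrictScalars ℝ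
  have h4 : ∀ v : E, HasFDerivAt (fun q => fderiv ℂ f q v)
      (((ContinuousLinearMap.apply ℂ F v).restrictScalars ℝ).comp
        ((fderiv ℂ (fun q => fderiv ℂ f q) z).restrictScalars ℝ)) z := by
    intro v
    exact (((ContinuousLinearMap.apply ℂ F v).restrictScalars ℝ).hasFDerivAt).comp z h3
  have h5 := (h2.clm_apply (h4 v)).clm_apply (h4 w)
  refine ⟨h5.differentiableAt, ?_⟩
  rw [h5.fderiv]
  simp
  ring

omit [CompleteSpace F] in
/-- for a hermitian symmetric form, `(v, w) ↦ g (i v) w` is alternating -/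
lemma herm_alt {B : F →L[ℝ] F →L[ℝ] ℝ} (hs : ∀ v w, B v w = B w v)
    (hh : ∀ v w, B (Complex.I • v) (Complex.I • w) = B v w) (v w : F) :
    B (Complex.I • v) w = - B (Complex.I • w) v := by
  have h1 := hh (Complex.I • v) w
  rw [smul_smul, Complex.I_mul_I, neg_one_smul] at h1
  rw [← h1, hs]
  simp

/-- the second derivative of a holomorphic map is symmetric -/
lemma fderiv2_symm (f : E → F) (z : E) (hf : AnalyticAt ℂ f z) (v w : E) :
    fderiv ℂ (fun q => fderiv ℂ f q) z v w = fderiv ℂ (fun q => fderiv ℂ f q) z w v := by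
  have h : IsSymmSndFDerivAt ℂ f z := by
    apply ContDiffAt.isSymmSndFDerivAt (n := ω) hf.contDiffAt
    simp
  exact h.eq v w

/-- **pullback of a closed hermitian form** under a holomorphic map is closed. -/
theorem closed_pull (g : F → (F →L[ℝ] F →L[ℝ] ℝ)) (f : E → F) (z : E)
    (hf : AnalyticAt ℂ f z) (hg : DifferentiableAt ℝ g (f z))
    (hs : ∀ v w, g (f z) (Complex.I • v) w = - g (f z) (Complex.I • w) v)
    (hcl : ∀ u v w : F,
      fderiv ℝ (fun q => g q (Complex.I • v) w) (f z) u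
        - fderiv ℝ (fun q => g q (Complex.I • u) w) (f z) v
        + fderiv ℝ (fun q => g q (Complex.I • u) v) (f z) w = 0) (u v w : E) :
    fderiv ℝ (fun q => g (f q) (fderiv ℂ f q (Complex.I • v)) (fderiv ℂ f q w)) z u
      - fderiv ℝ (fun q => g (f q) (fderiv ℂ f q (Complex.I • u)) (fderiv ℂ f q w)) z v
      + fderiv ℝ (fun q => g (f q) (fderiv ℂ f q (Complex.I • u)) (fderiv ℂ f q v)) z w = 0 := by
  have key : ∀ a b c : F, fderiv ℝ (fun q => g q a b) (f z) c = fderiv ℝ g (f z) c a b := by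
    intro a b c
    have h1 : HasFDerivAt (fun q => g q a) _ (f z) :=
      hg.hasFDerivAt.clm_apply (hasFDerivAt_const a (f z))
    have h2 := h1.clm_apply (hasFDerivAt_const b (f z))
    rw [h2.fderiv]
    simp
  have hcl' := hcl (fderiv ℂ f z u) (fderiv ℂ f z v) (fderiv ℂ f z w)
  rw [key, key, key] at hcl'
  rw [(hasFDerivAt_pull g f z hf hg _ _ _).2, (hasFDerivAt_pull g f z hf hg _ _ _).2,
    (hasFDerivAt_pull g f z hf hg _ _ _).2]
  simp only [map_smul]
  have e1 := hs (fderiv ℂ (fun q => fderiv ℂ f q) z u v) (fderiv ℂ f z w)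
  have e2 := hs (fderiv ℂ (fun q => fderiv ℂ f q) z u w) (fderiv ℂ f z v)
  have e3 := hs (fderiv ℂ (fun q => fderiv ℂ f q) z v w) (fderiv ℂ f z u)
  rw [fderiv2_symm f z hf w u, fderiv2_symm f z hf w v, fderiv2_symm f z hf v u]
  linarith [hcl', e1, e2, e3]

/-- smoothness of the coefficients of the pulled back form -/
lemma contDiffAt_pull {n : WithTop ℕ∞} (g : F → (F →L[ℝ] F →L[ℝ] ℝ)) (f : E → F) (z : E)
    (hf : AnalyticAt ℂ f z) (hg : ContDiffAt ℝ n g (f z)) (v w : E) :
    ContDiffAt ℝ n (fun q => g (f q) (fderiv ℂ f q v) (fderiv ℂ f q w)) z := by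
  have h1 : ContDiffAt ℝ n f z := (hf.contDiffAt (n := n)).restrict_scalars ℝ
  have h2 : ContDiffAt ℝ n (fun q => fderiv ℂ f q) z :=
    (hf.fderiv.contDiffAt (n := n)).restrict_scalars ℝ
  have h3 : ∀ v : E, ContDiffAt ℝ n (fun q => fderiv ℂ f q v) z := by
    intro v
    exact (((ContinuousLinearMap.apply ℂ F v).restrictScalars ℝ).contDiff.contDiffAt).comp z h2
  exact ((hg.comp z h1).clm_apply (h3 v)).clm_apply (h3 w)

lemma contDiff_flip {n : WithTop ℕ∞} (V W : Type*) [NormedAddCommGroup V] [NormedSpace ℝ V]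
    [NormedAddCommGroup W] [NormedSpace ℝ W] :
    ContDiff ℝ n (fun B : V →L[ℝ] W →L[ℝ] ℝ => B.flip) := by
  have h : IsBoundedLinearMap ℝ (fun B : V →L[ℝ] W →L[ℝ] ℝ => B.flip) :=
    ⟨⟨fun a b => by ext; rfl, fun c a => by ext; rfl⟩, 1, one_pos, fun B => by
      rw [one_mul]; exact (ContinuousLinearMap.opNorm_flip B).le⟩
  exact h.contDiff

/-- smoothness of the pulled back form as a bilinear map -/
lemma contDiffAt_pull_clm {n : WithTop ℕ∞} (g : F → (F →L[ℝ] F →L[ℝ] ℝ))
    (f : E → F) (z : E) (hf : AnalyticAt ℂ f z) (hg : ContDiffAt ℝ n g (f z)) :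
    ContDiffAt ℝ n (fun q => (((g (f q)).comp ((fderiv ℂ f q).restrictScalars ℝ)).flip.comp
      ((fderiv ℂ f q).restrictScalars ℝ)).flip) z := by
  have h1 : ContDiffAt ℝ n f z := (hf.contDiffAt (n := n)).restrict_scalars ℝ
  have h2 : ContDiffAt ℝ n (fun q => (fderiv ℂ f q).restrictScalars ℝ) z :=
    ((ContinuousLinearMap.restrictScalarsL ℂ E F ℝ ℝ).contDiff.contDiffAt).comp z
      ((hf.fderiv.contDiffAt (n := n)).restrict_scalars ℝ)
  have h3 : ContDiffAt ℝ n (fun q => ((g (f q)).comp ((fderiv ℂ f q).restrictScalars ℝ))) z :=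
    (hg.comp z h1).clm_comp h2
  have h4 : ContDiffAt ℝ n (fun q => ((g (f q)).comp ((fderiv ℂ f q).restrictScalars ℝ)).flip) z :=
    ContDiffAt.comp z (contDiff_flip E F).contDiffAt h3
  have h5 := h4.clm_comp h2
  exact ContDiffAt.comp z (contDiff_flip E E).contDiffAt h5

end

end Crest.Agent.R266
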