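import Crest.Agent.R266.MaxGraph

/-!
R266 / Contact: contact points of the graph function `m` with the paraboloids
`par C + Re (b t) + s` (NC block of S0405), and the lower mass bound at contact points.
-/

set_option autoImplicit false

open scoped Manifold ContDiff Topology ENNReal
open Set Metric Filter MeasureTheory

namespace Crest.Agent.R266

namespace Cont

@[simp] theorem tau_pt (t Z : ℂ) : tau (pt t Z) = t := by
  simp only [tau, pt]; ring

@[simp] theorem XX_pt (t Z : ℂ) : XX (pt t Z) = Z.re := by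
  have : (Z + t) / 2 + (Z - t) / 2 = Z := by ring
  simp only [XX, pt, this]

@[simp] theorem eta_pt (t Z : ℂ) : eta (pt t Z) = Z.im := by
  have : (Z + t) / 2 + (Z - t) / 2 = Z := by ring
  simp only [eta, pt, this]

theorem re_mul_le (b t : ℂ) : |(b * t).re| ≤ ‖b‖ * ‖t‖ := by
  rw [← norm_mul]; exact Complex.abs_re_le_norm _

end Cont

open Cont in
/-- **contact points** of the graph with the paraboloids -/
theorem contact {ε C₀ C : ℝ} {m : ℂ → ℝ → ℝ} (hC₀ : 0 ≤ C₀) (hC : C₀ < C)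
    (husc : ∀ t e, ‖t‖ < ε → |e| < ε → ∀ c, m t e < c → ∀ᶠ q : ℂ × ℝ in 𝓝 (t, e), m q.1 q.2 < c)
    (hle : ∀ t e, m t e ≤ par C₀ t e) (h0 : m 0 0 = 0) (b : ℂ) (hb : ‖b‖ < (C - C₀) * ε) :
    ∃ (p : ℂ × ℂ) (s : ℝ), ‖tau p‖ ≤ ‖b‖ / (C - C₀) ∧ |eta p| ≤ ‖b‖ / (C - C₀) ∧ 0 ≤ s ∧
      s ≤ ‖b‖ ^ 2 / (4 * (C - C₀)) ∧ XX p = m (tau p) (eta p) ∧ w_ C b s p = 0 ∧
      |XX p| ≤ (2 * C / (C - C₀) ^ 2 + 2 / (C - C₀)) * ‖b‖ ^ 2 ∧
      ∀ t e, m t e ≤ par C t e + (b * t).re + s := by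
  set D : ℝ := C - C₀ with hD
  have hD0 : 0 < D := by rw [hD]; linarith
  have hCpos : 0 < C := by linarith
  set R : ℝ := ‖b‖ / D with hR
  have hR0 : 0 ≤ R := by positivity
  have hRε : R < ε := by rw [hR, div_lt_iff₀ hD0]; linarith
  have hDR : D * R = ‖b‖ := by rw [hR]; field_simp
  -- the bound outside
  have hbd : ∀ t e, m t e - par C t e - (b * t).re ≤ -D * (‖t‖ ^ 2 + e ^ 2) + ‖b‖ * ‖t‖ := by
    intro t e
    have h1 := hle t e
    have h2 := (abs_le.1 (re_mul_le b t)).1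
    have h3 : par C₀ t e - par C t e = -D * (‖t‖ ^ 2 + e ^ 2) := by
      simp only [par, hD]; ring
    linarith
  set F : ℂ × ℝ → ℝ := fun q => m q.1 q.2 - par C q.1 q.2 - (b * q.1).re with hF
  set Kc : Set (ℂ × ℝ) := closedBall (0 : ℂ) R ×ˢ closedBall (0 : ℝ) R with hKc
  have hKcomp : IsCompact Kc := (isCompact_closedBall _ _).prod (isCompact_closedBall _ _)
  have hKne : Kc.Nonempty := ⟨(0, 0), by simp [hKc, hR0]⟩
  have hFusc : UpperSemicontinuousOn F Kc := by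
    intro q hq c hc
    have hq1 : ‖q.1‖ < ε := by
      have := (mem_closedBall_zero_iff.1 hq.1); linarith
    have hq2 : |q.2| < ε := by
      have := (mem_closedBall_zero_iff.1 hq.2)
      rw [Real.norm_eq_abs] at this; linarith
    refine Filter.Eventually.filter_mono nhdsWithin_le_nhds ?_
    set g : ℂ × ℝ → ℝ := fun q => par C q.1 q.2 + (b * q.1).re with hg
    have hgc : Continuous g := by
      rw [hg]; unfold par; fun_prop
    have hlt : m q.1 q.2 < (c + g q + m q.1 q.2) / 2 := by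
      have : m q.1 q.2 - g q < c := by
        have h1 : F q = m q.1 q.2 - g q := by simp only [hF, hg]; ring
        rw [← h1]; exact hc
      linarith
    have h1 := husc q.1 q.2 hq1 hq2 _ hlt
    have h2 : ∀ᶠ x in 𝓝 q, (g q + m q.1 q.2 - c) / 2 < g x := by
      refine hgc.continuousAt.eventually (lt_mem_nhds ?_)
      have : m q.1 q.2 - g q < c := by
        have h1 : F q = m q.1 q.2 - g q := by simp only [hF, hg]; ring
        rw [← h1]; exact hc
      linarith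
    filter_upwards [h1, h2] with x hx1 hx2
    have h3 : F x = m x.1 x.2 - g x := by simp only [hF, hg]; ring
    rw [h3]; linarith
  obtain ⟨q, hqK, hqmax⟩ := UpperSemicontinuousOn.exists_isMaxOn hKne hKcomp hFusc
  have hF0 : F (0, 0) = 0 := by simp [hF, h0, par]
  have hs0 : 0 ≤ F q := by
    rw [← hF0]
    exact hqmax (show ((0, 0) : ℂ × ℝ) ∈ Kc by simp [hKc, hR0])
  have hq1 : ‖q.1‖ ≤ R := mem_closedBall_zero_iff.1 hqK.1
  have hq2 : |q.2| ≤ R := by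
    have := mem_closedBall_zero_iff.1 hqK.2
    rwa [Real.norm_eq_abs] at this
  have hglob : ∀ t e, m t e ≤ par C t e + (b * t).re + F q := by
    intro t e
    by_cases hte : (t, e) ∈ Kc
    · have h1 : F (t, e) ≤ F q := hqmax hte
      have h2 : F (t, e) = m t e - par C t e - (b * t).re := rfl
      linarith
    · have h1 := hbd t e
      have h2 : -D * (‖t‖ ^ 2 + e ^ 2) + ‖b‖ * ‖t‖ ≤ 0 := by
        rw [← hDR]
        have h3 : R < ‖t‖ ∨ (‖t‖ ≤ R ∧ R < |e|) := by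
          by_contra hcon
          push Not at hcon
          apply hte
          refine ⟨mem_closedBall_zero_iff.2 hcon.1, mem_closedBall_zero_iff.2 ?_⟩
          rw [Real.norm_eq_abs]
          exact hcon.2 hcon.1
        rcases h3 with h3 | ⟨h3, h4⟩
        · have h5 : R * ‖t‖ ≤ ‖t‖ ^ 2 := by nlinarith [norm_nonneg t]
          have h6 : D * (R * ‖t‖) ≤ D * ‖t‖ ^ 2 := by gcongr
          nlinarith [mul_nonneg hD0.le (sq_nonneg e)]
        · have h5 : R * ‖t‖ ≤ e ^ 2 := by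
            rw [← sq_abs e]; nlinarith [norm_nonneg t]
          have h6 : D * (R * ‖t‖) ≤ D * e ^ 2 := by gcongr
          nlinarith [mul_nonneg hD0.le (sq_nonneg ‖t‖)]
      linarith
  have hsup : F q ≤ ‖b‖ ^ 2 / (4 * D) := by
    have h1 := hbd q.1 q.2
    have h2 : F q = m q.1 q.2 - par C q.1 q.2 - (b * q.1).re := rfl
    have h3 : ‖b‖ ^ 2 / (4 * D) - (-D * ‖q.1‖ ^ 2 + ‖b‖ * ‖q.1‖) =
        D * (‖q.1‖ - ‖b‖ / (2 * D)) ^ 2 := by
      field_simp; ring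
    have h4 : 0 ≤ D * (‖q.1‖ - ‖b‖ / (2 * D)) ^ 2 := by positivity
    have h5 : 0 ≤ D * q.2 ^ 2 := by positivity
    nlinarith
  have hmq : m q.1 q.2 = par C q.1 q.2 + (b * q.1).re + F q := by
    have h2 : F q = m q.1 q.2 - par C q.1 q.2 - (b * q.1).re := rfl
    linarith
  refine ⟨pt q.1 ⟨m q.1 q.2, q.2⟩, F q, ?_, ?_, hs0, hsup, ?_, ?_, ?_, hglob⟩
  · rw [tau_pt]; exact hq1
  · rw [eta_pt]; exact hq2
  · rw [XX_pt, tau_pt, eta_pt]
  · rw [w_, XX_pt, tau_pt, eta_pt]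
    change m q.1 q.2 - par C q.1 q.2 - (b * q.1).re - F q = 0
    linarith
  · rw [XX_pt]
    change |m q.1 q.2| ≤ _
    rw [hmq]
    have h1 : |par C q.1 q.2| ≤ C * (2 * R ^ 2) := by
      rw [par, abs_of_nonneg (by positivity)]
      have h2 : ‖q.1‖ ^ 2 ≤ R ^ 2 := by gcongr
      have h3 : q.2 ^ 2 ≤ R ^ 2 := by rw [← sq_abs]; gcongr
      have h4 : ‖q.1‖ ^ 2 + q.2 ^ 2 ≤ 2 * R ^ 2 := by linarith
      gcongr
    have h2 : |(b * q.1).re| ≤ ‖b‖ * R := (re_mul_le b q.1).trans (by gcongr)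
    have h3 : |F q| ≤ ‖b‖ ^ 2 / (4 * D) := by rw [abs_of_nonneg hs0]; exact hsup
    have h4 : C * (2 * R ^ 2) + ‖b‖ * R + ‖b‖ ^ 2 / (4 * D) ≤
        (2 * C / D ^ 2 + 2 / D) * ‖b‖ ^ 2 := by
      have h5 : (2 * C / D ^ 2 + 2 / D) * ‖b‖ ^ 2 -
          (C * (2 * R ^ 2) + ‖b‖ * R + ‖b‖ ^ 2 / (4 * D)) = 3 / 4 * ‖b‖ ^ 2 / D := by
        rw [hR]; field_simp; ring
      have h6 : 0 ≤ 3 / 4 * ‖b‖ ^ 2 / D := by positivity
      linarith
    calc |par C q.1 q.2 + (b * q.1).re + F q|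
        ≤ |par C q.1 q.2| + |(b * q.1).re| + |F q| := abs_add_three _ _ _
      _ ≤ C * (2 * R ^ 2) + ‖b‖ * R + ‖b‖ ^ 2 / (4 * D) := by gcongr
      _ ≤ _ := h4

namespace Cont

/-! ### sizes of the coordinates -/

theorem norm_tau_sub_le (z p : ℂ × ℂ) : ‖tau z - tau p‖ ≤ 2 * ‖z - p‖ := by
  have h : tau z - tau p = (z - p).1 - (z - p).2 := by
    simp only [tau, Prod.fst_sub, Prod.snd_sub]; ring
  rw [h]
  calc ‖(z - p).1 - (z - p).2‖ ≤ ‖(z - p).1‖ + ‖(z - p).2‖ := norm_sub_le _ _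
    _ ≤ ‖z - p‖ + ‖z - p‖ := add_le_add (norm_fst_le _) (norm_snd_le _)
    _ = _ := by ring

theorem abs_XX_sub_le (z p : ℂ × ℂ) : |XX z - XX p| ≤ 2 * ‖z - p‖ := by
  have h : XX z - XX p = ((z - p).1 + (z - p).2).re := by
    simp only [XX, Prod.fst_sub, Prod.snd_sub, Complex.add_re, Complex.sub_re]; ring
  rw [h]
  calc |((z - p).1 + (z - p).2).re| ≤ ‖(z - p).1 + (z - p).2‖ := Complex.abs_re_le_norm _
    _ ≤ ‖(z - p).1‖ + ‖(z - p).2‖ := norm_add_le _ _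
    _ ≤ ‖z - p‖ + ‖z - p‖ := add_le_add (norm_fst_le _) (norm_snd_le _)
    _ = _ := by ring

theorem abs_eta_sub_le (z p : ℂ × ℂ) : |eta z - eta p| ≤ 2 * ‖z - p‖ := by
  have h : eta z - eta p = ((z - p).1 + (z - p).2).im := by
    simp only [eta, Prod.fst_sub, Prod.snd_sub, Complex.add_im, Complex.sub_im]; ring
  rw [h]
  calc |((z - p).1 + (z - p).2).im| ≤ ‖(z - p).1 + (z - p).2‖ := Complex.abs_im_le_norm _
    _ ≤ ‖(z - p).1‖ + ‖(z - p).2‖ := norm_add_le _ _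
    _ ≤ ‖z - p‖ + ‖z - p‖ := add_le_add (norm_fst_le _) (norm_snd_le _)
    _ = _ := by ring

@[simp] theorem tau_zero : tau 0 = 0 := by simp [tau]
@[simp] theorem XX_zero : XX 0 = 0 := by simp [XX]
@[simp] theorem eta_zero : eta 0 = 0 := by simp [eta]
@[simp] theorem par_zero (C : ℝ) : par C 0 0 = 0 := by simp [par]

theorem continuous_par_comp (C : ℝ) : Continuous (fun z : ℂ × ℂ => par C (tau z) (eta z)) := by
  unfold par tau eta; fun_prop

theorem continuous_w_ (C : ℝ) (b : ℂ) (s : ℝ) : Continuous (w_ C b s) := by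
  unfold w_ XX par tau eta; fun_prop

end Cont

section
variable {n₁ n₂ : ℕ} {X : Type} [TopologicalSpace X]

open Cont in
/-- if `0` is irregular then the graph passes through `0` -/
theorem m_zero {A : PFol n₁ n₂ X} {ε C₀ : ℝ} {m : ℂ → ℝ → ℝ} {G G₀ : ℂ × ℂ → X} (hε : 0 < ε)
    (hM : Maxi A ε m G) (hle : ∀ t e, m t e ≤ par C₀ t e)
    (hG : ∀ z ∈ GD ε (par C₀), G z = G₀ z)
    (hirr : ¬ ∃ ρ > 0, ∃ G' : ℂ × ℂ → X, IsPC A (ball 0 ρ) G' ∧
      ∀ z ∈ ball (0 : ℂ × ℂ) ρ ∩ GD ε (par C₀), G' z = G₀ z) : m 0 0 = 0 := by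
  refine le_antisymm ((hle 0 0).trans_eq (par_zero C₀)) ?_
  by_contra hneg
  push Not at hneg
  apply hirr
  have hopen : IsOpen (GD ε m) := MaxGraph.isOpen_GD hM.usc
  have h0 : (0 : ℂ × ℂ) ∈ GD ε m := by
    refine ⟨?_, ?_, ?_, ?_⟩
    · simpa using hε
    · simpa using hε
    · simpa using hneg
    · simpa using hε
  obtain ⟨ρ, hρ, hsub⟩ := Metric.isOpen_iff.1 hopen 0 h0
  exact ⟨ρ, hρ, G, MaxGraph.isPC_mono hM.pc hsub, fun z hz => hG z hz.2⟩

theorem Cont.mem_GD_of_w {ε C : ℝ} {m : ℂ → ℝ → ℝ} {b : ℂ} {s : ℝ}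
    (hm : ∀ t e, m t e ≤ par C t e + (b * t).re + s) {z : ℂ × ℂ} (h1 : ‖tau z‖ < ε)
    (h2 : |eta z| < ε) (h3 : XX z < ε) (hw : 0 < w_ C b s z) : z ∈ GD ε m := by
  refine ⟨h1, h2, ?_, h3⟩
  have := hm (tau z) (eta z)
  have hw' : 0 < XX z - par C (tau z) (eta z) - (b * tau z).re - s := hw
  linarith

open Cont in
/-- **lower mass bound** at contact points -/
theorem lower_mass {A : PFol n₁ n₂ X} (K : KMet A) {ε C : ℝ} (hε : 0 < ε) (hCst : St_C K C)
    {m : ℂ → ℝ → ℝ} {G : ℂ × ℂ → X} (hM : Maxi A ε m G) :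
    ∃ b₁ > 0, ∃ c₁ > 0, ∃ r₁ > 0, ∀ (b : ℂ) (p : ℂ × ℂ) (s : ℝ), ‖b‖ ≤ b₁ → ‖tau p‖ ≤ b₁ →
      |eta p| ≤ b₁ → |XX p| ≤ b₁ → XX p = m (tau p) (eta p) → w_ C b s p = 0 →
      (∀ t e, m t e ≤ par C t e + (b * t).re + s) → ∀ r, 0 < r → r ≤ r₁ →
      ENNReal.ofReal (c₁ * r ^ 2) ≤
        ∫⁻ z in ball p r ∩ {z | 0 < w_ C b s z}, ENNReal.ofReal (trM K G z) := by
  obtain ⟨b₀, hb₀, c₁, hc₁, r₀, hr₀, hC⟩ := hCst
  refine ⟨min b₀ (ε / 2), by positivity, c₁, hc₁, min r₀ (ε / 8), by positivity, ?_⟩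
  intro b p s hb htp hep hXp hmp hw hm r hr hrr
  by_contra hlt
  push Not at hlt
  have hrε : r ≤ ε / 8 := hrr.trans (min_le_right _ _)
  have hpε : ‖tau p‖ ≤ ε / 2 := htp.trans (min_le_right _ _)
  have hpε' : |eta p| ≤ ε / 2 := hep.trans (min_le_right _ _)
  have hpε'' : |XX p| ≤ ε / 2 := hXp.trans (min_le_right _ _)
  have hsub : ball p r ∩ {z | 0 < w_ C b s z} ⊆ GD ε m := by
    rintro z ⟨hz, hzw⟩
    have hzp : ‖z - p‖ < r := by rwa [mem_ball, dist_eq_norm] at hz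
    refine mem_GD_of_w hm ?_ ?_ ?_ hzw
    · have h1 := norm_tau_sub_le z p
      have h2 : ‖tau z‖ ≤ ‖tau z - tau p‖ + ‖tau p‖ := by
        simpa using norm_add_le (tau z - tau p) (tau p)
      linarith
    · have h1 := abs_eta_sub_le z p
      have h2 : |eta z| ≤ |eta z - eta p| + |eta p| := by
        simpa using abs_add_le (eta z - eta p) (eta p)
      linarith
    · have h1 := (abs_le.1 (abs_XX_sub_le z p)).2
      have h2 := (abs_le.1 hpε'').2
      linarith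
  obtain ⟨ρ, hρ, G', hG', hGG⟩ := hC p b s r G (hb.trans (min_le_left _ _))
    (htp.trans (min_le_left _ _)) (hep.trans (min_le_left _ _)) hw hr
    (hrr.trans (min_le_left _ _)) (MaxGraph.isPC_mono hM.pc hsub) hlt
  have hX1 := (abs_le.1 hpε'').1
  have hX2 := (abs_le.1 hpε'').2
  refine hM.irr p (by linarith) (by linarith) hmp (by linarith) (by linarith) ?_
  obtain ⟨σ, hσ0, hσ⟩ := exists_between (show 0 < min ρ (ε / 4) by positivity)
  have hσρ : σ < ρ := hσ.trans_le (min_le_left _ _)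
  have hσε : σ < ε / 4 := hσ.trans_le (min_le_right _ _)
  refine ⟨ρ, hρ, G', hG', σ, hσ0, hσρ, by linarith, ?_⟩
  set q : ℂ × ℂ := p + (((σ / 2 : ℝ) : ℂ), ((σ / 2 : ℝ) : ℂ)) with hq
  have hqv : q = p + MaxGraph.vert σ := rfl
  have hqball : q ∈ ball p ρ := by
    rw [mem_ball, dist_eq_norm, hq, add_sub_cancel_left]
    have : ‖(((σ / 2 : ℝ) : ℂ), ((σ / 2 : ℝ) : ℂ))‖ = σ / 2 := by
      rw [Prod.norm_mk, Complex.norm_real, Real.norm_eq_abs, abs_of_pos (by positivity), max_self]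
    rw [this]; linarith
  have hqw : 0 < w_ C b s q := by
    have h1 : w_ C b s q = w_ C b s p + σ := by
      simp only [w_, hqv, MaxGraph.XX_add_vert, MaxGraph.tau_add_vert, MaxGraph.eta_add_vert]
      ring
    rw [h1, hw]; linarith
  filter_upwards [isOpen_ball.mem_nhds hqball,
    ((continuous_w_ C b s).continuousAt (x := q)).eventually (lt_mem_nhds hqw)] with z h1 h2
  exact hGG z h1 h2

end

end Crest.Agent.R266
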