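import Crest.Agent.R266.E0
import Crest.Agent.R266.CE

/-!
R266 / E0W: the energy density of `t ↦ G (pt t (H t))` is at most twice the trace density, hence
`St_E0` (the form used in `CE`) from the strong form `St_E0S`.
-/

set_option autoImplicit false
open scoped Manifold ContDiff Topology ENNReal Real
open Set Metric Filter MeasureTheory

namespace Crest.Agent.R266.E0

variable {n₁ n₂ : ℕ} {X : Type} [TopologicalSpace X] {A : PFol n₁ n₂ X}

lemma pt_hasFDerivAt {H : ℂ → ℂ} {t : ℂ} (hH : DifferentiableAt ℂ H t) :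
    HasDerivAt (fun s => pt s (H s)) ((deriv H t + 1) / 2, (deriv H t - 1) / 2) t := by
  have h1 : HasDerivAt (fun s => (H s + s) / 2) ((deriv H t + 1) / 2) t :=
    (hH.hasDerivAt.add (hasDerivAt_id t)).div_const 2
  have h2 : HasDerivAt (fun s => (H s - s) / 2) ((deriv H t - 1) / 2) t :=
    (hH.hasDerivAt.sub (hasDerivAt_id t)).div_const 2
  exact h1.prodMk h2

/-- the curve `t ↦ G (pt t (H t))` is holomorphic -/
lemma hol_curve {Ω : Set (ℂ × ℂ)} {G : ℂ × ℂ → X} (hG : IsPC A Ω G) {H : ℂ → ℂ} {U : Set ℂ}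
    (hU : IsOpen U) (hH : DifferentiableOn ℂ H U) (hin : ∀ t ∈ U, pt t (H t) ∈ Ω) :
    IsHolC A U (fun t => G (pt t (H t))) := by
  intro t ht
  obtain ⟨i, a, b, ha, hb, h⟩ := hG _ (hin t ht)
  have hHt : AnalyticAt ℂ H t := hH.analyticAt (hU.mem_nhds ht)
  refine ⟨i, fun s => (a ((H s + s) / 2), b ((H s - s) / 2)), ?_, ?_⟩
  · apply AnalyticAt.prod
    · refine AnalyticAt.fun_comp (g := a) (f := fun s => (H s + s) / 2) ha ?_
      exact (hHt.add analyticAt_id).div_const
    · refine AnalyticAt.fun_comp (g := b) (f := fun s => (H s - s) / 2) hb ?_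
      exact (hHt.sub analyticAt_id).div_const
  · have hc : ContinuousAt (fun s => pt s (H s)) t :=
      (pt_hasFDerivAt hHt.differentiableAt).continuousAt
    exact hc.eventually h

lemma g_smul (K : KMet A) {i : A.ι} {p : EV n₁ × EV n₂}
    (hp : p ∈ ball (0 : EV n₁) 1 ×ˢ ball (0 : EV n₂) 1) (c : ℂ) (x : EV n₁ × EV n₂) :
    K.g i p (c • x) (c • x) = ‖c‖ ^ 2 * K.g i p x x := by
  have h1 : c • x = c.re • x + c.im • (Complex.I • x) := by
    conv_lhs => rw [← Complex.re_add_im c]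
    rw [add_smul, mul_smul]
    rfl
  have h2 : K.g i p x (Complex.I • x) = 0 := by
    have h3 := K.herm i p hp x (Complex.I • x)
    rw [smul_smul, Complex.I_mul_I, neg_one_smul, map_neg, K.symm i p hp (Complex.I • x) x] at h3
    linarith
  have h3 : K.g i p (Complex.I • x) x = 0 := by rw [K.symm i p hp]; exact h2
  rw [h1]
  simp only [map_add, map_smul, ContinuousLinearMap.add_apply, ContinuousLinearMap.smul_apply,
    smul_eq_mul, h2, h3, K.herm i p hp]
  rw [← Complex.normSq_eq_norm_sq, Complex.normSq_apply]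
  ring

/-- density along a curve is bounded by twice the trace density -/
lemma dens_curve_le (K : KMet A) {Ω : Set (ℂ × ℂ)} {G : ℂ × ℂ → X} (hG : IsPC A Ω G) {H : ℂ → ℂ}
    {t : ℂ} (hH : DifferentiableAt ℂ H t) (hd : ‖deriv H t‖ ≤ 1 / 2) (hin : pt t (H t) ∈ Ω)
    (hsrc : DifferentiableAt ℂ
      (fun w => A.ch (A.idx (G (pt t (H t)))) (G w)) (pt t (H t))) :
    densM K (fun t => G (pt t (H t))) t ≤ 2 * trM K G (pt t (H t)) := by
  set z := pt t (H t) with hz
  set i := A.idx (G z) with hi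
  set F : ℂ × ℂ → EV n₁ × EV n₂ := fun w => A.ch i (G w) with hF
  have hp : A.ch i (G z) ∈ ball (0 : EV n₁) 1 ×ˢ ball (0 : EV n₂) 1 := by
    rw [← A.target_eq i]; exact (A.ch i).map_source (idx_source A _)
  set p := A.ch i (G z) with hpdef
  set L := fderiv ℂ F z with hL
  set u₁ : ℂ := (deriv H t + 1) / 2 with hu₁
  set u₂ : ℂ := (deriv H t - 1) / 2 with hu₂
  have hder : deriv (fun s => A.ch i (G (pt s (H s)))) t = L (u₁, u₂) := by
    have h1 : HasDerivAt (fun s => F (pt s (H s))) (L (u₁, u₂)) t :=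
      HasFDerivAt.comp_hasDerivAt (l := F) (f := fun s => pt s (H s)) t hsrc.hasFDerivAt
        (pt_hasFDerivAt hH)
    exact h1.deriv
  have hdens : densM K (fun t => G (pt t (H t))) t = K.g i p (L (u₁, u₂)) (L (u₁, u₂)) := by
    rw [← hder]; rfl
  have htr : trM K G z = K.g i p (L (1, 0)) (L (1, 0)) + K.g i p (L (0, 1)) (L (0, 1)) := rfl
  rw [hdens, htr]
  set x := L (1, 0) with hx
  set y := L (0, 1) with hy
  have hsplit : L (u₁, u₂) = u₁ • x + u₂ • y := by
    rw [hx, hy, ← map_smul, ← map_smul, ← map_add]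
    congr 1
    simp
  have hpsd : ∀ v, 0 ≤ K.g i p v v := by
    intro v
    by_cases h : v = 0
    · rw [h]; simp
    · exact (K.pos i p hp v h).le
  have hpar : K.g i p (u₁ • x + u₂ • y) (u₁ • x + u₂ • y) ≤
      2 * (‖u₁‖ ^ 2 * K.g i p x x) + 2 * (‖u₂‖ ^ 2 * K.g i p y y) := by
    have h1 := hpsd (u₁ • x - u₂ • y)
    rw [← g_smul K hp, ← g_smul K hp]
    simp only [map_add, map_sub, ContinuousLinearMap.add_apply,
      ContinuousLinearMap.sub_apply] at h1 ⊢
    linarith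
  rw [hsplit]
  have hu1 : ‖u₁‖ ^ 2 ≤ 1 := by
    have h1 : ‖deriv H t + 1‖ ≤ 3 / 2 := (norm_add_le _ _).trans (by rw [norm_one]; linarith)
    have h2 : ‖u₁‖ ≤ 1 := by
      rw [hu₁, norm_div, Complex.norm_ofNat]; linarith
    nlinarith [norm_nonneg u₁]
  have hu2 : ‖u₂‖ ^ 2 ≤ 1 := by
    have h1 : ‖deriv H t - 1‖ ≤ 3 / 2 := (norm_sub_le _ _).trans (by rw [norm_one]; linarith)
    have h2 : ‖u₂‖ ≤ 1 := by
      rw [hu₂, norm_div, Complex.norm_ofNat]; linarith
    nlinarith [norm_nonneg u₂]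
  have h1 : ‖u₁‖ ^ 2 * K.g i p x x ≤ K.g i p x x := by
    have := mul_le_mul_of_nonneg_right hu1 (hpsd x); linarith
  have h2 : ‖u₂‖ ^ 2 * K.g i p y y ≤ K.g i p y y := by
    have := mul_le_mul_of_nonneg_right hu2 (hpsd y); linarith
  linarith

/-- p.c. maps are differentiable in any chart -/
lemma pc_chart_differentiableAt {Ω : Set (ℂ × ℂ)} {G : ℂ × ℂ → X} (hG : IsPC A Ω G) {z : ℂ × ℂ}
    (hz : z ∈ Ω) {j : A.ι} (hj : G z ∈ (A.ch j).source) :
    DifferentiableAt ℂ (fun w => A.ch j (G w)) z := by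
  obtain ⟨i, a, b, ha, hb, h⟩ := hG z hz
  have ht' := h.self_of_nhds
  have h1 := trans_analytic A ht'.1 hj
  rw [ht'.2] at h1
  have hab : AnalyticAt ℂ (fun w : ℂ × ℂ => (a w.1, b w.2)) z := by
    apply AnalyticAt.prod
    · exact AnalyticAt.fun_comp (g := a) (f := Prod.fst) ha analyticAt_fst
    · exact AnalyticAt.fun_comp (g := b) (f := Prod.snd) hb analyticAt_snd
  have h2 : AnalyticAt ℂ (fun w : ℂ × ℂ => A.ch j ((A.ch i).symm (a w.1, b w.2))) z :=
    AnalyticAt.fun_comp (g := fun p => A.ch j ((A.ch i).symm p))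
      (f := fun w : ℂ × ℂ => (a w.1, b w.2)) h1 hab
  refine (h2.congr (h.mono fun w hw => ?_)).differentiableAt
  simp only [← hw.2, (A.ch i).left_inv hw.1]

/-- **St_E0** -/
theorem E0_of_E0S (K : KMet A) (h : St_E0S K) : St_E0 K := by
  obtain ⟨a₁, ha₁, h⟩ := h 1 one_pos
  refine ⟨a₁ / 2, by positivity, fun Ω G H t₀ r hr hΩ hG hH hd hin hA => ?_⟩
  have hf := hol_curve hG isOpen_ball hH hin
  have hle : (∫⁻ t in ball t₀ r, ENNReal.ofReal (densM K (fun t => G (pt t (H t))) t)) ≤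
      ENNReal.ofReal a₁ := by
    calc (∫⁻ t in ball t₀ r, ENNReal.ofReal (densM K (fun t => G (pt t (H t))) t))
        ≤ ∫⁻ t in ball t₀ r, ENNReal.ofReal 2 * ENNReal.ofReal (trM K G (pt t (H t))) := by
          apply setLIntegral_mono' measurableSet_ball
          intro t ht
          rw [← ENNReal.ofReal_mul (by norm_num)]
          apply ENNReal.ofReal_le_ofReal
          exact dens_curve_le K hG ((hH t ht).differentiableAt (isOpen_ball.mem_nhds ht))
            (hd t ht) (hin t ht) (pc_chart_differentiableAt hG (hin t ht) (idx_source A _))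
      _ = ENNReal.ofReal 2 * ∫⁻ t in ball t₀ r, ENNReal.ofReal (trM K G (pt t (H t))) :=
          lintegral_const_mul' _ _ ENNReal.ofReal_ne_top
      _ ≤ ENNReal.ofReal 2 * ENNReal.ofReal (a₁ / 2) := by gcongr
      _ = ENNReal.ofReal a₁ := by
          rw [← ENNReal.ofReal_mul (by norm_num)]; congr 1; ring
  have hidx := idx_norm A (G (pt t₀ (H t₀)))
  rw [Prod.norm_def, max_lt_iff] at hidx
  refine ⟨A.idx (G (pt t₀ (H t₀))), fun t ht => ?_⟩
  exact (h (fun t => G (pt t (H t))) t₀ r hr hf hle _ (idx_source A _)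
    ⟨by rw [mem_ball_zero_iff]; linarith [hidx.1], by rw [mem_ball_zero_iff]; linarith [hidx.2]⟩
    t ht).1

/-- **St_E0** -/
theorem E0_holds [T2Space X] [Finite A.ι] (K : KMet A) : St_E0 K := E0_of_E0S K (E0S_holds K)

end Crest.Agent.R266.E0
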