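import Crest.Agent.R266.Stmts

/-!
R266 / LemC: the density lemma `St_C` from the curve extension `St_CE` (average over the family of
parallel discs `t ↦ pt t (Z_p + (b + 2 C conj τ_p)(t - τ_p) + ζ)`).
-/

set_option autoImplicit false

open scoped Manifold ContDiff Topology ENNReal
open Set Metric Filter MeasureTheory

namespace Crest.Agent.R266

/-- `pt` as a real linear equivalence -/
noncomputable def ptE : (ℂ × ℂ) ≃L[ℝ] (ℂ × ℂ) :=
  ({ toFun := fun q => pt q.1 q.2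
     invFun := fun z => (tau z, z.1 + z.2)
     left_inv := by
       intro q
       apply Prod.ext <;> simp [pt, tau] <;> ring
     right_inv := by
       intro z
       apply Prod.ext <;> simp [pt, tau]
     map_add' := by
       intro q q'
       apply Prod.ext <;> simp [pt] <;> ring
     map_smul' := by
       intro c q
       apply Prod.ext <;> simp [pt] <;> ring } : (ℂ × ℂ) ≃ₗ[ℝ] (ℂ × ℂ)).toContinuousLinearEquiv

theorem ptE_apply (q : ℂ × ℂ) : ptE q = pt q.1 q.2 := rfl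

theorem lintegral_pt : ∃ c : ℝ≥0∞, c ≠ ⊤ ∧ ∀ f : ℂ × ℂ → ℝ≥0∞, Measurable f →
    ∫⁻ q : ℂ × ℂ, f (pt q.1 q.2) = c * ∫⁻ z, f z := by
  have hvol : Measure.IsAddHaarMeasure (volume : Measure (ℂ × ℂ)) := by
    rw [Measure.volume_eq_prod]; infer_instance
  have hdet : LinearMap.det ((ptE : (ℂ × ℂ) ≃ₗ[ℝ] (ℂ × ℂ)) : (ℂ × ℂ) →ₗ[ℝ] (ℂ × ℂ)) ≠ 0 :=
    (LinearEquiv.isUnit_det' _).ne_zero
  obtain ⟨c, hc, h⟩ : ∃ c : ℝ≥0∞, c ≠ ⊤ ∧
      Measure.map ptE (volume : Measure (ℂ × ℂ)) = c • (volume : Measure (ℂ × ℂ)) :=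
    ⟨_, ENNReal.ofReal_ne_top,
      Measure.map_linearMap_addHaar_eq_smul_addHaar (volume : Measure (ℂ × ℂ)) hdet⟩
  refine ⟨c, hc, fun f hf => ?_⟩
  have h1 : ∫⁻ z, f z ∂(Measure.map ptE (volume : Measure (ℂ × ℂ))) = ∫⁻ q : ℂ × ℂ, f (ptE q) :=
    lintegral_map hf ptE.continuous.measurable
  rw [h, lintegral_smul_measure] at h1
  exact h1.symm

theorem convex_w {C : ℝ} (hC : 0 ≤ C) (b : ℂ) (s : ℝ) : Convex ℝ {z : ℂ × ℂ | 0 < w_ C b s z} := by
  intro z hz z' hz' α β hα hβ hαβ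
  simp only [mem_ofPred_eq, w_, XX, par, tau, eta] at *
  have e1 : ∀ u : ℂ, ‖u‖ ^ 2 = u.re ^ 2 + u.im ^ 2 := fun u => by
    rw [Complex.sq_norm, Complex.normSq_apply]; ring
  rw [e1] at *
  have hβ' : β = 1 - α := by linarith
  subst hβ'
  simp only [Prod.fst_add, Prod.snd_add, Prod.smul_fst, Prod.smul_snd, Complex.add_re,
    Complex.sub_re, Complex.sub_im, Complex.add_im, Complex.mul_re, Complex.real_smul,
    Complex.mul_im, Complex.ofReal_re, Complex.ofReal_im, zero_mul, sub_zero, add_zero] at *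
  set x1 := z.1.re
  set x2 := z.1.im
  set y1 := z.2.re
  set y2 := z.2.im
  set x1' := z'.1.re
  set x2' := z'.1.im
  set y1' := z'.2.re
  set y2' := z'.2.im
  have h3 : 0 < α * ((x1 + y1) - C * ((x1 - y1) ^ 2 + (x2 - y2) ^ 2 + (x2 + y2) ^ 2)
      - (b.re * (x1 - y1) - b.im * (x2 - y2)) - s)
      + (1 - α) * ((x1' + y1') - C * ((x1' - y1') ^ 2 + (x2' - y2') ^ 2 + (x2' + y2') ^ 2)
      - (b.re * (x1' - y1') - b.im * (x2' - y2')) - s) := by
    rcases hα.eq_or_lt with h | h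
    · rw [← h]; simpa using hz'
    · have := mul_pos h hz
      have := mul_nonneg hβ hz'.le
      linarith
  have h4 : 0 ≤ C * (α * (1 - α) * (((x1 - y1) - (x1' - y1')) ^ 2 + ((x2 - y2) - (x2' - y2')) ^ 2
      + ((x2 + y2) - (x2' + y2')) ^ 2)) := by
    apply mul_nonneg hC
    apply mul_nonneg (mul_nonneg hα hβ)
    positivity
  nlinarith [h3, h4]

/-- the value of `w_` on the parallel discs -/
theorem w_disc {C : ℝ} {b : ℂ} {s : ℝ} {p : ℂ × ℂ} (hp : w_ C b s p = 0) (t ζ : ℂ) :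
    w_ C b s (pt t (p.1 + p.2 + (b + 2 * C * (starRingEnd ℂ) (tau p)) * (t - tau p) + ζ)) =
      ζ.re - C * ‖t - tau p‖ ^ 2 -
        C * (2 * eta p * ((b + 2 * C * (starRingEnd ℂ) (tau p)) * (t - tau p) + ζ).im
          + (((b + 2 * C * (starRingEnd ℂ) (tau p)) * (t - tau p) + ζ).im) ^ 2) := by
  have e1 : ∀ u : ℂ, ‖u‖ ^ 2 = u.re ^ 2 + u.im ^ 2 := fun u => by
    rw [Complex.sq_norm, Complex.normSq_apply]; ring
  have ht : ∀ t Z : ℂ, tau (pt t Z) = t := fun t Z => by simp [tau, pt]; ring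
  have hx : ∀ t Z : ℂ, XX (pt t Z) = Z.re := fun t Z => by
    have : (pt t Z).1 + (pt t Z).2 = Z := by simp [pt]; ring
    simp only [XX, this]
  have he : ∀ t Z : ℂ, eta (pt t Z) = Z.im := fun t Z => by
    have : (pt t Z).1 + (pt t Z).2 = Z := by simp [pt]; ring
    simp only [eta, this]
  have hs : s = XX p - par C (tau p) (eta p) - (b * tau p).re := by
    simp only [w_] at hp; linarith
  rw [hs]
  simp only [w_, ht, hx, he, par, e1]
  simp only [XX, eta]
  set τ := tau p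
  set Z := p.1 + p.2
  simp only [Complex.add_re, Complex.add_im, Complex.mul_re, Complex.mul_im, Complex.sub_re,
    Complex.sub_im, Complex.conj_re, Complex.conj_im, Complex.ofReal_re, Complex.ofReal_im,
    Complex.re_ofNat, Complex.im_ofNat]
  ring

theorem dist_disc (p : ℂ × ℂ) (t δ : ℂ) :
    dist (pt t (p.1 + p.2 + δ)) p ≤ (‖δ‖ + ‖t - tau p‖) / 2 := by
  have h : pt t (p.1 + p.2 + δ) - p = ((δ + (t - tau p)) / 2, (δ - (t - tau p)) / 2) := by
    apply Prod.ext <;> simp [pt, tau] <;> ring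
  rw [dist_eq_norm, h, Prod.norm_def]
  have h2 : ‖(2 : ℂ)‖ = 2 := by simp
  apply max_le
  · simp only [norm_div, h2]
    have := norm_add_le δ (t - tau p)
    linarith
  · simp only [norm_div, h2]
    have := norm_sub_le δ (t - tau p)
    linarith

theorem continuous_w (C : ℝ) (b : ℂ) (s : ℝ) : Continuous (w_ C b s) := by
  have h : w_ C b s = fun z : ℂ × ℂ => (z.1 + z.2).re -
    C * (‖z.1 - z.2‖ ^ 2 + ((z.1 + z.2).im) ^ 2) - (b * (z.1 - z.2)).re - s := by
    funext z; rfl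
  rw [h]
  have h1 : Continuous fun z : ℂ × ℂ => (z.1 + z.2).re :=
    Complex.continuous_re.comp (continuous_fst.add continuous_snd)
  have h2 : Continuous fun z : ℂ × ℂ => (z.1 + z.2).im :=
    Complex.continuous_im.comp (continuous_fst.add continuous_snd)
  have h3 : Continuous fun z : ℂ × ℂ => (b * (z.1 - z.2)).re :=
    Complex.continuous_re.comp (continuous_const.mul (continuous_fst.sub continuous_snd))
  have h4 : Continuous fun z : ℂ × ℂ => ‖z.1 - z.2‖ := (continuous_fst.sub continuous_snd).norm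
  exact ((h1.sub (continuous_const.mul ((h4.pow 2).add (h2.pow 2)))).sub h3).sub continuous_const

section
variable {n₁ n₂ : ℕ} {X : Type} [TopologicalSpace X]

/-- averaging over the family of parallel discs -/
theorem avg_disc {c : ℝ≥0∞} (hpt : ∀ f : ℂ × ℂ → ℝ≥0∞, Measurable f →
    ∫⁻ q : ℂ × ℂ, f (pt q.1 q.2) = c * ∫⁻ z, f z) {F : ℂ × ℂ → ℝ≥0∞} (hF : Measurable F)
    (D B : Set ℂ) (hB : MeasurableSet B) (φ : ℂ → ℂ) (hφ : Continuous φ)
    (a : ℝ≥0∞) (h : ∀ ζ ∈ B, a ≤ ∫⁻ t in D, F (pt t (φ t + ζ))) :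
    a * volume B ≤ c * ∫⁻ z, F z := by
  have hc : Continuous fun q : ℂ × ℂ => pt q.1 (φ q.1 + q.2) := by
    have h1 : Continuous fun q : ℂ × ℂ => φ q.1 := hφ.comp continuous_fst
    exact (((h1.add continuous_snd).add continuous_fst).div_const 2).prodMk
      (((h1.add continuous_snd).sub continuous_fst).div_const 2)
  have hm : Measurable fun q : ℂ × ℂ => F (pt q.1 (φ q.1 + q.2)) := hF.comp hc.measurable
  have hp : Measurable fun q : ℂ × ℂ => F (pt q.1 q.2) := by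
    have : Continuous fun q : ℂ × ℂ => pt q.1 q.2 := ptE.continuous
    exact hF.comp this.measurable
  calc a * volume B = ∫⁻ _ in B, a := (setLIntegral_const B a).symm
    _ ≤ ∫⁻ ζ in B, ∫⁻ t in D, F (pt t (φ t + ζ)) := setLIntegral_mono' hB h
    _ ≤ ∫⁻ ζ, ∫⁻ t in D, F (pt t (φ t + ζ)) := setLIntegral_le_lintegral _ _
    _ ≤ ∫⁻ ζ, ∫⁻ t, F (pt t (φ t + ζ)) :=
        lintegral_mono fun ζ => setLIntegral_le_lintegral _ _
    _ = ∫⁻ t, ∫⁻ ζ, F (pt t (φ t + ζ)) := by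
        rw [lintegral_lintegral_swap]
        exact (hm.comp measurable_swap).aemeasurable
    _ = ∫⁻ t, ∫⁻ Z, F (pt t Z) := by
        congr 1
        funext t
        exact lintegral_add_left_eq_self (fun Z => F (pt t Z)) (φ t)
    _ = ∫⁻ q : ℂ × ℂ, F (pt q.1 q.2) := by
        rw [Measure.volume_eq_prod, lintegral_prod _ hp.aemeasurable]
    _ = c * ∫⁻ z, F z := hpt F hF

theorem measurable_ind {A : PFol n₁ n₂ X} {K : KMet A} (hP : St_pull K) {Ω : Set (ℂ × ℂ)}
    {G : ℂ × ℂ → X} (hΩ : IsOpen Ω) (hG : IsPC A Ω G) :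
    Measurable (Ω.indicator fun z => ENNReal.ofReal (trM K G z)) := by
  classical
  have h := hP Ω G hΩ hG
  have h1 : ContinuousOn (fun z => ENNReal.ofReal (trM K G z)) Ω := by
    refine ENNReal.continuous_ofReal.comp_continuousOn ?_
    exact (h.smooth (1, 0) (1, 0)).continuousOn.add (h.smooth (0, 1) (0, 1)).continuousOn
  rw [← Set.piecewise_eq_indicator]
  exact ContinuousOn.measurable_piecewise h1 continuousOn_const hΩ.measurableSet

theorem St_C_holds {A : PFol n₁ n₂ X} (K : KMet A) (hCE : St_CE K) (hU : St_unique A)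
    (hP : St_pull K) {C : ℝ} (hC : 0 ≤ C) : St_C K C := by
  obtain ⟨a₀, ha₀, hCE⟩ := hCE
  obtain ⟨c, hc, hpt⟩ := lintegral_pt
  have hb0 : (0 : ℝ) < 1 / (1024 * (C + 1)) := by positivity
  have hct : (0 : ℝ) ≤ c.toReal := ENNReal.toReal_nonneg
  refine ⟨1 / (1024 * (C + 1)), hb0, a₀ / 128 ^ 2 / (c.toReal + 1), by positivity,
    1 / (1024 * (C + 1)), hb0, ?_⟩
  intro p b s r G hb hτ hη hw hr hr₁ hG hint
  set b₀ : ℝ := 1 / (1024 * (C + 1)) with hb₀
  have hCb : (C + 1) * b₀ = 1 / 1024 := by rw [hb₀]; field_simp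
  set Ω : Set (ℂ × ℂ) := ball p r ∩ {z | 0 < w_ C b s z} with hΩdef
  have hΩ : IsOpen Ω := isOpen_ball.inter (isOpen_lt continuous_const (continuous_w C b s))
  have hF := measurable_ind hP hΩ hG
  set L : ℂ := b + 2 * C * (starRingEnd ℂ) (tau p) with hLdef
  have hL : ‖L‖ ≤ 1 / 256 := by
    have h1 : ‖L‖ ≤ ‖b‖ + 2 * C * ‖tau p‖ := by
      refine (norm_add_le _ _).trans ?_
      simp [abs_of_nonneg hC]
    have h2 : 2 * C * ‖tau p‖ ≤ 2 * C * b₀ := by gcongr
    nlinarith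
  have hdelta : ∀ ζ ∈ ball ((r / 64 : ℝ) : ℂ) (r / 128), ∀ t ∈ ball (tau p) r,
      ‖L * (t - tau p) + ζ‖ ≤ 1 / 16 * r ∧ r / 128 < ζ.re := by
    intro ζ hζ t ht
    rw [mem_ball, dist_eq_norm] at hζ ht
    have h1 : ‖ζ‖ ≤ r / 64 + r / 128 := by
      have h2 : ‖ζ‖ ≤ ‖ζ - ((r / 64 : ℝ) : ℂ)‖ + ‖((r / 64 : ℝ) : ℂ)‖ := by
        simpa using norm_add_le (ζ - ((r / 64 : ℝ) : ℂ)) ((r / 64 : ℝ) : ℂ)
      have h3 : ‖((r / 64 : ℝ) : ℂ)‖ = r / 64 := by
        rw [Complex.norm_real, Real.norm_eq_abs, abs_of_pos (by positivity)]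
      linarith
    constructor
    · have h2 : ‖L * (t - tau p)‖ ≤ 1 / 256 * r := by
        rw [norm_mul]
        exact mul_le_mul hL ht.le (norm_nonneg _) (by norm_num)
      have := norm_add_le (L * (t - tau p)) ζ
      linarith
    · have h2 := Complex.abs_re_le_norm (ζ - ((r / 64 : ℝ) : ℂ))
      rw [Complex.sub_re, Complex.ofReal_re] at h2
      have h3 := (abs_lt.1 (h2.trans_lt hζ)).1
      linarith
  have hmem : ∀ ζ ∈ ball ((r / 64 : ℝ) : ℂ) (r / 128), ∀ t ∈ ball (tau p) r,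
      pt t (p.1 + p.2 + L * (t - tau p) + ζ) ∈ Ω := by
    intro ζ hζ t ht
    obtain ⟨h1, h2⟩ := hdelta ζ hζ t ht
    have ht' : ‖t - tau p‖ < r := by rwa [mem_ball, dist_eq_norm] at ht
    refine ⟨?_, ?_⟩
    · rw [mem_ball]
      have h3 := dist_disc p t (L * (t - tau p) + ζ)
      rw [← add_assoc] at h3
      linarith
    · show 0 < w_ C b s _
      rw [w_disc hw]
      set δ := (L * (t - tau p) + ζ).im with hδ
      have h4 : |δ| ≤ 1 / 16 * r := (Complex.abs_im_le_norm _).trans h1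
      have h5 : C * ‖t - tau p‖ ^ 2 ≤ C * r ^ 2 := by gcongr
      have h6 : 2 * eta p * δ + δ ^ 2 ≤ b₀ * r + r ^ 2 := by
        have h7 : |eta p * δ| ≤ b₀ * (1 / 16 * r) := by
          rw [abs_mul]; exact mul_le_mul hη h4 (abs_nonneg _) hb0.le
        have h8 : δ ^ 2 ≤ (1 / 16 * r) ^ 2 := sq_le_sq' (abs_le.1 h4).1 (abs_le.1 h4).2
        have h9 := le_abs_self (eta p * δ)
        have h10 : 0 ≤ b₀ * r := by positivity
        nlinarith [sq_nonneg r]
      have h11 : C * (2 * eta p * δ + δ ^ 2) ≤ C * (b₀ * r + r ^ 2) := by gcongr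
      have h12 : C * r ^ 2 ≤ C * (b₀ * r) := by
        have : r ^ 2 ≤ b₀ * r := by nlinarith
        gcongr
      have h13 : C * (b₀ * r) ≤ 1 / 1024 * r := by
        have : C * b₀ ≤ 1 / 1024 := by linarith
        nlinarith
      nlinarith
  have hex : ∃ ζ ∈ ball ((r / 64 : ℝ) : ℂ) (r / 128),
      ∫⁻ t in ball (tau p) r, ENNReal.ofReal (trM K G (pt t (p.1 + p.2 + L * (t - tau p) + ζ)))
        ≤ ENNReal.ofReal a₀ := by
    by_contra hcon
    push Not at hcon
    have h1 := avg_disc hpt hF (ball (tau p) r) (ball ((r / 64 : ℝ) : ℂ) (r / 128))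
      measurableSet_ball (fun t => p.1 + p.2 + L * (t - tau p))
      (by fun_prop) (ENNReal.ofReal a₀) (by
        intro ζ hζ
        refine (hcon ζ hζ).le.trans (le_of_eq ?_)
        refine setLIntegral_congr_fun measurableSet_ball ?_
        intro t ht
        simp only [indicator_of_mem (hmem ζ hζ t ht)])
    rw [lintegral_indicator hΩ.measurableSet, Complex.volume_ball] at h1
    have h2 : c * ∫⁻ z in Ω, ENNReal.ofReal (trM K G z) ≤
        ENNReal.ofReal (c.toReal * (a₀ / 128 ^ 2 / (c.toReal + 1) * r ^ 2)) := by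
      rw [ENNReal.ofReal_mul hct, ENNReal.ofReal_toReal hc]
      gcongr
    have h3 : ENNReal.ofReal a₀ * (ENNReal.ofReal (r / 128) ^ 2 * (NNReal.pi : ℝ≥0∞)) =
        ENNReal.ofReal (a₀ * ((r / 128) ^ 2 * Real.pi)) := by
      rw [ENNReal.ofReal_mul ha₀.le, ENNReal.ofReal_mul (by positivity), ENNReal.ofReal_pow
        (by positivity)]
      congr 2
      rw [← NNReal.coe_real_pi, ENNReal.ofReal_coe_nnreal]
    rw [h3] at h1
    have h4 := h1.trans h2
    rw [ENNReal.ofReal_le_ofReal_iff (by positivity)] at h4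
    have h5 : c.toReal * (a₀ / 128 ^ 2 / (c.toReal + 1) * r ^ 2) ≤ a₀ / 128 ^ 2 * r ^ 2 := by
      have h6 : c.toReal / (c.toReal + 1) ≤ 1 := by
        rw [div_le_one (by positivity)]; linarith
      have h7 : c.toReal * (a₀ / 128 ^ 2 / (c.toReal + 1) * r ^ 2) =
        c.toReal / (c.toReal + 1) * (a₀ / 128 ^ 2 * r ^ 2) := by ring
      rw [h7]
      have h8 : 0 ≤ a₀ / 128 ^ 2 * r ^ 2 := by positivity
      nlinarith
    have h6 : 0 < a₀ / 128 ^ 2 * r ^ 2 := by positivity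
    have h7 : a₀ * ((r / 128) ^ 2 * Real.pi) = a₀ / 128 ^ 2 * r ^ 2 * Real.pi := by ring
    rw [h7] at h4
    nlinarith [Real.pi_gt_three]
  obtain ⟨ζ, hζ, hle⟩ := hex
  obtain ⟨G', hG', heq⟩ := hCE Ω G (fun t => p.1 + p.2 + L * (t - tau p) + ζ) (tau p) r hr hΩ hG
    (by fun_prop) (by
      intro t _
      have : deriv (fun t => p.1 + p.2 + L * (t - tau p) + ζ) t = L := by
        have h1 : HasDerivAt (fun t => p.1 + p.2 + L * (t - tau p) + ζ) (L * 1) t :=
          ((((hasDerivAt_id t).sub_const (tau p)).const_mul L).const_add (p.1 + p.2)).add_const ζ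
        rw [h1.deriv, mul_one]
      rw [this]
      linarith) (hmem ζ hζ) hle
  set q : ℂ × ℂ := pt (tau p) (p.1 + p.2 + L * (tau p - tau p) + ζ) with hq
  have hqp : dist q p ≤ 3 / 256 * r := by
    have h1 := dist_disc p (tau p) (L * (tau p - tau p) + ζ)
    rw [← add_assoc] at h1
    rw [mem_ball, dist_eq_norm] at hζ
    have h2 : ‖ζ‖ ≤ ‖ζ - ((r / 64 : ℝ) : ℂ)‖ + ‖((r / 64 : ℝ) : ℂ)‖ := by
      simpa using norm_add_le (ζ - ((r / 64 : ℝ) : ℂ)) ((r / 64 : ℝ) : ℂ)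
    have h3 : ‖((r / 64 : ℝ) : ℂ)‖ = r / 64 := by
      rw [Complex.norm_real, Real.norm_eq_abs, abs_of_pos (by positivity)]
    have h4 : ‖L * (tau p - tau p) + ζ‖ = ‖ζ‖ := by simp
    have h5 : ‖tau p - tau p‖ = 0 := by simp
    rw [h4, h5] at h1
    linarith
  refine ⟨5 / 256 * r, by positivity, G', fun z hz => hG' z ?_, ?_⟩
  · rw [mem_ball] at hz ⊢
    have := dist_triangle z p q
    rw [dist_comm p q] at this
    linarith
  · intro z hz hwz
    rw [mem_ball] at hz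
    have hqΩ : q ∈ Ω := hmem ζ hζ (tau p) (mem_ball_self hr)
    have hconv : Convex ℝ (ball q (r / 32) ∩ Ω) :=
      (convex_ball _ _).inter ((convex_ball _ _).inter (convex_w hC b s))
    refine hU (ball q (r / 32) ∩ Ω) G' G (isOpen_ball.inter hΩ) hconv.isPreconnected
      (fun z hz => hG' z hz.1) (fun z hz => hG z hz.2)
      ⟨q, ⟨mem_ball_self (by positivity), hqΩ⟩, heq⟩ z ⟨?_, ?_, hwz⟩
    · rw [mem_ball]
      have := dist_triangle z p q
      rw [dist_comm p q] at this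
      linarith
    · rw [mem_ball]; linarith

end

end Crest.Agent.R266
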