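import Crest.Agent.R266.DStmts

/-!
R266 / LemD: the disc lemma `St_D` from `St_unique`, `St_pull`, `St_CE`, `St_area`, `St_punct`.
-/

set_option autoImplicit false

open scoped Manifold ContDiff Topology ENNReal
open Set Metric Filter MeasureTheory

namespace Crest.Agent.R266.LemD

open Crest.Agent.R266

/-! ### coordinates -/

lemma pt_fst_add_snd (t Z : ℂ) : (pt t Z).1 + (pt t Z).2 = Z := by
  simp only [pt]; ring

lemma tau_pt (t Z : ℂ) : tau (pt t Z) = t := by
  simp only [tau, pt]; ring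

lemma XX_pt (t Z : ℂ) : XX (pt t Z) = Z.re := by
  rw [XX, pt_fst_add_snd]

lemma eta_pt (t Z : ℂ) : eta (pt t Z) = Z.im := by
  rw [eta, pt_fst_add_snd]

lemma pt_add_real (t Z : ℂ) (s : ℝ) :
    pt t (Z + s) = pt t Z + (((s / 2 : ℝ) : ℂ), ((s / 2 : ℝ) : ℂ)) := by
  refine Prod.ext ?_ ?_
  · simp only [pt, Prod.fst_add]; push_cast; ring
  · simp only [pt, Prod.snd_add]; push_cast; ring

lemma continuous_pt : Continuous (fun q : ℂ × ℂ => pt q.1 q.2) := by
  unfold pt; fun_prop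

lemma continuous_tau : Continuous tau := by unfold tau; fun_prop
lemma continuous_XX : Continuous XX := by
  unfold XX; exact Complex.continuous_re.comp (continuous_fst.add continuous_snd)
lemma continuous_eta : Continuous eta := by
  unfold eta; exact Complex.continuous_im.comp (continuous_fst.add continuous_snd)

section
variable {n₁ n₂ : ℕ} {X : Type} [TopologicalSpace X] {A : PFol n₁ n₂ X}

lemma IsPC.mono {Ω Ω' : Set (ℂ × ℂ)} {G : ℂ × ℂ → X} (h : IsPC A Ω G) (hs : Ω' ⊆ Ω) :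
    IsPC A Ω' G := fun z hz => h z (hs hz)

lemma isOpen_GD {ε : ℝ} {m : ℂ → ℝ → ℝ} {G : ℂ × ℂ → X} (hM : Maxi A ε m G) :
    IsOpen (GD ε m) := by
  rw [isOpen_iff_mem_nhds]
  rintro z ⟨h1, h2, h3, h4⟩
  obtain ⟨c, hc1, hc2⟩ := exists_between h3
  have hu := hM.usc (tau z) (eta z) h1 h2 c hc1
  have hcont : Tendsto (fun w : ℂ × ℂ => (tau w, eta w)) (𝓝 z) (𝓝 (tau z, eta z)) :=
    (continuous_tau.prodMk continuous_eta).continuousAt
  have e1 := hcont.eventually hu
  have e2 : ∀ᶠ w in 𝓝 z, c < XX w := continuous_XX.continuousAt.eventually (lt_mem_nhds hc2)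
  have e3 : ∀ᶠ w in 𝓝 z, XX w < ε := continuous_XX.continuousAt.eventually (gt_mem_nhds h4)
  have e4 : ∀ᶠ w in 𝓝 z, ‖tau w‖ < ε :=
    (continuous_norm.comp continuous_tau).continuousAt.eventually (gt_mem_nhds h1)
  have e5 : ∀ᶠ w in 𝓝 z, |eta w| < ε :=
    (continuous_abs.comp continuous_eta).continuousAt.eventually (gt_mem_nhds h2)
  filter_upwards [e1, e2, e3, e4, e5] with w w1 w2 w3 w4 w5
  exact ⟨w4, w5, lt_trans w1 w2, w3⟩

/-- germwise equality propagates along preconnected sets -/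
lemma agree_propagate (hU : St_unique A) {W V : Set (ℂ × ℂ)} {G G' : ℂ × ℂ → X} (hW : IsOpen W)
    (hG : IsPC A W G) (hG' : IsPC A W G') (hV : IsPreconnected V) (hVW : V ⊆ W)
    {z₀ : ℂ × ℂ} (hz₀ : z₀ ∈ V) (h₀ : G' =ᶠ[𝓝 z₀] G) : ∀ z ∈ V, G' =ᶠ[𝓝 z] G := by
  have hopen : IsOpen {z : ℂ × ℂ | G' =ᶠ[𝓝 z] G} := isOpen_setOfPred_eventually_nhds
  have hsub : V ⊆ {z : ℂ × ℂ | G' =ᶠ[𝓝 z] G} := by
    refine hV.subset_of_closure_inter_subset hopen ⟨z₀, hz₀, h₀⟩ ?_
    rintro z ⟨hzc, hzV⟩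
    obtain ⟨r, hr, hrW⟩ := Metric.isOpen_iff.1 hW z (hVW hzV)
    obtain ⟨z', hz', hd⟩ := Metric.mem_closure_iff.1 hzc r hr
    have hz'b : z' ∈ ball z r := by rw [mem_ball, dist_comm]; exact hd
    have := hU (ball z r) G' G isOpen_ball (convex_ball z r).isPreconnected (IsPC.mono hG' hrW)
      (IsPC.mono hG hrW) ⟨z', hz'b, hz'⟩
    exact Filter.eventually_of_mem (ball_mem_nhds z hr) this
  exact fun z hz => hsub hz

lemma continuousOn_trM {K : KMet A} (hP : St_pull K) {Ω : Set (ℂ × ℂ)} {G : ℂ × ℂ → X}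
    (hΩ : IsOpen Ω) (hG : IsPC A Ω G) : ContinuousOn (trM K G) Ω := by
  have hC := hP Ω G hΩ hG
  unfold trM
  exact ((hC.smooth (1, 0) (1, 0)).continuousOn).add ((hC.smooth (0, 1) (0, 1)).continuousOn)

set_option maxHeartbeats 2000000 in
/-- The disc lemma. -/
theorem st_D_of (K : KMet A) (hU : St_unique A) (hCE : St_CE K) (hP : St_pull K)
    (hA : St_area K) (hPu : St_punct K) : St_D K := by
  intro ε m G hε hM H t₀ R S hR hS hH hH' hbox hsph
  by_contra hcon
  push Not at hcon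
  obtain ⟨t', ht', hge⟩ := hcon
  set Ω := GD ε m with hΩdef
  have hΩo : IsOpen Ω := isOpen_GD hM
  have hHc : ContinuousOn H (closedBall t₀ R) := hH.continuousOn
  set f : ℂ → ℝ := fun t => m t (H t).im - (H t).re with hf
  have husc : UpperSemicontinuousOn f (closedBall t₀ R) := by
    intro t ht y hy
    obtain ⟨h1, h2, -, -, -⟩ := hbox t ht
    have hy' : m t (H t).im < y + (H t).re := by simp only [hf] at hy; linarith
    obtain ⟨c, hc1, hc2⟩ := exists_between hy'
    have hu := hM.usc t (H t).im h1 h2 c hc1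
    have hcH := hHc t ht
    have hcont : Tendsto (fun w : ℂ => (w, (H w).im)) (𝓝[closedBall t₀ R] t) (𝓝 (t, (H t).im)) :=
      (continuousWithinAt_id.prodMk
        (Complex.continuous_im.continuousAt.comp_continuousWithinAt hcH))
    have e1 := hcont.eventually hu
    have e2 : ∀ᶠ w in 𝓝[closedBall t₀ R] t, c - y < (H w).re :=
      (Complex.continuous_re.continuousAt.comp_continuousWithinAt hcH).eventually
        (lt_mem_nhds (show c - y < (H t).re by linarith))
    filter_upwards [e1, e2] with w w1 w2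
    simp only [hf]
    linarith
  obtain ⟨tm, htm, hmax⟩ := husc.exists_isMaxOn ⟨t', ht'⟩ (isCompact_closedBall t₀ R)
  set s₀ := f tm with hs₀
  have hs₀0 : 0 ≤ s₀ := le_trans (by simp only [hf]; linarith) (hmax ht')
  have hs₀S : s₀ < S := by
    have := (hbox tm htm).2.2.2.2
    simp only [hs₀, hf]; linarith
  have hfle : ∀ t ∈ closedBall t₀ R, f t ≤ s₀ := fun t ht => hmax ht
  -- discs in Ω
  have hdisc : ∀ s : ℝ, s ≤ S → ∀ t ∈ closedBall t₀ R, f t < s → pt t (H t + s) ∈ Ω := by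
    intro s hsS t ht hft
    obtain ⟨h1, h2, h3, h4, h5⟩ := hbox t ht
    refine ⟨?_, ?_, ?_, ?_⟩
    · rw [tau_pt]; exact h1
    · rw [eta_pt]; simpa using h2
    · rw [tau_pt, eta_pt, XX_pt]
      simp only [hf] at hft
      simp only [Complex.add_im, Complex.ofReal_im, add_zero, Complex.add_re, Complex.ofReal_re]
      linarith
    · rw [XX_pt]
      simp only [Complex.add_re, Complex.ofReal_re]
      linarith
  -- K0
  obtain ⟨u, hu_open, hu⟩ := (upperSemicontinuousOn_iff_preimage_Iio.1 husc) s₀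
  have hmemu : ∀ t ∈ closedBall t₀ R, (t ∈ u ↔ f t < s₀) := by
    intro t ht
    have := Set.ext_iff.1 hu t
    simp only [mem_inter_iff, mem_preimage, mem_Iio, ht, true_and] at this
    exact this.symm
  set K₀ : Set ℂ := closedBall t₀ R \ u with hK₀
  have hK₀c : IsCompact K₀ := (isCompact_closedBall t₀ R).diff hu_open
  have hK₀mem : ∀ t ∈ K₀, f t = s₀ := by
    rintro t ⟨ht, htu⟩
    refine le_antisymm (hfle t ht) ?_
    rw [hmemu t ht] at htu
    exact not_lt.1 htu
  have hK₀ne : K₀.Nonempty := ⟨tm, htm, by rw [hmemu tm htm]; exact lt_irrefl _⟩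
  obtain ⟨tx, htx, htxmax⟩ := hK₀c.exists_isMaxOn hK₀ne
    (continuous_id.dist continuous_const : Continuous fun t : ℂ => dist t t₀).continuousOn
  have htxR : dist tx t₀ < R := by
    refine lt_of_le_of_ne htx.1 ?_
    intro h
    have h1 := hsph tx (mem_sphere.2 h)
    have h2 := hK₀mem tx htx
    simp only [hf] at h2
    linarith
  set R' : ℝ := (dist tx t₀ + R) / 2 with hR'
  have hR'R : R' < R := by rw [hR']; linarith
  have hR'0 : 0 < R' := by rw [hR']; have := dist_nonneg (x := tx) (y := t₀); linarith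
  have hK₀R' : ∀ t ∈ K₀, dist t t₀ < R' := by
    intro t ht
    have : dist t t₀ ≤ dist tx t₀ := htxmax ht
    rw [hR']; linarith
  have hann : ∀ t ∈ closedBall t₀ R, R' ≤ dist t t₀ → f t < s₀ := by
    intro t ht hd
    by_contra hnot
    have : t ∈ K₀ := ⟨ht, by rw [hmemu t ht]; exact hnot⟩
    exact absurd (hK₀R' t this) (not_lt.2 hd)
  -- area bound
  obtain ⟨B, hB⟩ := hA Ω G H t₀ R' R s₀ S hR'0 hR'R hs₀S hΩo hM.pc hH hH'
    (fun s hs hsS t ht => hdisc s hsS t ht (lt_of_le_of_lt (hfle t ht) hs))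
    (fun t ht hd => hdisc s₀ hs₀S.le t ht (hann t ht hd))
  obtain ⟨a₀, ha₀, hCE⟩ := hCE
  have hballR : ball t₀ R' ⊆ closedBall t₀ R :=
    (ball_subset_ball hR'R.le).trans ball_subset_closedBall
  -- lower area bound at a contact point
  have hlow : ∀ t₁ ∈ K₀, ∀ r : ℝ, 0 < r → ball t₁ r ⊆ ball t₀ R' → ∀ σ : ℝ, s₀ < σ → σ < s₀ + r / 64 →
      σ ≤ S → ENNReal.ofReal a₀ < ∫⁻ t in ball t₁ r, ENNReal.ofReal (trM K G (pt t (H t + σ))) := by
    intro t₁ ht₁ r hr hsub σ hσ1 hσ2 hσS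
    by_contra hnot
    rw [not_lt] at hnot
    have hsubR : ball t₁ r ⊆ closedBall t₀ R := hsub.trans hballR
    have hanaσ : AnalyticOnNhd ℂ (fun t => H t + (σ : ℂ)) (ball t₁ r) := fun t ht =>
      (hH t (hsubR ht)).add analyticAt_const
    have hderiv : ∀ t ∈ ball t₁ r, ‖deriv (fun t => H t + (σ : ℂ)) t‖ ≤ 1 / 2 := by
      intro t ht
      rw [deriv_add_const]
      exact hH' t (hsubR ht)
    obtain ⟨G', hG'pc, hG'eq⟩ := hCE Ω G (fun t => H t + (σ : ℂ)) t₁ r hr hΩo hM.pc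
      hanaσ.differentiableOn hderiv
      (fun t ht => hdisc σ hσS t (hsubR ht) (lt_of_le_of_lt (hfle t (hsubR ht)) hσ1)) hnot
    have ht₁c : t₁ ∈ closedBall t₀ R := ht₁.1
    obtain ⟨h1, h2, h3, h4, h5⟩ := hbox t₁ ht₁c
    have hft₁ := hK₀mem t₁ ht₁
    have hpeq : pt t₁ (H t₁ + σ) =
        pt t₁ (H t₁ + s₀) + ((((σ - s₀) / 2 : ℝ) : ℂ), (((σ - s₀) / 2 : ℝ) : ℂ)) := by
      rw [← pt_add_real]; congr 1; push_cast; ring
    refine hM.irr (pt t₁ (H t₁ + s₀)) ?_ ?_ ?_ ?_ ?_ ⟨r / 64, by positivity, G', ?_, σ - s₀,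
      by linarith, by linarith, ?_, ?_⟩
    · rw [tau_pt]; exact h1
    · rw [eta_pt]; simpa using h2
    · rw [tau_pt, eta_pt, XX_pt]
      simp only [hf] at hft₁
      simp only [Complex.add_im, Complex.ofReal_im, add_zero, Complex.add_re, Complex.ofReal_re]
      linarith
    · rw [XX_pt]; simp only [Complex.add_re, Complex.ofReal_re]; linarith
    · rw [XX_pt]; simp only [Complex.add_re, Complex.ofReal_re]; linarith
    · refine IsPC.mono hG'pc ?_
      refine ball_subset_ball' ?_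
      have hd : dist (pt t₁ (H t₁ + s₀)) (pt t₁ (H t₁ + σ)) ≤ (σ - s₀) / 2 := by
        rw [hpeq, dist_self_add_right]
        rw [Prod.norm_def]
        refine max_le ?_ ?_ <;>
        · simp only [Complex.norm_real, Real.norm_eq_abs]
          rw [abs_of_nonneg (by linarith)]
      calc r / 64 + dist (pt t₁ (H t₁ + s₀)) (pt t₁ (H t₁ + σ)) ≤ r / 64 + (σ - s₀) / 2 := by
            linarith
        _ ≤ r / 32 := by linarith
    · rw [XX_pt]; simp only [Complex.add_re, Complex.ofReal_re]; linarith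
    · rw [← hpeq]; exact hG'eq
  -- K0 is finite
  have hK₀fin : K₀.Finite := by
    by_contra hinf
    obtain ⟨N, hN⟩ := exists_nat_gt (B / a₀)
    obtain ⟨T, hTK, hTcard⟩ := Set.Infinite.exists_subset_card_eq hinf N
    -- a small radius
    have e1 : ∀ᶠ r : ℝ in 𝓝[>] 0, ∀ a ∈ T, ∀ b ∈ T, a ≠ b → 2 * r < dist a b := by
      rw [Filter.eventually_all_finset]
      intro a ha
      rw [Filter.eventually_all_finset]
      intro b hb
      by_cases hab : a = b
      · exact Filter.Eventually.of_forall fun r h => absurd hab h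
      · have hpos : 0 < dist a b := dist_pos.2 hab
        have : ∀ᶠ r : ℝ in 𝓝 0, 2 * r < dist a b := by
          have hc : Continuous fun r : ℝ => 2 * r := by fun_prop
          have := hc.tendsto 0
          simp only [mul_zero] at this
          exact this.eventually (gt_mem_nhds hpos)
        exact (this.filter_mono nhdsWithin_le_nhds).mono fun r hr _ => hr
    have e2 : ∀ᶠ r : ℝ in 𝓝[>] 0, ∀ a ∈ T, r + dist a t₀ < R' := by
      rw [Filter.eventually_all_finset]
      intro a ha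
      have hlt : dist a t₀ < R' := hK₀R' a (hTK ha)
      have : ∀ᶠ r : ℝ in 𝓝 0, r + dist a t₀ < R' := by
        have hc : Continuous fun r : ℝ => r + dist a t₀ := by fun_prop
        have := hc.tendsto 0
        simp only [zero_add] at this
        exact this.eventually (gt_mem_nhds hlt)
      exact this.filter_mono nhdsWithin_le_nhds
    obtain ⟨r, hr1, hr2, hr0⟩ := (e1.and (e2.and self_mem_nhdsWithin)).exists
    have hr0 : 0 < r := hr0
    set σ : ℝ := min S (s₀ + r / 128) with hσ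
    have hσ1 : s₀ < σ := lt_min hs₀S (by linarith)
    have hσ2 : σ < s₀ + r / 64 := lt_of_le_of_lt (min_le_right _ _) (by linarith)
    have hσS : σ ≤ S := min_le_left _ _
    set μ := volume.restrict (ball t₀ R') with hμ
    have hsubT : ∀ a ∈ T, ball a r ⊆ ball t₀ R' := fun a ha =>
      ball_subset_ball' (hr2 a ha).le
    have hsum : ∑ a ∈ T, ∫⁻ t in ball a r, ENNReal.ofReal (trM K G (pt t (H t + σ)))
        ≤ ∫⁻ t in ball t₀ R', ENNReal.ofReal (trM K G (pt t (H t + σ))) := by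
      rw [← lintegral_biUnion_finset]
      · exact lintegral_mono_set (by
          intro t ht
          simp only [mem_iUnion] at ht
          obtain ⟨a, ha, hta⟩ := ht
          exact hsubT a ha hta)
      · intro a ha b hb hab
        refine ball_disjoint_ball ?_
        have := hr1 a ha b hb hab
        linarith
      · intro a _; exact measurableSet_ball
    have hge2 : (N : ℝ≥0∞) * ENNReal.ofReal a₀ ≤
        ∑ a ∈ T, ∫⁻ t in ball a r, ENNReal.ofReal (trM K G (pt t (H t + σ))) := by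
      rw [← hTcard, ← nsmul_eq_mul]
      refine Finset.card_nsmul_le_sum _ _ _ ?_
      intro a ha
      exact (hlow a (hTK ha) r hr0 (hsubT a ha) σ hσ1 hσ2 hσS).le
    have hfinal : (N : ℝ≥0∞) * ENNReal.ofReal a₀ ≤ ENNReal.ofReal B :=
      hge2.trans (hsum.trans (hB σ hσ1 hσS))
    rw [← ENNReal.ofReal_natCast, ← ENNReal.ofReal_mul (Nat.cast_nonneg N)] at hfinal
    have hlt : B < N * a₀ := by
      rwa [div_lt_iff₀ ha₀] at hN
    by_cases hB0 : 0 ≤ B
    · rw [ENNReal.ofReal_le_ofReal_iff hB0] at hfinal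
      linarith
    · push Not at hB0
      rw [ENNReal.ofReal_of_nonpos hB0.le] at hfinal
      have h0 : (N : ℝ) * a₀ ≤ 0 := by
        have := ENNReal.ofReal_eq_zero.1 (le_antisymm hfinal zero_le)
        exact this
      have hN0 : N ≠ 0 := by
        rintro rfl
        -- N = 0: B / a₀ < 0 ; use one contact point
        obtain ⟨t₁, ht₁⟩ := hK₀ne
        have hd := hK₀R' t₁ ht₁
        set r₁ := (R' - dist t₁ t₀) / 2 with hr₁
        have hr₁0 : 0 < r₁ := by rw [hr₁]; linarith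
        have hsub1 : ball t₁ r₁ ⊆ ball t₀ R' := ball_subset_ball' (by rw [hr₁]; linarith)
        set σ' : ℝ := min S (s₀ + r₁ / 128) with hσ'
        have hσ'1 : s₀ < σ' := lt_min hs₀S (by linarith)
        have hσ'2 : σ' < s₀ + r₁ / 64 := lt_of_le_of_lt (min_le_right _ _) (by linarith)
        have hσ'S : σ' ≤ S := min_le_left _ _
        have h1 := hlow t₁ ht₁ r₁ hr₁0 hsub1 σ' hσ'1 hσ'2 hσ'S
        have h2 := hB σ' hσ'1 hσ'S
        rw [ENNReal.ofReal_of_nonpos hB0.le] at h2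
        have h3 : ∫⁻ t in ball t₁ r₁, ENNReal.ofReal (trM K G (pt t (H t + σ')))
            ≤ ∫⁻ t in ball t₀ R', ENNReal.ofReal (trM K G (pt t (H t + σ'))) :=
          lintegral_mono_set hsub1
        exact absurd (lt_of_lt_of_le h1 (h3.trans h2)) (not_lt.2 zero_le)
      have : 0 < (N : ℝ) * a₀ := by positivity
      linarith
  -- an isolated contact point
  obtain ⟨t₁, ht₁⟩ := hK₀ne
  have hiso : ∃ r > 0, ball t₁ r ⊆ ball t₀ R' ∧ ∀ t ∈ ball t₁ r, t ≠ t₁ → t ∉ K₀ := by
    have hopen : IsOpen (K₀ \ {t₁})ᶜ := (hK₀fin.subset sdiff_subset).isClosed.isOpen_compl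
    have hmem : t₁ ∈ (K₀ \ {t₁})ᶜ ∩ ball t₀ R' := ⟨by simp, hK₀R' t₁ ht₁⟩
    obtain ⟨r, hr, hsub⟩ := Metric.isOpen_iff.1 (hopen.inter isOpen_ball) t₁ hmem
    refine ⟨r, hr, hsub.trans inter_subset_right, fun t ht hne hK => ?_⟩
    exact (hsub ht).1 ⟨hK, hne⟩
  obtain ⟨r, hr, hsub, hisoK⟩ := hiso
  have hsubR : ball t₁ r ⊆ closedBall t₀ R := hsub.trans hballR
  have hlt₁ : ∀ t ∈ ball t₁ r, t ≠ t₁ → f t < s₀ := by
    intro t ht hne
    by_contra hnot
    exact hisoK t ht hne ⟨hsubR ht, by rw [hmemu t (hsubR ht)]; exact hnot⟩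
  have hptΩ : ∀ t ∈ ball t₁ r, t ≠ t₁ → pt t (H t + s₀) ∈ Ω := fun t ht hne =>
    hdisc s₀ hs₀S.le t (hsubR ht) (hlt₁ t ht hne)
  have htrc : ContinuousOn (trM K G) Ω := continuousOn_trM hP hΩo hM.pc
  -- finite area of the limit disc (Fatou)
  have hfin : ∫⁻ t in ball t₁ r, ENNReal.ofReal (trM K G (pt t (H t + s₀))) < ⊤ := by
    set σ : ℕ → ℝ := fun k => s₀ + (S - s₀) / (k + 1) with hσ
    have hσ1 : ∀ k, s₀ < σ k := by
      intro k; simp only [hσ]
      have : 0 < (S - s₀) / ((k : ℝ) + 1) := div_pos (by linarith) (by positivity)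
      linarith
    have hσS : ∀ k, σ k ≤ S := by
      intro k; simp only [hσ]
      have : (S - s₀) / ((k : ℝ) + 1) ≤ S - s₀ := by
        apply div_le_self (by linarith)
        have : (0 : ℝ) ≤ k := Nat.cast_nonneg k
        linarith
      linarith
    have hσt : Tendsto σ atTop (𝓝 s₀) := by
      have h1 : Tendsto (fun k : ℕ => (S - s₀) / ((k : ℝ) + 1)) atTop (𝓝 0) := by
        have := (tendsto_one_div_add_atTop_nhds_zero_nat (𝕜 := ℝ)).const_mul (S - s₀)
        simp only [mul_zero, mul_one_div] at this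
        exact this
      have := h1.const_add s₀
      simpa [hσ] using this
    set F : ℕ → ℂ → ℝ≥0∞ := fun k t => ENNReal.ofReal (trM K G (pt t (H t + σ k))) with hF
    have hHb : ContinuousOn H (ball t₁ r) := hHc.mono hsubR
    have hmeas : ∀ k, AEMeasurable (F k) (volume.restrict (ball t₁ r)) := by
      intro k
      refine ContinuousOn.aemeasurable ?_ measurableSet_ball
      refine ENNReal.continuous_ofReal.comp_continuousOn ?_
      refine htrc.comp ?_ ?_
      · exact continuous_pt.comp_continuousOn (continuousOn_id.prodMk (hHb.add continuousOn_const))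
      · intro t ht
        exact hdisc (σ k) (hσS k) t (hsubR ht) (lt_of_le_of_lt (hfle t (hsubR ht)) (hσ1 k))
    have hlim : ∀ t ∈ ball t₁ r, t ≠ t₁ →
        ENNReal.ofReal (trM K G (pt t (H t + s₀))) = liminf (fun k => F k t) atTop := by
      intro t ht hne
      have hct : ContinuousAt (trM K G) (pt t (H t + s₀)) :=
        htrc.continuousAt (hΩo.mem_nhds (hptΩ t ht hne))
      have h1 : Tendsto (fun k => pt t (H t + σ k)) atTop (𝓝 (pt t (H t + s₀))) := by
        have h2 : Tendsto (fun k => (t, H t + (σ k : ℂ))) atTop (𝓝 (t, H t + (s₀ : ℂ))) := by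
          refine tendsto_const_nhds.prodMk_nhds (tendsto_const_nhds.add ?_)
          exact (Complex.continuous_ofReal.tendsto s₀).comp hσt
        exact (continuous_pt.tendsto _).comp h2
      have h3 : Tendsto (fun k => F k t) atTop (𝓝 (ENNReal.ofReal (trM K G (pt t (H t + s₀))))) :=
        (ENNReal.continuous_ofReal.tendsto _).comp (hct.tendsto.comp h1)
      exact h3.liminf_eq.symm
    have hae : (fun t => ENNReal.ofReal (trM K G (pt t (H t + s₀))))
        =ᵐ[volume.restrict (ball t₁ r)] fun t => liminf (fun k => F k t) atTop := by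
      have h1 : ∀ᵐ t : ℂ ∂(volume.restrict (ball t₁ r)), t ≠ t₁ := by
        refine ae_restrict_of_ae ?_
        exact (MeasureTheory.Measure.ae_ne volume t₁)
      filter_upwards [h1, ae_restrict_mem measurableSet_ball] with t htne htb
      exact hlim t htb htne
    rw [lintegral_congr_ae hae]
    refine lt_of_le_of_lt (lintegral_liminf_le' hmeas) ?_
    have hbd : liminf (fun k => ∫⁻ t in ball t₁ r, F k t) atTop ≤ ENNReal.ofReal B := by
      refine liminf_le_of_frequently_le' (Frequently.of_forall fun k => ?_)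
      exact (lintegral_mono_set hsub).trans (hB (σ k) (hσ1 k) (hσS k))
    exact lt_of_le_of_lt hbd ENNReal.ofReal_lt_top
  -- removal of the puncture
  have hana₀ : AnalyticOnNhd ℂ (fun t => H t + (s₀ : ℂ)) (ball t₁ r) := fun t ht =>
    (hH t (hsubR ht)).add analyticAt_const
  have hderiv₀ : ∀ t ∈ ball t₁ r, ‖deriv (fun t => H t + (s₀ : ℂ)) t‖ ≤ 1 / 2 := by
    intro t ht
    rw [deriv_add_const]
    exact hH' t (hsubR ht)
  obtain ⟨ρ, hρ, G', hG'pc, hG'eq⟩ := hPu Ω G (fun t => H t + (s₀ : ℂ)) t₁ r hr hΩo hM.pc hana₀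
    hderiv₀ hptΩ hfin
  set p : ℂ × ℂ := pt t₁ (H t₁ + s₀) with hp
  -- a small family of discs
  have hHt₁ : ContinuousAt H t₁ := (hH t₁ ht₁.1).continuousAt
  have hΘ : ContinuousAt (fun q : ℂ × ℝ => pt q.1 (H q.1 + s₀ + q.2)) (t₁, 0) := by
    have hg : ContinuousAt (fun q : ℂ × ℝ => (q.1, H q.1 + (s₀ : ℂ) + (q.2 : ℂ))) (t₁, 0) := by
      have e1 : ContinuousAt (fun q : ℂ × ℝ => H q.1) (t₁, 0) :=
        ContinuousAt.comp (g := H) (f := fun q : ℂ × ℝ => q.1) hHt₁ continuousAt_fst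
      have e2 : ContinuousAt (fun q : ℂ × ℝ => (q.2 : ℂ)) (t₁, 0) :=
        (Complex.continuous_ofReal.comp continuous_snd).continuousAt
      exact continuousAt_fst.prodMk ((e1.add continuousAt_const).add e2)
    exact ContinuousAt.comp (g := fun q : ℂ × ℂ => pt q.1 q.2) continuous_pt.continuousAt hg
  have hΘ0 : pt t₁ (H t₁ + s₀ + ((0 : ℝ) : ℂ)) = p := by simp [hp]
  have hev : ∀ᶠ q : ℂ × ℝ in 𝓝 (t₁, 0), pt q.1 (H q.1 + s₀ + q.2) ∈ ball p ρ := by
    refine hΘ.eventually (?_ : ball p ρ ∈ 𝓝 (pt t₁ (H t₁ + s₀ + ((0 : ℝ) : ℂ))))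
    rw [hΘ0]; exact ball_mem_nhds p hρ
  obtain ⟨δ₀, hδ₀, hδ₀sub⟩ := Metric.eventually_nhds_iff_ball.1 hev
  set δ : ℝ := min δ₀ (min r (min ρ (S - s₀))) with hδ
  have hδ0 : 0 < δ := lt_min hδ₀ (lt_min hr (lt_min hρ (by linarith)))
  have hδδ₀ : δ ≤ δ₀ := min_le_left _ _
  have hδr : δ ≤ r := (min_le_right _ _).trans (min_le_left _ _)
  have hδρ : δ ≤ ρ := (min_le_right _ _).trans ((min_le_right _ _).trans (min_le_left _ _))
  have hδS : δ ≤ S - s₀ := (min_le_right _ _).trans ((min_le_right _ _).trans (min_le_right _ _))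
  set W : Set (ℂ × ℂ) := Ω ∩ ball p ρ with hW
  have hWo : IsOpen W := hΩo.inter isOpen_ball
  set D : Set (ℂ × ℝ) := ball t₁ δ ×ˢ Ioo (0 : ℝ) δ with hD
  set V : Set (ℂ × ℂ) := (fun q : ℂ × ℝ => pt q.1 (H q.1 + s₀ + q.2)) '' D with hV
  have hHδ : ContinuousOn H (ball t₁ δ) := hHc.mono ((ball_subset_ball hδr).trans hsubR)
  have hVpre : IsPreconnected V := by
    refine IsPreconnected.image ?_ _ ?_
    · exact ((convex_ball t₁ δ).prod (convex_Ioo 0 δ)).isPreconnected
    · refine continuous_pt.comp_continuousOn (continuousOn_fst.prodMk ?_)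
      refine ContinuousOn.add (ContinuousOn.add ?_ continuousOn_const) ?_
      · exact hHδ.comp continuousOn_fst (fun q hq => hq.1)
      · exact (Complex.continuous_ofReal.comp continuous_snd).continuousOn
  have hVW : V ⊆ W := by
    rintro z ⟨⟨t, σ⟩, ⟨ht, hσ⟩, rfl⟩
    have hσ0 : 0 < σ := hσ.1
    have hσδ : σ < δ := hσ.2
    refine ⟨?_, ?_⟩
    · have hcb : t ∈ closedBall t₀ R := hsubR (ball_subset_ball hδr ht)
      have := hdisc (s₀ + σ) (by linarith) t hcb (lt_of_le_of_lt (hfle t hcb) (by linarith))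
      convert this using 2
      push_cast; ring
    · refine hδ₀sub (t, σ) ?_
      rw [mem_ball, Prod.dist_eq]
      refine max_lt ?_ ?_
      · exact lt_of_lt_of_le (mem_ball.1 ht) hδδ₀
      · rw [Real.dist_eq, sub_zero, abs_of_pos hσ0]
        linarith
  -- a point of agreement in V
  obtain ⟨z₀, hz₀V, hz₀⟩ : ∃ z₀ ∈ V, G' =ᶠ[𝓝 z₀] G := by
    have hev2 : ∀ᶠ t in 𝓝[≠] t₁, t ∈ ball t₁ δ :=
      nhdsWithin_le_nhds (ball_mem_nhds t₁ hδ0)
    obtain ⟨t, htag, htb⟩ := (hG'eq.and hev2).exists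
    have hopen : IsOpen {z : ℂ × ℂ | G' =ᶠ[𝓝 z] G} := isOpen_setOfPred_eventually_nhds
    have hcont : Continuous fun σ : ℝ => pt t (H t + s₀ + σ) := by
      refine continuous_pt.comp (continuous_const.prodMk ?_)
      exact continuous_const.add Complex.continuous_ofReal
    have h0 : pt t (H t + s₀ + ((0 : ℝ) : ℂ)) ∈ {z : ℂ × ℂ | G' =ᶠ[𝓝 z] G} := by
      simpa using htag
    have h1 : ∀ᶠ σ : ℝ in 𝓝 0, pt t (H t + s₀ + σ) ∈ {z : ℂ × ℂ | G' =ᶠ[𝓝 z] G} :=
      hcont.continuousAt.eventually (hopen.mem_nhds h0)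
    have h2 : ∀ᶠ σ : ℝ in 𝓝[>] 0, σ ∈ Ioo (0 : ℝ) δ := Ioo_mem_nhdsGT hδ0
    obtain ⟨σ, hσ1, hσ2⟩ := ((h1.filter_mono nhdsWithin_le_nhds).and h2).exists
    exact ⟨_, ⟨(t, σ), ⟨htb, hσ2⟩, rfl⟩, hσ1⟩
  have hall := agree_propagate hU hWo (IsPC.mono hM.pc inter_subset_left)
    (IsPC.mono hG'pc inter_subset_right) hVpre hVW hz₀V hz₀
  -- contradiction with irregularity at p
  obtain ⟨h1, h2, h3, h4, h5⟩ := hbox t₁ ht₁.1
  have hft₁ := hK₀mem t₁ ht₁
  refine hM.irr p ?_ ?_ ?_ ?_ ?_ ⟨ρ, hρ, G', hG'pc, δ / 2, by linarith, by linarith, ?_, ?_⟩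
  · rw [hp, tau_pt]; exact h1
  · rw [hp, eta_pt]; simpa using h2
  · rw [hp, tau_pt, eta_pt, XX_pt]
    simp only [hf] at hft₁
    simp only [Complex.add_im, Complex.ofReal_im, add_zero, Complex.add_re, Complex.ofReal_re]
    linarith
  · rw [hp, XX_pt]; simp only [Complex.add_re, Complex.ofReal_re]; linarith
  · rw [hp, XX_pt]; simp only [Complex.add_re, Complex.ofReal_re]; linarith
  · rw [hp, XX_pt]; simp only [Complex.add_re, Complex.ofReal_re]; linarith
  · have hmem : pt t₁ (H t₁ + s₀ + ((δ / 2 : ℝ) : ℂ)) ∈ V :=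
      ⟨(t₁, δ / 2), ⟨mem_ball_self hδ0, by constructor <;> linarith⟩, rfl⟩
    have := hall _ hmem
    rw [pt_add_real] at this
    exact this

end

end Crest.Agent.R266.LemD
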