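import Crest.Agent.R266.Stmts

/-!
R266 / MaxGraph: the maximal graph domain (`St_max`).
-/

set_option autoImplicit false

open scoped Manifold ContDiff Topology ENNReal
open Set Metric Filter MeasureTheory

namespace Crest.Agent.R266

namespace MaxGraph

/-- vertical vector of height `h` -/
noncomputable def vert (h : ℝ) : ℂ × ℂ := (((h / 2 : ℝ) : ℂ), ((h / 2 : ℝ) : ℂ))

lemma tau_add_vert (z : ℂ × ℂ) (h : ℝ) : tau (z + vert h) = tau z := by
  simp [tau, vert]

lemma XX_add_vert (z : ℂ × ℂ) (h : ℝ) : XX (z + vert h) = XX z + h := by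
  simp only [XX, vert, Prod.fst_add, Prod.snd_add, Complex.add_re, Complex.ofReal_re]
  ring

lemma eta_add_vert (z : ℂ × ℂ) (h : ℝ) : eta (z + vert h) = eta z := by
  simp only [eta, vert, Prod.fst_add, Prod.snd_add, Complex.add_im, Complex.ofReal_im]
  ring

lemma continuous_tau : Continuous tau := by unfold tau; fun_prop
lemma continuous_XX : Continuous XX := by unfold XX; fun_prop
lemma continuous_eta : Continuous eta := by unfold eta; fun_prop
lemma continuous_vert : Continuous vert := by unfold vert; fun_prop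

lemma tau_combo (a b : ℝ) (x y : ℂ × ℂ) : tau (a • x + b • y) = a • tau x + b • tau y := by
  simp only [tau, Prod.fst_add, Prod.snd_add, Prod.smul_fst, Prod.smul_snd, smul_sub]
  ring

lemma XX_combo (a b : ℝ) (x y : ℂ × ℂ) : XX (a • x + b • y) = a * XX x + b * XX y := by
  simp only [XX, Prod.fst_add, Prod.snd_add, Prod.smul_fst, Prod.smul_snd, Complex.add_re,
    Complex.real_smul, Complex.mul_re, Complex.ofReal_re, Complex.ofReal_im]
  ring

lemma eta_combo (a b : ℝ) (x y : ℂ × ℂ) : eta (a • x + b • y) = a * eta x + b * eta y := by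
  simp only [eta, Prod.fst_add, Prod.snd_add, Prod.smul_fst, Prod.smul_snd, Complex.add_im,
    Complex.real_smul, Complex.mul_im, Complex.ofReal_re, Complex.ofReal_im]
  ring

/-- a slab over a bidisc is convex -/
lemma slab_convex (t0 : ℂ) (e0 δ c₀ c₁ : ℝ) :
    Convex ℝ {z : ℂ × ℂ | ‖tau z - t0‖ < δ ∧ |eta z - e0| < δ ∧ c₀ < XX z ∧ XX z < c₁} := by
  intro x hx y hy a b ha hb hab
  obtain ⟨h1, h2, h3, h4⟩ := hx
  obtain ⟨k1, k2, k3, k4⟩ := hy
  have hT := (convex_ball t0 δ) (show tau x ∈ ball t0 δ by simpa [dist_eq_norm] using h1)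
    (show tau y ∈ ball t0 δ by simpa [dist_eq_norm] using k1) ha hb hab
  have hE := (convex_ball e0 δ) (show eta x ∈ ball e0 δ by simpa [Real.dist_eq] using h2)
    (show eta y ∈ ball e0 δ by simpa [Real.dist_eq] using k2) ha hb hab
  have hX := (convex_Ioo c₀ c₁) (show XX x ∈ Ioo c₀ c₁ from ⟨h3, h4⟩)
    (show XX y ∈ Ioo c₀ c₁ from ⟨k3, k4⟩) ha hb hab
  refine ⟨?_, ?_, ?_, ?_⟩
  · rw [tau_combo]; simpa [dist_eq_norm] using hT
  · rw [eta_combo]; simpa [Real.dist_eq] using hE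
  · rw [XX_combo]; simpa using hX.1
  · rw [XX_combo]; simpa using hX.2

/-- a graph domain over a bidisc with bounded graph function is preconnected -/
lemma cyl_preconnected (t0 : ℂ) (e0 δ c₀ c₁ : ℝ) (m : ℂ → ℝ → ℝ) (hc : c₀ < c₁)
    (hm : ∀ t e, ‖t - t0‖ < δ → |e - e0| < δ → m t e ≤ c₀) :
    IsPreconnected {z : ℂ × ℂ | ‖tau z - t0‖ < δ ∧ |eta z - e0| < δ ∧
      m (tau z) (eta z) < XX z ∧ XX z < c₁} := by
  set D := {z : ℂ × ℂ | ‖tau z - t0‖ < δ ∧ |eta z - e0| < δ ∧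
      m (tau z) (eta z) < XX z ∧ XX z < c₁} with hD
  set S := {z : ℂ × ℂ | ‖tau z - t0‖ < δ ∧ |eta z - e0| < δ ∧ c₀ < XX z ∧ XX z < c₁} with hS
  have hSD : S ⊆ D := by
    rintro z ⟨h1, h2, h3, h4⟩
    exact ⟨h1, h2, (hm _ _ h1 h2).trans_lt h3, h4⟩
  have hSpre : IsPreconnected S := (slab_convex t0 e0 δ c₀ c₁).isPreconnected
  rcases D.eq_empty_or_nonempty with hE | ⟨x0, hx0⟩
  · rw [hE]; exact isPreconnected_empty
  -- lifting a point of `D` into the slab
  have hlift : ∀ y ∈ D, ∃ t ⊆ D, y ∈ t ∧ (t ∩ S).Nonempty ∧ IsPreconnected t := by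
    intro y hy
    obtain ⟨h1, h2, h3, h4⟩ := hy
    set h : ℝ := max 0 ((c₀ + c₁) / 2 - XX y) with hh
    have hh0 : 0 ≤ h := le_max_left _ _
    have hhX : XX y + h < c₁ := by
      rcases max_cases 0 ((c₀ + c₁) / 2 - XX y) with ⟨h5, _⟩ | ⟨h5, _⟩
      · rw [hh, h5]; linarith
      · rw [hh, h5]; linarith
    have hhX' : c₀ < XX y + h := by
      have : (c₀ + c₁) / 2 - XX y ≤ h := le_max_right _ _
      linarith
    refine ⟨(fun s : ℝ => y + vert s) '' Icc 0 h, ?_, ⟨0, ⟨le_rfl, hh0⟩, ?_⟩,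
      ⟨y + vert h, ⟨h, ⟨hh0, le_rfl⟩, rfl⟩, ?_⟩, ?_⟩
    · rintro _ ⟨s, ⟨hs0, hsh⟩, rfl⟩
      refine ⟨?_, ?_, ?_, ?_⟩
      · rw [tau_add_vert]; exact h1
      · rw [eta_add_vert]; exact h2
      · rw [tau_add_vert, eta_add_vert, XX_add_vert]; linarith
      · rw [XX_add_vert]; linarith
    · simp [vert]
    · refine ⟨?_, ?_, ?_, ?_⟩
      · rw [tau_add_vert]; exact h1
      · rw [eta_add_vert]; exact h2
      · rw [XX_add_vert]; exact hhX'
      · rw [XX_add_vert]; exact hhX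
    · exact isPreconnected_Icc.image _ (continuous_const.add continuous_vert).continuousOn
  obtain ⟨t0', ht0D, hx0t, ⟨q, hqt, hqS⟩, ht0pre⟩ := hlift x0 hx0
  refine isPreconnected_of_forall q (fun y hy => ?_)
  obtain ⟨t, htD, hyt, ⟨p, hpt, hpS⟩, htpre⟩ := hlift y hy
  exact ⟨S ∪ t, union_subset hSD htD, Or.inl hqS, Or.inr hyt,
    hSpre.union p hpS hpt htpre⟩

section
variable {n₁ n₂ : ℕ} {X : Type} [TopologicalSpace X]

lemma isPC_mono {A : PFol n₁ n₂ X} {Ω Ω' : Set (ℂ × ℂ)} {G : ℂ × ℂ → X} (h : IsPC A Ω G)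
    (hs : Ω' ⊆ Ω) : IsPC A Ω' G := fun z hz => h z (hs hz)

lemma isPC_congr {A : PFol n₁ n₂ X} {Ω : Set (ℂ × ℂ)} {G G' : ℂ × ℂ → X} (hΩ : IsOpen Ω)
    (h : IsPC A Ω G) (he : ∀ z ∈ Ω, G' z = G z) : IsPC A Ω G' := by
  intro z hz
  obtain ⟨i, a, b, ha, hb, hev⟩ := h z hz
  refine ⟨i, a, b, ha, hb, ?_⟩
  filter_upwards [hev, hΩ.mem_nhds hz] with w hw hwΩ
  rw [he w hwΩ]; exact hw

lemma isPC_union {A : PFol n₁ n₂ X} {Ω Ω' : Set (ℂ × ℂ)} {G : ℂ × ℂ → X} (h : IsPC A Ω G)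
    (h' : IsPC A Ω' G) : IsPC A (Ω ∪ Ω') G := by
  rintro z (hz | hz)
  · exact h z hz
  · exact h' z hz

/-- upper semicontinuity in the form of `Maxi.usc` -/
def Usc (ε : ℝ) (m : ℂ → ℝ → ℝ) : Prop :=
  ∀ t e, ‖t‖ < ε → |e| < ε → ∀ c, m t e < c → ∀ᶠ q : ℂ × ℝ in 𝓝 (t, e), m q.1 q.2 < c

lemma isOpen_GD {ε : ℝ} {m : ℂ → ℝ → ℝ} (hm : Usc ε m) : IsOpen (GD ε m) := by
  rw [isOpen_iff_mem_nhds]
  rintro z ⟨h1, h2, h3, h4⟩
  obtain ⟨c, hc1, hc2⟩ := exists_between h3
  have hcont : Tendsto (fun w : ℂ × ℂ => (tau w, eta w)) (𝓝 z) (𝓝 (tau z, eta z)) :=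
    (continuous_tau.prodMk continuous_eta).continuousAt
  have e1 : ∀ᶠ w in 𝓝 z, m (tau w) (eta w) < c := hcont.eventually (hm _ _ h1 h2 c hc1)
  have e2 : ∀ᶠ w in 𝓝 z, c < XX w := continuous_XX.continuousAt.eventually (lt_mem_nhds hc2)
  have e3 : ∀ᶠ w in 𝓝 z, XX w < ε := continuous_XX.continuousAt.eventually (gt_mem_nhds h4)
  have e4 : ∀ᶠ w in 𝓝 z, ‖tau w‖ < ε :=
    continuous_tau.norm.continuousAt.eventually (gt_mem_nhds h1)
  have e5 : ∀ᶠ w in 𝓝 z, |eta w| < ε :=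
    continuous_eta.abs.continuousAt.eventually (gt_mem_nhds h2)
  filter_upwards [e1, e2, e3, e4, e5] with w w1 w2 w3 w4 w5
  exact ⟨w4, w5, w1.trans w2, w3⟩

/-- the competitors -/
structure Cand (A : PFol n₁ n₂ X) (ε C : ℝ) (G : ℂ × ℂ → X) (m : ℂ → ℝ → ℝ)
    (G' : ℂ × ℂ → X) : Prop where
  lower : ∀ t e, -ε ≤ m t e
  upper : ∀ t e, m t e ≤ par C t e
  usc : Usc ε m
  pc : IsPC A (GD ε m) G'
  ext : ∀ z ∈ GD ε (par C), G' z = G z

lemma par_lt {ε C : ℝ} (hε : 0 < ε) (hC : 0 < C) (h4 : 4 * C * ε < 1) {t : ℂ} {e : ℝ}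
    (ht : ‖t‖ < ε) (he : |e| < ε) : par C t e < ε / 2 := by
  unfold par
  have h1 : ‖t‖ ^ 2 < ε ^ 2 := by
    have := norm_nonneg t
    nlinarith
  have h2 : e ^ 2 < ε ^ 2 := by
    rw [← sq_abs e]
    have := abs_nonneg e
    nlinarith
  nlinarith [mul_pos hC hε]

lemma usc_par (ε C : ℝ) : Usc ε (par C) := by
  intro t e _ _ c hc
  have : Continuous (fun q : ℂ × ℝ => par C q.1 q.2) := by unfold par; fun_prop
  exact this.continuousAt.eventually (gt_mem_nhds hc)

lemma usc_max {ε : ℝ} {m m' : ℂ → ℝ → ℝ} (h : Usc ε m) (h' : Usc ε m') :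
    Usc ε (fun t e => max (m t e) (m' t e)) := by
  intro t e ht he c hc
  filter_upwards [h t e ht he c ((le_max_left _ _).trans_lt hc),
    h' t e ht he c ((le_max_right _ _).trans_lt hc)] with q h1 h2
  exact max_lt h1 h2

lemma GD_eq (ε : ℝ) (m : ℂ → ℝ → ℝ) : GD ε m = {z : ℂ × ℂ | ‖tau z - 0‖ < ε ∧ |eta z - 0| < ε ∧
      m (tau z) (eta z) < XX z ∧ XX z < ε} := by
  ext z; simp [GD]

/-- two competitors agree where both are defined -/
lemma cand_agree {A : PFol n₁ n₂ X} (hu : St_unique A) {ε C : ℝ} {G : ℂ × ℂ → X} (hε : 0 < ε)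
    (hC : 0 < C) (h4 : 4 * C * ε < 1) {m₁ m₂ : ℂ → ℝ → ℝ} {G₁ G₂ : ℂ × ℂ → X}
    (h₁ : Cand A ε C G m₁ G₁) (h₂ : Cand A ε C G m₂ G₂) {z : ℂ × ℂ} (hz₁ : z ∈ GD ε m₁)
    (hz₂ : z ∈ GD ε m₂) : G₁ z = G₂ z := by
  set m : ℂ → ℝ → ℝ := fun t e => max (m₁ t e) (m₂ t e) with hm
  have husc : Usc ε m := usc_max h₁.usc h₂.usc
  have hO : IsOpen (GD ε m) := isOpen_GD husc
  have hpre : IsPreconnected (GD ε m) := by
    rw [GD_eq]
    refine cyl_preconnected 0 0 ε (ε / 2) ε m (by linarith) (fun t e ht he => ?_)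
    rw [sub_zero] at ht he
    exact max_le ((h₁.upper t e).trans (par_lt hε hC h4 ht he).le)
      ((h₂.upper t e).trans (par_lt hε hC h4 ht he).le)
  have hs₁ : GD ε m ⊆ GD ε m₁ := fun w hw => ⟨hw.1, hw.2.1, (le_max_left _ _).trans_lt hw.2.2.1,
    hw.2.2.2⟩
  have hs₂ : GD ε m ⊆ GD ε m₂ := fun w hw => ⟨hw.1, hw.2.1, (le_max_right _ _).trans_lt hw.2.2.1,
    hw.2.2.2⟩
  have hsp : GD ε (par C) ⊆ GD ε m := fun w hw => ⟨hw.1, hw.2.1,
    (max_le (h₁.upper _ _) (h₂.upper _ _)).trans_lt hw.2.2.1, hw.2.2.2⟩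
  -- a point of `GD ε (par C)`
  set q : ℂ × ℂ := vert (ε * (3 / 4)) with hq
  have hqt : tau q = 0 := by simp [q, tau, vert]
  have hqe : eta q = 0 := by
    have := eta_add_vert 0 (ε * (3 / 4)); rw [zero_add] at this; rw [hq, this]; simp [eta]
  have hqX : XX q = ε * (3 / 4) := by
    have := XX_add_vert 0 (ε * (3 / 4)); rw [zero_add] at this; rw [hq, this]; simp [XX]
  have hqG : q ∈ GD ε (par C) := by
    refine ⟨by rw [hqt]; simpa using hε, by rw [hqe]; simpa using hε, ?_, ?_⟩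
    · rw [hqt, hqe, hqX]; simp [par]; exact hε
    · rw [hqX]; linarith
  refine hu (GD ε m) G₁ G₂ hO hpre (isPC_mono h₁.pc hs₁) (isPC_mono h₂.pc hs₂)
    ⟨q, hsp hqG, ?_⟩ z ⟨hz₁.1, hz₁.2.1, max_lt hz₁.2.2.1 hz₂.2.2.1, hz₁.2.2.2⟩
  filter_upwards [(isOpen_GD (usc_par ε C)).mem_nhds hqG] with w hw
  rw [h₁.ext w hw, h₂.ext w hw]

end
end MaxGraph

open MaxGraph in
theorem St_max_holds {n₁ n₂ : ℕ} {X : Type} [TopologicalSpace X] {A : PFol n₁ n₂ X}
    (hu : St_unique A) : St_max A := by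
  classical
  intro ε C G hε hC h4 hG
  have hcand0 : Cand A ε C G (fun t e => max (-ε) (par C t e)) G := by
    have hpos : ∀ t e, 0 ≤ par C t e := fun t e => by unfold par; positivity
    have heq : (fun t e => max (-ε) (par C t e)) = par C := by
      funext t e; exact max_eq_right (by linarith [hpos t e])
    rw [heq]
    exact ⟨fun t e => by linarith [hpos t e], fun t e => le_rfl, usc_par ε C, hG, fun z _ => rfl⟩
  -- the infimum
  set S : ℂ → ℝ → Set ℝ := fun t e => {r | ∃ m G', Cand A ε C G m G' ∧ r = m t e} with hS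
  set M : ℂ → ℝ → ℝ := fun t e => sInf (S t e) with hM
  have hSne : ∀ t e, (S t e).Nonempty := fun t e => ⟨_, _, _, hcand0, rfl⟩
  have hSbdd : ∀ t e, BddBelow (S t e) := fun t e => ⟨-ε, by
    rintro r ⟨m, G', h, rfl⟩; exact h.lower t e⟩
  have hMle : ∀ {m : ℂ → ℝ → ℝ} {G' : ℂ × ℂ → X}, Cand A ε C G m G' → ∀ t e, M t e ≤ m t e :=
    fun h t e => csInf_le (hSbdd t e) ⟨_, _, h, rfl⟩
  have hMlt : ∀ t e c, M t e < c → ∃ m G', Cand A ε C G m G' ∧ m t e < c := by
    intro t e c hc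
    obtain ⟨r, ⟨m, G', h, rfl⟩, hr⟩ := exists_lt_of_csInf_lt (hSne t e) hc
    exact ⟨m, G', h, hr⟩
  have hMlow : ∀ t e, -ε ≤ M t e := fun t e => le_csInf (hSne t e) (by
    rintro r ⟨m, G', h, rfl⟩; exact h.lower t e)
  have hMup : ∀ t e, M t e ≤ par C t e := fun t e => by
    have h1 := hMle hcand0 t e
    have h2 : max (-ε) (par C t e) = par C t e := max_eq_right (by
      have : 0 ≤ par C t e := by unfold par; positivity
      linarith)
    simpa [h2] using h1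
  have hMusc : Usc ε M := by
    intro t e ht he c hc
    obtain ⟨m, G', h, hr⟩ := hMlt t e c hc
    filter_upwards [h.usc t e ht he c hr] with q hq
    exact (hMle h q.1 q.2).trans_lt hq
  -- the map on the maximal domain
  have hex : ∀ z : ℂ × ℂ, ∃ x : X, ∀ m G', Cand A ε C G m G' → z ∈ GD ε m → x = G' z := by
    intro z
    by_cases hz : ∃ m G', Cand A ε C G m G' ∧ z ∈ GD ε m
    · obtain ⟨m, G', h, hzm⟩ := hz
      exact ⟨G' z, fun m₂ G₂ h₂ hz₂ => cand_agree hu hε hC h4 h h₂ hzm hz₂⟩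
    · exact ⟨G z, fun m G' h hzm => absurd ⟨m, G', h, hzm⟩ hz⟩
  choose GM hGM using hex
  have hpc : IsPC A (GD ε M) GM := by
    intro z hz
    obtain ⟨m, G', h, hr⟩ := hMlt _ _ _ hz.2.2.1
    exact isPC_congr (isOpen_GD h.usc) h.pc (fun w hw => hGM w m G' h hw) z
      ⟨hz.1, hz.2.1, hr, hz.2.2.2⟩
  have hext : ∀ z ∈ GD ε (par C), GM z = G z := by
    intro z hz
    refine hGM z _ _ hcand0 ⟨hz.1, hz.2.1, ?_, hz.2.2.2⟩
    have h2 : max (-ε) (par C (tau z) (eta z)) = par C (tau z) (eta z) := max_eq_right (by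
      have : 0 ≤ par C (tau z) (eta z) := by unfold par; positivity
      linarith)
    simpa [h2] using hz.2.2.1
  refine ⟨M, GM, hMup, ⟨hMlow, hMusc, hpc, ?_⟩, hext⟩
  -- irreducibility
  rintro p hpt hpe hpX hplow hpup ⟨ρ, hρ, G', hG', s, hs0, hsρ, hsε, hev⟩
  -- choice of constants
  obtain ⟨s₂, hs₂1, hs₂2⟩ := exists_between (lt_min hsρ (show s < ε - XX p by linarith))
  have hs₂ρ : s₂ < ρ := hs₂2.trans_le (min_le_left _ _)
  have hs₂ε : XX p + s₂ < ε := by
    have := hs₂2.trans_le (min_le_right _ _); linarith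
  set c : ℝ := max (-ε) (XX p - s₂) with hcdef
  have hclow : -ε ≤ c := le_max_left _ _
  have hcX : c < XX p := max_lt hplow (by linarith)
  have hcs : XX p - s₂ ≤ c := le_max_right _ _
  set s₁ : ℝ := s / 2 with hs₁
  have hs₁0 : 0 < s₁ := by positivity
  -- small bidisc
  have hB : ∃ δ > 0, (δ ≤ (ρ - s₂) / 4) ∧ (∀ t e, ‖t - tau p‖ < δ → |e - eta p| < δ →
      ‖t‖ < ε ∧ |e| < ε ∧ M t e < XX p + s₁) := by
    have h1 : ∀ᶠ q : ℂ × ℝ in 𝓝 (tau p, eta p), M q.1 q.2 < XX p + s₁ :=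
      hMusc _ _ hpt hpe _ (by rw [← hpX]; linarith)
    have h2 : ∀ᶠ q : ℂ × ℝ in 𝓝 (tau p, eta p), ‖q.1‖ < ε :=
      (continuous_fst.norm).continuousAt.eventually (gt_mem_nhds hpt)
    have h3 : ∀ᶠ q : ℂ × ℝ in 𝓝 (tau p, eta p), |q.2| < ε :=
      (continuous_snd.abs).continuousAt.eventually (gt_mem_nhds hpe)
    obtain ⟨δ, hδ, hball⟩ := Metric.eventually_nhds_iff.1 (h1.and (h2.and h3))
    refine ⟨min δ ((ρ - s₂) / 4), lt_min hδ (by linarith), min_le_right _ _, fun t e ht he => ?_⟩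
    have : dist ((t, e) : ℂ × ℝ) (tau p, eta p) < δ := by
      rw [Prod.dist_eq]
      refine max_lt ?_ ?_
      · rw [dist_eq_norm]; exact ht.trans_le (min_le_left _ _)
      · rw [Real.dist_eq]; exact he.trans_le (min_le_left _ _)
    exact ⟨(hball this).2.1, (hball this).2.2, (hball this).1⟩
  obtain ⟨δ, hδ, hδρ, hBM⟩ := hB
  -- the cylinder is contained in the ball
  have hcyl : ∀ z : ℂ × ℂ, ‖tau z - tau p‖ < δ → |eta z - eta p| < δ → c < XX z →
      XX z < XX p + s₂ → z ∈ ball p ρ := by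
    intro z h1 h2 h3 h4
    have hZ : ‖(z.1 + z.2) - (p.1 + p.2)‖ ≤ s₂ + δ := by
      refine (Complex.norm_le_abs_re_add_abs_im _).trans ?_
      have e1 : ((z.1 + z.2) - (p.1 + p.2)).re = XX z - XX p := by
        simp [XX]
      have e2 : ((z.1 + z.2) - (p.1 + p.2)).im = eta z - eta p := by
        simp [eta]
      rw [e1, e2]
      refine add_le_add ?_ h2.le
      rw [abs_le]; constructor <;> linarith
    have hT : ‖(z.1 - z.2) - (p.1 - p.2)‖ < δ := h1
    rw [mem_ball, Prod.dist_eq]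
    refine max_lt ?_ ?_
    · rw [dist_eq_norm]
      have : z.1 - p.1 = (1 / 2 : ℂ) * (((z.1 + z.2) - (p.1 + p.2)) + ((z.1 - z.2) - (p.1 - p.2))) := by
        ring
      rw [this, norm_mul]
      have h5 := norm_add_le ((z.1 + z.2) - (p.1 + p.2)) ((z.1 - z.2) - (p.1 - p.2))
      have h6 : ‖(1 / 2 : ℂ)‖ = 1 / 2 := by norm_num
      rw [h6]
      linarith
    · rw [dist_eq_norm]
      have : z.2 - p.2 = (1 / 2 : ℂ) * (((z.1 + z.2) - (p.1 + p.2)) - ((z.1 - z.2) - (p.1 - p.2))) := by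
        ring
      rw [this, norm_mul]
      have h5 := norm_sub_le ((z.1 + z.2) - (p.1 + p.2)) ((z.1 - z.2) - (p.1 - p.2))
      have h6 : ‖(1 / 2 : ℂ)‖ = 1 / 2 := by norm_num
      rw [h6]
      linarith
  -- overlap region
  set O : Set (ℂ × ℂ) := {z | ‖tau z - tau p‖ < δ ∧ |eta z - eta p| < δ ∧
    (fun t e => max (M t e) c) (tau z) (eta z) < XX z ∧ XX z < XX p + s₂} with hO
  have hOpre : IsPreconnected O := by
    refine cyl_preconnected (tau p) (eta p) δ (XX p + s₁) (XX p + s₂)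
      (fun t e => max (M t e) c) (by linarith) (fun t e ht he => ?_)
    exact max_le (hBM t e ht he).2.2.le (by linarith)
  have hOsub : O ⊆ GD ε M := by
    rintro z ⟨h1, h2, h3, h5⟩
    have h6 := hBM _ _ h1 h2
    exact ⟨h6.1, h6.2.1, (le_max_left _ _).trans_lt h3, by linarith⟩
  have hOball : O ⊆ ball p ρ := by
    rintro z ⟨h1, h2, h3, h5⟩
    exact hcyl z h1 h2 ((le_max_right _ _).trans_lt h3) h5
  set Q : Set (ℂ × ℂ) := {z | ‖tau z - tau p‖ < δ ∧ |eta z - eta p| < δ ∧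
    c < XX z ∧ XX z < XX p + s₂} with hQ
  have hQopen : IsOpen Q := by
    have a1 : IsOpen {z : ℂ × ℂ | ‖tau z - tau p‖ < δ} :=
      isOpen_lt (continuous_tau.sub continuous_const).norm continuous_const
    have a2 : IsOpen {z : ℂ × ℂ | |eta z - eta p| < δ} :=
      isOpen_lt (continuous_eta.sub continuous_const).abs continuous_const
    have a3 : IsOpen {z : ℂ × ℂ | c < XX z} := isOpen_lt continuous_const continuous_XX
    have a4 : IsOpen {z : ℂ × ℂ | XX z < XX p + s₂} := isOpen_lt continuous_XX continuous_const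
    exact a1.inter (a2.inter (a3.inter a4))
  have hQball : Q ⊆ ball p ρ := fun z hz => hcyl z hz.1 hz.2.1 hz.2.2.1 hz.2.2.2
  have hOeq : O = Q ∩ GD ε M := by
    ext z
    constructor
    · intro hz
      exact ⟨⟨hz.1, hz.2.1, (le_max_right _ _).trans_lt hz.2.2.1, hz.2.2.2⟩, hOsub hz⟩
    · rintro ⟨h1, h2⟩
      exact ⟨h1.1, h1.2.1, max_lt h2.2.2.1 h1.2.2.1, h1.2.2.2⟩
  have hOopen : IsOpen O := by rw [hOeq]; exact hQopen.inter (isOpen_GD hMusc)
  set q : ℂ × ℂ := p + vert s with hq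
  have hqO : q ∈ O := by
    have hM' : M (tau p) (eta p) < XX p + s := by rw [← hpX]; linarith
    refine ⟨?_, ?_, ?_, ?_⟩
    · rw [hq, tau_add_vert]; simpa using hδ
    · rw [hq, eta_add_vert]; simpa using hδ
    · rw [hq, tau_add_vert, eta_add_vert, XX_add_vert]
      exact max_lt hM' (by linarith)
    · rw [hq, XX_add_vert]; linarith
  have hagree : ∀ z ∈ O, G' z = GM z :=
    hu O G' GM hOopen hOpre (isPC_mono hG' hOball) (isPC_mono hpc hOsub) ⟨q, hqO, hev⟩
  -- the new competitor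
  set m' : ℂ → ℝ → ℝ := fun t e => if ‖t - tau p‖ < δ ∧ |e - eta p| < δ then min (M t e) c
    else M t e with hm'
  set G'' : ℂ × ℂ → X := fun z => if z ∈ GD ε M then GM z else G' z with hG''
  have hm'M : ∀ t e, m' t e ≤ M t e := by
    intro t e
    simp only [hm']
    split_ifs
    · exact min_le_left _ _
    · exact le_rfl
  have hGDm' : GD ε m' ⊆ GD ε M ∪ Q := by
    rintro z ⟨h1, h2, h3, h5⟩
    by_cases hzM : M (tau z) (eta z) < XX z
    · exact Or.inl ⟨h1, h2, hzM, h5⟩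
    · right
      by_cases hcase : ‖tau z - tau p‖ < δ ∧ |eta z - eta p| < δ
      · have h6 : m' (tau z) (eta z) = min (M (tau z) (eta z)) c := by simp only [hm', if_pos hcase]
        rw [h6] at h3
        have h7 := hBM _ _ hcase.1 hcase.2
        refine ⟨hcase.1, hcase.2, ?_, ?_⟩
        · rcases min_lt_iff.1 h3 with h8 | h8
          · exact absurd h8 hzM
          · exact h8
        · push Not at hzM
          linarith [h7.2.2]
      · have h6 : m' (tau z) (eta z) = M (tau z) (eta z) := by simp only [hm', if_neg hcase]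
        rw [h6] at h3
        exact absurd h3 hzM
  have hcand : Cand A ε C G m' G'' := by
    refine ⟨?_, fun t e => (hm'M t e).trans (hMup t e), ?_, ?_, ?_⟩
    · intro t e
      simp only [hm']
      split_ifs
      · exact le_min (hMlow t e) hclow
      · exact hMlow t e
    · intro t e ht he c' hc'
      by_cases hcase : ‖t - tau p‖ < δ ∧ |e - eta p| < δ
      · have h6 : m' t e = min (M t e) c := by simp only [hm', if_pos hcase]
        rw [h6] at hc'
        rcases min_lt_iff.1 hc' with h8 | h8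
        · filter_upwards [hMusc t e ht he c' h8] with w hw
          exact (hm'M _ _).trans_lt hw
        · have e1 : ∀ᶠ w : ℂ × ℝ in 𝓝 (t, e), ‖w.1 - tau p‖ < δ :=
            ((continuous_fst.sub continuous_const).norm).continuousAt.eventually
              (gt_mem_nhds hcase.1)
          have e2 : ∀ᶠ w : ℂ × ℝ in 𝓝 (t, e), |w.2 - eta p| < δ :=
            ((continuous_snd.sub continuous_const).abs).continuousAt.eventually
              (gt_mem_nhds hcase.2)
          filter_upwards [e1, e2] with w w1 w2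
          have : m' w.1 w.2 = min (M w.1 w.2) c := by simp only [hm', if_pos (And.intro w1 w2)]
          rw [this]
          exact (min_le_right _ _).trans_lt h8
      · have h6 : m' t e = M t e := by simp only [hm', if_neg hcase]
        rw [h6] at hc'
        filter_upwards [hMusc t e ht he c' hc'] with w hw
        exact (hm'M _ _).trans_lt hw
    · refine isPC_mono (isPC_union (isPC_congr (isOpen_GD hMusc) hpc fun z hz => ?_)
        (isPC_congr hQopen (isPC_mono hG' hQball) fun z hz => ?_)) hGDm'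
      · simp only [hG'', if_pos hz]
      · by_cases hzM : z ∈ GD ε M
        · simp only [hG'', if_pos hzM]
          exact (hagree z (by rw [hOeq]; exact ⟨hz, hzM⟩)).symm
        · simp only [hG'', if_neg hzM]
    · intro z hz
      have hzM : z ∈ GD ε M := ⟨hz.1, hz.2.1, (hMup _ _).trans_lt hz.2.2.1, hz.2.2.2⟩
      simp only [hG'', if_pos hzM]
      exact hext z hz
  have h7 := hMle hcand (tau p) (eta p)
  have h8 : m' (tau p) (eta p) = min (M (tau p) (eta p)) c := by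
    simp only [hm']
    rw [if_pos]
    simpa using hδ
  rw [h8] at h7
  have h9 := h7.trans (min_le_right _ _)
  rw [← hpX] at h9
  linarith

end Crest.Agent.R266
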