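import Crest.Agent.R266.Stmts

/-!
R266 / Slack: uniform slack (transversality) of the pulled back metric and uniform comparison with
the chart derivatives.
-/

set_option autoImplicit false

open scoped Manifold ContDiff Topology ENNReal
open Set Metric Filter MeasureTheory

namespace Crest.Agent.R266

namespace Slk

/-- the compact core of the chart target -/
def core (n₁ n₂ : ℕ) : Set (EV n₁ × EV n₂) :=
  closedBall (0 : EV n₁) (1 / 2) ×ˢ closedBall (0 : EV n₂) (1 / 2)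

lemma core_compact (n₁ n₂ : ℕ) : IsCompact (core n₁ n₂) :=
  (isCompact_closedBall _ _).prod (isCompact_closedBall _ _)

lemma core_subset (n₁ n₂ : ℕ) : core n₁ n₂ ⊆ ball (0 : EV n₁) 1 ×ˢ ball (0 : EV n₂) 1 :=
  Set.prod_mono (closedBall_subset_ball (by norm_num)) (closedBall_subset_ball (by norm_num))

variable {n₁ n₂ : ℕ} {X : Type} [TopologicalSpace X]

/-- comparison of one chart metric with the norm on the compact core -/
lemma comp_one {A : PFol n₁ n₂ X} (K : KMet A) (i : A.ι) :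
    ∃ κ > 0, ∀ p ∈ core n₁ n₂, ∀ u : EV n₁ × EV n₂,
      κ * ‖u‖ ^ 2 ≤ K.g i p u u ∧ K.g i p u u ≤ κ⁻¹ * ‖u‖ ^ 2 := by
  have hcont : ContinuousOn (K.g i) (core n₁ n₂) :=
    (K.smooth i).continuousOn.mono (core_subset n₁ n₂)
  -- upper bound
  obtain ⟨M, hM⟩ := IsCompact.exists_bound_of_continuousOn
    (E := (EV n₁ × EV n₂) →L[ℝ] (EV n₁ × EV n₂) →L[ℝ] ℝ) (core_compact n₁ n₂) hcont
  have hup : ∀ p ∈ core n₁ n₂, ∀ u : EV n₁ × EV n₂, K.g i p u u ≤ (|M| + 1) * ‖u‖ ^ 2 := by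
    intro p hp u
    have h1 : K.g i p u u ≤ ‖K.g i p u‖ * ‖u‖ :=
      le_trans (le_abs_self _) ((K.g i p u).le_opNorm u)
    have h2 : ‖K.g i p u‖ ≤ ‖K.g i p‖ * ‖u‖ := (K.g i p).le_opNorm u
    have h3 : ‖K.g i p‖ ≤ |M| + 1 := (hM p hp).trans ((le_abs_self M).trans (by linarith))
    calc K.g i p u u ≤ ‖K.g i p u‖ * ‖u‖ := h1
      _ ≤ (‖K.g i p‖ * ‖u‖) * ‖u‖ := by gcongr
      _ ≤ ((|M| + 1) * ‖u‖) * ‖u‖ := by gcongr
      _ = (|M| + 1) * ‖u‖ ^ 2 := by ring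
  -- lower bound on the unit sphere
  have hlow : ∃ m > 0, ∀ p ∈ core n₁ n₂, ∀ u : EV n₁ × EV n₂, ‖u‖ = 1 → m ≤ K.g i p u u := by
    have hc : IsCompact (core n₁ n₂ ×ˢ sphere (0 : EV n₁ × EV n₂) 1) :=
      (core_compact n₁ n₂).prod (isCompact_sphere _ _)
    have hf : ContinuousOn (fun q : (EV n₁ × EV n₂) × (EV n₁ × EV n₂) => K.g i q.1 q.2 q.2)
        (core n₁ n₂ ×ˢ sphere (0 : EV n₁ × EV n₂) 1) := by
      have h1 : ContinuousOn (fun q : (EV n₁ × EV n₂) × (EV n₁ × EV n₂) => K.g i q.1)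
          (core n₁ n₂ ×ˢ sphere (0 : EV n₁ × EV n₂) 1) :=
        hcont.comp continuous_fst.continuousOn (fun q hq => hq.1)
      exact (h1.clm_apply continuous_snd.continuousOn).clm_apply continuous_snd.continuousOn
    rcases (core n₁ n₂ ×ˢ sphere (0 : EV n₁ × EV n₂) 1).eq_empty_or_nonempty with he | hne
    · refine ⟨1, one_pos, fun p hp u hu => ?_⟩
      have : (p, u) ∈ core n₁ n₂ ×ˢ sphere (0 : EV n₁ × EV n₂) 1 := ⟨hp, by simpa using hu⟩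
      rw [he] at this
      exact this.elim
    · obtain ⟨q, hq, hmin⟩ := hc.exists_isMinOn hne hf
      refine ⟨K.g i q.1 q.2 q.2, ?_, fun p hp u hu => ?_⟩
      · apply K.pos i q.1 (core_subset n₁ n₂ hq.1)
        intro h0
        have h2 : ‖q.2‖ = 1 := by simpa using hq.2
        rw [h0] at h2
        simp at h2
      · exact hmin (show (p, u) ∈ core n₁ n₂ ×ˢ sphere (0 : EV n₁ × EV n₂) 1 from
          ⟨hp, by simpa using hu⟩)
  obtain ⟨m, hm, hlow⟩ := hlow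
  have hMpos : 0 < |M| + 1 := by positivity
  refine ⟨min m (|M| + 1)⁻¹, lt_min hm (inv_pos.2 hMpos), fun p hp u => ⟨?_, ?_⟩⟩
  · by_cases hu : u = 0
    · subst hu; simp
    have hn : 0 < ‖u‖ := norm_pos_iff.2 hu
    have h1 := hlow p hp ((‖u‖⁻¹ : ℝ) • u) (by
      rw [norm_smul, norm_inv, norm_norm, inv_mul_cancel₀ hn.ne'])
    have h2 : K.g i p ((‖u‖⁻¹ : ℝ) • u) ((‖u‖⁻¹ : ℝ) • u) = ‖u‖⁻¹ * (‖u‖⁻¹ * K.g i p u u) := by
      simp [map_smul]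
    rw [h2] at h1
    have h3 : m * ‖u‖ ^ 2 ≤ K.g i p u u := by
      have h4 := mul_le_mul_of_nonneg_right h1 (sq_nonneg ‖u‖)
      have h5 : ‖u‖⁻¹ * (‖u‖⁻¹ * K.g i p u u) * ‖u‖ ^ 2 = K.g i p u u := by
        field_simp
      rwa [h5] at h4
    refine le_trans ?_ h3
    gcongr
    exact min_le_left _ _
  · refine (hup p hp u).trans ?_
    have h1 : |M| + 1 ≤ (min m (|M| + 1)⁻¹)⁻¹ := by
      rw [le_inv_comm₀ hMpos (lt_min hm (inv_pos.2 hMpos))]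
      exact min_le_right _ _
    gcongr

/-- comparison, uniform over a finite atlas -/
lemma comp_all {A : PFol n₁ n₂ X} [Finite A.ι] (K : KMet A) :
    ∃ κ > 0, ∀ i, ∀ p ∈ core n₁ n₂, ∀ u : EV n₁ × EV n₂,
      κ * ‖u‖ ^ 2 ≤ K.g i p u u ∧ K.g i p u u ≤ κ⁻¹ * ‖u‖ ^ 2 := by
  classical
  have := Fintype.ofFinite A.ι
  choose κ hκ h using fun i => comp_one K i
  obtain ⟨κ₀, hκ₀, hle⟩ : ∃ κ₀ > 0, ∀ i, κ₀ ≤ κ i := by
    rcases isEmpty_or_nonempty A.ι with he | hne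
    · exact ⟨1, one_pos, fun i => he.elim i⟩
    · obtain ⟨i₀, hi₀⟩ := Finite.exists_min κ
      exact ⟨κ i₀, hκ i₀, hi₀⟩
  refine ⟨κ₀, hκ₀, fun i p hp u => ⟨?_, ?_⟩⟩
  · refine le_trans ?_ (h i p hp u).1
    gcongr
    exact hle i
  · refine (h i p hp u).2.trans ?_
    gcongr
    exact hle i

lemma idx_source (A : PFol n₁ n₂ X) (x : X) : x ∈ (A.ch (A.idx x)).source :=
  (Classical.choose_spec (A.cover x)).1

lemma idx_mem (A : PFol n₁ n₂ X) (x : X) : A.ch (A.idx x) x ∈ core n₁ n₂ := by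
  have h := (Classical.choose_spec (A.cover x)).2
  exact ⟨ball_subset_closedBall h.1, ball_subset_closedBall h.2⟩

/-- the derivative of a map of product form -/
lemma fderiv_prod_form {F : ℂ × ℂ → EV n₁ × EV n₂} {a : ℂ → EV n₁} {b : ℂ → EV n₂} {z : ℂ × ℂ}
    (ha : AnalyticAt ℂ a z.1) (hb : AnalyticAt ℂ b z.2) (h : ∀ᶠ w in 𝓝 z, F w = (a w.1, b w.2))
    (u : ℂ × ℂ) : fderiv ℂ F z u = (fderiv ℂ a z.1 u.1, fderiv ℂ b z.2 u.2) := by
  have h1 : HasFDerivAt (fun w : ℂ × ℂ => a w.1)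
      ((fderiv ℂ a z.1).comp (ContinuousLinearMap.fst ℂ ℂ ℂ)) z :=
    HasFDerivAt.comp z (ha.differentiableAt.hasFDerivAt) hasFDerivAt_fst
  have h2 : HasFDerivAt (fun w : ℂ × ℂ => b w.2)
      ((fderiv ℂ b z.2).comp (ContinuousLinearMap.snd ℂ ℂ ℂ)) z :=
    HasFDerivAt.comp z (hb.differentiableAt.hasFDerivAt) hasFDerivAt_snd
  have h3 : HasFDerivAt F
      (((fderiv ℂ a z.1).comp (ContinuousLinearMap.fst ℂ ℂ ℂ)).prod
        ((fderiv ℂ b z.2).comp (ContinuousLinearMap.snd ℂ ℂ ℂ))) z :=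
    (h1.prodMk h2).congr_of_eventuallyEq h
  rw [h3.fderiv]
  rfl

end Slk

open Slk

/-- uniform slack and comparison -/
theorem slack_holds {n₁ n₂ : ℕ} {X : Type} [TopologicalSpace X] {A : PFol n₁ n₂ X} [Finite A.ι]
    (hch : St_chart A) (K : KMet A) : St_slack K := by
  obtain ⟨κ, hκ, hc⟩ := comp_all K
  refine ⟨κ ^ 2 / 2, by positivity, κ, hκ, fun Ω G _ hG => ⟨?_, ?_⟩⟩
  · intro z hz s t
    obtain ⟨a, b, ha, hb, hab⟩ := hch Ω G hG z hz (A.idx (G z)) (idx_source A (G z))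
    have hF := fun u => fderiv_prod_form (F := fun w => A.ch (A.idx (G z)) (G w)) ha hb
      (hab.mono fun w hw => hw.2) u
    have hp := idx_mem A (G z)
    simp only [pullM, hF]
    set i := A.idx (G z) with hi
    set p := A.ch i (G z) with hpdef
    set α := fderiv ℂ a z.1 s with hα
    set β := fderiv ℂ b z.2 t with hβ
    simp only [map_zero]
    have h1 := (hc i p hp (α, β)).1
    have h2 := (hc i p hp (α, (0 : EV n₂))).2
    have h3 := (hc i p hp ((0 : EV n₁), β)).2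
    have hn1 : ‖(α, (0 : EV n₂))‖ = ‖α‖ := by simp [Prod.norm_def]
    have hn2 : ‖((0 : EV n₁), β)‖ = ‖β‖ := by simp [Prod.norm_def]
    have hn3 : ‖α‖ ≤ ‖(α, β)‖ := norm_fst_le (α, β)
    have hn4 : ‖β‖ ≤ ‖(α, β)‖ := norm_snd_le (α, β)
    rw [hn1] at h2
    rw [hn2] at h3
    have h5 : κ * (‖α‖ ^ 2 + ‖β‖ ^ 2) / 2 ≤ K.g i p (α, β) (α, β) := by
      refine le_trans ?_ h1
      have h6 : ‖α‖ ^ 2 ≤ ‖(α, β)‖ ^ 2 := by gcongr
      have h7 : ‖β‖ ^ 2 ≤ ‖(α, β)‖ ^ 2 := by gcongr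
      nlinarith
    have h8 : κ ^ 2 / 2 * (K.g i p (α, (0 : EV n₂)) (α, (0 : EV n₂)) +
        K.g i p ((0 : EV n₁), β) ((0 : EV n₁), β)) ≤ κ ^ 2 / 2 * (κ⁻¹ * ‖α‖ ^ 2 + κ⁻¹ * ‖β‖ ^ 2) := by
      gcongr
    have h9 : κ ^ 2 / 2 * (κ⁻¹ * ‖α‖ ^ 2 + κ⁻¹ * ‖β‖ ^ 2) = κ * (‖α‖ ^ 2 + ‖β‖ ^ 2) / 2 := by
      field_simp
    linarith
  · intro z _ u
    exact hc _ _ (idx_mem A (G z)) _

end Crest.Agent.R266
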