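import Crest.Agent.R266.PullC
import Crest.Agent.R266.Slack

/-!
R266 / Pull: the pulled back metric of a p.c. map is a closed hermitian form (`St_pull`), formula in
an arbitrary chart.
-/

set_option autoImplicit false

open scoped Manifold ContDiff Topology
open Set Metric Filter

namespace Crest.Agent.R266

namespace Pul
variable {n₁ n₂ : ℕ} {X : Type} [TopologicalSpace X]

/-- transition maps are analytic -/
theorem transition_analyticAt (A : PFol n₁ n₂ X) (i j : A.ι) (x : X) (hi : x ∈ (A.ch i).source)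
    (hj : x ∈ (A.ch j).source) :
    AnalyticAt ℂ (fun p => A.ch j ((A.ch i).symm p)) (A.ch i x) := by
  obtain ⟨φ, ψ, hφ, hψ, h⟩ := A.compat i j x ⟨hi, hj⟩
  have h1 : AnalyticAt ℂ (fun p : EV n₁ × EV n₂ => (φ p.1, ψ p.2)) (A.ch i x) :=
    AnalyticAt.prod (AnalyticAt.fun_comp (f := Prod.fst) hφ analyticAt_fst)
      (AnalyticAt.fun_comp (f := Prod.snd) hψ analyticAt_snd)
  exact h1.congr (h.mono fun p hp => hp.symm)

/-- chain rule for changing the chart in the target -/
theorem fderiv_chart_change {F : Type*} [NormedAddCommGroup F] [NormedSpace ℂ F]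
    (A : PFol n₁ n₂ X) (i j : A.ι) {c : F → X} {z : F} (hi : c z ∈ (A.ch i).source)
    (hj : c z ∈ (A.ch j).source) (hd : DifferentiableAt ℂ (fun w => A.ch i (c w)) z)
    (hs : ∀ᶠ w in 𝓝 z, c w ∈ (A.ch i).source) (u : F) :
    fderiv ℂ (fun w => A.ch j (c w)) z u =
      fderiv ℂ (fun p => A.ch j ((A.ch i).symm p)) (A.ch i (c z))
        (fderiv ℂ (fun w => A.ch i (c w)) z u) := by
  have h1 : (fun w => A.ch j (c w)) =ᶠ[𝓝 z]
      fun w => (fun p => A.ch j ((A.ch i).symm p)) ((fun w => A.ch i (c w)) w) := by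
    filter_upwards [hs] with w hw
    simp only [(A.ch i).left_inv hw]
  have hT := (transition_analyticAt A i j (c z) hi hj).differentiableAt.hasFDerivAt
  have h2 := HasFDerivAt.comp (f := fun w => A.ch i (c w)) z hT hd.hasFDerivAt
  rw [h1.fderiv_eq]
  have h3 := h2.fderiv
  have h4 : (fun p => A.ch j ((A.ch i).symm p)) ∘ (fun w => A.ch i (c w)) =
    fun w => (fun p => A.ch j ((A.ch i).symm p)) ((fun w => A.ch i (c w)) w) := rfl
  rw [h4] at h3
  rw [h3]
  rfl

/-- the metric, evaluated on velocity vectors of a map `c`, does not depend on the chart -/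
theorem metric_chart_change {F : Type*} [NormedAddCommGroup F] [NormedSpace ℂ F]
    {A : PFol n₁ n₂ X} (K : KMet A) (i j : A.ι) {c : F → X} {z : F}
    (hi : c z ∈ (A.ch i).source) (hj : c z ∈ (A.ch j).source)
    (hd : DifferentiableAt ℂ (fun w => A.ch i (c w)) z)
    (hs : ∀ᶠ w in 𝓝 z, c w ∈ (A.ch i).source) (u v : F) :
    K.g j (A.ch j (c z)) (fderiv ℂ (fun w => A.ch j (c w)) z u)
      (fderiv ℂ (fun w => A.ch j (c w)) z v) =
    K.g i (A.ch i (c z)) (fderiv ℂ (fun w => A.ch i (c w)) z u)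
      (fderiv ℂ (fun w => A.ch i (c w)) z v) := by
  rw [fderiv_chart_change A i j hi hj hd hs, fderiv_chart_change A i j hi hj hd hs]
  exact K.compat i j (c z) ⟨hi, hj⟩ _ _

/-- a p.c. map is analytic in every chart around the image point -/
theorem analyticAt_chart {A : PFol n₁ n₂ X} (hch : St_chart A) {Ω : Set (ℂ × ℂ)} {G : ℂ × ℂ → X}
    (hG : IsPC A Ω G) {z : ℂ × ℂ} (hz : z ∈ Ω) (i : A.ι) (hi : G z ∈ (A.ch i).source) :
    AnalyticAt ℂ (fun w => A.ch i (G w)) z ∧ ∀ᶠ w in 𝓝 z, G w ∈ (A.ch i).source := by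
  obtain ⟨a, b, ha, hb, h⟩ := hch Ω G hG z hz i hi
  refine ⟨?_, h.mono fun w hw => hw.1⟩
  have h1 : AnalyticAt ℂ (fun w : ℂ × ℂ => (a w.1, b w.2)) z :=
    AnalyticAt.prod (AnalyticAt.fun_comp (f := Prod.fst) ha analyticAt_fst)
      (AnalyticAt.fun_comp (f := Prod.snd) hb analyticAt_snd)
  exact h1.congr (h.mono fun w hw => hw.2.symm)

/-- the pulled back metric in an arbitrary chart -/
theorem pullM_chart {A : PFol n₁ n₂ X} (hch : St_chart A) (K : KMet A) {Ω : Set (ℂ × ℂ)}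
    {G : ℂ × ℂ → X} (hG : IsPC A Ω G) {z : ℂ × ℂ} (hz : z ∈ Ω) (i : A.ι)
    (hi : G z ∈ (A.ch i).source) (u v : ℂ × ℂ) :
    pullM K G z u v = K.g i (A.ch i (G z)) (fderiv ℂ (fun w => A.ch i (G w)) z u)
      (fderiv ℂ (fun w => A.ch i (G w)) z v) := by
  obtain ⟨h1, h2⟩ := analyticAt_chart hch hG hz i hi
  exact metric_chart_change K i (A.idx (G z)) hi (Slk.idx_source A (G z)) h1.differentiableAt h2 u v

/-- the pulled back metric near a point, in one chart -/
theorem pullM_eventually {A : PFol n₁ n₂ X} (hch : St_chart A) (K : KMet A) {Ω : Set (ℂ × ℂ)}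
    (hΩ : IsOpen Ω) {G : ℂ × ℂ → X} (hG : IsPC A Ω G) {z : ℂ × ℂ} (hz : z ∈ Ω) (i : A.ι)
    (hi : G z ∈ (A.ch i).source) (u v : ℂ × ℂ) :
    (fun w => pullM K G w u v) =ᶠ[𝓝 z] fun w =>
      K.g i ((fun w => A.ch i (G w)) w) (fderiv ℂ (fun w => A.ch i (G w)) w u)
        (fderiv ℂ (fun w => A.ch i (G w)) w v) := by
  obtain ⟨_, h2⟩ := analyticAt_chart hch hG hz i hi
  filter_upwards [h2, hΩ.mem_nhds hz] with w hw hwΩ
  exact pullM_chart hch K hG hwΩ i hw u v

theorem chart_mem_target (A : PFol n₁ n₂ X) (i : A.ι) {x : X} (hx : x ∈ (A.ch i).source) :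
    A.ch i x ∈ ball (0 : EV n₁) 1 ×ˢ ball (0 : EV n₂) 1 := by
  rw [← A.target_eq i]
  exact (A.ch i).map_source hx

end Pul

open Pul

variable {n₁ n₂ : ℕ} {X : Type} [TopologicalSpace X] in
/-- the pulled back metric of a p.c. map is a closed hermitian form -/
theorem pull_holds {A : PFol n₁ n₂ X} (hch : St_chart A) (K : KMet A) : St_pull K := by
  intro Ω G hΩ hG
  have hB : IsOpen (ball (0 : EV n₁) 1 ×ˢ ball (0 : EV n₂) 1) := isOpen_ball.prod isOpen_ball
  refine ⟨?_, ?_, ?_, ?_, ?_, ?_, ?_⟩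
  · intro z _ u u' v
    simp only [pullM, map_add, ContinuousLinearMap.add_apply]
  · intro z _ c u v
    have : ∀ L : ℂ × ℂ →L[ℂ] EV n₁ × EV n₂, L (c • u) = c • L u := fun L => by
      rw [← Complex.coe_smul, map_smul, Complex.coe_smul]
    simp only [pullM, this, map_smul, ContinuousLinearMap.smul_apply, smul_eq_mul]
  · intro z hz u v
    exact K.symm _ _ (chart_mem_target A _ (Slk.idx_source A (G z))) _ _
  · intro z hz u v
    simp only [pullM, map_smul]
    exact K.herm _ _ (chart_mem_target A _ (Slk.idx_source A (G z))) _ _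
  · intro z hz u
    by_cases h : fderiv ℂ (fun w => A.ch (A.idx (G z)) (G w)) z u = 0
    · simp [pullM, h]
    · exact (K.pos _ _ (chart_mem_target A _ (Slk.idx_source A (G z))) _ h).le
  · intro u v z hz
    have hi := Slk.idx_source A (G z)
    obtain ⟨h1, _⟩ := analyticAt_chart hch hG hz _ hi
    have hg : ContDiffAt ℝ ∞ (K.g (A.idx (G z))) (A.ch (A.idx (G z)) (G z)) :=
      (K.smooth _).contDiffAt (hB.mem_nhds (chart_mem_target A _ hi))
    exact ((contDiffAt_pull (φ := fun w => A.ch (A.idx (G z)) (G w)) h1 hg u v).congr_of_eventuallyEq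
      (pullM_eventually hch K hΩ hG hz _ hi u v)).contDiffWithinAt
  · intro z hz u v w
    have hi := Slk.idx_source A (G z)
    obtain ⟨h1, _⟩ := analyticAt_chart hch hG hz _ hi
    have hm := chart_mem_target A _ hi
    have hg : ContDiffAt ℝ ∞ (K.g (A.idx (G z))) (A.ch (A.idx (G z)) (G z)) :=
      (K.smooth _).contDiffAt (hB.mem_nhds hm)
    have e := fun a b => (pullM_eventually hch K hΩ hG hz _ hi a b).fderiv_eq (𝕜 := ℝ)
    rw [e, e, e]
    exact closed_pull (φ := fun w => A.ch (A.idx (G z)) (G w)) h1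
      (hg.differentiableAt (by simp)) (K.symm _ _ hm) (K.herm _ _ hm) (K.closed _ _ hm) u v w

end Crest.Agent.R266
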