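import Crest.Agent.R266.Stmts

/-!
R266 / Stokes: `∫ γ ∧ i∂∂̄ f = 0` for a closed form `γ` and a compactly supported function `f`.
-/

set_option autoImplicit false

open scoped Manifold ContDiff Topology ENNReal
open Set Metric Filter MeasureTheory

namespace Crest.Agent.R266

namespace Stokes

instance isAddHaarMeasure_volume_C2 : (volume : Measure (ℂ × ℂ)).IsAddHaarMeasure :=
  inferInstanceAs ((volume : Measure ℂ).prod (volume : Measure ℂ)).IsAddHaarMeasure

/-- the integral of a directional derivative of a compactly supported function vanishes -/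
lemma integral_fderiv_zero {W : ℂ × ℂ → ℝ} (hW : ContDiff ℝ ∞ W) (hc : HasCompactSupport W)
    (v : ℂ × ℂ) : Integrable (fun z => fderiv ℝ W z v) ∧ ∫ z, fderiv ℝ W z v = 0 := by
  have h1 : Continuous (fun z => fderiv ℝ W z v) :=
    (hW.continuous_fderiv (by simp)).clm_apply continuous_const
  have h2 : HasCompactSupport (fun z => fderiv ℝ W z v) := hc.fderiv_apply (𝕜 := ℝ) v
  have hI : Integrable (fun z => fderiv ℝ W z v) := h1.integrable_of_hasCompactSupport h2
  have hI0 : Integrable W := hW.continuous.integrable_of_hasCompactSupport hc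
  refine ⟨hI, ?_⟩
  have := integral_mul_fderiv_eq_neg_fderiv_mul_of_integrable (μ := (volume : Measure (ℂ × ℂ)))
    (f := fun _ : ℂ × ℂ => (1 : ℝ)) (g := W) (v := v)
    (by simp) (by simpa using hI) (by simpa using hI0)
    (fun x _ => differentiableAt_const _) (fun x _ => hW.differentiable (by simp) x)
  simpa using this

/-- product of a function smooth on `Ω` with a smooth function supported in `Ω` -/
lemma contDiff_mul_of_tsupport {Ω : Set (ℂ × ℂ)} (hΩ : IsOpen Ω) {g φ : ℂ × ℂ → ℝ}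
    (hg : ContDiffOn ℝ ∞ g Ω) (hφ : ContDiff ℝ ∞ φ) (hs : tsupport φ ⊆ Ω) :
    ContDiff ℝ ∞ (fun z => g z * φ z) := by
  rw [contDiff_iff_contDiffAt]
  intro z
  by_cases hz : z ∈ Ω
  · exact (hg.contDiffAt (hΩ.mem_nhds hz)).mul hφ.contDiffAt
  · have h0 : φ =ᶠ[𝓝 z] 0 := notMem_tsupport_iff_eventuallyEq.mp (fun h => hz (hs h))
    have : (fun z => g z * φ z) =ᶠ[𝓝 z] fun _ => (0 : ℝ) := by
      filter_upwards [h0] with w hw
      simp [hw]
    exact contDiffAt_const.congr_of_eventuallyEq this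

/-- directional derivatives of a smooth function are smooth -/
lemma contDiff_dir {f : ℂ × ℂ → ℝ} (hf : ContDiff ℝ ∞ f) (v : ℂ × ℂ) :
    ContDiff ℝ ∞ (fun z => fderiv ℝ f z v) :=
  (hf.fderiv_right (m := ∞) (by simp)).clm_apply contDiff_const

lemma tsupport_dir (f : ℂ × ℂ → ℝ) (v : ℂ × ℂ) :
    tsupport (fun z => fderiv ℝ f z v) ⊆ tsupport f :=
  (tsupport_fderiv_apply_subset ℝ v)

/-- symmetry of second derivatives -/
lemma hess_symm {f : ℂ × ℂ → ℝ} (hf : ContDiff ℝ ∞ f) (z u v : ℂ × ℂ) :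
    hess f z u v = hess f z v u := by
  have h2 : ∀ v : ℂ × ℂ, fderiv ℝ (fun w => fderiv ℝ f w v) z = (fderiv ℝ (fderiv ℝ f) z).flip v := by
    intro v
    have hd : DifferentiableAt ℝ (fderiv ℝ f) z :=
      (hf.fderiv_right (m := ∞) (by simp)).differentiable (by simp) z
    rw [fderiv_clm_apply hd (differentiableAt_const v)]
    ext u
    · simp
    · simp
  have hs : IsSymmSndFDerivAt ℝ f z :=
    hf.contDiffAt.isSymmSndFDerivAt (by simp; exact WithTop.coe_le_coe.2 le_top)
  simp only [hess, h2]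
  simpa using hs u v

end Stokes

open Stokes

theorem stokes_holds : St_stokes := by
  intro Ω γ f hΩ hγ hf hc hs
  -- notation
  obtain ⟨e, he⟩ : ∃ e : ℂ × ℂ, e = (1, 0) := ⟨_, rfl⟩
  obtain ⟨k, hk⟩ : ∃ k : ℂ × ℂ, k = (0, 1) := ⟨_, rfl⟩
  have hk'0 : ((0, Complex.I) : ℂ × ℂ) = Complex.I • k := by
    rw [hk]; ext <;> simp
  -- `J² = -1`
  have hJJ : ∀ v : ℂ × ℂ, Complex.I • (Complex.I • v) = (-1 : ℝ) • v := by
    intro v
    rw [smul_smul, Complex.I_mul_I]
    simp
  have hneg : ∀ z ∈ Ω, ∀ u v, γ z ((-1 : ℝ) • u) v = - γ z u v := by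
    intro z hz u v
    rw [hγ.smul_left z hz]; ring
  -- values of the form
  have v1 : ∀ z ∈ Ω, γ z (Complex.I • e) (Complex.I • e) = γ z e e := fun z hz => hγ.herm z hz _ _
  have v2 : ∀ z ∈ Ω, γ z (Complex.I • k) (Complex.I • k) = γ z k k := fun z hz => hγ.herm z hz _ _
  have v3 : ∀ z ∈ Ω, γ z (Complex.I • e) (Complex.I • k) = γ z e k := fun z hz => hγ.herm z hz _ _
  have v4 : ∀ z ∈ Ω, γ z e (Complex.I • k) = - γ z (Complex.I • e) k := by
    intro z hz
    rw [← hγ.herm z hz (Complex.I • e) k, hJJ, hneg z hz]; ring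
  -- transfer of `fderiv` along equalities on `Ω`
  have tr : ∀ {g g' : ℂ × ℂ → ℝ}, (∀ z ∈ Ω, g z = g' z) → ∀ z ∈ Ω, ∀ v,
      fderiv ℝ g z v = fderiv ℝ g' z v := by
    intro g g' h z hz v
    have : g =ᶠ[𝓝 z] g' := by
      filter_upwards [hΩ.mem_nhds hz] with w hw using h w hw
    rw [this.fderiv_eq]
  have trn : ∀ {g g' : ℂ × ℂ → ℝ}, (∀ z ∈ Ω, g z = - g' z) → ∀ z ∈ Ω, ∀ v,
      fderiv ℝ g z v = - fderiv ℝ g' z v := by
    intro g g' h z hz v
    rw [tr (g' := fun z => - g' z) h z hz v]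
    have : (fun z => - g' z) = -g' := rfl
    rw [this, fderiv_neg]; simp
  obtain ⟨e', he'⟩ : ∃ e' : ℂ × ℂ, e' = Complex.I • e := ⟨_, rfl⟩
  obtain ⟨k', hk'⟩ : ∃ k' : ℂ × ℂ, k' = Complex.I • k := ⟨_, rfl⟩
  -- closedness relations
  have C1 : ∀ z ∈ Ω, fderiv ℝ (fun q => γ q e e) z k =
      fderiv ℝ (fun q => γ q e k) z e + fderiv ℝ (fun q => γ q e' k) z e' := by
    intro z hz
    have h := hγ.closed z hz e e' k
    rw [trn (g := fun q => γ q (Complex.I • e') k) (g' := fun q => γ q e k)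
        (fun q hq => by rw [he', hJJ, hneg q hq]) z hz,
      tr (g := fun q => γ q (Complex.I • e) k) (g' := fun q => γ q e' k)
        (fun q hq => by rw [he']) z hz,
      tr (g := fun q => γ q (Complex.I • e) e') (g' := fun q => γ q e e)
        (fun q hq => by rw [he', v1 q hq]) z hz] at h
    linarith
  have C2 : ∀ z ∈ Ω, fderiv ℝ (fun q => γ q e e) z k' =
      fderiv ℝ (fun q => γ q e k) z e' - fderiv ℝ (fun q => γ q e' k) z e := by
    intro z hz
    have h := hγ.closed z hz e e' k'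
    rw [tr (g := fun q => γ q (Complex.I • e') k') (g' := fun q => γ q e' k)
        (fun q hq => by rw [he', hk', hJJ, hneg q hq, v4 q hq]; ring) z hz,
      tr (g := fun q => γ q (Complex.I • e) k') (g' := fun q => γ q e k)
        (fun q hq => by rw [hk', v3 q hq]) z hz,
      tr (g := fun q => γ q (Complex.I • e) e') (g' := fun q => γ q e e)
        (fun q hq => by rw [he', v1 q hq]) z hz] at h
    linarith
  have C3 : ∀ z ∈ Ω, fderiv ℝ (fun q => γ q k k) z e =
      fderiv ℝ (fun q => γ q e k) z k - fderiv ℝ (fun q => γ q e' k) z k' := by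
    intro z hz
    have h := hγ.closed z hz k k' e
    rw [trn (g := fun q => γ q (Complex.I • k') e) (g' := fun q => γ q e k)
        (fun q hq => by rw [hk', hJJ, hneg q hq, hγ.symm q hq]) z hz,
      trn (g := fun q => γ q (Complex.I • k) e) (g' := fun q => γ q e' k)
        (fun q hq => by rw [hγ.symm q hq, v4 q hq, he']) z hz,
      tr (g := fun q => γ q (Complex.I • k) k') (g' := fun q => γ q k k)
        (fun q hq => by rw [hk', v2 q hq]) z hz] at h
    linarith
  have C4 : ∀ z ∈ Ω, fderiv ℝ (fun q => γ q k k) z e' =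
      fderiv ℝ (fun q => γ q e' k) z k + fderiv ℝ (fun q => γ q e k) z k' := by
    intro z hz
    have h := hγ.closed z hz k k' e'
    rw [trn (g := fun q => γ q (Complex.I • k') e') (g' := fun q => γ q e' k)
        (fun q hq => by rw [hk', hJJ, hneg q hq, hγ.symm q hq]) z hz,
      tr (g := fun q => γ q (Complex.I • k) e') (g' := fun q => γ q e k)
        (fun q hq => by rw [hγ.symm q hq, he', v3 q hq]) z hz,
      tr (g := fun q => γ q (Complex.I • k) k') (g' := fun q => γ q k k)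
        (fun q hq => by rw [hk', v2 q hq]) z hz] at h
    linarith
  -- the vector field whose divergence is the integrand
  have sm : ∀ u v w : ℂ × ℂ, ContDiff ℝ ∞ (fun z => γ z u v * fderiv ℝ f z w) := fun u v w =>
    contDiff_mul_of_tsupport hΩ (hγ.smooth u v) (contDiff_dir hf w)
      ((tsupport_dir f w).trans hs)
  have hcs : ∀ u v w : ℂ × ℂ, HasCompactSupport (fun z => γ z u v * fderiv ℝ f z w) := by
    intro u v w
    exact HasCompactSupport.mul_left (f := fun z => γ z u v) (hc.fderiv_apply (𝕜 := ℝ) w)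
  have I0 : ∀ u v w x : ℂ × ℂ,
      Integrable (fun z => fderiv ℝ (fun z => γ z u v * fderiv ℝ f z w) z x) ∧
      ∫ z, fderiv ℝ (fun z => γ z u v * fderiv ℝ f z w) z x = 0 := fun u v w x =>
    integral_fderiv_zero (sm u v w) (hcs u v w) x
  have key : ∀ z, wdg (γ z) (levi f z) =
      fderiv ℝ (fun z => γ z e e * fderiv ℝ f z k) z k
      + fderiv ℝ (fun z => γ z e e * fderiv ℝ f z k') z k'
      + fderiv ℝ (fun z => γ z k k * fderiv ℝ f z e) z e
      + fderiv ℝ (fun z => γ z k k * fderiv ℝ f z e') z e'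
      - fderiv ℝ (fun z => γ z e k * fderiv ℝ f z e) z k
      - fderiv ℝ (fun z => γ z e k * fderiv ℝ f z e') z k'
      - fderiv ℝ (fun z => γ z e k * fderiv ℝ f z k) z e
      - fderiv ℝ (fun z => γ z e k * fderiv ℝ f z k') z e'
      - fderiv ℝ (fun z => γ z e' k * fderiv ℝ f z e') z k
      + fderiv ℝ (fun z => γ z e' k * fderiv ℝ f z e) z k'
      + fderiv ℝ (fun z => γ z e' k * fderiv ℝ f z k') z e
      - fderiv ℝ (fun z => γ z e' k * fderiv ℝ f z k) z e' := by
    intro z
    by_cases hz : z ∈ Ω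
    · have D : ∀ u v w x : ℂ × ℂ, fderiv ℝ (fun z => γ z u v * fderiv ℝ f z w) z x
          = fderiv ℝ (fun z => γ z u v) z x * fderiv ℝ f z w + γ z u v * hess f z x w := by
        intro u v w x
        have h1 : DifferentiableAt ℝ (fun z => γ z u v) z :=
          ((hγ.smooth u v).contDiffAt (hΩ.mem_nhds hz)).differentiableAt (by simp)
        have h2 : DifferentiableAt ℝ (fun z => fderiv ℝ f z w) z :=
          (contDiff_dir hf w).differentiable (by simp) z
        rw [fderiv_fun_mul h1 h2]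
        simp [hess]; ring
      have s1 := hess_symm hf z k e
      have s2 := hess_symm hf z k' e'
      have s3 := hess_symm hf z k e'
      have s4 := hess_symm hf z k' e
      have hn1 : hess f z e' (Complex.I • k') = - hess f z e' k := by
        rw [hk', hJJ]
        simp only [hess]
        have : (fun w => fderiv ℝ f w ((-1 : ℝ) • k)) = -(fun w => fderiv ℝ f w k) := by
          ext w; simp
        rw [this, fderiv_neg]; simp
      simp only [D, wdg, levi, ← he, ← hk, hk'0]
      rw [← he', ← hk', hn1, C1 z hz, C2 z hz, C3 z hz, C4 z hz, s1, s2, s3, s4,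
        show γ z e k' = - γ z e' k by rw [hk', he', v4 z hz]]
      ring
    · have h0 : f =ᶠ[𝓝 z] 0 := notMem_tsupport_iff_eventuallyEq.mp (fun h => hz (hs h))
      have h1 : ∀ w : ℂ × ℂ, (fun z => fderiv ℝ f z w) =ᶠ[𝓝 z] fun _ => (0 : ℝ) := by
        intro w
        filter_upwards [h0.fderiv (𝕜 := ℝ)] with y hy
        rw [hy]; simp
      have h2 : ∀ u v w x : ℂ × ℂ, fderiv ℝ (fun z => γ z u v * fderiv ℝ f z w) z x = 0 := by
        intro u v w x
        have : (fun z => γ z u v * fderiv ℝ f z w) =ᶠ[𝓝 z] fun _ => (0 : ℝ) := by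
          filter_upwards [h1 w] with y hy
          rw [hy]; simp
        rw [this.fderiv_eq]; simp
      have h3 : ∀ u v, levi f z u v = 0 := by
        intro u v
        simp only [levi, hess]
        rw [(h1 v).fderiv_eq, (h1 (Complex.I • v)).fderiv_eq]
        simp
      simp only [h2, wdg, h3]
      ring
  simp only [key]
  have A : ∀ {g h : ℂ × ℂ → ℝ}, (Integrable g ∧ ∫ z, g z = 0) → (Integrable h ∧ ∫ z, h z = 0) →
      (Integrable (fun z => g z + h z) ∧ ∫ z, (g z + h z) = 0) := by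
    intro g h hg hh
    exact ⟨hg.1.add hh.1, by rw [integral_add hg.1 hh.1, hg.2, hh.2, add_zero]⟩
  have B : ∀ {g h : ℂ × ℂ → ℝ}, (Integrable g ∧ ∫ z, g z = 0) → (Integrable h ∧ ∫ z, h z = 0) →
      (Integrable (fun z => g z - h z) ∧ ∫ z, (g z - h z) = 0) := by
    intro g h hg hh
    exact ⟨hg.1.sub hh.1, by rw [integral_sub hg.1 hh.1, hg.2, hh.2, sub_zero]⟩
  exact (B (A (A (B (B (B (B (B (A (A (A (I0 _ _ _ _) (I0 _ _ _ _)) (I0 _ _ _ _)) (I0 _ _ _ _))
    (I0 _ _ _ _)) (I0 _ _ _ _)) (I0 _ _ _ _)) (I0 _ _ _ _)) (I0 _ _ _ _)) (I0 _ _ _ _))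
    (I0 _ _ _ _)) (I0 _ _ _ _)).2

end Crest.Agent.R266
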