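import Crest.Agent.R266.Sweep

/-!
Row 266, S0405, step (2): completeness of a product-foliated atlas from the no-contact theorem.
-/

set_option autoImplicit false

open scoped Manifold ContDiff Topology
open Set Filter Metric

namespace Crest.Agent.R266

section
variable {n₁ n₂ : ℕ} {X : Type} [TopologicalSpace X] {A : PFol n₁ n₂ X}

lemma isPC_single_congr {G G' : ℂ × ℂ → X} {p : ℂ × ℂ} (h : G =ᶠ[𝓝 p] G')
    (hp : IsPC A {p} G) : IsPC A {p} G' := by
  rintro z rfl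
  obtain ⟨i, a, b, ha, hb, hev⟩ := hp z rfl
  refine ⟨i, a, b, ha, hb, ?_⟩
  filter_upwards [hev, h] with w h1 h2
  rw [← h2]; exact h1

lemma isPC_single_open {G : ℂ × ℂ → X} {p : ℂ × ℂ} (hp : IsPC A {p} G) :
    ∀ᶠ q in 𝓝 p, IsPC A {q} G := by
  obtain ⟨i, a, b, ha, hb, hev⟩ := hp p rfl
  have h1 : ∀ᶠ q : ℂ × ℂ in 𝓝 p, AnalyticAt ℂ a q.1 :=
    (continuous_fst.tendsto p).eventually ha.eventually_analyticAt
  have h2 : ∀ᶠ q : ℂ × ℂ in 𝓝 p, AnalyticAt ℂ b q.2 :=
    (continuous_snd.tendsto p).eventually hb.eventually_analyticAt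
  filter_upwards [h1, h2, hev.eventually_nhds] with q k1 k2 k3
  rintro z rfl
  exact ⟨i, a, b, k1, k2, k3⟩

lemma isPC_single_ident (hu : St_unique A) {G G' : ℂ × ℂ → X} {p : ℂ × ℂ}
    (h : IsPC A {p} G) (h' : IsPC A {p} G') (hf : ∃ᶠ q in 𝓝 p, G =ᶠ[𝓝 q] G') :
    G =ᶠ[𝓝 p] G' := by
  obtain ⟨ε, hε, hb⟩ := Metric.eventually_nhds_iff_ball.1
    ((isPC_single_open h).and (isPC_single_open h'))
  obtain ⟨q, hq1, hq2⟩ := (hf.and_eventually (ball_mem_nhds p hε)).exists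
  have := hu (ball p ε) G G' isOpen_ball (convex_ball p ε).isPreconnected
    (fun z hz => (hb z hz).1 z rfl) (fun z hz => (hb z hz).2 z rfl) ⟨q, hq2, hq1⟩
  filter_upwards [ball_mem_nhds p hε] with z hz using this z hz

lemma isPC_comp_affine {G : ℂ × ℂ → X} {w : ℂ × ℂ} (a₁ a₂ c₁ c₂ : ℂ)
    (h : IsPC A {(c₁ + a₁ * w.1, c₂ + a₂ * w.2)} G) :
    IsPC A {w} (fun z => G (c₁ + a₁ * z.1, c₂ + a₂ * z.2)) := by
  rintro z rfl
  obtain ⟨i, a, b, ha, hb, hev⟩ := h _ rfl
  refine ⟨i, fun x => a (c₁ + a₁ * x), fun y => b (c₂ + a₂ * y), ?_, ?_, ?_⟩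
  · exact AnalyticAt.fun_comp (g := a) ha (by fun_prop)
  · exact AnalyticAt.fun_comp (g := b) hb (by fun_prop)
  · have hc : Continuous (fun z : ℂ × ℂ => (c₁ + a₁ * z.1, c₂ + a₂ * z.2)) := by fun_prop
    exact hc.continuousAt.eventually hev

lemma ax1_aux (hc : St_chart A) {c : ℂ → X} {x₀ : ℂ} (h : IsE1 A {x₀} c) :
    ∃ r > 0, ∀ (G : ℂ × ℂ → X) (y₀ x₁ : ℂ),
    x₁ ∈ ball x₀ r → IsPC A {(x₁, y₀)} G → (∀ᶠ x in 𝓝 x₁, G (x, y₀) = c x) →
    ∃ G' : ℂ × ℂ → X, (∀ x ∈ ball x₀ r, IsPC A {(x, y₀)} G') ∧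
      (∀ x ∈ ball x₀ r, G' (x, y₀) = c x) ∧ G' =ᶠ[𝓝 (x₁, y₀)] G := by
  obtain ⟨i, a, b, ha, hev⟩ := h x₀ rfl
  obtain ⟨r, hr, hball⟩ := Metric.eventually_nhds_iff_ball.1 (ha.eventually_analyticAt.and hev)
  refine ⟨r, hr, fun G y₀ x₁ hx₁ hG hGc => ?_⟩
  have hGx : G (x₁, y₀) = c x₁ := hGc.self_of_nhds
  have hsrc : G (x₁, y₀) ∈ (A.ch i).source := by rw [hGx]; exact (hball x₁ hx₁).2.1
  obtain ⟨a', b', ha', hb', hev'⟩ := hc _ G hG (x₁, y₀) rfl i hsrc
  have hcont : Continuous (fun x : ℂ => ((x, y₀) : ℂ × ℂ)) := by fun_prop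
  have hb0 : b' y₀ = b := by
    have h1 := hev'.self_of_nhds.2
    rw [hGx, (hball x₁ hx₁).2.2] at h1
    exact (congrArg Prod.snd h1).symm
  have ha0 : a' =ᶠ[𝓝 x₁] a := by
    filter_upwards [hcont.continuousAt.eventually hev', hGc, isOpen_ball.mem_nhds hx₁]
      with x h1 h2 h3
    have := h1.2
    rw [h2, (hball x h3).2.2] at this
    exact (congrArg Prod.fst this).symm
  refine ⟨fun w => (A.ch i).symm (a w.1, b' w.2), ?_, ?_, ?_⟩
  · intro x hx
    rintro z rfl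
    have hx' := hball x hx
    refine ⟨i, a, b', hx'.1, hb', ?_⟩
    have htar : ((a x, b' y₀) : EV n₁ × EV n₂) ∈ (A.ch i).target := by
      rw [hb0, ← hx'.2.2]; exact (A.ch i).map_source hx'.2.1
    have hct : ContinuousAt (fun w : ℂ × ℂ => (a w.1, b' w.2)) (x, y₀) := by
      refine ContinuousAt.prodMk ?_ ?_
      · exact ContinuousAt.comp (f := Prod.fst) (g := a) (x := (x, y₀)) hx'.1.continuousAt continuousAt_fst
      · exact ContinuousAt.comp (f := Prod.snd) (g := b') (x := (x, y₀)) hb'.continuousAt continuousAt_snd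
    have := hct.eventually ((A.ch i).open_target.mem_nhds htar)
    filter_upwards [this] with w hw
    exact ⟨(A.ch i).map_target hw, (A.ch i).right_inv hw⟩
  · intro x hx
    have hx' := hball x hx
    simp only
    rw [hb0, ← hx'.2.2, (A.ch i).left_inv hx'.2.1]
  · have h1 : ∀ᶠ w : ℂ × ℂ in 𝓝 (x₁, y₀), a' w.1 = a w.1 :=
      (continuous_fst.tendsto (x₁, y₀)).eventually ha0
    filter_upwards [hev', h1] with w k1 k2
    rw [← k2, ← k1.2, (A.ch i).left_inv k1.1]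

lemma ax2_aux (hc : St_chart A) {c : ℂ → X} {y₀ : ℂ} (h : IsE2 A {y₀} c) :
    ∃ r > 0, ∀ (G : ℂ × ℂ → X) (x₀ y₁ : ℂ),
    y₁ ∈ ball y₀ r → IsPC A {(x₀, y₁)} G → (∀ᶠ y in 𝓝 y₁, G (x₀, y) = c y) →
    ∃ G' : ℂ × ℂ → X, (∀ y ∈ ball y₀ r, IsPC A {(x₀, y)} G') ∧
      (∀ y ∈ ball y₀ r, G' (x₀, y) = c y) ∧ G' =ᶠ[𝓝 (x₀, y₁)] G := by
  obtain ⟨i, a, b, hb, hev⟩ := h y₀ rfl
  obtain ⟨r, hr, hball⟩ := Metric.eventually_nhds_iff_ball.1 (hb.eventually_analyticAt.and hev)
  refine ⟨r, hr, fun G x₀ y₁ hy₁ hG hGc => ?_⟩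
  have hGx : G (x₀, y₁) = c y₁ := hGc.self_of_nhds
  have hsrc : G (x₀, y₁) ∈ (A.ch i).source := by rw [hGx]; exact (hball y₁ hy₁).2.1
  obtain ⟨a', b', ha', hb', hev'⟩ := hc _ G hG (x₀, y₁) rfl i hsrc
  have hcont : Continuous (fun y : ℂ => ((x₀, y) : ℂ × ℂ)) := by fun_prop
  have ha0 : a' x₀ = a := by
    have h1 := hev'.self_of_nhds.2
    rw [hGx, (hball y₁ hy₁).2.2] at h1
    exact (congrArg Prod.fst h1).symm
  have hb0 : b' =ᶠ[𝓝 y₁] b := by
    filter_upwards [hcont.continuousAt.eventually hev', hGc, isOpen_ball.mem_nhds hy₁]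
      with y h1 h2 h3
    have := h1.2
    rw [h2, (hball y h3).2.2] at this
    exact (congrArg Prod.snd this).symm
  refine ⟨fun w => (A.ch i).symm (a' w.1, b w.2), ?_, ?_, ?_⟩
  · intro y hy
    rintro z rfl
    have hy' := hball y hy
    refine ⟨i, a', b, ha', hy'.1, ?_⟩
    have htar : ((a' x₀, b y) : EV n₁ × EV n₂) ∈ (A.ch i).target := by
      rw [ha0, ← hy'.2.2]; exact (A.ch i).map_source hy'.2.1
    have hct : ContinuousAt (fun w : ℂ × ℂ => (a' w.1, b w.2)) (x₀, y) := by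
      refine ContinuousAt.prodMk ?_ ?_
      · exact ContinuousAt.comp (f := Prod.fst) (g := a') (x := (x₀, y)) ha'.continuousAt continuousAt_fst
      · exact ContinuousAt.comp (f := Prod.snd) (g := b) (x := (x₀, y)) hy'.1.continuousAt continuousAt_snd
    have := hct.eventually ((A.ch i).open_target.mem_nhds htar)
    filter_upwards [this] with w hw
    exact ⟨(A.ch i).map_target hw, (A.ch i).right_inv hw⟩
  · intro y hy
    have hy' := hball y hy
    simp only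
    rw [ha0, ← hy'.2.2, (A.ch i).left_inv hy'.2.1]
  · have h1 : ∀ᶠ w : ℂ × ℂ in 𝓝 (x₀, y₁), b' w.2 = b w.2 :=
      (continuous_snd.tendsto (x₀, y₁)).eventually hb0
    filter_upwards [hev', h1] with w k1 k2
    rw [← k2, ← k1.2, (A.ch i).left_inv k1.1]

lemma init_aux (hc : St_chart A) {c₁ c₂ : ℂ → X} {x₀ y₀ : ℂ} (h1 : IsE1 A {x₀} c₁)
    (h2 : IsE2 A {y₀} c₂) (h : c₁ x₀ = c₂ y₀) :
    ∃ G : ℂ × ℂ → X, IsPC A {(x₀, y₀)} G ∧ (∀ᶠ x in 𝓝 x₀, G (x, y₀) = c₁ x) ∧
      (∀ᶠ y in 𝓝 y₀, G (x₀, y) = c₂ y) := by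
  -- view `c₂` as a p.c. map
  have hpc : IsPC A {(x₀, y₀)} (fun w => c₂ w.2) := by
    rintro z rfl
    obtain ⟨i, a, b, hb, hev⟩ := h2 y₀ rfl
    refine ⟨i, fun _ => a, b, analyticAt_const, hb, ?_⟩
    exact (continuous_snd.tendsto (x₀, y₀)).eventually hev
  obtain ⟨r, hr, H⟩ := ax1_aux hc h1
  -- we glue in the chart of `c₁` at `x₀`
  obtain ⟨i, a, b, ha, hev⟩ := h1 x₀ rfl
  have hsrc : c₂ y₀ ∈ (A.ch i).source := by rw [← h]; exact hev.self_of_nhds.1
  obtain ⟨a', b', ha', hb', hev'⟩ := hc _ _ hpc (x₀, y₀) rfl i hsrc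
  have e0 := hev'.self_of_nhds.2
  have e1 := hev.self_of_nhds.2
  rw [h] at e1
  simp only at e0
  rw [e1] at e0
  have hb0 : b' y₀ = b := (congrArg Prod.snd e0).symm
  have ha0 : a' x₀ = a x₀ := (congrArg Prod.fst e0).symm
  refine ⟨fun w => (A.ch i).symm (a w.1, b' w.2), ?_, ?_, ?_⟩
  · rintro z rfl
    refine ⟨i, a, b', ha, hb', ?_⟩
    have htar : ((a x₀, b' y₀) : EV n₁ × EV n₂) ∈ (A.ch i).target := by
      rw [hb0, ← e1]; exact (A.ch i).map_source hsrc
    have hct : ContinuousAt (fun w : ℂ × ℂ => (a w.1, b' w.2)) (x₀, y₀) := by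
      refine ContinuousAt.prodMk ?_ ?_
      · exact ContinuousAt.comp (f := Prod.fst) (g := a) (x := (x₀, y₀)) ha.continuousAt continuousAt_fst
      · exact ContinuousAt.comp (f := Prod.snd) (g := b') (x := (x₀, y₀)) hb'.continuousAt continuousAt_snd
    have := hct.eventually ((A.ch i).open_target.mem_nhds htar)
    filter_upwards [this] with w hw
    exact ⟨(A.ch i).map_target hw, (A.ch i).right_inv hw⟩
  · filter_upwards [hev] with x hx
    rw [hb0, ← hx.2, (A.ch i).left_inv hx.1]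
  · have hcont : Continuous (fun y : ℂ => ((x₀, y) : ℂ × ℂ)) := by fun_prop
    filter_upwards [hcont.continuousAt.eventually hev'] with y hy

    rw [← ha0, ← hy.2, (A.ch i).left_inv hy.1]

/-- the p.c. theory of a product-foliated atlas -/
def theory (hu : St_unique A) (hc : St_chart A) : PCTheory X where
  PCAt G p := IsPC A {p} G
  E1At c t := IsE1 A {t} c
  E2At c t := IsE2 A {t} c
  pc_congr := isPC_single_congr
  pc_open := isPC_single_open
  pc_ident := isPC_single_ident hu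
  ax1 := ax1_aux hc
  ax2 := ax2_aux hc
  init := init_aux hc

lemma isOpen_GD_par (ε C : ℝ) : IsOpen (GD ε (par C)) := by
  have h1 : Continuous (fun z : ℂ × ℂ => ‖tau z‖) := by unfold tau; fun_prop
  have h2 : Continuous (fun z : ℂ × ℂ => |eta z|) := by
    unfold eta
    exact (Complex.continuous_im.comp (by fun_prop)).abs
  have h3 : Continuous (fun z : ℂ × ℂ => par C (tau z) (eta z)) := by
    unfold par tau eta
    have : Continuous (fun z : ℂ × ℂ => (z.1 + z.2).im) := Complex.continuous_im.comp (by fun_prop)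
    fun_prop
  have h4 : Continuous (fun z : ℂ × ℂ => XX z) := by
    unfold XX
    exact Complex.continuous_re.comp (by fun_prop)
  exact (isOpen_lt h1 continuous_const).inter ((isOpen_lt h2 continuous_const).inter
    ((isOpen_lt h3 h4).inter (isOpen_lt h4 continuous_const)))

lemma norm_sq_le_par (w : ℂ × ℂ) : ‖w‖ ^ 2 ≤ (XX w ^ 2 + eta w ^ 2 + ‖tau w‖ ^ 2) / 2 := by
  have hZ : XX w ^ 2 + eta w ^ 2 = ‖w.1 + w.2‖ ^ 2 := by
    rw [← Complex.normSq_eq_norm_sq, Complex.normSq_apply]; unfold XX eta; ring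
  have key : ∀ u v : ℂ, ‖u‖ ^ 2 ≤ (‖u + v‖ ^ 2 + ‖u - v‖ ^ 2) / 2 := by
    intro u v
    have := parallelogram_law_with_norm ℝ u v
    nlinarith [norm_nonneg v]
  rw [hZ]
  unfold tau
  rcases max_choice ‖w.1‖ ‖w.2‖ with h | h
  · have : ‖w‖ = ‖w.1‖ := by rw [Prod.norm_def, h]
    rw [this]; exact key _ _
  · have : ‖w‖ = ‖w.2‖ := by rw [Prod.norm_def, h]
    rw [this, add_comm w.1, ← norm_neg (w.1 - w.2), neg_sub]; exact key _ _

lemma theory_NC (hu : St_unique A) (hc : St_chart A) (hNC : St_NC A) : (theory hu hc).NC := by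
  intro G q l m C d hl hm hC hd hreg
  change ∀ p ∈ ball q d, _ → IsPC A {p} G at hreg
  set K : ℝ := max ‖l⁻¹‖ ‖m⁻¹‖ with hK
  have hK0 : 0 < K := lt_max_of_lt_left (norm_pos_iff.2 (inv_ne_zero hl))
  set C₁ : ℝ := C * K ^ 2 + 1 with hC₁
  have hC₁0 : 0 < C₁ := by positivity
  set ε : ℝ := min (1 / C₁) (d / (4 * K)) with hε
  have hε0 : 0 < ε := lt_min (by positivity) (by positivity)
  have hε1 : C₁ * ε ≤ 1 := by
    have : ε ≤ 1 / C₁ := min_le_left _ _
    rw [le_div_iff₀ hC₁0] at this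
    linarith
  have hε2 : 4 * K * ε ≤ d := by
    have : ε ≤ d / (4 * K) := min_le_right _ _
    rw [le_div_iff₀ (by positivity)] at this
    linarith
  set L : ℂ × ℂ → ℂ × ℂ := fun w => (q.1 + l⁻¹ * w.1, q.2 + m⁻¹ * w.2) with hL
  have hLn : ∀ w, ‖L w - q‖ ≤ K * ‖w‖ := by
    intro w
    have e : L w - q = (l⁻¹ * w.1, m⁻¹ * w.2) := by
      ext <;> simp [hL]
    rw [e, Prod.norm_def]
    refine max_le ?_ ?_
    · rw [norm_mul]
      exact mul_le_mul (le_max_left _ _) (norm_fst_le w) (norm_nonneg _) hK0.le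
    · rw [norm_mul]
      exact mul_le_mul (le_max_right _ _) (norm_snd_le w) (norm_nonneg _) hK0.le
  have hLre : ∀ w, (l * ((L w).1 - q.1) + m * ((L w).2 - q.2)).re = XX w := by
    intro w
    unfold XX
    simp only [hL, add_sub_cancel_left]
    rw [mul_inv_cancel_left₀ hl, mul_inv_cancel_left₀ hm]
  have hpc : IsPC A (GD ε (par C₁)) (fun w => G (L w)) := by
    intro w hw
    have hmem : L w ∈ ball q d ∧
        C * ‖L w - q‖ ^ 2 < (l * ((L w).1 - q.1) + m * ((L w).2 - q.2)).re := by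
      obtain ⟨w1, w2, w3, w4⟩ := hw
      have hn := norm_sq_le_par w
      have hX : 0 < XX w := lt_of_le_of_lt (by unfold par; positivity) w3
      have hpar : C₁ * (‖tau w‖ ^ 2 + eta w ^ 2) < XX w := w3
      constructor
      · rw [mem_ball, dist_eq_norm]
        have h3 : ‖w‖ ^ 2 ≤ (2 * ε) ^ 2 := by
          have a1 : XX w ^ 2 ≤ ε ^ 2 := by nlinarith
          have a2 : eta w ^ 2 ≤ ε ^ 2 := by
            rw [← sq_abs]; nlinarith [abs_nonneg (eta w)]
          have a3 : ‖tau w‖ ^ 2 ≤ ε ^ 2 := by nlinarith [norm_nonneg (tau w)]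
          nlinarith
        have h4 : ‖w‖ ≤ 2 * ε := by
          exact (pow_le_pow_iff_left₀ (norm_nonneg _) (by positivity) two_ne_zero).1 h3
        calc ‖L w - q‖ ≤ K * ‖w‖ := hLn w
          _ ≤ K * (2 * ε) := by gcongr
          _ < d := by nlinarith
      · rw [hLre]
        have h5 : ‖L w - q‖ ^ 2 ≤ K ^ 2 * ‖w‖ ^ 2 := by
          rw [← mul_pow]; exact pow_le_pow_left₀ (norm_nonneg _) (hLn w) 2
        have h6 : C * ‖L w - q‖ ^ 2 ≤ (C₁ - 1) * ((XX w ^ 2 + eta w ^ 2 + ‖tau w‖ ^ 2) / 2) := by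
          calc C * ‖L w - q‖ ^ 2 ≤ C * (K ^ 2 * ‖w‖ ^ 2) := by gcongr
            _ = (C₁ - 1) * ‖w‖ ^ 2 := by rw [hC₁]; ring
            _ ≤ _ := by
              refine mul_le_mul_of_nonneg_left hn ?_
              rw [hC₁]; simp; positivity
        have h7 : C₁ * XX w ^ 2 ≤ XX w := by
          have : C₁ * XX w ≤ 1 := le_trans (by gcongr) hε1
          nlinarith
        nlinarith [sq_nonneg (XX w), sq_nonneg (eta w), sq_nonneg ‖tau w‖]
    have h8 := hreg (L w) hmem.1 hmem.2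
    exact isPC_comp_affine (G := G) l⁻¹ m⁻¹ q.1 q.2 h8 w rfl
  obtain ⟨ρ, hρ, G', hG', hEq⟩ := hNC ε C₁ _ hε0 hC₁0 hpc
  set Li : ℂ × ℂ → ℂ × ℂ := fun p => (-(l * q.1) + l * p.1, -(m * q.2) + m * p.2) with hLi
  have hLi0 : Li q = 0 := by simp [hLi]
  have hLL : ∀ p, L (Li p) = p := by
    intro p
    simp only [hL, hLi]
    ext
    · simp only; field_simp; ring
    · simp only; field_simp; ring
  refine ⟨fun p => G' (Li p), ?_, ?_⟩
  · change IsPC A {q} _
    have : IsPC A {((-(l * q.1) + l * q.1, -(m * q.2) + m * q.2) : ℂ × ℂ)} G' := by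
      intro z hz
      rw [mem_singleton_iff] at hz
      subst hz
      apply hG'
      have : ((-(l * q.1) + l * q.1, -(m * q.2) + m * q.2) : ℂ × ℂ) = 0 := hLi0
      rw [this]; exact mem_ball_self hρ
    exact isPC_comp_affine l m (-(l * q.1)) (-(m * q.2)) this
  · intro v hv
    set u : ℂ × ℂ := (l * v.1, m * v.2) with hu'
    have hLiv : ∀ t : ℝ, Li (q + t • v) = t • u := by
      intro t
      simp only [hLi, hu']
      ext
      · simp; ring
      · simp; ring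
    have hXu : 0 < XX u := by
      unfold XX; exact hv
    have hopen : IsOpen (ball (0 : ℂ × ℂ) ρ ∩ GD ε (par C₁)) := isOpen_ball.inter (isOpen_GD_par _ _)
    -- small t
    have hsmall : ∀ᶠ t : ℝ in 𝓝[>] 0, t • u ∈ ball (0 : ℂ × ℂ) ρ ∩ GD ε (par C₁) := by
      have c1 : ∀ᶠ t : ℝ in 𝓝[>] 0, t • u ∈ ball (0 : ℂ × ℂ) ρ := by
        have hc : Continuous (fun t : ℝ => t • u) := by fun_prop
        have : Tendsto (fun t : ℝ => t • u) (𝓝[>] 0) (𝓝 0) := by
          have := (hc.tendsto 0).mono_left (nhdsWithin_le_nhds (s := Ioi 0))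
          simpa using this
        exact this.eventually (ball_mem_nhds _ hρ)
      have c2 : ∀ a b : ℝ, 0 < b → ∀ᶠ t : ℝ in 𝓝[>] 0, t * a < b := by
        intro a b hb
        have hc : Continuous (fun t : ℝ => t * a) := by fun_prop
        have : Tendsto (fun t : ℝ => t * a) (𝓝[>] 0) (𝓝 0) := by
          have := (hc.tendsto 0).mono_left (nhdsWithin_le_nhds (s := Ioi 0))
          simpa using this
        exact this.eventually (eventually_lt_nhds hb)
      filter_upwards [c1, c2 ‖tau u‖ ε hε0, c2 |eta u| ε hε0, c2 (XX u) ε hε0,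
        c2 (par C₁ (tau u) (eta u)) (XX u) hXu, self_mem_nhdsWithin] with t t1 t2 t3 t4 t5 t6
      have ht0 : 0 < t := t6
      have htau : tau (t • u) = (t : ℂ) * tau u := by
        unfold tau; simp; ring
      have heta : eta (t • u) = t * eta u := by
        unfold eta; simp; ring
      have hXX : XX (t • u) = t * XX u := by
        unfold XX; simp; ring
      refine ⟨t1, ?_, ?_, ?_, ?_⟩
      · rw [htau, norm_mul, Complex.norm_real, Real.norm_of_nonneg ht0.le]; exact t2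
      · rw [heta, abs_mul, abs_of_pos ht0]; exact t3
      · rw [hXX]
        have : par C₁ (tau (t • u)) (eta (t • u)) = t * (t * par C₁ (tau u) (eta u)) := by
          rw [htau, heta]; unfold par
          rw [norm_mul, Complex.norm_real, Real.norm_of_nonneg ht0.le]; ring
        rw [this]
        exact mul_lt_mul_of_pos_left t5 ht0
      · rw [hXX]; exact t4
    filter_upwards [hsmall] with t ht
    have hLic : Continuous Li := by simp only [hLi]; fun_prop
    have h9 : ∀ᶠ p in 𝓝 (q + t • v), Li p ∈ ball (0 : ℂ × ℂ) ρ ∩ GD ε (par C₁) := by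
      refine hLic.continuousAt.eventually (hopen.mem_nhds ?_)
      rw [hLiv]; exact ht
    filter_upwards [h9] with p hp
    rw [hEq _ hp]
    rw [hLL]

/-- **SWEEP**: completeness from the no-contact theorem. -/
theorem completeness_of_NC (A : PFol n₁ n₂ X) (hu : St_unique A) (hc : St_chart A)
    (hNC : St_NC A) : Completeness A := by
  intro R₁ R₂ c₁ c₂ hR₁ hR₂ h₁ h₂ h
  obtain ⟨G, g1, g2, g3⟩ := (theory hu hc).complete (theory_NC hu hc hNC) hR₁ hR₂
    (c₁ := c₁) (c₂ := c₂)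
    (fun x hx => by rintro z rfl; exact h₁ z hx) (fun y hy => by rintro z rfl; exact h₂ z hy) h
  exact ⟨G, fun z hz => g1 z hz z rfl, g2, g3⟩

end

end Crest.Agent.R266
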