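import Crest.Agent.R266.Basic
import Crest.Agent.R266.CE
import Crest.Agent.R266.E0W
import Crest.Agent.R266.LemC
import Crest.Agent.R266.LemD
import Crest.Agent.R266.AreaD
import Crest.Agent.R266.Slack
import Crest.Agent.R266.Stokes
import Crest.Agent.R266.Pull
import Crest.Agent.R266.MaxGraph
import Crest.Agent.R266.SweepFinal

/-!
R266 / Core405 (helper266): assembly of the analytic core of S0405:
compact Hausdorff `X`, finite product-foliated atlas with a Kähler metric ⟹ `Completeness A`.
-/

set_option autoImplicit false

open scoped Manifold ContDiff Topology ENNReal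
open Set Metric Filter MeasureTheory

namespace Crest.Agent.R266

section
variable {n₁ n₂ : ℕ} {X : Type} [TopologicalSpace X] [T2Space X]

theorem CE_holds {A : PFol n₁ n₂ X} [Finite A.ι] (K : KMet A) : St_CE K :=
  CE_of_E0 K (chart_holds A) (E0.E0_holds K)

theorem D_of_punct {A : PFol n₁ n₂ X} [Finite A.ι] (K : KMet A) (hPu : St_punct K) : St_D K :=
  LemD.st_D_of K (unique_holds A) (CE_holds K) (pull_holds (chart_holds A) K)
    (area_holds K (pull_holds (chart_holds A) K) (slack_holds (chart_holds A) K)) hPu

/-- the core theorem, from the two remaining inputs -/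
theorem completeness_core_of {A : PFol n₁ n₂ X} [Finite A.ι] (K : KMet A) (hPu : St_punct K)
    (hNC : St_unique A → St_chart A → St_pull K → St_slack K → St_CE K →
      (∀ C : ℝ, 0 ≤ C → St_C K C) → St_max A → St_D K → St_NC A) : Completeness A := by
  have hu := unique_holds A
  have hch := chart_holds A
  have hP := pull_holds hch K
  refine completeness_of_NC A hu hch (hNC hu hch hP (slack_holds hch K) (CE_holds K)
    (fun C hC => St_C_holds K (CE_holds K) hu hP hC) (St_max_holds hu) (D_of_punct K hPu))
end

end Crest.Agent.R266
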