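import Crest.Agent.R266.Stmts

/-!
R266 / LemB: the slice mass lemma `St_B` (from Stokes).
-/

set_option autoImplicit false

open scoped Manifold ContDiff Topology ENNReal
open Set Metric Filter MeasureTheory

namespace Crest.Agent.R266
namespace LemB

section alg

variable {Ω : Set (ℂ × ℂ)} {γ : ℂ × ℂ → ℂ × ℂ → ℂ × ℂ → ℝ}

/-- value of the form on a general vector -/
theorem form_val (h : CForm Ω γ) {z : ℂ × ℂ} (hz : z ∈ Ω) (s t : ℂ) :
    γ z (s, t) (s, t) = (s.re ^ 2 + s.im ^ 2) * γ z (1, 0) (1, 0)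
      + (t.re ^ 2 + t.im ^ 2) * γ z (0, 1) (0, 1)
      + 2 * ((s.re * t.re + s.im * t.im) * γ z (1, 0) (0, 1)
        + (s.re * t.im - s.im * t.re) * γ z (1, 0) (0, Complex.I)) := by
  have hal := h.add_left z hz
  have hsl := h.smul_left z hz
  have hsy := h.symm z hz
  have hhe := h.herm z hz
  have har : ∀ u v v', γ z u (v + v') = γ z u v + γ z u v' := by
    intro u v v'
    rw [hsy u (v + v'), hal, hsy v u, hsy v' u]
  have hsr : ∀ (c : ℝ) u v, γ z u (c • v) = c * γ z u v := by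
    intro c u v
    rw [hsy u (c • v), hsl, hsy v u]
  have hneg : ∀ u v, γ z (-u) v = -γ z u v := by
    intro u v
    have := hsl (-1) u v
    simpa using this
  have hnegr : ∀ u v, γ z u (-v) = -γ z u v := by
    intro u v
    have := hsr (-1) u v
    simpa using this
  have e1 : ((s, t) : ℂ × ℂ) = s.re • (1, 0) + (s.im • (Complex.I, 0)
      + (t.re • (0, 1) + t.im • (0, Complex.I))) := by
    apply Prod.ext
    · apply Complex.ext <;> simp
    · apply Complex.ext <;> simp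
  -- the basis values
  have i1 : Complex.I • ((1, 0) : ℂ × ℂ) = (Complex.I, 0) := by
    simp [Prod.smul_mk]
  have i2 : Complex.I • ((Complex.I, 0) : ℂ × ℂ) = -(1, 0) := by
    simp [Prod.smul_mk]
  have i3 : Complex.I • ((0, 1) : ℂ × ℂ) = (0, Complex.I) := by
    simp [Prod.smul_mk]
  have i4 : Complex.I • ((0, Complex.I) : ℂ × ℂ) = -(0, 1) := by
    simp [Prod.smul_mk]
  have b11 : γ z (Complex.I, 0) (Complex.I, 0) = γ z (1, 0) (1, 0) := by
    have := hhe (1, 0) (1, 0)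
    rwa [i1] at this
  have b22 : γ z (0, Complex.I) (0, Complex.I) = γ z (0, 1) (0, 1) := by
    have := hhe (0, 1) (0, 1)
    rwa [i3] at this
  have b12 : γ z (Complex.I, 0) (0, Complex.I) = γ z (1, 0) (0, 1) := by
    have := hhe (1, 0) (0, 1)
    rwa [i1, i3] at this
  have b12' : γ z (Complex.I, 0) (0, 1) = -γ z (1, 0) (0, Complex.I) := by
    have := hhe (1, 0) (0, Complex.I)
    rw [i1, i4, hnegr] at this
    linarith
  have c11 : γ z (1, 0) (Complex.I, 0) = 0 := by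
    have := hhe (1, 0) (Complex.I, 0)
    rw [i1, i2, hnegr, hsy (Complex.I, 0) (1, 0)] at this
    linarith
  have c22 : γ z (0, 1) (0, Complex.I) = 0 := by
    have := hhe (0, 1) (0, Complex.I)
    rw [i3, i4, hnegr, hsy (0, Complex.I) (0, 1)] at this
    linarith
  have s1 := hsy (Complex.I, 0) (1, 0)
  have s2 := hsy (0, 1) (1, 0)
  have s3 := hsy (0, Complex.I) (1, 0)
  have s4 := hsy (0, 1) (Complex.I, 0)
  have s5 := hsy (0, Complex.I) (Complex.I, 0)
  have s6 := hsy (0, Complex.I) (0, 1)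
  rw [e1]
  simp only [hal, har, hsl, hsr, s1, s2, s3, s4, s5, s6, b11, b22, b12, b12', c11, c22]
  ring

theorem h11_nonneg (h : CForm Ω γ) {z : ℂ × ℂ} (hz : z ∈ Ω) : 0 ≤ γ z (1, 0) (1, 0) :=
  h.nonneg z hz _

theorem h22_nonneg (h : CForm Ω γ) {z : ℂ × ℂ} (hz : z ∈ Ω) : 0 ≤ γ z (0, 1) (0, 1) :=
  h.nonneg z hz _

theorem abs_a_le (h : CForm Ω γ) {z : ℂ × ℂ} (hz : z ∈ Ω) :
    2 * |γ z (1, 0) (0, 1)| ≤ γ z (1, 0) (1, 0) + γ z (0, 1) (0, 1) := by
  have h1 := h.nonneg z hz (1, 1)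
  have h2 := h.nonneg z hz (1, -1)
  rw [form_val h hz] at h1 h2
  simp at h1 h2
  rcases abs_cases (γ z (1, 0) (0, 1)) with h3 | h3 <;> linarith [h3.1]

theorem abs_b_le (h : CForm Ω γ) {z : ℂ × ℂ} (hz : z ∈ Ω) :
    2 * |γ z (1, 0) (0, Complex.I)| ≤ γ z (1, 0) (1, 0) + γ z (0, 1) (0, 1) := by
  have h1 := h.nonneg z hz (1, Complex.I)
  have h2 := h.nonneg z hz (1, -Complex.I)
  rw [form_val h hz] at h1 h2
  simp at h1 h2
  rcases abs_cases (γ z (1, 0) (0, Complex.I)) with h3 | h3 <;> linarith [h3.1]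

/-- crude upper bound for the wedge product -/
theorem wdg_le (h : CForm Ω γ) {z : ℂ × ℂ} (hz : z ∈ Ω) (β : ℂ × ℂ → ℂ × ℂ → ℝ) (K : ℝ)
    (h1 : |β (1, 0) (1, 0)| ≤ K) (h2 : |β (0, 1) (0, 1)| ≤ K) (h3 : |β (1, 0) (0, 1)| ≤ K)
    (h4 : |β (1, 0) (0, Complex.I)| ≤ K) :
    |wdg (γ z) β| ≤ 3 * K * (γ z (1, 0) (1, 0) + γ z (0, 1) (0, 1)) := by
  have hK : 0 ≤ K := le_trans (abs_nonneg _) h1
  have p1 := h11_nonneg h hz
  have p2 := h22_nonneg h hz
  have pa := abs_a_le h hz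
  have pb := abs_b_le h hz
  set x := γ z (1, 0) (1, 0)
  set y := γ z (0, 1) (0, 1)
  set a := γ z (1, 0) (0, 1)
  set b := γ z (1, 0) (0, Complex.I)
  have q1 : |x * β (0, 1) (0, 1)| ≤ x * K := by
    rw [abs_mul, abs_of_nonneg p1]
    exact mul_le_mul_of_nonneg_left h2 p1
  have q2 : |y * β (1, 0) (1, 0)| ≤ y * K := by
    rw [abs_mul, abs_of_nonneg p2]
    exact mul_le_mul_of_nonneg_left h1 p2
  have q3 : |a * β (1, 0) (0, 1)| ≤ (x + y) / 2 * K := by
    rw [abs_mul]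
    exact mul_le_mul (by linarith) h3 (abs_nonneg _) (by linarith)
  have q4 : |b * β (1, 0) (0, Complex.I)| ≤ (x + y) / 2 * K := by
    rw [abs_mul]
    exact mul_le_mul (by linarith) h4 (abs_nonneg _) (by linarith)
  rw [abs_le] at q1 q2 q3 q4 ⊢
  show -(3 * K * (x + y)) ≤ x * β (0, 1) (0, 1) + y * β (1, 0) (1, 0)
    - 2 * (a * β (1, 0) (0, 1)) - 2 * (b * β (1, 0) (0, Complex.I)) ∧
    x * β (0, 1) (0, 1) + y * β (1, 0) (1, 0)
    - 2 * (a * β (1, 0) (0, 1)) - 2 * (b * β (1, 0) (0, Complex.I)) ≤ 3 * K * (x + y)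
  constructor <;> nlinarith [q1.1, q1.2, q2.1, q2.2, q3.1, q3.2, q4.1, q4.2]

end alg

section weightfun

/-- the defining function `w` -/
noncomputable def wf (C : ℝ) (L : ℂ → ℝ) (z : ℂ × ℂ) : ℝ :=
  XX z - par C (tau z) (eta z) - L (tau z)

noncomputable def tauL : ℂ × ℂ →L[ℝ] ℂ :=
  ContinuousLinearMap.fst ℝ ℂ ℂ - ContinuousLinearMap.snd ℝ ℂ ℂ

noncomputable def sumL : ℂ × ℂ →L[ℝ] ℂ :=
  ContinuousLinearMap.fst ℝ ℂ ℂ + ContinuousLinearMap.snd ℝ ℂ ℂ

noncomputable def XL : ℂ × ℂ →L[ℝ] ℝ := Complex.reCLM.comp sumL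
noncomputable def eL : ℂ × ℂ →L[ℝ] ℝ := Complex.imCLM.comp sumL
noncomputable def trL : ℂ × ℂ →L[ℝ] ℝ := Complex.reCLM.comp tauL
noncomputable def tiL : ℂ × ℂ →L[ℝ] ℝ := Complex.imCLM.comp tauL

theorem wf_eq (C : ℝ) (L : ℂ → ℝ) :
    wf C L = fun z => XL z - C * (trL z * trL z + tiL z * tiL z + eL z * eL z) - L (tauL z) := by
  funext z
  have : ‖tau z‖ ^ 2 = trL z * trL z + tiL z * tiL z := by
    rw [← Complex.normSq_eq_norm_sq, Complex.normSq_apply]
    simp only [trL, tiL, tauL, tau, ContinuousLinearMap.comp_apply, Complex.reCLM_apply,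
      Complex.imCLM_apply, _root_.sub_apply, ContinuousLinearMap.coe_fst',
      ContinuousLinearMap.coe_snd']
  unfold wf par
  rw [this, pow_two (eta z)]
  rfl

theorem wf_contDiff (C : ℝ) {L : ℂ → ℝ} (hL : ContDiff ℝ ∞ L) : ContDiff ℝ ∞ (wf C L) := by
  rw [wf_eq]
  exact (XL.contDiff.sub (contDiff_const.mul (((trL.contDiff.mul trL.contDiff).add
    (tiL.contDiff.mul tiL.contDiff)).add
    (eL.contDiff.mul eL.contDiff)))).sub (hL.comp tauL.contDiff)

theorem fderiv_wf (C : ℝ) {L : ℂ → ℝ} (hL : ContDiff ℝ ∞ L) (z u : ℂ × ℂ) :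
    fderiv ℝ (wf C L) z u = XX u - 2 * C * ((tau z).re * (tau u).re + (tau z).im * (tau u).im
      + eta z * eta u) - fderiv ℝ L (tau z) (tau u) := by
  have hd : DifferentiableAt ℝ L (tauL z) := (hL.differentiable (by norm_num)) _
  have h1 := (XL.hasFDerivAt (x := z)).sub (((((trL.hasFDerivAt (x := z)).mul
    (trL.hasFDerivAt (x := z))).add
    ((tiL.hasFDerivAt (x := z)).mul (tiL.hasFDerivAt (x := z)))).add
    ((eL.hasFDerivAt (x := z)).mul (eL.hasFDerivAt (x := z)))).const_mul C)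
  have h2 := h1.sub (hd.hasFDerivAt.comp z (tauL.hasFDerivAt (x := z)))
  have h3 : HasFDerivAt (fun z => XL z - C * (trL z * trL z + tiL z * tiL z + eL z * eL z)
      - L (tauL z)) _ z := h2
  rw [← wf_eq C L] at h3
  rw [h3.fderiv]
  simp only [_root_.sub_apply, _root_.smul_apply,
    _root_.add_apply, ContinuousLinearMap.comp_apply, smul_eq_mul]
  simp only [XL, eL, trL, tiL, tauL, sumL, tau, eta, XX, ContinuousLinearMap.comp_apply,
    Complex.reCLM_apply, Complex.imCLM_apply, _root_.sub_apply,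
    _root_.add_apply, ContinuousLinearMap.coe_fst', ContinuousLinearMap.coe_snd']
  ring

theorem hess_wf (C : ℝ) {L : ℂ → ℝ} (hL : ContDiff ℝ ∞ L) (z u v : ℂ × ℂ) :
    hess (wf C L) z u v = - 2 * C * ((tau u).re * (tau v).re + (tau u).im * (tau v).im
      + eta u * eta v) - fderiv ℝ (fun s => fderiv ℝ L s (tau v)) (tau z) (tau u) := by
  unfold hess
  have e : (fun w => fderiv ℝ (wf C L) w v) = fun w => XX v - 2 * C * (trL w * (tau v).re
      + tiL w * (tau v).im + eL w * eta v) - fderiv ℝ L (tauL w) (tau v) := by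
    funext w
    rw [fderiv_wf C hL]
    rfl
  have hd : DifferentiableAt ℝ (fun s => fderiv ℝ L s (tau v)) (tauL z) := by
    have : ContDiff ℝ ∞ (fun s => fderiv ℝ L s (tau v)) :=
      (hL.fderiv_right (m := ∞) (by norm_num)).clm_apply contDiff_const
    exact (this.differentiable (by norm_num)) _
  have h1 := ((((trL.hasFDerivAt (x := z)).mul_const (tau v).re).add
    ((tiL.hasFDerivAt (x := z)).mul_const (tau v).im)).add
    ((eL.hasFDerivAt (x := z)).mul_const (eta v))).const_mul (2 * C)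
  have h2 := ((hasFDerivAt_const (XX v) z).sub h1).sub
    (hd.hasFDerivAt.comp z (tauL.hasFDerivAt (x := z)))
  have h3 : HasFDerivAt (fun w => XX v - 2 * C * (trL w * (tau v).re
      + tiL w * (tau v).im + eL w * eta v) - fderiv ℝ L (tauL w) (tau v)) _ z := h2
  rw [e, h3.fderiv]
  simp only [_root_.sub_apply, _root_.smul_apply,
    _root_.add_apply, ContinuousLinearMap.comp_apply, smul_eq_mul,
    _root_.zero_apply]
  simp only [eL, trL, tiL, tauL, sumL, tau, eta, ContinuousLinearMap.comp_apply,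
    Complex.reCLM_apply, Complex.imCLM_apply, _root_.sub_apply,
    _root_.add_apply, ContinuousLinearMap.coe_fst', ContinuousLinearMap.coe_snd']
  ring

end weightfun

section pointwise

theorem smul_X1 : Complex.I • ((1, 0) : ℂ × ℂ) = (Complex.I, 0) := by
  simp [Prod.smul_mk]
theorem smul_X2 : Complex.I • ((Complex.I, 0) : ℂ × ℂ) = -(1, 0) := by
  simp [Prod.smul_mk]
theorem smul_Y1 : Complex.I • ((0, 1) : ℂ × ℂ) = (0, Complex.I) := by
  simp [Prod.smul_mk]
theorem smul_Y2 : Complex.I • ((0, Complex.I) : ℂ × ℂ) = -(0, 1) := by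
  simp [Prod.smul_mk]

variable {Ω : Set (ℂ × ℂ)} {γ : ℂ × ℂ → ℂ × ℂ → ℂ × ℂ → ℝ}

/-- trace of the form -/
noncomputable def TT (γ : ℂ × ℂ → ℂ × ℂ → ℂ × ℂ → ℝ) (z : ℂ × ℂ) : ℝ :=
  γ z (1, 0) (1, 0) + γ z (0, 1) (0, 1)

theorem TT_nonneg (h : CForm Ω γ) {z : ℂ × ℂ} (hz : z ∈ Ω) : 0 ≤ TT γ z :=
  add_nonneg (h11_nonneg h hz) (h22_nonneg h hz)

theorem wdg_tens (h : CForm Ω γ) {z : ℂ × ℂ} (hz : z ∈ Ω) (f : ℂ × ℂ → ℝ) :
    wdg (γ z) (tens f z) =
      γ z ((⟨fderiv ℝ f z (0, 1), -fderiv ℝ f z (0, Complex.I)⟩ : ℂ),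
        (⟨-fderiv ℝ f z (1, 0), fderiv ℝ f z (Complex.I, 0)⟩ : ℂ))
       ((⟨fderiv ℝ f z (0, 1), -fderiv ℝ f z (0, Complex.I)⟩ : ℂ),
        (⟨-fderiv ℝ f z (1, 0), fderiv ℝ f z (Complex.I, 0)⟩ : ℂ)) := by
  rw [form_val h hz]
  simp only [wdg, tens, smul_X1, smul_Y1, smul_Y2, map_neg]
  ring

theorem tens_lower (h : CForm Ω γ) {c₀ : ℝ} (hc : 0 < c₀) (hs : Slack c₀ Ω γ) {z : ℂ × ℂ}
    (hz : z ∈ Ω) (f : ℂ × ℂ → ℝ) (h1 : 3 / 4 ≤ fderiv ℝ f z (1, 0))
    (h2 : 3 / 4 ≤ fderiv ℝ f z (0, 1)) :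
    9 / 16 * c₀ * TT γ z ≤ wdg (γ z) (tens f z) := by
  rw [wdg_tens h hz]
  refine le_trans ?_ (hs z hz _ _)
  have k1 := form_val h hz (⟨fderiv ℝ f z (0, 1), -fderiv ℝ f z (0, Complex.I)⟩ : ℂ) 0
  have k2 := form_val h hz 0 (⟨-fderiv ℝ f z (1, 0), fderiv ℝ f z (Complex.I, 0)⟩ : ℂ)
  rw [k1, k2]
  simp only [Complex.zero_re, Complex.zero_im]
  have p1 := h11_nonneg h hz
  have p2 := h22_nonneg h hz
  unfold TT
  set x := γ z (1, 0) (1, 0)
  set y := γ z (0, 1) (0, 1)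
  set p := fderiv ℝ f z (1, 0)
  set q := fderiv ℝ f z (0, 1)
  set p' := fderiv ℝ f z (Complex.I, 0)
  set q' := fderiv ℝ f z (0, Complex.I)
  have e1 : 9 / 16 ≤ q ^ 2 + (-q') ^ 2 := by nlinarith
  have e2 : 9 / 16 ≤ (-p) ^ 2 + p' ^ 2 := by nlinarith
  have e3 : 9 / 16 * x ≤ (q ^ 2 + (-q') ^ 2) * x := mul_le_mul_of_nonneg_right e1 p1
  have e4 : 9 / 16 * y ≤ ((-p) ^ 2 + p' ^ 2) * y := mul_le_mul_of_nonneg_right e2 p2
  nlinarith [mul_le_mul_of_nonneg_left (add_le_add e3 e4) hc.le]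

theorem fderiv_apply_eq {L : ℂ → ℝ} (hL : ContDiff ℝ ∞ L) (t p q : ℂ) :
    fderiv ℝ (fun s => fderiv ℝ L s q) t p = fderiv ℝ (fderiv ℝ L) t p q := by
  have hd : DifferentiableAt ℝ (fderiv ℝ L) t := by
    have : ContDiff ℝ ∞ (fderiv ℝ L) := hL.fderiv_right (m := ∞) (by norm_num)
    exact (this.differentiable (by norm_num)) _
  have h1 := hd.hasFDerivAt.clm_apply (hasFDerivAt_const q t)
  rw [h1.fderiv]
  simp

theorem levi_lower (h : CForm Ω γ) {z : ℂ × ℂ} (hz : z ∈ Ω) {C : ℝ} (hC : 0 < C) {L : ℂ → ℝ}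
    (hL : ContDiff ℝ ∞ L)
    (hsub : ∀ t, fderiv ℝ (fun s => fderiv ℝ L s 1) t 1
        + fderiv ℝ (fun s => fderiv ℝ L s Complex.I) t Complex.I ≤ 0) :
    -(8 * C * TT γ z) ≤ wdg (γ z) (levi (wf C L) z) := by
  have hs := hsub (tau z)
  have hsymm : fderiv ℝ (fderiv ℝ L) (tau z) 1 Complex.I
      = fderiv ℝ (fderiv ℝ L) (tau z) Complex.I 1 := by
    have := (hL.contDiffAt (x := tau z)).isSymmSndFDerivAt
      (by simp; exact WithTop.coe_le_coe.2 le_top)
    exact this.eq 1 Complex.I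
  have p1 := h11_nonneg h hz
  have p2 := h22_nonneg h hz
  have pa := abs_a_le h hz
  unfold TT
  unfold wdg levi
  simp only [hess_wf C hL, smul_X1, smul_Y1, smul_Y2, fderiv_apply_eq hL] at hs ⊢
  have t1 : tau (1, 0) = 1 := by simp [tau]
  have t2 : tau (0, 1) = -1 := by simp [tau]
  have t3 : tau (Complex.I, 0) = Complex.I := by simp [tau]
  have t4 : tau (0, Complex.I) = -Complex.I := by simp [tau]
  have t5 : tau (-(0, 1)) = 1 := by simp [tau]
  have u1 : eta (1, 0) = 0 := by simp [eta]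
  have u2 : eta (0, 1) = 0 := by simp [eta]
  have u3 : eta (Complex.I, 0) = 1 := by simp [eta]
  have u4 : eta (0, Complex.I) = 1 := by simp [eta]
  have u5 : eta (-(0, 1)) = 0 := by simp [eta]
  simp only [t1, t2, t3, t4, t5, u1, u2, u3, u4, u5, map_neg, _root_.neg_apply, Complex.neg_re,
    Complex.neg_im, Complex.one_re, Complex.one_im, Complex.I_re, Complex.I_im, neg_neg, hsymm]
  set x := γ z (1, 0) (1, 0)
  set y := γ z (0, 1) (0, 1)
  set a := γ z (1, 0) (0, 1)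
  set b := γ z (1, 0) (0, Complex.I)
  set A := fderiv ℝ (fderiv ℝ L) (tau z) 1 1
  set B := fderiv ℝ (fderiv ℝ L) (tau z) Complex.I Complex.I
  set D := fderiv ℝ (fderiv ℝ L) (tau z) Complex.I 1
  have ha := abs_le.1 (show |a| ≤ (x + y) / 2 by linarith)
  have k1 : 0 ≤ -(A + B) * (x + y + 2 * a) := mul_nonneg (by linarith) (by linarith [ha.1])
  have k2 : 0 ≤ C * (x + y - 2 * a) := mul_nonneg hC.le (by linarith [ha.2])
  nlinarith [k1, k2]

theorem abs_fderiv_wf (C : ℝ) {L : ℂ → ℝ} (hL : ContDiff ℝ ∞ L) (hC : 0 < C) {ε : ℝ}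
    (hε : 0 < ε) (hε' : (6 * C + 1) * ε ≤ 1 / 4) (z : ℂ × ℂ)
    (h1 : ‖tau z‖ ≤ ε) (h2 : |eta z| ≤ ε) (h3 : ‖fderiv ℝ L (tau z)‖ ≤ ε) (u : ℂ × ℂ)
    (h4 : ‖tau u‖ ≤ 1) (h5 : |eta u| ≤ 1) :
    |fderiv ℝ (wf C L) z u - XX u| ≤ 1 / 4 := by
  rw [fderiv_wf C hL]
  have a1 : |(tau z).re| ≤ ε := (Complex.abs_re_le_norm _).trans h1
  have a2 : |(tau z).im| ≤ ε := (Complex.abs_im_le_norm _).trans h1
  have a3 : |(tau u).re| ≤ 1 := (Complex.abs_re_le_norm _).trans h4
  have a4 : |(tau u).im| ≤ 1 := (Complex.abs_im_le_norm _).trans h4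
  have a5 : |fderiv ℝ L (tau z) (tau u)| ≤ ε := by
    have := (fderiv ℝ L (tau z)).le_opNorm (tau u)
    rw [Real.norm_eq_abs] at this
    refine this.trans ?_
    calc ‖fderiv ℝ L (tau z)‖ * ‖tau u‖ ≤ ε * 1 := mul_le_mul h3 h4 (norm_nonneg _) hε.le
      _ = ε := mul_one _
  have m1 : |(tau z).re * (tau u).re| ≤ ε * 1 := by
    rw [abs_mul]; exact mul_le_mul a1 a3 (abs_nonneg _) hε.le
  have m2 : |(tau z).im * (tau u).im| ≤ ε * 1 := by
    rw [abs_mul]; exact mul_le_mul a2 a4 (abs_nonneg _) hε.le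
  have m3 : |eta z * eta u| ≤ ε * 1 := by
    rw [abs_mul]; exact mul_le_mul h2 h5 (abs_nonneg _) hε.le
  rw [abs_le] at *
  have n1 : C * ((tau z).re * (tau u).re + (tau z).im * (tau u).im + eta z * eta u) ≤ C * (3 * ε) :=
    mul_le_mul_of_nonneg_left (by linarith [m1.2, m2.2, m3.2]) hC.le
  have n2 : C * (-(3 * ε)) ≤ C * ((tau z).re * (tau u).re + (tau z).im * (tau u).im
      + eta z * eta u) :=
    mul_le_mul_of_nonneg_left (by linarith [m1.1, m2.1, m3.1]) hC.le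
  constructor <;> nlinarith [n1, n2, a5.1, a5.2]

/-- second derivatives of the product `χ · Λ(w)` -/
theorem hess_prod {χ w : ℂ × ℂ → ℝ} {Λ μ μ' : ℝ → ℝ} (hχ : ContDiff ℝ ∞ χ)
    (hw : ContDiff ℝ ∞ w) (h1 : ∀ t, HasDerivAt Λ (μ t) t) (h2 : ∀ t, HasDerivAt μ (μ' t) t)
    (z u v : ℂ × ℂ) :
    hess (fun z => χ z * Λ (w z)) z u v =
      Λ (w z) * hess χ z u v + μ (w z) * (fderiv ℝ w z u * fderiv ℝ χ z v
        + fderiv ℝ χ z u * fderiv ℝ w z v)
      + χ z * (μ' (w z) * (fderiv ℝ w z u * fderiv ℝ w z v) + μ (w z) * hess w z u v) := by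
  have dχ : ∀ y, HasFDerivAt χ (fderiv ℝ χ y) y := fun y =>
    ((hχ.differentiable (by norm_num)) y).hasFDerivAt
  have dw : ∀ y, HasFDerivAt w (fderiv ℝ w y) y := fun y =>
    ((hw.differentiable (by norm_num)) y).hasFDerivAt
  have e1 : ∀ y, fderiv ℝ (fun z => χ z * Λ (w z)) y v
      = χ y * (μ (w y) * fderiv ℝ w y v) + Λ (w y) * fderiv ℝ χ y v := by
    intro y
    have h3 := (dχ y).mul ((h1 (w y)).comp_hasFDerivAt y (dw y))
    have h4 : fderiv ℝ (fun z => χ z * Λ (w z)) y = _ := h3.fderiv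
    rw [h4]
    simp
  have dχ' : DifferentiableAt ℝ (fun y => fderiv ℝ χ y v) z := by
    have : ContDiff ℝ ∞ (fun y => fderiv ℝ χ y v) :=
      (hχ.fderiv_right (m := ∞) (by norm_num)).clm_apply contDiff_const
    exact (this.differentiable (by norm_num)) _
  have dw' : DifferentiableAt ℝ (fun y => fderiv ℝ w y v) z := by
    have : ContDiff ℝ ∞ (fun y => fderiv ℝ w y v) :=
      (hw.fderiv_right (m := ∞) (by norm_num)).clm_apply contDiff_const
    exact (this.differentiable (by norm_num)) _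
  unfold hess
  have e2 : (fun y => fderiv ℝ (fun z => χ z * Λ (w z)) y v)
      = fun y => χ y * (μ (w y) * fderiv ℝ w y v) + Λ (w y) * fderiv ℝ χ y v := funext e1
  rw [e2]
  have h5 := ((dχ z).mul (((h2 (w z)).comp_hasFDerivAt z (dw z)).mul dw'.hasFDerivAt)).add
    (((h1 (w z)).comp_hasFDerivAt z (dw z)).mul dχ'.hasFDerivAt)
  have h6 : fderiv ℝ (fun y => χ y * (μ (w y) * fderiv ℝ w y v) + Λ (w y) * fderiv ℝ χ y v) z
      = _ := h5.fderiv
  rw [h6]
  simp only [_root_.add_apply, _root_.smul_apply, smul_eq_mul, Function.comp_apply, Pi.mul_apply]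
  ring

end pointwise

section oneD

theorem antider {g : ℝ → ℝ} (hg : ContDiff ℝ ∞ g) :
    ContDiff ℝ ∞ (fun t => ∫ u in (0 : ℝ)..t, g u) ∧
      ∀ t, HasDerivAt (fun t => ∫ u in (0 : ℝ)..t, g u) (g t) t := by
  have h1 : ∀ t, HasDerivAt (fun t => ∫ u in (0 : ℝ)..t, g u) (g t) t := fun t =>
    (hg.continuous.integral_hasStrictDerivAt 0 t).hasDerivAt
  refine ⟨?_, h1⟩
  rw [contDiff_infty_iff_deriv]
  refine ⟨fun t => (h1 t).differentiableAt, ?_⟩
  have : deriv (fun t => ∫ u in (0 : ℝ)..t, g u) = g := funext fun t => (h1 t).deriv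
  rw [this]
  exact hg

theorem integral_zero_of_le {g : ℝ → ℝ} {s t : ℝ} (hs : 0 < s) (h : ∀ u ≤ s, g u = 0)
    (ht : t ≤ s) : ∫ u in (0 : ℝ)..t, g u = 0 := by
  have : ∫ u in (0 : ℝ)..t, g u = ∫ u in (0 : ℝ)..t, (0 : ℝ) := by
    apply intervalIntegral.integral_congr
    intro u hu
    rw [mem_uIcc] at hu
    apply h
    rcases hu with hu | hu
    · linarith [hu.2]
    · linarith [hu.2]
  rw [this]
  simp

/-- the one-variable weight -/
theorem weight {c₁ A : ℝ} (hc : 0 < c₁) (hA : 0 ≤ A) : ∃ K : ℝ, 0 < K ∧ ∀ (s r : ℝ), 0 < s →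
    s ≤ r → ∃ Λ μ μ' : ℝ → ℝ, ContDiff ℝ ∞ Λ ∧ (∀ t, HasDerivAt Λ (μ t) t) ∧
      (∀ t, HasDerivAt μ (μ' t) t) ∧ Continuous μ' ∧
      (∀ t, t ≤ s / 2 → Λ t = 0 ∧ μ t = 0 ∧ μ' t = 0) ∧
      (∀ t, t ≤ 2 → (0 ≤ Λ t ∧ Λ t ≤ K) ∧ (0 ≤ μ t ∧ μ t ≤ K)) ∧
      (∀ t, 0 ≤ c₁ * μ' t - A * μ t) ∧ (∀ t, s ≤ t → t ≤ r → 1 / r ≤ c₁ * μ' t - A * μ t) := by
  set lam : ℝ := A / c₁ with hlam
  have hl0 : 0 ≤ lam := div_nonneg hA hc.le
  refine ⟨6 * Real.exp (lam * 2) / c₁, by positivity, ?_⟩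
  intro s r hs hsr
  have hr : 0 < r := hs.trans_le hsr
  set θ : ℝ → ℝ := fun t => Real.smoothTransition (2 * t / s - 1) *
    Real.smoothTransition ((3 * r - t) / r) with hθ
  have θc : ContDiff ℝ ∞ θ := by
    apply ContDiff.mul
    · exact Real.smoothTransition.contDiff.comp (by fun_prop)
    · exact Real.smoothTransition.contDiff.comp (by fun_prop)
  have θ0 : ∀ t, 0 ≤ θ t := fun t =>
    mul_nonneg (Real.smoothTransition.nonneg _) (Real.smoothTransition.nonneg _)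
  have θ1 : ∀ t, θ t ≤ 1 := fun t =>
    mul_le_one₀ (Real.smoothTransition.le_one _) (Real.smoothTransition.nonneg _)
      (Real.smoothTransition.le_one _)
  have θs : ∀ t, t ≤ s / 2 → θ t = 0 := by
    intro t ht
    have : Real.smoothTransition (2 * t / s - 1) = 0 := by
      apply Real.smoothTransition.zero_of_nonpos
      have : 2 * t / s ≤ 1 := by
        rw [div_le_one hs]; linarith
      linarith
    simp only [hθ, this, zero_mul]
  have θr : ∀ t, 3 * r ≤ t → θ t = 0 := by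
    intro t ht
    have : Real.smoothTransition ((3 * r - t) / r) = 0 := by
      apply Real.smoothTransition.zero_of_nonpos
      exact div_nonpos_of_nonpos_of_nonneg (by linarith) hr.le
    simp only [hθ, this, mul_zero]
  have θe : ∀ t, s ≤ t → t ≤ r → θ t = 1 := by
    intro t h1 h2
    have e1 : Real.smoothTransition (2 * t / s - 1) = 1 := by
      apply Real.smoothTransition.one_of_one_le
      have : 2 ≤ 2 * t / s := by
        rw [le_div_iff₀ hs]; linarith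
      linarith
    have e2 : Real.smoothTransition ((3 * r - t) / r) = 1 := by
      apply Real.smoothTransition.one_of_one_le
      rw [le_div_iff₀ hr]; linarith
    simp only [hθ, e1, e2, mul_one]
  set g : ℝ → ℝ := fun u => Real.exp (-(lam * u)) * θ u with hg
  have gc : ContDiff ℝ ∞ g := by
    apply ContDiff.mul _ θc
    exact Real.contDiff_exp.comp (by fun_prop)
  have g0 : ∀ t, 0 ≤ g t := fun t => mul_nonneg (Real.exp_pos _).le (θ0 t)
  have g1 : ∀ t, 0 ≤ t → g t ≤ 1 := by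
    intro t ht
    refine mul_le_one₀ ?_ (θ0 t) (θ1 t)
    rw [Real.exp_le_one_iff]
    have := mul_nonneg hl0 ht
    linarith
  have gs : ∀ t, t ≤ s / 2 → g t = 0 := fun t ht => by simp only [hg, θs t ht, mul_zero]
  have gr : ∀ t, 3 * r ≤ t → g t = 0 := fun t ht => by simp only [hg, θr t ht, mul_zero]
  obtain ⟨κc, κd⟩ := antider gc
  set κ : ℝ → ℝ := fun t => ∫ u in (0 : ℝ)..t, g u with hκ
  have κs : ∀ t, t ≤ s / 2 → κ t = 0 := fun t ht => integral_zero_of_le (half_pos hs) gs ht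
  have κ0 : ∀ t, 0 ≤ t → 0 ≤ κ t := fun t ht =>
    intervalIntegral.integral_nonneg ht (fun u _ => g0 u)
  have κa : ∀ t, 0 ≤ t → κ t ≤ t := by
    intro t ht
    have : κ t ≤ ∫ u in (0 : ℝ)..t, (1 : ℝ) := by
      apply intervalIntegral.integral_mono_on ht
      · exact gc.continuous.intervalIntegrable _ _
      · exact continuous_const.intervalIntegrable _ _
      · intro u hu
        exact g1 u hu.1
    simpa using this
  have κ1 : ∀ t, 0 ≤ t → κ t ≤ 3 * r := by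
    intro t ht
    by_cases h : t ≤ 3 * r
    · exact (κa t ht).trans h
    · push Not at h
      have e1 : κ t = κ (3 * r) + ∫ u in (3 * r)..t, g u := by
        simp only [hκ]
        rw [intervalIntegral.integral_add_adjacent_intervals]
        · exact gc.continuous.intervalIntegrable _ _
        · exact gc.continuous.intervalIntegrable _ _
      have e2 : ∫ u in (3 * r)..t, g u = ∫ u in (3 * r)..t, (0 : ℝ) := by
        apply intervalIntegral.integral_congr
        intro u hu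
        rw [uIcc_of_le h.le] at hu
        exact gr u hu.1
      rw [e1, e2]
      simp only [intervalIntegral.integral_zero, add_zero]
      exact κa _ (by positivity)
  set μ : ℝ → ℝ := fun t => 1 / (c₁ * r) * (Real.exp (lam * t) * κ t) with hμ
  have μc : ContDiff ℝ ∞ μ := by
    apply contDiff_const.mul
    apply ContDiff.mul _ κc
    exact Real.contDiff_exp.comp (by fun_prop)
  have hcr : 0 < c₁ * r := mul_pos hc hr
  have μd : ∀ t, HasDerivAt μ (lam * μ t + θ t / (c₁ * r)) t := by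
    intro t
    have h1 : HasDerivAt (fun t => Real.exp (lam * t)) (Real.exp (lam * t) * lam) t := by
      have := ((hasDerivAt_id t).const_mul lam).exp
      simpa using this
    have h2 := (h1.mul (κd t)).const_mul (1 / (c₁ * r))
    refine h2.congr_deriv ?_
    have e : Real.exp (lam * t) * g t = θ t := by
      simp only [hg]
      rw [← mul_assoc, ← Real.exp_add]
      simp
    rw [e]
    simp only [hμ]
    field_simp
  have μs : ∀ t, t ≤ s / 2 → μ t = 0 := fun t ht => by simp only [hμ, κs t ht, mul_zero]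
  have μb : ∀ t, 0 ≤ t → t ≤ 2 → 0 ≤ μ t ∧ μ t ≤ 3 * Real.exp (lam * 2) / c₁ := by
    intro t h0 h2
    constructor
    · have := κ0 t h0
      positivity
    · have e1 : Real.exp (lam * t) ≤ Real.exp (lam * 2) :=
        Real.exp_le_exp.2 (mul_le_mul_of_nonneg_left h2 hl0)
      have e2 : Real.exp (lam * t) * κ t ≤ Real.exp (lam * 2) * (3 * r) :=
        mul_le_mul e1 (κ1 t h0) (κ0 t h0) (Real.exp_pos _).le
      calc μ t ≤ 1 / (c₁ * r) * (Real.exp (lam * 2) * (3 * r)) :=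
            mul_le_mul_of_nonneg_left e2 (by positivity)
        _ = 3 * Real.exp (lam * 2) / c₁ := by field_simp
  obtain ⟨Λc, Λd⟩ := antider μc
  set Λ : ℝ → ℝ := fun t => ∫ u in (0 : ℝ)..t, μ u with hΛ
  have Λs : ∀ t, t ≤ s / 2 → Λ t = 0 := fun t ht => integral_zero_of_le (half_pos hs) μs ht
  have Λb : ∀ t, 0 ≤ t → t ≤ 2 → 0 ≤ Λ t ∧ Λ t ≤ 6 * Real.exp (lam * 2) / c₁ := by
    intro t h0 h2
    constructor
    · exact intervalIntegral.integral_nonneg h0 (fun u hu => (μb u hu.1 (hu.2.trans h2)).1)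
    · have : Λ t ≤ ∫ u in (0 : ℝ)..t, (3 * Real.exp (lam * 2) / c₁) := by
        apply intervalIntegral.integral_mono_on h0
        · exact μc.continuous.intervalIntegrable _ _
        · exact continuous_const.intervalIntegrable _ _
        · intro u hu
          exact (μb u hu.1 (hu.2.trans h2)).2
      rw [intervalIntegral.integral_const, smul_eq_mul, sub_zero] at this
      refine this.trans ?_
      have e : 0 ≤ 3 * Real.exp (lam * 2) / c₁ := by positivity
      calc t * (3 * Real.exp (lam * 2) / c₁) ≤ 2 * (3 * Real.exp (lam * 2) / c₁) :=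
            mul_le_mul_of_nonneg_right h2 e
        _ = 6 * Real.exp (lam * 2) / c₁ := by ring
  have hKK : 3 * Real.exp (lam * 2) / c₁ ≤ 6 * Real.exp (lam * 2) / c₁ := by
    apply div_le_div_of_nonneg_right _ hc.le
    have := Real.exp_pos (lam * 2)
    linarith
  have hkey : ∀ t, c₁ * (lam * μ t + θ t / (c₁ * r)) - A * μ t = θ t / r := by
    intro t
    rw [hlam]
    field_simp
    ring
  refine ⟨Λ, μ, fun t => lam * μ t + θ t / (c₁ * r), Λc, Λd, μd, ?_,
    fun t ht => ⟨Λs t ht, μs t ht, ?_⟩, ?_, ?_, ?_⟩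
  · exact (continuous_const.mul μc.continuous).add (θc.continuous.div_const _)
  · show lam * μ t + θ t / (c₁ * r) = 0
    rw [μs t ht, θs t ht]
    simp
  · intro t ht
    by_cases h : 0 ≤ t
    · exact ⟨Λb t h ht, (μb t h ht).1, (μb t h ht).2.trans hKK⟩
    · push Not at h
      have hK : 0 ≤ 6 * Real.exp (lam * 2) / c₁ := by positivity
      rw [Λs t (by linarith), μs t (by linarith)]
      exact ⟨⟨le_refl _, hK⟩, le_refl _, hK⟩
  · intro t
    show 0 ≤ c₁ * (lam * μ t + θ t / (c₁ * r)) - A * μ t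
    rw [hkey]
    exact div_nonneg (θ0 t) hr.le
  · intro t h1 h2
    show 1 / r ≤ c₁ * (lam * μ t + θ t / (c₁ * r)) - A * μ t
    rw [hkey, θe t h1 h2]

end oneD

section final

variable {Ω : Set (ℂ × ℂ)} {γ : ℂ × ℂ → ℂ × ℂ → ℂ × ℂ → ℝ}

theorem cont_of_supp {Ω K : Set (ℂ × ℂ)} (hΩ : IsOpen Ω) (hK : IsCompact K) (hKΩ : K ⊆ Ω)
    {F : ℂ × ℂ → ℝ} (hF : ContinuousOn F Ω) (h0 : ∀ z, z ∉ K → F z = 0) :
    Continuous F ∧ HasCompactSupport F := by
  constructor
  · rw [continuous_iff_continuousAt]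
    intro z
    by_cases hz : z ∈ K
    · exact hF.continuousAt (hΩ.mem_nhds (hKΩ hz))
    · have : F =ᶠ[𝓝 z] fun _ => 0 := by
        filter_upwards [hK.isClosed.isOpen_compl.mem_nhds hz] with y hy
        exact h0 y hy
      exact this.continuousAt
  · exact HasCompactSupport.intro hK h0

theorem cont_hess {f : ℂ × ℂ → ℝ} (hf : ContDiff ℝ ∞ f) (u v : ℂ × ℂ) :
    Continuous (fun z => hess f z u v) := by
  have h1 : ContDiff ℝ ∞ (fun y => fderiv ℝ f y v) :=
    (hf.fderiv_right (m := ∞) (by norm_num)).clm_apply contDiff_const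
  have h2 : ContDiff ℝ ∞ (fun z => fderiv ℝ (fun y => fderiv ℝ f y v) z u) :=
    (h1.fderiv_right (m := ∞) (by norm_num)).clm_apply contDiff_const
  exact h2.continuous

theorem cont_levi {f : ℂ × ℂ → ℝ} (hf : ContDiff ℝ ∞ f) (u v : ℂ × ℂ) :
    Continuous (fun z => levi f z u v) :=
  (cont_hess hf _ _).add (cont_hess hf _ _)

theorem hess_zero_of_ev {f : ℂ × ℂ → ℝ} {z : ℂ × ℂ} {c : ℝ} (h : ∀ᶠ y in 𝓝 z, f y = c)
    (u v : ℂ × ℂ) : hess f z u v = 0 := by
  unfold hess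
  have h1 : (fun w => fderiv ℝ f w v) =ᶠ[𝓝 z] fun _ => 0 := by
    have := h.eventually_nhds
    filter_upwards [this] with y hy
    have h2 : f =ᶠ[𝓝 y] fun _ => c := hy
    rw [h2.fderiv_eq]
    simp
  rw [h1.fderiv_eq]
  simp

theorem fderiv_zero_of_ev {f : ℂ × ℂ → ℝ} {z : ℂ × ℂ} {c : ℝ} (h : ∀ᶠ y in 𝓝 z, f y = c) :
    fderiv ℝ f z = 0 := by
  have h2 : f =ᶠ[𝓝 z] fun _ => c := h
  rw [h2.fderiv_eq]
  simp

theorem cont_TT (h : CForm Ω γ) : ContinuousOn (TT γ) Ω :=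
  (h.smooth _ _).continuousOn.add (h.smooth _ _).continuousOn

theorem cont_wdg (h : CForm Ω γ) {f : ℂ × ℂ → ℝ} (hf : ContDiff ℝ ∞ f) :
    ContinuousOn (fun z => wdg (γ z) (levi f z)) Ω := by
  unfold wdg
  have a := fun u v => (h.smooth u v).continuousOn
  have b := fun u v => (cont_levi hf u v).continuousOn (s := Ω)
  exact ((((a _ _).mul (b _ _)).add ((a _ _).mul (b _ _))).sub
    (continuousOn_const.mul ((a _ _).mul (b _ _)))).sub
    (continuousOn_const.mul ((a _ _).mul (b _ _)))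

/-- the mixed term -/
noncomputable def cr (χ w : ℂ × ℂ → ℝ) (z u v : ℂ × ℂ) : ℝ :=
  (fderiv ℝ w z u * fderiv ℝ χ z v + fderiv ℝ χ z u * fderiv ℝ w z v) +
  (fderiv ℝ w z (Complex.I • u) * fderiv ℝ χ z (Complex.I • v)
    + fderiv ℝ χ z (Complex.I • u) * fderiv ℝ w z (Complex.I • v))

theorem wdg_prod {χ w : ℂ × ℂ → ℝ} {Λ μ μ' : ℝ → ℝ} (hχ : ContDiff ℝ ∞ χ)
    (hw : ContDiff ℝ ∞ w) (h1 : ∀ t, HasDerivAt Λ (μ t) t) (h2 : ∀ t, HasDerivAt μ (μ' t) t)
    (z : ℂ × ℂ) :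
    wdg (γ z) (levi (fun z => χ z * Λ (w z)) z) =
      Λ (w z) * wdg (γ z) (levi χ z) + μ (w z) * wdg (γ z) (cr χ w z)
      + χ z * (μ' (w z) * wdg (γ z) (tens w z) + μ (w z) * wdg (γ z) (levi w z)) := by
  unfold wdg levi cr tens
  simp only [hess_prod hχ hw h1 h2]
  ring

theorem abs_cr_le {χ w : ℂ × ℂ → ℝ} {z u v : ℂ × ℂ} {δ : ℝ}
    (a1 : |fderiv ℝ w z u| ≤ 2) (a2 : |fderiv ℝ w z v| ≤ 2)
    (a3 : |fderiv ℝ w z (Complex.I • u)| ≤ 2) (a4 : |fderiv ℝ w z (Complex.I • v)| ≤ 2)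
    (b1 : |fderiv ℝ χ z u| ≤ δ) (b2 : |fderiv ℝ χ z v| ≤ δ)
    (b3 : |fderiv ℝ χ z (Complex.I • u)| ≤ δ) (b4 : |fderiv ℝ χ z (Complex.I • v)| ≤ δ) :
    |cr χ w z u v| ≤ 8 * δ := by
  have hδ : 0 ≤ δ := (abs_nonneg _).trans b1
  have m : ∀ x y : ℝ, |x| ≤ 2 → |y| ≤ δ → |x * y| ≤ 2 * δ := fun x y hx hy => by
    rw [abs_mul]; exact mul_le_mul hx hy (abs_nonneg _) (by norm_num)
  have m1 := m _ _ a1 b2
  have m2 := m _ _ a2 b1
  have m3 := m _ _ a3 b4
  have m4 := m _ _ a4 b3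
  unfold cr
  rw [abs_le] at *
  constructor <;> nlinarith [m1.1, m1.2, m2.1, m2.2, m3.1, m3.2, m4.1, m4.2]

theorem wdg_cr_le (h : CForm Ω γ) {z : ℂ × ℂ} (hz : z ∈ Ω) {χ w : ℂ × ℂ → ℝ} {δ : ℝ}
    (d3 : |fderiv ℝ w z (1, 0)| ≤ 2) (d4 : |fderiv ℝ w z (0, 1)| ≤ 2)
    (d5 : |fderiv ℝ w z (Complex.I, 0)| ≤ 2) (d6 : |fderiv ℝ w z (0, Complex.I)| ≤ 2)
    (hδ : ‖fderiv ℝ χ z‖ ≤ δ) :
    |wdg (γ z) (cr χ w z)| ≤ 24 * δ * TT γ z := by
  have hδ0 : 0 ≤ δ := (norm_nonneg _).trans hδ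
  have hd : ∀ u : ℂ × ℂ, ‖u‖ ≤ 1 → |fderiv ℝ χ z u| ≤ δ := by
    intro u hu
    have h1 := (fderiv ℝ χ z).le_opNorm u
    rw [Real.norm_eq_abs] at h1
    calc |fderiv ℝ χ z u| ≤ ‖fderiv ℝ χ z‖ * ‖u‖ := h1
      _ ≤ δ * 1 := mul_le_mul hδ hu (norm_nonneg _) hδ0
      _ = δ := mul_one _
  have g1 := hd (1, 0) (by simp)
  have g2 := hd (0, 1) (by simp)
  have g3 := hd (Complex.I, 0) (by simp)
  have g4 := hd (0, Complex.I) (by simp)
  have g5 := hd (-(0, 1)) (by simp)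
  have d7 : |fderiv ℝ w z (-(0, 1))| ≤ 2 := by
    rw [map_neg, abs_neg]; exact d4
  refine (wdg_le h hz (cr χ w z) (8 * δ) ?_ ?_ ?_ ?_).trans ?_
  · exact abs_cr_le d3 d3 (by rw [smul_X1]; exact d5) (by rw [smul_X1]; exact d5)
      g1 g1 (by rw [smul_X1]; exact g3) (by rw [smul_X1]; exact g3)
  · exact abs_cr_le d4 d4 (by rw [smul_Y1]; exact d6) (by rw [smul_Y1]; exact d6)
      g2 g2 (by rw [smul_Y1]; exact g4) (by rw [smul_Y1]; exact g4)
  · exact abs_cr_le d3 d4 (by rw [smul_X1]; exact d5) (by rw [smul_Y1]; exact d6)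
      g1 g2 (by rw [smul_X1]; exact g3) (by rw [smul_Y1]; exact g4)
  · exact abs_cr_le d3 d6 (by rw [smul_X1]; exact d5) (by rw [smul_Y2]; exact d7)
      g1 g4 (by rw [smul_X1]; exact g3) (by rw [smul_Y2]; exact g5)
  · refine le_of_eq ?_
    unfold TT
    ring

theorem alg_final {C c₀ x lam m m' T K t l a b e d M : ℝ} (hC : 0 < C) (hc₀ : 0 < c₀)
    (hx : 0 ≤ x) (hL0 : 0 ≤ lam) (hLK : lam ≤ K) (hm0 : 0 ≤ m) (hmK : m ≤ K)
    (hpos : 0 ≤ 9 / 16 * c₀ * m' - 8 * C * m) (ht : 9 / 16 * c₀ * T ≤ t)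
    (hl : -(8 * C * T) ≤ l) (hK : 0 < K) (ha : |a| ≤ 3 * e * |M|) (hb : |b| ≤ 24 * d * |M|) :
    x * ((9 / 16 * c₀ * m' - 8 * C * m) * T) ≤
      lam * a + m * b + x * (m' * t + m * l) + K * (3 * e + 24 * d) * |M| := by
  have hμ'0 : 0 ≤ m' := by
    have h2 : 0 ≤ 8 * C * m := by positivity
    have h3 : 0 ≤ 9 / 16 * c₀ * m' := by linarith
    by_contra h4
    push Not at h4
    have : 9 / 16 * c₀ * m' < 0 := mul_neg_of_pos_of_neg (by positivity) h4
    linarith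
  have k1 := mul_le_mul_of_nonneg_left ht hμ'0
  have k2 := mul_le_mul_of_nonneg_left hl hm0
  have e1 : (9 / 16 * c₀ * m' - 8 * C * m) * T ≤ m' * t + m * l := by linarith
  have e2 := mul_le_mul_of_nonneg_left e1 hx
  have e4 : -(K * (3 * e * |M|)) ≤ lam * a := by
    have k1 : |lam * a| ≤ K * (3 * e * |M|) := by
      rw [abs_mul, abs_of_nonneg hL0]
      exact mul_le_mul hLK ha (abs_nonneg _) hK.le
    exact (abs_le.1 k1).1
  have e5 : -(K * (24 * d * |M|)) ≤ m * b := by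
    have k1 : |m * b| ≤ K * (24 * d * |M|) := by
      rw [abs_mul, abs_of_nonneg hm0]
      exact mul_le_mul hmK hb (abs_nonneg _) hK.le
    exact (abs_le.1 k1).1
  have e6 : K * (3 * e + 24 * d) * |M| = K * (3 * e * |M|) + K * (24 * d * |M|) := by ring
  linarith

/-- the differential of `w` on the basis vectors -/
theorem dw_bounds {C : ℝ} {L : ℂ → ℝ} (hL : ContDiff ℝ ∞ L) (hC : 0 < C) {ε : ℝ}
    (hε : 0 < ε) (hε' : (6 * C + 1) * ε ≤ 1 / 4) (z : ℂ × ℂ)
    (h1 : ‖tau z‖ ≤ ε) (h2 : |eta z| ≤ ε) (h3 : ‖fderiv ℝ L (tau z)‖ ≤ ε) :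
    3 / 4 ≤ fderiv ℝ (wf C L) z (1, 0) ∧ 3 / 4 ≤ fderiv ℝ (wf C L) z (0, 1) ∧
    |fderiv ℝ (wf C L) z (1, 0)| ≤ 2 ∧ |fderiv ℝ (wf C L) z (0, 1)| ≤ 2 ∧
    |fderiv ℝ (wf C L) z (Complex.I, 0)| ≤ 2 ∧ |fderiv ℝ (wf C L) z (0, Complex.I)| ≤ 2 := by
  have k := abs_fderiv_wf C hL hC hε hε' z h1 h2 h3
  have k1 := k (1, 0) (by simp [tau]) (by simp [eta])
  have k2 := k (0, 1) (by simp [tau]) (by simp [eta])
  have k3 := k (Complex.I, 0) (by simp [tau]) (by simp [eta])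
  have k4 := k (0, Complex.I) (by simp [tau]) (by simp [eta])
  have x1 : XX (1, 0) = 1 := by simp [XX]
  have x2 : XX (0, 1) = 1 := by simp [XX]
  have x3 : XX (Complex.I, 0) = 0 := by simp [XX]
  have x4 : XX (0, Complex.I) = 0 := by simp [XX]
  rw [x1] at k1
  rw [x2] at k2
  rw [x3] at k3
  rw [x4] at k4
  rw [abs_le] at *
  simp only [abs_le]
  refine ⟨?_, ?_, ⟨?_, ?_⟩, ⟨?_, ?_⟩, ⟨?_, ?_⟩, ⟨?_, ?_⟩⟩ <;>
    linarith [k1.1, k1.2, k2.1, k2.2, k3.1, k3.2, k4.1, k4.2]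

theorem exists_eps {C : ℝ} (hC : 0 < C) : ∃ ε > 0, (6 * C + 1) * ε ≤ 1 / 4 := by
  refine ⟨1 / (4 * (6 * C + 1)), by positivity, ?_⟩
  have : 0 < 6 * C + 1 := by positivity
  field_simp
  exact le_refl _

theorem B_holds (hst : St_stokes) : St_B := by
  intro c₀ hc₀ C hC
  obtain ⟨ε, hε, hε'⟩ := exists_eps hC
  refine ⟨ε, hε, ?_⟩
  intro χ S M hχ hχc hχ1 hχt hχS
  -- bounds for `χ`
  obtain ⟨δ, hδ⟩ : ∃ δ : ℝ, ∀ z, ‖fderiv ℝ χ z‖ ≤ δ :=
    (hχc.fderiv (𝕜 := ℝ)).exists_bound_of_continuous (hχ.continuous_fderiv (by norm_num))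
  have hδ0 : 0 ≤ δ := (norm_nonneg _).trans (hδ 0)
  have hlc : ∀ u v, HasCompactSupport (fun z => levi χ z u v) := by
    intro u v
    apply HasCompactSupport.intro hχc
    intro z hz
    have : ∀ᶠ y in 𝓝 z, χ y = 0 := notMem_tsupport_iff_eventuallyEq.1 hz
    unfold levi
    rw [hess_zero_of_ev this, hess_zero_of_ev this, add_zero]
  have hlb : ∀ u v, ∃ β : ℝ, ∀ z, |levi χ z u v| ≤ β := fun u v =>
    (hlc u v).exists_bound_of_continuous (cont_levi hχ u v)
  obtain ⟨β1, hβ1⟩ := hlb (1, 0) (1, 0)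
  obtain ⟨β2, hβ2⟩ := hlb (0, 1) (0, 1)
  obtain ⟨β3, hβ3⟩ := hlb (1, 0) (0, 1)
  obtain ⟨β4, hβ4⟩ := hlb (1, 0) (0, Complex.I)
  set β : ℝ := |β1| + |β2| + |β3| + |β4| with hβdef
  have hβ0 : 0 ≤ β := by positivity
  have hb1 : ∀ z, |levi χ z (1, 0) (1, 0)| ≤ β := fun z => (hβ1 z).trans (by
    linarith [le_abs_self β1, abs_nonneg β2, abs_nonneg β3, abs_nonneg β4])
  have hb2 : ∀ z, |levi χ z (0, 1) (0, 1)| ≤ β := fun z => (hβ2 z).trans (by
    linarith [le_abs_self β2, abs_nonneg β1, abs_nonneg β3, abs_nonneg β4])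
  have hb3 : ∀ z, |levi χ z (1, 0) (0, 1)| ≤ β := fun z => (hβ3 z).trans (by
    linarith [le_abs_self β3, abs_nonneg β1, abs_nonneg β2, abs_nonneg β4])
  have hb4 : ∀ z, |levi χ z (1, 0) (0, Complex.I)| ≤ β := fun z => (hβ4 z).trans (by
    linarith [le_abs_self β4, abs_nonneg β1, abs_nonneg β2, abs_nonneg β3])
  obtain ⟨K, hK, hweight⟩ := weight (c₁ := 9 / 16 * c₀) (A := 8 * C) (by positivity) (by positivity)
  set E : ℝ := K * (3 * β + 24 * δ) * |M| with hE
  have hE0 : 0 ≤ E := by positivity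
  refine ⟨E * volume.real (tsupport χ), ?_⟩
  intro Ω γ L hΩ hγ hsl hL hL1 hL2 hL3 hin hM r hr hr1
  set w : ℂ × ℂ → ℝ := wf C L with hw
  have hwc : ContDiff ℝ ∞ w := wf_contDiff C hL
  have hin' : ∀ z ∈ tsupport χ, 0 < w z → z ∈ Ω := hin
  have hM' : ∀ z ∈ S ∩ tsupport χ, 0 < w z → TT γ z ≤ M := hM
  have hw2 : ∀ z ∈ tsupport χ, w z ≤ 2 := by
    intro z hz
    have h1 := (hχt z hz).2.2
    have h2 := hL2 (tau z) (hχt z hz).1
    have h3 : 0 ≤ par C (tau z) (eta z) := by unfold par; positivity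
    rw [abs_le] at h1 h2
    show XX z - par C (tau z) (eta z) - L (tau z) ≤ 2
    linarith [h1.2, h2.1]
  -- main estimate for positive `s`
  have main : ∀ s, 0 < s → s ≤ r → ∫⁻ z in {z | s ≤ w z ∧ w z < r},
      ENNReal.ofReal (χ z * TT γ z) ≤ ENNReal.ofReal (E * volume.real (tsupport χ) * r) := by
    intro s hs hsr
    obtain ⟨Λ, μ, μ', Λc, Λd, μd, μ'c, h0, hK1, hpos, hbig⟩ := hweight s r hs hsr
    set f : ℂ × ℂ → ℝ := fun z => χ z * Λ (w z) with hf
    have hfc : ContDiff ℝ ∞ f := hχ.mul (Λc.comp hwc)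
    set Ks : Set (ℂ × ℂ) := tsupport χ ∩ {z | s / 2 ≤ w z} with hKs
    have hKsc : IsCompact Ks :=
      hχc.isCompact.inter_right (isClosed_le continuous_const hwc.continuous)
    have hKsΩ : Ks ⊆ Ω := fun z hz => hin' z hz.1 (lt_of_lt_of_le (half_pos hs) hz.2)
    have hsf : tsupport f ⊆ Ks := by
      apply closure_minimal _ hKsc.isClosed
      intro z hz
      rw [Function.mem_support] at hz
      have h1 : χ z ≠ 0 := left_ne_zero_of_mul hz
      have h2 : Λ (w z) ≠ 0 := right_ne_zero_of_mul hz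
      refine ⟨subset_tsupport _ h1, ?_⟩
      by_contra h3
      have h3' : w z ≤ s / 2 := by
        have : ¬ (s / 2 ≤ w z) := h3
        push Not at this
        exact this.le
      exact h2 (h0 _ h3').1
    have hfcs : HasCompactSupport f := hKsc.of_isClosed_subset (isClosed_tsupport f) hsf
    have hI0 := hst Ω γ f hΩ hγ hfc hfcs (hsf.trans hKsΩ)
    set I : ℂ × ℂ → ℝ := fun z => wdg (γ z) (levi f z) with hI
    have hIz : ∀ z, z ∉ Ks → I z = 0 := by
      intro z hz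
      have : ∀ᶠ y in 𝓝 z, f y = 0 := notMem_tsupport_iff_eventuallyEq.1 (fun h => hz (hsf h))
      simp only [hI, wdg, levi, hess_zero_of_ev this]
      ring
    have hIc := cont_of_supp hΩ hKsc hKsΩ (cont_wdg hγ hfc) hIz
    set g : ℂ × ℂ → ℝ := fun z => χ z * ((9 / 16 * c₀ * μ' (w z) - 8 * C * μ (w z)) * TT γ z)
      with hg
    have hμc : Continuous μ := continuous_iff_continuousAt.2 fun t => (μd t).continuousAt
    have hgz : ∀ z, z ∉ Ks → g z = 0 := by
      intro z hz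
      by_cases h1 : z ∈ tsupport χ
      · have h3' : w z ≤ s / 2 := by
          by_contra h3
          push Not at h3
          exact hz ⟨h1, h3.le⟩
        simp only [hg, (h0 _ h3').2.1, (h0 _ h3').2.2]
        ring
      · simp only [hg, image_eq_zero_of_notMem_tsupport h1, zero_mul]
    have hgc : Continuous g ∧ HasCompactSupport g := by
      apply cont_of_supp hΩ hKsc hKsΩ _ hgz
      apply hχ.continuous.continuousOn.mul
      apply ContinuousOn.mul _ (cont_TT hγ)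
      exact ((continuous_const.mul (μ'c.comp hwc.continuous)).sub
        (continuous_const.mul (hμc.comp hwc.continuous))).continuousOn
    have hg0 : ∀ z, 0 ≤ g z := by
      intro z
      by_cases hz : z ∈ Ks
      · exact mul_nonneg (hχ1 z).1 (mul_nonneg (hpos _) (TT_nonneg hγ (hKsΩ hz)))
      · rw [hgz z hz]
    -- pointwise inequality
    have hpt : ∀ z, g z ≤ I z + (tsupport χ).indicator (fun _ => E) z := by
      intro z
      by_cases hz : z ∈ Ks
      · have hzΩ := hKsΩ hz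
        have hzt := hz.1
        have hwz : 0 < w z := lt_of_lt_of_le (half_pos hs) hz.2
        rw [indicator_of_mem hzt]
        have hI2 : I z = Λ (w z) * wdg (γ z) (levi χ z) + μ (w z) * wdg (γ z) (cr χ w z)
            + χ z * (μ' (w z) * wdg (γ z) (tens w z) + μ (w z) * wdg (γ z) (levi w z)) :=
          wdg_prod hχ hwc Λd μd z
        obtain ⟨⟨hL0, hLK⟩, hm0, hmK⟩ := hK1 (w z) (hw2 z hzt)
        obtain ⟨d1, d2, d3, d4, d5, d6⟩ := dw_bounds hL hC hε hε' z (hχt z hzt).1 (hχt z hzt).2.1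
          (hL1 (tau z))
        have hT0 := TT_nonneg hγ hzΩ
        have ht := tens_lower hγ hc₀ hsl hzΩ w d1 d2
        have hl := levi_lower hγ hzΩ hC hL hL3
        have hμ'0 : 0 ≤ μ' (w z) := by
          have h1 := hpos (w z)
          have h2 : 0 ≤ 8 * C * μ (w z) := by positivity
          have h3 : 0 ≤ 9 / 16 * c₀ * μ' (w z) := by linarith
          by_contra h4
          push Not at h4
          have : 9 / 16 * c₀ * μ' (w z) < 0 := mul_neg_of_pos_of_neg (by positivity) h4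
          linarith
        have e3 : |wdg (γ z) (levi χ z)| ≤ 3 * β * |M| ∧ |wdg (γ z) (cr χ w z)| ≤ 24 * δ * |M| := by
          by_cases hS : z ∈ S
          · have hTM : TT γ z ≤ |M| := (hM' z ⟨hS, hzt⟩ hwz).trans (le_abs_self M)
            constructor
            · refine (wdg_le hγ hzΩ (levi χ z) β (hb1 z) (hb2 z) (hb3 z) (hb4 z)).trans ?_
              exact mul_le_mul_of_nonneg_left hTM (by positivity)
            · refine (wdg_cr_le hγ hzΩ d3 d4 d5 d6 (hδ z)).trans ?_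
              exact mul_le_mul_of_nonneg_left hTM (by positivity)
          · have hev := hχS z hS
            have z1 : wdg (γ z) (levi χ z) = 0 := by
              simp only [wdg, levi, hess_zero_of_ev hev]; ring
            have z2 : wdg (γ z) (cr χ w z) = 0 := by
              simp only [wdg, cr, fderiv_zero_of_ev hev, _root_.zero_apply]; ring
            rw [z1, z2, abs_zero]
            exact ⟨by positivity, by positivity⟩
        rw [hI2, hE]
        exact alg_final hC hc₀ (hχ1 z).1 hL0 hLK hm0 hmK (hpos (w z)) ht hl hK e3.1 e3.2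
      · rw [hgz z hz, hIz z hz, zero_add]
        exact indicator_nonneg (fun _ _ => hE0) z
    -- integrate
    have hgi : Integrable g := hgc.1.integrable_of_hasCompactSupport hgc.2
    have hIi : Integrable I := hIc.1.integrable_of_hasCompactSupport hIc.2
    have htm : MeasurableSet (tsupport χ) := (isClosed_tsupport χ).measurableSet
    have htf : volume (tsupport χ) < ⊤ := hχc.isCompact.measure_lt_top
    have hEi : Integrable ((tsupport χ).indicator (fun _ : ℂ × ℂ => E)) :=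
      (integrable_indicator_iff htm).2 (integrableOn_const htf.ne)
    have hint : ∫ z, g z ≤ E * volume.real (tsupport χ) := by
      have h1 : ∫ z, g z ≤ ∫ z, (I z + (tsupport χ).indicator (fun _ => E) z) :=
        integral_mono hgi (hIi.add hEi) hpt
      rw [integral_add hIi hEi, hI0, integral_indicator htm, setIntegral_const, zero_add,
        smul_eq_mul, mul_comm] at h1
      exact h1
    have hmeas : MeasurableSet {z | s ≤ w z ∧ w z < r} :=
      (measurableSet_le measurable_const hwc.continuous.measurable).inter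
        (measurableSet_lt hwc.continuous.measurable measurable_const)
    calc ∫⁻ z in {z | s ≤ w z ∧ w z < r}, ENNReal.ofReal (χ z * TT γ z)
        ≤ ∫⁻ z in {z | s ≤ w z ∧ w z < r}, ENNReal.ofReal (r * g z) := by
          apply setLIntegral_mono' hmeas
          intro z hz
          apply ENNReal.ofReal_le_ofReal
          by_cases hzt : z ∈ tsupport χ
          · have hzΩ := hin' z hzt (lt_of_lt_of_le hs hz.1)
            have hT0 := TT_nonneg hγ hzΩ
            have h1 := hbig (w z) hz.1 hz.2.le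
            have h2 : 1 ≤ r * (9 / 16 * c₀ * μ' (w z) - 8 * C * μ (w z)) := by
              rw [div_le_iff₀ hr] at h1
              linarith
            have h3 : 0 ≤ χ z * TT γ z := mul_nonneg (hχ1 z).1 hT0
            calc χ z * TT γ z = 1 * (χ z * TT γ z) := (one_mul _).symm
              _ ≤ (r * (9 / 16 * c₀ * μ' (w z) - 8 * C * μ (w z))) * (χ z * TT γ z) :=
                mul_le_mul_of_nonneg_right h2 h3
              _ = r * g z := by simp only [hg]; ring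
          · rw [image_eq_zero_of_notMem_tsupport hzt, zero_mul]
            exact mul_nonneg hr.le (hg0 z)
      _ ≤ ∫⁻ z, ENNReal.ofReal (r * g z) := setLIntegral_le_lintegral _ _
      _ = ENNReal.ofReal (∫ z, r * g z) := by
          rw [ofReal_integral_eq_lintegral_ofReal (hgi.const_mul r)]
          exact Eventually.of_forall fun z => mul_nonneg hr.le (hg0 z)
      _ ≤ ENNReal.ofReal (E * volume.real (tsupport χ) * r) := by
          apply ENNReal.ofReal_le_ofReal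
          rw [integral_const_mul, mul_comm]
          exact mul_le_mul_of_nonneg_right hint hr.le
  -- pass to the limit
  set A : ℕ → Set (ℂ × ℂ) := fun n => {z | r / (n + 1) ≤ w z ∧ w z < r} with hA
  have hAmono : Monotone A := by
    intro m n hmn z hz
    refine ⟨le_trans ?_ hz.1, hz.2⟩
    apply div_le_div_of_nonneg_left hr.le (by positivity)
    have : (m : ℝ) ≤ n := by exact_mod_cast hmn
    linarith
  have hAU : {z | 0 < w z ∧ w z < r} = ⋃ n, A n := by
    ext z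
    simp only [Set.mem_ofPred_eq, mem_iUnion, hA]
    constructor
    · rintro ⟨h1, h2⟩
      obtain ⟨n, hn⟩ := exists_nat_gt (r / w z)
      refine ⟨n, ?_, h2⟩
      rw [div_lt_iff₀ h1] at hn
      rw [div_le_iff₀ (by positivity)]
      nlinarith
    · rintro ⟨n, h1, h2⟩
      exact ⟨lt_of_lt_of_le (by positivity) h1, h2⟩
  show ∫⁻ z in {z | 0 < w z ∧ w z < r}, ENNReal.ofReal (χ z * TT γ z) ≤ _
  rw [hAU, setLIntegral_iUnion_of_directed _ hAmono.directed_le]
  apply iSup_le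
  intro n
  apply main
  · positivity
  · rw [div_le_iff₀ (by positivity)]
    nlinarith [hr, (Nat.cast_nonneg n : (0 : ℝ) ≤ n)]

end final

end LemB

theorem B_holds (hst : St_stokes) : St_B := LemB.B_holds hst

end Crest.Agent.R266
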