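import Mathlib

/-!
R266 / SoftMin: smooth superharmonic approximation of the minimum of finitely many real affine
functions `t ↦ Re (b t) + s` on `ℂ` from above (helper399).
-/

set_option autoImplicit false

open scoped ContDiff Topology
open Set Filter

namespace Crest.Agent.R266

/-- the real functional `t ↦ Re (b t)` -/
noncomputable def relin (b : ℂ) : ℂ →L[ℝ] ℝ :=
  Complex.reCLM.comp ((ContinuousLinearMap.mul ℝ ℂ) b)

theorem relin_apply (b t : ℂ) : relin b t = (b * t).re := rfl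

theorem norm_relin_le (b : ℂ) : ‖relin b‖ ≤ ‖b‖ := by
  refine ContinuousLinearMap.opNorm_le_bound _ (norm_nonneg _) fun t => ?_
  rw [relin_apply, Real.norm_eq_abs]
  exact (Complex.abs_re_le_norm _).trans (norm_mul b t).le

/-- the minimum of the affine functions `t ↦ Re (b t) + s`, `(b, s) ∈ F` -/
noncomputable def minAff (F : Finset (ℂ × ℝ)) (hF : F.Nonempty) (t : ℂ) : ℝ :=
  F.inf' hF fun p => (p.1 * t).re + p.2

namespace SoftMin

variable (F : Finset (ℂ × ℝ)) (k : ℝ)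

/-- the exponential weights -/
noncomputable def ew (p : ℂ × ℝ) (t : ℂ) : ℝ := Real.exp (-(k * ((p.1 * t).re + p.2)))

noncomputable def SS (t : ℂ) : ℝ := ∑ p ∈ F, ew k p t

noncomputable def NN (v t : ℂ) : ℝ := ∑ p ∈ F, (p.1 * v).re * ew k p t

/-- the soft minimum -/
noncomputable def LL (t : ℂ) : ℝ := -(k⁻¹ * (Real.log (SS F k t) - Real.log F.card))

variable {F k}

theorem ew_pos (p : ℂ × ℝ) (t : ℂ) : 0 < ew k p t := Real.exp_pos _

theorem SS_pos (hF : F.Nonempty) (t : ℂ) : 0 < SS F k t := Finset.sum_pos (fun p _ => ew_pos p t) hF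

theorem hasFDerivAt_ew (p : ℂ × ℝ) (t : ℂ) :
    HasFDerivAt (ew k p) ((-(k * ew k p t)) • relin p.1) t := by
  have h0 : HasFDerivAt (fun t : ℂ => -(k * (relin p.1 t + p.2))) (-(k • relin p.1)) t :=
    (((relin p.1).hasFDerivAt.add_const p.2).const_mul k).neg
  have h1 := h0.exp
  have h2 : (-(k * ew k p t)) • relin p.1 = Real.exp (-(k * (relin p.1 t + p.2))) • -(k • relin p.1) := by
    ext v
    simp only [smul_apply, neg_apply, smul_eq_mul, ew,
      relin_apply]
    ring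
  rw [h2]
  exact h1

theorem contDiff_ew (p : ℂ × ℝ) : ContDiff ℝ ∞ (ew k p) := by
  have h0 : ContDiff ℝ ∞ (fun t : ℂ => -(k * (relin p.1 t + p.2))) :=
    (contDiff_const.mul ((relin p.1).contDiff.add contDiff_const)).neg
  exact h0.exp

theorem contDiff_SS : ContDiff ℝ ∞ (SS F k) := ContDiff.sum fun p _ => contDiff_ew p

theorem contDiff_LL (hF : F.Nonempty) : ContDiff ℝ ∞ (LL F k) := by
  unfold LL
  exact (contDiff_const.mul ((contDiff_SS.log fun t => (SS_pos hF t).ne').sub contDiff_const)).neg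

theorem hasFDerivAt_SS (t : ℂ) :
    HasFDerivAt (SS F k) (∑ p ∈ F, (-(k * ew k p t)) • relin p.1) t :=
  HasFDerivAt.fun_sum fun p _ => hasFDerivAt_ew p t

theorem fderiv_SS_apply (t v : ℂ) : fderiv ℝ (SS F k) t v = -(k * NN F k v t) := by
  rw [(hasFDerivAt_SS t).fderiv, sum_apply, NN, Finset.mul_sum,
    ← Finset.sum_neg_distrib]
  refine Finset.sum_congr rfl fun p _ => ?_
  simp only [smul_apply, smul_eq_mul, relin_apply]
  ring

theorem fderiv_LL_apply (hF : F.Nonempty) (hk : k ≠ 0) (t v : ℂ) :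
    fderiv ℝ (LL F k) t v = NN F k v t / SS F k t := by
  have hS : HasFDerivAt (SS F k) (fderiv ℝ (SS F k) t) t :=
    (contDiff_SS.differentiable (by simp)).differentiableAt.hasFDerivAt
  have h := ((hS.log (SS_pos hF t).ne').sub_const (Real.log F.card)).const_mul k⁻¹ |>.neg
  have h' : HasFDerivAt (LL F k) (-(k⁻¹ • ((SS F k t)⁻¹ • fderiv ℝ (SS F k) t))) t := h
  rw [h'.fderiv]
  simp only [neg_apply, smul_apply, smul_eq_mul,
    fderiv_SS_apply]
  have := (SS_pos (k := k) hF t).ne'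
  field_simp

theorem abs_NN_le {e₀ : ℝ} (hb : ∀ p ∈ F, ‖p.1‖ ≤ e₀) (v t : ℂ) :
    |NN F k v t| ≤ e₀ * ‖v‖ * SS F k t := by
  unfold NN SS
  refine (Finset.abs_sum_le_sum_abs _ _).trans ?_
  rw [Finset.mul_sum]
  refine Finset.sum_le_sum fun p hp => ?_
  rw [abs_mul, abs_of_pos (ew_pos p t)]
  refine mul_le_mul_of_nonneg_right ?_ (ew_pos p t).le
  calc |(p.1 * v).re| ≤ ‖p.1 * v‖ := Complex.abs_re_le_norm _
    _ = ‖p.1‖ * ‖v‖ := norm_mul _ _
    _ ≤ e₀ * ‖v‖ := mul_le_mul_of_nonneg_right (hb p hp) (norm_nonneg _)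

theorem norm_fderiv_LL_le {e₀ : ℝ} (hF : F.Nonempty) (hk : k ≠ 0) (he : 0 ≤ e₀)
    (hb : ∀ p ∈ F, ‖p.1‖ ≤ e₀) (t : ℂ) : ‖fderiv ℝ (LL F k) t‖ ≤ e₀ := by
  refine ContinuousLinearMap.opNorm_le_bound _ he fun v => ?_
  rw [fderiv_LL_apply hF hk, Real.norm_eq_abs, abs_div, abs_of_pos (SS_pos hF t),
    div_le_iff₀ (SS_pos hF t)]
  exact abs_NN_le hb v t

theorem hasFDerivAt_NN (v t : ℂ) :
    HasFDerivAt (NN F k v) (∑ p ∈ F, (p.1 * v).re • ((-(k * ew k p t)) • relin p.1)) t :=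
  HasFDerivAt.fun_sum fun p _ => (hasFDerivAt_ew p t).const_mul _

theorem fderiv_fderiv_LL_le (hF : F.Nonempty) (hk : 0 < k) (t v : ℂ) :
    fderiv ℝ (fun s => fderiv ℝ (LL F k) s v) t v ≤ 0 := by
  have h1 : (fun s => fderiv ℝ (LL F k) s v) = fun s => NN F k v s / SS F k s := by
    ext s; exact fderiv_LL_apply hF hk.ne' s v
  have hS : HasFDerivAt (SS F k) (fderiv ℝ (SS F k) t) t :=
    (contDiff_SS.differentiable (by simp)).differentiableAt.hasFDerivAt
  have hq : DifferentiableAt ℝ (fun s => fderiv ℝ (LL F k) s v) t := by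
    have h : ContDiff ℝ ∞ (fun s => fderiv ℝ (LL F k) s v) :=
      ((contDiff_LL hF).fderiv_right (m := ∞) (by simp)).clm_apply contDiff_const
    exact (h.differentiable (by simp)).differentiableAt
  have hSp := SS_pos (k := k) hF t
  have h2 : HasFDerivAt (NN F k v) ((fderiv ℝ (LL F k) t v) • fderiv ℝ (SS F k) t
      + SS F k t • fderiv ℝ (fun s => fderiv ℝ (LL F k) s v) t) t := by
    have h := hq.hasFDerivAt.mul hS
    refine h.congr_of_eventuallyEq (Eventually.of_forall fun s => ?_)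
    show NN F k v s = fderiv ℝ (LL F k) s v * SS F k s
    rw [fderiv_LL_apply hF hk.ne', div_mul_cancel₀ _ (SS_pos hF s).ne']
  have h3 := congrArg (fun f : ℂ →L[ℝ] ℝ => f v) (h2.unique (hasFDerivAt_NN v t))
  simp only [add_apply, smul_apply, smul_eq_mul, fderiv_SS_apply, sum_apply, relin_apply,
    fderiv_LL_apply hF hk.ne' t v] at h3
  have e1 : ∑ p ∈ F, (p.1 * v).re * (-(k * ew k p t) * (p.1 * v).re)
      = -(k * ∑ p ∈ F, (p.1 * v).re ^ 2 * ew k p t) := by
    rw [Finset.mul_sum, ← Finset.sum_neg_distrib]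
    refine Finset.sum_congr rfl fun p _ => ?_
    ring
  have hCS : (NN F k v t) ^ 2 ≤ (∑ p ∈ F, (p.1 * v).re ^ 2 * ew k p t) * SS F k t := by
    have := Finset.sum_sq_le_sum_mul_sum_of_sq_eq_mul F
      (r := fun p => (p.1 * v).re * ew k p t) (f := fun p => (p.1 * v).re ^ 2 * ew k p t)
      (g := fun p => ew k p t) (fun p _ => mul_nonneg (sq_nonneg _) (ew_pos p t).le)
      (fun p _ => (ew_pos p t).le) (fun p _ => by ring)
    exact this
  rw [e1] at h3
  set q := fderiv ℝ (fun s => fderiv ℝ (LL F k) s v) t v with hqd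
  set A := ∑ p ∈ F, (p.1 * v).re ^ 2 * ew k p t
  set S := SS F k t
  set M := NN F k v t
  have h4 : S ^ 2 * q = -(k * (A * S - M ^ 2)) := by
    have h5 : S * (M / S * -(k * M) + S * q) = S * (-(k * A)) := by rw [h3]
    have h6 : S * (M / S * -(k * M)) = -(k * M ^ 2) := by field_simp
    nlinarith
  have h7 : 0 < S ^ 2 := by positivity
  by_contra hcon
  push_neg at hcon
  have := mul_pos h7 hcon
  nlinarith [mul_nonneg hk.le (sub_nonneg.2 hCS)]

theorem minAff_le_LL (hF : F.Nonempty) (hk : 0 < k) (t : ℂ) : minAff F hF t ≤ LL F k t := by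
  have hc : (0 : ℝ) < F.card := by exact_mod_cast hF.card_pos
  have h1 : SS F k t ≤ F.card * Real.exp (-(k * minAff F hF t)) := by
    unfold SS
    rw [← nsmul_eq_mul]
    refine Finset.sum_le_card_nsmul _ _ _ fun p hp => ?_
    refine Real.exp_le_exp.2 (neg_le_neg (mul_le_mul_of_nonneg_left ?_ hk.le))
    exact Finset.inf'_le (fun p : ℂ × ℝ => (p.1 * t).re + p.2) hp
  have h2 := Real.log_le_log (SS_pos hF t) h1
  rw [Real.log_mul hc.ne' (Real.exp_pos _).ne', Real.log_exp] at h2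
  unfold LL
  have h3 : k⁻¹ * (Real.log (SS F k t) - Real.log F.card) ≤ k⁻¹ * (-(k * minAff F hF t)) :=
    mul_le_mul_of_nonneg_left (by linarith) (inv_nonneg.2 hk.le)
  have h4 : k⁻¹ * (-(k * minAff F hF t)) = -minAff F hF t := by field_simp
  linarith

theorem LL_le_minAff (hF : F.Nonempty) (hk : 0 < k) (t : ℂ) :
    LL F k t ≤ minAff F hF t + k⁻¹ * Real.log F.card := by
  obtain ⟨p, hp, hpe⟩ := Finset.exists_mem_eq_inf' hF (fun p : ℂ × ℝ => (p.1 * t).re + p.2)
  have h1 : Real.exp (-(k * minAff F hF t)) ≤ SS F k t := by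
    unfold minAff
    rw [hpe]
    exact Finset.single_le_sum (f := fun p => ew k p t) (fun q _ => (ew_pos q t).le) hp
  have h2 := Real.log_le_log (Real.exp_pos _) h1
  rw [Real.log_exp] at h2
  unfold LL
  have h3 : k⁻¹ * (-(k * minAff F hF t)) ≤ k⁻¹ * Real.log (SS F k t) :=
    mul_le_mul_of_nonneg_left h2 (inv_nonneg.2 hk.le)
  have h4 : k⁻¹ * (-(k * minAff F hF t)) = -minAff F hF t := by field_simp
  rw [mul_sub]
  linarith

theorem LL_double_le (hF : F.Nonempty) (hk : 0 < k) (t : ℂ) : LL F (2 * k) t ≤ LL F k t := by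
  have hc : (0 : ℝ) < F.card := by exact_mod_cast hF.card_pos
  have h1 : (SS F k t) ^ 2 ≤ F.card * SS F (2 * k) t := by
    have := sq_sum_le_card_mul_sum_sq (s := F) (f := fun p => ew k p t)
    refine this.trans_eq ?_
    unfold SS
    congr 1
    refine Finset.sum_congr rfl fun p _ => ?_
    unfold ew
    rw [sq, ← Real.exp_add]
    congr 1
    ring
  have h2 := Real.log_le_log (pow_pos (SS_pos hF t) 2) h1
  rw [Real.log_mul hc.ne' (SS_pos hF t).ne', Real.log_pow] at h2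
  push_cast at h2
  unfold LL
  have h3 : (2 * k)⁻¹ * (2 * Real.log (SS F k t) - 2 * Real.log F.card)
      ≤ (2 * k)⁻¹ * (Real.log (SS F (2 * k) t) - Real.log F.card) :=
    mul_le_mul_of_nonneg_left (by linarith) (by positivity)
  have h4 : (2 * k)⁻¹ * (2 * Real.log (SS F k t) - 2 * Real.log F.card)
      = k⁻¹ * (Real.log (SS F k t) - Real.log F.card) := by field_simp
  linarith

end SoftMin

open SoftMin in
/-- smooth superharmonic approximation from above of the minimum of finitely many affine functions -/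
theorem softmin (F : Finset (ℂ × ℝ)) (hF : F.Nonempty) {e₀ : ℝ} (he : 0 ≤ e₀)
    (hb : ∀ p ∈ F, ‖p.1‖ ≤ e₀) :
    ∃ L : ℕ → ℂ → ℝ, (∀ n, ContDiff ℝ ∞ (L n)) ∧ (∀ n t, ‖fderiv ℝ (L n) t‖ ≤ e₀) ∧
      (∀ n t v, fderiv ℝ (fun s => fderiv ℝ (L n) s v) t v ≤ 0) ∧
      (∀ n t, fderiv ℝ (fun s => fderiv ℝ (L n) s 1) t 1
        + fderiv ℝ (fun s => fderiv ℝ (L n) s Complex.I) t Complex.I ≤ 0) ∧
      (∀ n t, minAff F hF t ≤ L n t) ∧ (∀ n t, L n t ≤ minAff F hF t + 1 / 2 ^ n) ∧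
      (∀ t, Antitone fun n => L n t) := by
  set K : ℝ := Real.log F.card + 1 with hK
  have hl : 0 ≤ Real.log F.card := Real.log_nonneg (by exact_mod_cast hF.card_pos)
  have hK0 : 0 < K := by linarith
  have hk : ∀ n : ℕ, 0 < 2 ^ n * K := fun n => by positivity
  refine ⟨fun n => LL F (2 ^ n * K), fun n => contDiff_LL hF,
    fun n t => norm_fderiv_LL_le hF (hk n).ne' he hb t,
    fun n t v => fderiv_fderiv_LL_le hF (hk n) t v, fun n t => ?_,
    fun n t => minAff_le_LL hF (hk n) t, fun n t => ?_, fun t => ?_⟩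
  · have h1 := fderiv_fderiv_LL_le hF (hk n) t 1
    have h2 := fderiv_fderiv_LL_le hF (hk n) t Complex.I
    linarith
  · refine (LL_le_minAff hF (hk n) t).trans ?_
    have : (2 ^ n * K)⁻¹ * Real.log F.card ≤ 1 / 2 ^ n := by
      rw [mul_inv, mul_assoc, one_div]
      refine mul_le_of_le_one_right (by positivity) ?_
      rw [inv_mul_le_iff₀ hK0]
      linarith
    linarith
  · refine antitone_nat_of_succ_le fun n => ?_
    have := LL_double_le hF (hk n) t
    have h2 : 2 * (2 ^ n * K) = 2 ^ (n + 1) * K := by ring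
    rwa [h2] at this

end Crest.Agent.R266
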