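import Crest.Agent.R266.Stmts
import Crest.Agent.R266.SoftMin

/-!
R266 / NCount: the slab estimate `St_B` for the (non-smooth) minimum of finitely many affine
functions, and the counting step of the no-contact theorem (helper399).
-/

set_option autoImplicit false

open scoped Manifold ContDiff Topology ENNReal
open Set Metric Filter MeasureTheory

namespace Crest.Agent.R266

theorem continuous_minAff (F : Finset (ℂ × ℝ)) (hF : F.Nonempty) : Continuous (minAff F hF) := by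
  unfold minAff
  exact Continuous.finset_inf'_apply hF fun p _ => by fun_prop

theorem continuous_tau : Continuous tau := by unfold tau; fun_prop
theorem continuous_XX : Continuous XX := by unfold XX; fun_prop
theorem continuous_eta : Continuous eta := by unfold eta; fun_prop

theorem minAff_le (F : Finset (ℂ × ℝ)) (hF : F.Nonempty) {q : ℂ × ℝ} (hq : q ∈ F) (t : ℂ) :
    minAff F hF t ≤ (q.1 * t).re + q.2 :=
  Finset.inf'_le (fun p : ℂ × ℝ => (p.1 * t).re + p.2) hq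

theorem exists_minAff (F : Finset (ℂ × ℝ)) (hF : F.Nonempty) (t : ℂ) :
    ∃ q ∈ F, minAff F hF t = (q.1 * t).re + q.2 :=
  Finset.exists_mem_eq_inf' hF (fun p : ℂ × ℝ => (p.1 * t).re + p.2)

/-- height above the paraboloid plus the minimum of affine functions -/
noncomputable def wmin (C : ℝ) (F : Finset (ℂ × ℝ)) (hF : F.Nonempty) (z : ℂ × ℂ) : ℝ :=
  XX z - par C (tau z) (eta z) - minAff F hF (tau z)

/-- `St_B` for the minimum of finitely many affine functions -/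
def St_Bmin : Prop :=
  ∀ c₀ > 0, ∀ C > 0, ∃ ε₀ > 0, ∀ (χ : ℂ × ℂ → ℝ) (S : Set (ℂ × ℂ)) (M : ℝ), ContDiff ℝ ∞ χ →
    HasCompactSupport χ → (∀ z, 0 ≤ χ z ∧ χ z ≤ 1) →
    (∀ z ∈ tsupport χ, ‖tau z‖ ≤ ε₀ ∧ |eta z| ≤ ε₀ ∧ |XX z| ≤ 1) →
    (∀ z, z ∉ S → ∀ᶠ w in 𝓝 z, χ w = χ z) →
    ∃ C' : ℝ, ∀ (Ω : Set (ℂ × ℂ)) (γ : ℂ × ℂ → ℂ × ℂ → ℂ × ℂ → ℝ) (F : Finset (ℂ × ℝ))
      (hF : F.Nonempty), IsOpen Ω → CForm Ω γ → Slack c₀ Ω γ → (∀ q ∈ F, ‖q.1‖ ≤ ε₀) →
      (∀ t, ‖t‖ ≤ ε₀ → |minAff F hF t| ≤ 1 / 2) →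
      (∀ z ∈ tsupport χ, 0 < wmin C F hF z → z ∈ Ω) →
      (∀ z ∈ S ∩ tsupport χ, 0 < wmin C F hF z →
        γ z (1, 0) (1, 0) + γ z (0, 1) (0, 1) ≤ M) →
      ∀ r : ℝ, 0 < r → r ≤ 1 →
        ∫⁻ z in {z | 0 < wmin C F hF z ∧ wmin C F hF z < r},
          ENNReal.ofReal (χ z * (γ z (1, 0) (1, 0) + γ z (0, 1) (0, 1)))
          ≤ ENNReal.ofReal (C' * r)

theorem slab_min (hB : St_B) : St_Bmin := by
  intro c₀ hc₀ C hC
  obtain ⟨ε₀, hε₀, hB⟩ := hB c₀ hc₀ C hC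
  refine ⟨ε₀, hε₀, fun χ S M hχ hχc hχ1 hχs hS => ?_⟩
  obtain ⟨C', hC'⟩ := hB χ S M hχ hχc hχ1 hχs hS
  refine ⟨C', fun Ω γ F hF hΩ hγ hsl hb hmin hdom hM r hr hr1 => ?_⟩
  obtain ⟨L, hLs, hLd, -, hLL, hL1, hL2, hL3⟩ := softmin F hF hε₀.le hb
  have hle : ∀ n z, XX z - par C (tau z) (eta z) - L n (tau z) ≤ wmin C F hF z := by
    intro n z
    have := hL1 n (tau z)
    unfold wmin
    linarith
  set B : ℕ → Set (ℂ × ℂ) := fun n =>
    {z | 0 < XX z - par C (tau z) (eta z) - L (n + 1) (tau z) ∧ wmin C F hF z < r} with hBdef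
  have hBmono : Monotone B := by
    intro i j hij z hz
    refine ⟨lt_of_lt_of_le hz.1 ?_, hz.2⟩
    have := hL3 (tau z) (Nat.succ_le_succ hij)
    simp only [Nat.succ_eq_add_one] at this
    linarith
  have hU : {z | 0 < wmin C F hF z ∧ wmin C F hF z < r} ⊆ ⋃ n, B n := by
    intro z hz
    obtain ⟨n, hn⟩ := exists_pow_lt_of_lt_one hz.1 (by norm_num : (1 / 2 : ℝ) < 1)
    refine mem_iUnion.2 ⟨n, ?_, hz.2⟩
    have h1 := hL2 (n + 1) (tau z)
    have h2 : (1 : ℝ) / 2 ^ (n + 1) ≤ (1 / 2) ^ n := by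
      rw [one_div_pow]
      exact one_div_le_one_div_of_le (by positivity) (pow_le_pow_right₀ (by norm_num) (by omega))
    have h3 : wmin C F hF z = XX z - par C (tau z) (eta z) - minAff F hF (tau z) := rfl
    linarith [hz.1]
  refine (lintegral_mono_set hU).trans ?_
  rw [setLIntegral_iUnion_of_directed _ hBmono.directed_le]
  refine iSup_le fun n => ?_
  have hsub : B n ⊆ {z | 0 < XX z - par C (tau z) (eta z) - L (n + 1) (tau z) ∧
      XX z - par C (tau z) (eta z) - L (n + 1) (tau z) < r} := fun z hz =>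
    ⟨hz.1, lt_of_le_of_lt (hle _ z) hz.2⟩
  refine (lintegral_mono_set hsub).trans ?_
  refine hC' Ω γ (L (n + 1)) hΩ hγ hsl (hLs _) (hLd _) (fun t ht => ?_) (hLL _)
    (fun z hz h0 => hdom z hz (lt_of_lt_of_le h0 (hle _ z)))
    (fun z hz h0 => hM z hz (lt_of_lt_of_le h0 (hle _ z))) r hr hr1
  have h1 := hL1 (n + 1) t
  have h2 := hL2 (n + 1) t
  have h3 := abs_le.1 (hmin t ht)
  have h4 : (1 : ℝ) / 2 ^ (n + 1) ≤ 1 / 2 := by
    refine one_div_le_one_div_of_le (by norm_num) ?_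
    calc (2 : ℝ) = 2 ^ 1 := (pow_one _).symm
      _ ≤ 2 ^ (n + 1) := pow_le_pow_right₀ (by norm_num) (by omega)
  rw [abs_le]
  constructor <;> linarith

namespace NCnt

theorem norm_tau_sub_le (z w : ℂ × ℂ) : ‖tau z - tau w‖ ≤ 2 * dist z w := by
  have h : tau z - tau w = (z.1 - w.1) - (z.2 - w.2) := by unfold tau; ring
  rw [h, dist_eq_norm]
  refine (norm_sub_le _ _).trans ?_
  have h1 : ‖z.1 - w.1‖ ≤ ‖z - w‖ := norm_fst_le (z - w)
  have h2 : ‖z.2 - w.2‖ ≤ ‖z - w‖ := norm_snd_le (z - w)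
  linarith

theorem norm_ZZ_sub_le (z w : ℂ × ℂ) : ‖(z.1 + z.2) - (w.1 + w.2)‖ ≤ 2 * dist z w := by
  have h : (z.1 + z.2) - (w.1 + w.2) = (z.1 - w.1) + (z.2 - w.2) := by ring
  rw [h, dist_eq_norm]
  refine (norm_add_le _ _).trans ?_
  have h1 : ‖z.1 - w.1‖ ≤ ‖z - w‖ := norm_fst_le (z - w)
  have h2 : ‖z.2 - w.2‖ ≤ ‖z - w‖ := norm_snd_le (z - w)
  linarith

theorem abs_XX_sub_le (z w : ℂ × ℂ) : |XX z - XX w| ≤ 2 * dist z w := by
  unfold XX
  rw [← Complex.sub_re]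
  exact (Complex.abs_re_le_norm _).trans (norm_ZZ_sub_le z w)

theorem abs_eta_sub_le (z w : ℂ × ℂ) : |eta z - eta w| ≤ 2 * dist z w := by
  unfold eta
  rw [← Complex.sub_im]
  exact (Complex.abs_im_le_norm _).trans (norm_ZZ_sub_le z w)

end NCnt

open NCnt

/-- upper bound for `wmin` near a contact point -/
theorem wmin_lt {C : ℝ} (hC : 0 ≤ C) (F : Finset (ℂ × ℝ)) (hF : F.Nonempty) (hb : ∀ q ∈ F, ‖q.1‖ ≤ 1)
    {b : ℂ} {s : ℝ} {p z : ℂ × ℂ} (h0 : w_ C b s p = 0)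
    (hmin : ∀ q ∈ F, (b * tau p).re + s ≤ (q.1 * tau p).re + q.2)
    (hp1 : ‖tau p‖ ≤ 1 / 2) (hp2 : |eta p| ≤ 1 / 2) {r : ℝ} (hr : r ≤ 1 / 4) (hz : dist z p < r) :
    wmin C F hF z < (4 + 6 * C) * r := by
  have h1 := abs_le.1 (abs_XX_sub_le z p)
  have h2 := norm_tau_sub_le z p
  have h3 := abs_eta_sub_le z p
  obtain ⟨q, hq, hqe⟩ := exists_minAff F hF (tau z)
  have h4 : (b * tau p).re + s - 2 * dist z p ≤ minAff F hF (tau z) := by
    rw [hqe]
    have h5 := hmin q hq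
    have h6 : |(q.1 * (tau z - tau p)).re| ≤ 2 * dist z p := by
      refine (Complex.abs_re_le_norm _).trans ?_
      rw [norm_mul]
      calc ‖q.1‖ * ‖tau z - tau p‖ ≤ 1 * ‖tau z - tau p‖ :=
            mul_le_mul_of_nonneg_right (hb q hq) (norm_nonneg _)
        _ ≤ 2 * dist z p := by rw [one_mul]; exact h2
    have h7 : (q.1 * tau z).re = (q.1 * tau p).re + (q.1 * (tau z - tau p)).re := by
      rw [← Complex.add_re]; congr 1; ring
    have h8 := (abs_le.1 h6).1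
    linarith
  have hd : 0 ≤ dist z p := dist_nonneg
  have h9 : ‖tau p‖ ^ 2 - ‖tau z‖ ^ 2 ≤ 3 * dist z p := by
    have h10 : ‖tau p‖ ≤ ‖tau z‖ + 2 * dist z p := by
      have := norm_sub_norm_le (tau p) (tau z)
      rw [norm_sub_rev] at this
      linarith
    rcases le_total ‖tau p‖ (2 * dist z p) with hle | hle
    · nlinarith [norm_nonneg (tau p), norm_nonneg (tau z)]
    · nlinarith [norm_nonneg (tau p), norm_nonneg (tau z)]
  have h11 : (eta p) ^ 2 - (eta z) ^ 2 ≤ 3 * dist z p := by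
    have h12 : |eta p| ≤ |eta z| + 2 * dist z p := by
      have := abs_sub_abs_le_abs_sub (eta p) (eta z)
      rw [abs_sub_comm] at this
      linarith
    rw [← sq_abs (eta p), ← sq_abs (eta z)]
    rcases le_total |eta p| (2 * dist z p) with hle | hle
    · nlinarith [abs_nonneg (eta p), abs_nonneg (eta z)]
    · nlinarith [abs_nonneg (eta p), abs_nonneg (eta z)]
  unfold wmin
  unfold w_ at h0
  unfold par at *
  have h13 : C * (‖tau p‖ ^ 2 + eta p ^ 2) - C * (‖tau z‖ ^ 2 + eta z ^ 2) ≤ 6 * C * dist z p := by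
    nlinarith
  have h14 : XX z - C * (‖tau z‖ ^ 2 + eta z ^ 2) - minAff F hF (tau z)
      ≤ (4 + 6 * C) * dist z p := by nlinarith
  have h15 : (4 + 6 * C) * dist z p < (4 + 6 * C) * r := mul_lt_mul_of_pos_left hz (by linarith)
  linarith

/-- the counting step: contact points for all small slopes, separated at scale `κ`, each carrying
mass `≥ c₁ r²` in half balls, contradict the linear slab estimate. -/
theorem counting {C κ η₀ c₁ r₁ C' : ℝ} (hC : 0 ≤ C) (hκ : 0 < κ) (hη₀ : 0 < η₀) (hη₁ : η₀ ≤ 1)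
    (hc₁ : 0 < c₁) (hr₁ : 0 < r₁) (f : ℂ × ℂ → ℝ≥0∞) (s : ℂ → ℝ) (p : ℂ → ℂ × ℂ)
    (h0 : ∀ b, ‖b‖ ≤ η₀ → w_ C b (s b) (p b) = 0)
    (hmin : ∀ b b', ‖b‖ ≤ η₀ → ‖b'‖ ≤ η₀ →
      (b * tau (p b)).re + s b ≤ (b' * tau (p b)).re + s b')
    (hsep : ∀ b b', ‖b‖ ≤ η₀ → ‖b'‖ ≤ η₀ → κ * ‖b - b'‖ ≤ ‖tau (p b) - tau (p b')‖)
    (htau : ∀ b, ‖b‖ ≤ η₀ → ‖tau (p b)‖ ≤ 1 / 2) (heta : ∀ b, ‖b‖ ≤ η₀ → |eta (p b)| ≤ 1 / 2)
    (hmass : ∀ b, ‖b‖ ≤ η₀ → ∀ r, 0 < r → r ≤ r₁ → ENNReal.ofReal (c₁ * r ^ 2) ≤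
      ∫⁻ z in ball (p b) r ∩ {z | 0 < w_ C b (s b) z}, f z)
    (hslab : ∀ (F : Finset (ℂ × ℝ)) (hF : F.Nonempty), (∀ q ∈ F, ‖q.1‖ ≤ η₀ ∧ q.2 = s q.1) →
      ∀ ρ, 0 < ρ → ρ ≤ 1 → ∫⁻ z in {z | 0 < wmin C F hF z ∧ wmin C F hF z < ρ}, f z
        ≤ ENNReal.ofReal (C' * ρ)) : False := by
  classical
  set C2 : ℝ := 4 + 6 * C with hC2
  have hC2p : 0 < C2 := by positivity
  -- choice of `n`
  obtain ⟨n, hn⟩ := exists_nat_gt (max (8 * |C'| * C2 / (c₁ * κ * η₀)) (max (κ * η₀ / (8 * r₁))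
    (max (κ * η₀ * C2 / 8) (κ * η₀ / 2))))
  rw [max_lt_iff, max_lt_iff, max_lt_iff] at hn
  obtain ⟨hn1, hn2, hn3, hn4⟩ := hn
  have hn0 : (0 : ℝ) < n := lt_of_le_of_lt (by positivity) hn4
  have hnn : 0 < n := by exact_mod_cast hn0
  set e : ℝ := η₀ / (2 * n) with he
  have he0 : 0 < e := by positivity
  set r : ℝ := κ * e / 4 with hr
  have hr0 : 0 < r := by positivity
  have hrn : r = κ * η₀ / (8 * n) := by rw [hr, he]; field_simp; ring
  have hrr₁ : r ≤ r₁ := by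
    rw [hrn, div_le_iff₀ (by positivity)]
    rw [div_lt_iff₀ (by positivity)] at hn2
    nlinarith
  have hr4 : r ≤ 1 / 4 := by
    rw [hrn, div_le_iff₀ (by positivity)]
    linarith
  have hC2r : C2 * r ≤ 1 := by
    rw [hrn, mul_div_assoc', div_le_iff₀ (by positivity)]
    rw [div_lt_iff₀ (by norm_num)] at hn3
    nlinarith
  -- the grid
  set g : ℕ × ℕ → ℂ := fun q => (e : ℂ) * ((q.1 : ℂ) + (q.2 : ℂ) * Complex.I) with hg
  set Q : Finset (ℕ × ℕ) := Finset.range n ×ˢ Finset.range n with hQ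
  have hgn : ∀ q ∈ Q, ‖g q‖ ≤ η₀ := by
    intro q hq
    rw [hQ, Finset.mem_product, Finset.mem_range, Finset.mem_range] at hq
    have h1 : ((q.1 : ℕ) : ℝ) ≤ n := by exact_mod_cast hq.1.le
    have h2 : ((q.2 : ℕ) : ℝ) ≤ n := by exact_mod_cast hq.2.le
    rw [hg]
    simp only [norm_mul, Complex.norm_real, Real.norm_eq_abs, abs_of_pos he0]
    have h3 : ‖(q.1 : ℂ) + (q.2 : ℂ) * Complex.I‖ ≤ n + n := by
      refine (norm_add_le _ _).trans ?_
      rw [norm_mul, Complex.norm_I, mul_one, Complex.norm_natCast, Complex.norm_natCast]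
      exact add_le_add h1 h2
    calc e * ‖(q.1 : ℂ) + (q.2 : ℂ) * Complex.I‖ ≤ e * (n + n) :=
          mul_le_mul_of_nonneg_left h3 he0.le
      _ = η₀ := by rw [he]; field_simp; ring
  have hgd : ∀ q q' : ℕ × ℕ, q ≠ q' → e ≤ ‖g q - g q'‖ := by
    intro q q' hne
    have h1 : g q - g q' = (e : ℂ) * ((((q.1 : ℤ) - (q'.1 : ℤ) : ℤ) : ℂ)
        + (((q.2 : ℤ) - (q'.2 : ℤ) : ℤ) : ℂ) * Complex.I) := by
      rw [hg]; push_cast; ring
    rw [h1, norm_mul, Complex.norm_real, Real.norm_eq_abs, abs_of_pos he0]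
    refine le_mul_of_one_le_right he0.le ?_
    set A : ℤ := (q.1 : ℤ) - (q'.1 : ℤ)
    set D : ℤ := (q.2 : ℤ) - (q'.2 : ℤ)
    have hAD : A ≠ 0 ∨ D ≠ 0 := by
      by_contra hcon
      push Not at hcon
      apply hne
      ext
      · have := hcon.1; omega
      · have := hcon.2; omega
    rcases hAD with hA | hD
    · have h2 : |((A : ℂ) + (D : ℂ) * Complex.I).re| ≤ ‖(A : ℂ) + (D : ℂ) * Complex.I‖ :=
        Complex.abs_re_le_norm _
      refine le_trans ?_ h2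
      simp only [Complex.add_re, Complex.intCast_re, Complex.mul_re, Complex.I_re, mul_zero,
        Complex.intCast_im, Complex.I_im, mul_one, sub_self, add_zero]
      exact_mod_cast Int.one_le_abs hA
    · have h2 : |((A : ℂ) + (D : ℂ) * Complex.I).im| ≤ ‖(A : ℂ) + (D : ℂ) * Complex.I‖ :=
        Complex.abs_im_le_norm _
      refine le_trans ?_ h2
      simp only [Complex.add_im, Complex.intCast_re, Complex.mul_im, Complex.I_re, mul_zero,
        Complex.intCast_im, Complex.I_im, mul_one, add_zero, zero_add]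
      exact_mod_cast Int.one_le_abs hD
  set F : Finset (ℂ × ℝ) := Q.image fun q => (g q, s (g q)) with hFd
  have hQne : Q.Nonempty := ⟨(0, 0), by
    rw [hQ, Finset.mem_product, Finset.mem_range]; exact ⟨hnn, by simpa using hnn⟩⟩
  have hF : F.Nonempty := hQne.image _
  have hFs : ∀ q ∈ F, ‖q.1‖ ≤ η₀ ∧ q.2 = s q.1 := by
    intro q hq
    rw [hFd, Finset.mem_image] at hq
    obtain ⟨q', hq', rfl⟩ := hq
    exact ⟨hgn q' hq', rfl⟩
  have hslabF := hslab F hF hFs (C2 * r) (by positivity) hC2r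
  -- the half balls
  set T : ℕ × ℕ → Set (ℂ × ℂ) := fun q =>
    ball (p (g q)) r ∩ {z | 0 < w_ C (g q) (s (g q)) z} with hT
  have hw_cont : ∀ (b : ℂ) (s' : ℝ), Continuous fun z => w_ C b s' z := by
    intro b s'
    unfold w_ par XX eta tau
    fun_prop
  have hTm : ∀ q ∈ Q, MeasurableSet (T q) := fun q _ =>
    measurableSet_ball.inter (isOpen_lt continuous_const (hw_cont _ _)).measurableSet
  have hTd : Set.PairwiseDisjoint (↑Q : Set (ℕ × ℕ)) T := by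
    intro q hq q' hq' hne
    rw [Function.onFun, Set.disjoint_left]
    intro z hz hz'
    have h1 := hsep (g q) (g q') (hgn q hq) (hgn q' hq')
    have h2 := hgd q q' hne
    have h3 := norm_tau_sub_le (p (g q)) z
    have h4 := norm_tau_sub_le z (p (g q'))
    have h5 : ‖tau (p (g q)) - tau (p (g q'))‖ ≤ ‖tau (p (g q)) - tau z‖ + ‖tau z - tau (p (g q'))‖ :=
      norm_sub_le_norm_sub_add_norm_sub _ _ _
    have h6 : dist (p (g q)) z < r := by rw [dist_comm]; exact hz.1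
    have h7 : dist z (p (g q')) < r := hz'.1
    have h8 : κ * e ≤ κ * ‖g q - g q'‖ := mul_le_mul_of_nonneg_left h2 hκ.le
    have h9 : κ * e = 4 * r := by rw [hr]; ring
    linarith
  have hTsub : (⋃ q ∈ Q, T q) ⊆ {z | 0 < wmin C F hF z ∧ wmin C F hF z < C2 * r} := by
    intro z hz
    rw [mem_iUnion₂] at hz
    obtain ⟨q, hq, hz⟩ := hz
    have hqF : (g q, s (g q)) ∈ F := Finset.mem_image_of_mem _ hq
    constructor
    · have h1 := minAff_le F hF hqF (tau z)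
      have h2 : 0 < w_ C (g q) (s (g q)) z := hz.2
      simp only at h1
      unfold w_ at h2
      unfold wmin
      linarith
    · refine wmin_lt hC F hF (fun q' hq' => (hFs q' hq').1.trans hη₁) (h0 (g q) (hgn q hq))
        (fun q' hq' => ?_) (htau _ (hgn q hq)) (heta _ (hgn q hq)) hr4 hz.1
      have := hFs q' hq'
      rw [this.2]
      exact hmin (g q) q'.1 (hgn q hq) this.1
  have hsum : (∑ _q ∈ Q, ENNReal.ofReal (c₁ * r ^ 2)) ≤ ENNReal.ofReal (C' * (C2 * r)) := by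
    calc (∑ _q ∈ Q, ENNReal.ofReal (c₁ * r ^ 2)) ≤ ∑ q ∈ Q, ∫⁻ z in T q, f z :=
          Finset.sum_le_sum fun q hq => hmass (g q) (hgn q hq) r hr0 hrr₁
      _ = ∫⁻ z in ⋃ q ∈ Q, T q, f z := (lintegral_biUnion_finset hTd hTm f).symm
      _ ≤ ∫⁻ z in {z | 0 < wmin C F hF z ∧ wmin C F hF z < C2 * r}, f z :=
          lintegral_mono_set hTsub
      _ ≤ _ := hslabF
  rw [Finset.sum_const, hQ, Finset.card_product, Finset.card_range, nsmul_eq_mul,
    ← ENNReal.ofReal_natCast, ← ENNReal.ofReal_mul (by positivity)] at hsum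
  have hpos : 0 < ((n * n : ℕ) : ℝ) * (c₁ * r ^ 2) := by positivity
  rcases ENNReal.ofReal_le_ofReal_iff'.1 hsum with h | h
  · push_cast at h
    have h1 : C' * (C2 * r) ≤ |C'| * (C2 * r) :=
      mul_le_mul_of_nonneg_right (le_abs_self _) (by positivity)
    have h2 : (n : ℝ) * n * (c₁ * r ^ 2) ≤ |C'| * (C2 * r) := h.trans h1
    have h3 : (n : ℝ) * n * c₁ * r ≤ |C'| * C2 := by
      refine le_of_mul_le_mul_right ?_ hr0
      linarith
    rw [div_lt_iff₀ (by positivity)] at hn1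
    have h4 : (n : ℝ) * n * c₁ * r = n * (c₁ * κ * η₀) / 8 := by rw [hrn]; field_simp
    rw [h4] at h3
    linarith
  · linarith

end Crest.Agent.R266
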