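import Crest.Agent.R266.Stmts

/-!
R266 / Sep: separation of the contact points of the paraboloids
`P_b = par C + Re (b τ) + σ` sliding from above onto the graph of `m` (consequence of the disc
lemma `St_D`).
-/

set_option autoImplicit false

open scoped Manifold ContDiff Topology ENNReal
open Set Metric Filter MeasureTheory

namespace Crest.Agent.R266

/-- value of the paraboloid at a displaced point -/
theorem sep_par_expand (C : ℝ) (t ζ b : ℂ) (e y σ : ℝ) :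
    par C (t + ζ) (e + y) + (b * (t + ζ)).re + σ
      = (par C t e + (b * t).re + σ) + (2 * C * ((starRingEnd ℂ) t * ζ).re + C * ‖ζ‖ ^ 2)
        + (2 * C * e * y + C * y ^ 2) + (b * ζ).re := by
  simp only [par]
  rw [← Complex.normSq_eq_norm_sq, ← Complex.normSq_eq_norm_sq, ← Complex.normSq_eq_norm_sq]
  simp only [Complex.normSq_apply, Complex.add_re, Complex.add_im, Complex.mul_re, Complex.conj_re,
    Complex.conj_im]
  ring

/-- the key algebraic identity: the excess of the paraboloid over the disc. -/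
theorem sep_identity (C : ℝ) (t ζ b β q a : ℂ) (e : ℝ)
    (ha : a * (1 + 2 * C * e * Complex.I) = 2 * C * (starRingEnd ℂ) t + b + β / 2) :
    (2 * C * ((starRingEnd ℂ) t * ζ).re + C * ‖ζ‖ ^ 2)
        + (2 * C * e * (a * ζ - q * ζ ^ 2).im + C * (a * ζ - q * ζ ^ 2).im ^ 2) + (b * ζ).re
        - (a * ζ - q * ζ ^ 2).re
      = - (β * ζ).re / 2 + (C * ‖ζ‖ ^ 2 + C * (a * ζ - q * ζ ^ 2).im ^ 2
          - 2 * C * e * (q * ζ ^ 2).im) + (q * ζ ^ 2).re := by
  have h1 : (a * ζ).re - 2 * C * e * (a * ζ).im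
      = ((2 * C * (starRingEnd ℂ) t + b + β / 2) * ζ).re := by
    rw [← ha]
    simp only [Complex.mul_re, Complex.add_re, Complex.add_im, Complex.mul_im, Complex.one_re,
      Complex.one_im, Complex.I_re, Complex.I_im, Complex.ofReal_re, Complex.ofReal_im]
    simp
    ring
  have h2 : ((2 * C * (starRingEnd ℂ) t + b + β / 2) * ζ).re
      = 2 * C * ((starRingEnd ℂ) t * ζ).re + (b * ζ).re + (β * ζ).re / 2 := by
    simp only [Complex.mul_re, Complex.add_re, Complex.add_im, Complex.mul_im,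
      Complex.ofReal_re, Complex.ofReal_im, Complex.conj_re, Complex.conj_im]
    simp
    ring
  rw [h2] at h1
  rw [Complex.sub_re, Complex.sub_im]
  linarith

/-- real part of the quadratic term -/
theorem sep_quad (k : ℝ) (β ζ : ℂ) (hβ : β ≠ 0) :
    (((k : ℂ) * β ^ 2 / (‖β‖ : ℂ) ^ 2) * ζ ^ 2).re
      = k * (2 * (β * ζ).re ^ 2 / ‖β‖ ^ 2 - ‖ζ‖ ^ 2) := by
  have hn : (‖β‖ : ℝ) ≠ 0 := norm_ne_zero_iff.2 hβ
  have h1 : ((k : ℂ) * β ^ 2 / (‖β‖ : ℂ) ^ 2) * ζ ^ 2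
      = ((k / ‖β‖ ^ 2 : ℝ) : ℂ) * (β * ζ) ^ 2 := by
    push_cast
    ring
  have h2 : ((β * ζ) ^ 2).re = 2 * (β * ζ).re ^ 2 - (‖β‖ * ‖ζ‖) ^ 2 := by
    rw [← norm_mul, ← Complex.normSq_eq_norm_sq, Complex.normSq_apply, sq, Complex.mul_re]
    ring
  rw [h1, Complex.re_ofReal_mul, h2]
  field_simp

theorem sep_norm_q (k : ℝ) (hk : 0 ≤ k) (β : ℂ) (hβ : β ≠ 0) :
    ‖(k : ℂ) * β ^ 2 / (‖β‖ : ℂ) ^ 2‖ = k := by
  have hn : (‖β‖ : ℝ) ≠ 0 := norm_ne_zero_iff.2 hβ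
  rw [norm_div, norm_mul, norm_pow, norm_pow, Complex.norm_real, Complex.norm_real, norm_norm,
    Real.norm_eq_abs, abs_of_nonneg hk]
  field_simp

section
variable {n₁ n₂ : ℕ} {X : Type} [TopologicalSpace X]

set_option maxHeartbeats 2000000 in
/-- SEPARATION of contact points. -/
theorem separation {A : PFol n₁ n₂ X} {K : KMet A} (hD : St_D K) (ε ρ C : ℝ) (hρ : 0 < ρ)
    (hρε : ρ ≤ ε) (hC : 0 < C) :
    ∃ b₀ > 0, ∃ κ > 0, ∀ (m : ℂ → ℝ → ℝ) (G : ℂ × ℂ → X), Maxi A ε m G →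
      ∀ (b b' : ℂ) (σ σ' : ℝ) (t t' : ℂ) (e e' : ℝ), ‖b‖ ≤ b₀ → ‖b'‖ ≤ b₀ → ‖t‖ ≤ b₀ → |e| ≤ b₀ →
      |σ| ≤ b₀ → ‖t'‖ < ρ → |e'| < ρ →
      (∀ τ y, ‖τ‖ < ρ → |y| < ρ → m τ y ≤ par C τ y + (b * τ).re + σ) →
      (∀ τ y, ‖τ‖ < ρ → |y| < ρ → m τ y ≤ par C τ y + (b' * τ).re + σ') →
      m t e = par C t e + (b * t).re + σ →
      m t' e' = par C t' e' + (b' * t').re + σ' →
      κ * ‖b - b'‖ ≤ ‖t - t'‖ := by
  set k : ℝ := 2 * C + 1 with hk
  have hk0 : 0 < k := by positivity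
  set k' : ℝ := 1 / (8 * k) with hk'
  have hk'0 : 0 < k' := by positivity
  have hkk' : k * k' = 1 / 8 := by rw [hk']; field_simp
  have hk1 : 1 ≤ k := by rw [hk]; linarith
  have hk'1 : k' ≤ 1 / 8 := by
    have h1 : 1 * k' ≤ k * k' := by gcongr
    linarith
  have hCk' : C * k' ≤ 1 / 16 := by
    have h1 : (2 * C + 1) * k' = 1 / 8 := hkk'
    have h2 : (2 * C + 1) * k' = 2 * (C * k') + k' := by ring
    linarith
  set r₀ : ℝ := min 1 ρ with hr₀
  have hr₀0 : 0 < r₀ := lt_min one_pos hρ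
  have hr₀1 : r₀ ≤ 1 := min_le_left _ _
  have hr₀ρ : r₀ ≤ ρ := min_le_right _ _
  set b₀ : ℝ := r₀ / (8 * (C + 2)) with hb₀
  have hb₀0 : 0 < b₀ := by positivity
  have hb₀r : b₀ * (8 * (C + 2)) = r₀ := by rw [hb₀]; field_simp
  have hCb₀ : 0 < C * b₀ := by positivity
  have hb₀1 : 8 * (C * b₀) + 16 * b₀ ≤ 1 := by linarith
  have hb₀ρ : 8 * (C * b₀) + 16 * b₀ ≤ ρ := by linarith
  refine ⟨b₀, hb₀0, k' / 128, by positivity, ?_⟩
  intro m G hM b b' σ σ' t t' e e' hb hb' ht he hσ ht' he' hP hP' hc hc'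
  by_contra hlt
  push Not at hlt
  set β : ℂ := b' - b with hβdef
  have hβn : ‖b - b'‖ = ‖β‖ := by rw [hβdef, norm_sub_rev]
  rw [hβn] at hlt
  have hβ0 : 0 < ‖β‖ := by
    have h1 : 0 ≤ ‖t - t'‖ := norm_nonneg _
    by_contra hcon
    have h2 : ‖β‖ = 0 := le_antisymm (not_lt.1 hcon) (norm_nonneg _)
    rw [h2, mul_zero] at hlt
    linarith
  have hβne : β ≠ 0 := norm_pos_iff.1 hβ0
  have hβ2 : ‖β‖ ≤ 2 * b₀ := by
    calc ‖β‖ ≤ ‖b'‖ + ‖b‖ := norm_sub_le _ _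
      _ ≤ 2 * b₀ := by linarith
  have hP1ρ : ‖t‖ < ρ := by linarith
  have he1ρ : |e| < ρ := by linarith
  -- the number D
  set D : ℝ := (β * t).re + σ' - σ with hDdef
  have hD0 : 0 ≤ D := by
    have h1 := hP' t e hP1ρ he1ρ
    rw [hc] at h1
    have h2 : (β * t).re = (b' * t).re - (b * t).re := by rw [hβdef, sub_mul, Complex.sub_re]
    rw [hDdef, h2]
    linarith
  have hD1 : D ≤ k' / 128 * ‖β‖ ^ 2 := by
    have h1 := hP t' e' ht' he'
    rw [hc'] at h1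
    have h2 : (β * t').re = (b' * t').re - (b * t').re := by rw [hβdef, sub_mul, Complex.sub_re]
    have h3 : D ≤ (β * (t - t')).re := by
      rw [mul_sub, Complex.sub_re, hDdef, h2]
      linarith
    have h4 : (β * (t - t')).re ≤ ‖β‖ * ‖t - t'‖ := by
      rw [← norm_mul]; exact Complex.re_le_norm _
    have h5 : ‖β‖ * ‖t - t'‖ ≤ ‖β‖ * (k' / 128 * ‖β‖) := by gcongr
    calc D ≤ _ := h3
      _ ≤ _ := h4
      _ ≤ _ := h5
      _ = _ := by ring
  -- the disc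
  set R : ℝ := k' * ‖β‖ with hR
  have hR0 : 0 < R := by positivity
  have hRb : R ≤ b₀ / 4 := by
    have h1 : k' * ‖β‖ ≤ 1 / 8 * (2 * b₀) := by gcongr
    rw [hR]; linarith
  set δ : ℝ := k' / 128 * ‖β‖ ^ 2 with hδ
  have hδ0 : 0 < δ := by positivity
  have hβsq : ‖β‖ ^ 2 ≤ 4 * b₀ ^ 2 := by
    have h1 : ‖β‖ ^ 2 ≤ (2 * b₀) ^ 2 := by gcongr
    linarith
  have hb₀16 : b₀ ≤ 1 / 16 := by linarith
  have hb₀sq : b₀ ^ 2 ≤ b₀ / 16 := by
    have h1 : b₀ * b₀ ≤ b₀ * (1 / 16) := by gcongr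
    linarith
  have hδb : δ ≤ b₀ / 256 := by
    rw [hδ]
    have h1 : k' / 128 * ‖β‖ ^ 2 ≤ (1 / 8) / 128 * (4 * b₀ ^ 2) := by
      apply mul_le_mul _ hβsq (by positivity) (by positivity)
      linarith
    linarith
  set P : ℝ := par C t e + (b * t).re + σ with hPdef
  set q : ℂ := (k : ℂ) * β ^ 2 / (‖β‖ : ℂ) ^ 2 with hq
  have hqn : ‖q‖ = k := sep_norm_q k hk0.le β hβne
  have hden : (1 + 2 * C * e * Complex.I : ℂ) ≠ 0 := by
    intro h0
    have := congrArg Complex.re h0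
    simp at this
  have hden1 : 1 ≤ ‖(1 + 2 * C * e * Complex.I : ℂ)‖ := by
    have h1 : (1 + 2 * C * e * Complex.I : ℂ).re = 1 := by simp
    calc (1 : ℝ) = (1 + 2 * C * e * Complex.I : ℂ).re := h1.symm
      _ ≤ _ := Complex.re_le_norm _
  set a : ℂ := (2 * C * (starRingEnd ℂ) t + b + β / 2) / (1 + 2 * C * e * Complex.I) with ha
  have haeq : a * (1 + 2 * C * e * Complex.I) = 2 * C * (starRingEnd ℂ) t + b + β / 2 := by
    rw [ha]; field_simp
  have han : ‖a‖ ≤ (2 * C + 2) * b₀ := by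
    rw [ha, norm_div]
    rw [div_le_iff₀ (by linarith)]
    have h1 : ‖2 * C * (starRingEnd ℂ) t + b + β / 2‖ ≤ (2 * C + 2) * b₀ := by
      calc ‖2 * C * (starRingEnd ℂ) t + b + β / 2‖
          ≤ ‖2 * C * (starRingEnd ℂ) t‖ + ‖b‖ + ‖β / 2‖ := norm_add₃_le
        _ ≤ 2 * C * b₀ + b₀ + b₀ := by
            have e1 : ‖(2 * C * (starRingEnd ℂ) t : ℂ)‖ = 2 * C * ‖t‖ := by
              rw [norm_mul, norm_mul, Complex.norm_real, Real.norm_eq_abs, abs_of_pos hC]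
              simp
            have e2 : ‖β / 2‖ = ‖β‖ / 2 := by rw [norm_div]; simp
            rw [e1, e2]
            have : 2 * C * ‖t‖ ≤ 2 * C * b₀ := by gcongr
            linarith
        _ = (2 * C + 2) * b₀ := by ring
    have h2 : 0 ≤ (2 * C + 2) * b₀ := by positivity
    calc _ ≤ _ := h1
      _ = (2 * C + 2) * b₀ * 1 := by ring
      _ ≤ _ := by gcongr
  set H : ℂ → ℂ := fun T => (P : ℂ) + e * Complex.I - δ + (a * (T - t) - q * (T - t) ^ 2) with hH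
  have hHre : ∀ T, (H T).re = P - δ + (a * (T - t) - q * (T - t) ^ 2).re := by
    intro T; simp [hH]
  have hHim : ∀ T, (H T).im = e + (a * (T - t) - q * (T - t) ^ 2).im := by
    intro T; simp [hH]
  -- estimate of h
  have hh : ∀ ζ : ℂ, ‖ζ‖ ≤ R → ‖a * ζ - q * ζ ^ 2‖ ≤ R * (1 / 4) := by
    intro ζ hζ
    calc ‖a * ζ - q * ζ ^ 2‖ ≤ ‖a * ζ‖ + ‖q * ζ ^ 2‖ := norm_sub_le _ _
      _ = ‖a‖ * ‖ζ‖ + k * ‖ζ‖ ^ 2 := by rw [norm_mul, norm_mul, norm_pow, hqn]
      _ ≤ (2 * C + 2) * b₀ * R + k * R ^ 2 := by gcongr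
      _ = R * ((2 * C + 2) * b₀ + k * R) := by ring
      _ ≤ R * (1 / 4) := by
          apply mul_le_mul_of_nonneg_left _ hR0.le
          have : k * R = ‖β‖ / 8 := by rw [hR, ← mul_assoc, hkk']; ring
          rw [this]
          linarith
  -- the excess
  have hexc : ∀ T, par C T (H T).im + (b * T).re + σ - (H T).re
      = δ - (β * (T - t)).re / 2 + (C * ‖T - t‖ ^ 2 + C * (a * (T - t) - q * (T - t) ^ 2).im ^ 2
          - 2 * C * e * (q * (T - t) ^ 2).im) + (q * (T - t) ^ 2).re := by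
    intro T
    have h1 := sep_par_expand C t (T - t) b e (a * (T - t) - q * (T - t) ^ 2).im σ
    rw [show t + (T - t) = T by ring] at h1
    have h2 := sep_identity C t (T - t) b β q a e haeq
    rw [hHim, hHre, h1]
    rw [← hPdef]
    linarith
  have hexc' : ∀ T, par C T (H T).im + (b' * T).re + σ' - (H T).re
      = δ + D + (β * (T - t)).re / 2
        + (C * ‖T - t‖ ^ 2 + C * (a * (T - t) - q * (T - t) ^ 2).im ^ 2
          - 2 * C * e * (q * (T - t) ^ 2).im) + (q * (T - t) ^ 2).re := by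
    intro T
    have h1 := hexc T
    have h2 : (b' * T).re = (b * T).re + (β * t).re + (β * (T - t)).re := by
      rw [hβdef, ← Complex.add_re, ← Complex.add_re]
      congr 1
      ring
    rw [h2, hDdef]
    linarith
  -- common bounds for the error terms
  have herr1 : ∀ ζ : ℂ, ‖ζ‖ ≤ R → C * (a * ζ - q * ζ ^ 2).im ^ 2 ≤ C * (R ^ 2 / 16) := by
    intro ζ hζ
    have h1 : |(a * ζ - q * ζ ^ 2).im| ≤ R * (1 / 4) := (Complex.abs_im_le_norm _).trans (hh ζ hζ)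
    have h2 : (a * ζ - q * ζ ^ 2).im ^ 2 ≤ (R * (1 / 4)) ^ 2 := sq_le_sq' (abs_le.1 h1).1 (abs_le.1 h1).2
    have h3 : C * (a * ζ - q * ζ ^ 2).im ^ 2 ≤ C * (R * (1 / 4)) ^ 2 := by gcongr
    calc _ ≤ _ := h3
      _ = C * (R ^ 2 / 16) := by ring
  have herr2 : ∀ ζ : ℂ, ‖ζ‖ ≤ R → - (2 * C * e * (q * ζ ^ 2).im) ≤ 2 * C * b₀ * (k * R ^ 2) := by
    intro ζ hζ
    have h1 : |(q * ζ ^ 2).im| ≤ k * R ^ 2 := by
      calc |(q * ζ ^ 2).im| ≤ ‖q * ζ ^ 2‖ := Complex.abs_im_le_norm _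
        _ = k * ‖ζ‖ ^ 2 := by rw [norm_mul, norm_pow, hqn]
        _ ≤ k * R ^ 2 := by gcongr
    calc - (2 * C * e * (q * ζ ^ 2).im) ≤ |2 * C * e * (q * ζ ^ 2).im| := neg_le_abs _
      _ = 2 * C * |e| * |(q * ζ ^ 2).im| := by
          rw [abs_mul, abs_mul, abs_mul, abs_of_pos hC]; norm_num
      _ ≤ 2 * C * b₀ * (k * R ^ 2) := by gcongr
  have hkR2 : k * R ^ 2 = k' / 8 * ‖β‖ ^ 2 := by
    calc k * R ^ 2 = (k * k') * k' * ‖β‖ ^ 2 := by rw [hR]; ring
      _ = k' / 8 * ‖β‖ ^ 2 := by rw [hkk']; ring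
  have hCR2 : C * R ^ 2 ≤ k' / 16 * ‖β‖ ^ 2 := by
    calc C * R ^ 2 = (C * k') * (k' * ‖β‖ ^ 2) := by rw [hR]; ring
      _ ≤ 1 / 16 * (k' * ‖β‖ ^ 2) := by gcongr
      _ = k' / 16 * ‖β‖ ^ 2 := by ring
  have hbC : 2 * C * b₀ ≤ 1 / 4 := by linarith
  have hX0 : 0 < k' * ‖β‖ ^ 2 := by positivity
  -- apply the disc lemma
  have hfin := hD ε m G (hρ.trans_le hρε) hM H t R ((C + 1) * b₀) hR0 (by positivity) ?_ ?_ ?_ ?_
  · have h1 := hfin t (mem_closedBall_self hR0.le)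
    rw [hHim, hHre] at h1
    simp only [sub_self, mul_zero, ne_eq, OfNat.ofNat_ne_zero, not_false_eq_true, zero_pow,
      Complex.zero_im, Complex.zero_re, add_zero] at h1
    rw [hc] at h1
    linarith
  · intro T _
    rw [hH]
    fun_prop
  · intro T hT
    rw [mem_closedBall, dist_eq_norm] at hT
    have hder : HasDerivAt H (a - 2 * q * (T - t)) T := by
      have h1 : HasDerivAt (fun T : ℂ => T - t) 1 T := (hasDerivAt_id T).sub_const t
      have h2 := (h1.const_mul a).sub ((h1.pow 2).const_mul q)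
      have h3 := h2.const_add ((P : ℂ) + e * Complex.I - δ)
      refine h3.congr_deriv ?_
      push_cast
      ring
    rw [hder.deriv]
    calc ‖a - 2 * q * (T - t)‖ ≤ ‖a‖ + ‖2 * q * (T - t)‖ := norm_sub_le _ _
      _ = ‖a‖ + 2 * k * ‖T - t‖ := by
          rw [norm_mul, norm_mul, hqn]; simp
      _ ≤ (2 * C + 2) * b₀ + 2 * k * R := by gcongr
      _ ≤ 1 / 2 := by
          have : k * R = ‖β‖ / 8 := by rw [hR, ← mul_assoc, hkk']; ring
          have h2 : 2 * k * R = ‖β‖ / 4 := by rw [mul_assoc, this]; ring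
          rw [h2]
          linarith
  · intro T hT
    rw [mem_closedBall, dist_eq_norm] at hT
    have hh1 := hh (T - t) hT
    have hre1 : |(a * (T - t) - q * (T - t) ^ 2).re| ≤ R * (1 / 4) :=
      (Complex.abs_re_le_norm _).trans hh1
    have him1 : |(a * (T - t) - q * (T - t) ^ 2).im| ≤ R * (1 / 4) :=
      (Complex.abs_im_le_norm _).trans hh1
    have hre2 := abs_le.1 hre1
    have him2 := abs_le.1 him1
    have he2 := abs_le.1 he
    have hσ2 := abs_le.1 hσ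
    have hTn : ‖T‖ ≤ b₀ + R := by
      calc ‖T‖ = ‖t + (T - t)‖ := by congr 1; ring
        _ ≤ ‖t‖ + ‖T - t‖ := norm_add_le _ _
        _ ≤ b₀ + R := add_le_add ht hT
    have hTρ : ‖T‖ < ρ := by linarith
    have hImρ : |(H T).im| < ρ := by
      rw [hHim, abs_lt]
      constructor <;> linarith
    have hPb : |P| ≤ (2 * C + 2) * b₀ := by
      have h1 : 0 ≤ par C t e := by simp only [par]; positivity
      have h2 : par C t e ≤ C * (b₀ ^ 2 + b₀ ^ 2) := by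
        simp only [par]
        have e1 : ‖t‖ ^ 2 ≤ b₀ ^ 2 := by gcongr
        have e2 : e ^ 2 ≤ b₀ ^ 2 := sq_le_sq' he2.1 he2.2
        gcongr
      have h3 : |(b * t).re| ≤ b₀ * b₀ := by
        calc |(b * t).re| ≤ ‖b * t‖ := Complex.abs_re_le_norm _
          _ = ‖b‖ * ‖t‖ := norm_mul _ _
          _ ≤ b₀ * b₀ := by gcongr
      have h4 := abs_le.1 h3
      have h5 : C * b₀ ^ 2 ≤ C * (b₀ / 16) := by gcongr
      have h6 : b₀ * b₀ ≤ b₀ / 16 := by rw [← sq]; exact hb₀sq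
      rw [hPdef, abs_le]
      constructor <;> linarith
    have hPb2 := abs_le.1 hPb
    refine ⟨by linarith, by linarith, ?_, ?_, ?_⟩
    · rw [hHre]
      linarith
    · rw [hHre]
      linarith
    · have h1 := hP T (H T).im hTρ hImρ
      have h2 := hexc T
      have h3 : (q * (T - t) ^ 2).re ≤ k * R ^ 2 := by
        calc (q * (T - t) ^ 2).re ≤ ‖q * (T - t) ^ 2‖ := Complex.re_le_norm _
          _ = k * ‖T - t‖ ^ 2 := by rw [norm_mul, norm_pow, hqn]
          _ ≤ k * R ^ 2 := by gcongr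
      have h4 : -(β * (T - t)).re / 2 ≤ ‖β‖ * R / 2 := by
        have : -(β * (T - t)).re ≤ ‖β‖ * R := by
          calc -(β * (T - t)).re ≤ |(β * (T - t)).re| := neg_le_abs _
            _ ≤ ‖β * (T - t)‖ := Complex.abs_re_le_norm _
            _ = ‖β‖ * ‖T - t‖ := norm_mul _ _
            _ ≤ ‖β‖ * R := by gcongr
        linarith
      have h5 := herr1 (T - t) hT
      have h6 := herr2 (T - t) hT
      have h7 : C * ‖T - t‖ ^ 2 ≤ C * R ^ 2 := by gcongr
      have h8 : ‖β‖ * R ≤ 2 * b₀ * (b₀ / 4) := by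
        apply mul_le_mul hβ2 hRb hR0.le (by positivity)
      have h9 : C * R ^ 2 ≤ 1 / 8 / 16 * (4 * b₀ ^ 2) := by
        refine hCR2.trans ?_
        have : k' / 16 ≤ 1 / 8 / 16 := by linarith
        apply mul_le_mul this hβsq (by positivity) (by positivity)
      have h10 : k * R ^ 2 ≤ 1 / 8 / 8 * (4 * b₀ ^ 2) := by
        rw [hkR2]
        have : k' / 8 ≤ 1 / 8 / 8 := by linarith
        apply mul_le_mul this hβsq (by positivity) (by positivity)
      have h11 : 2 * C * b₀ * (k * R ^ 2) ≤ 1 / 4 * (1 / 8 / 8 * (4 * b₀ ^ 2)) := by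
        apply mul_le_mul hbC h10 (by positivity) (by positivity)
      linarith
  · intro T hT
    rw [mem_sphere, dist_eq_norm] at hT
    have hTle : ‖T - t‖ ≤ R := hT.le
    have hh1 := hh (T - t) hTle
    have him1 : |(a * (T - t) - q * (T - t) ^ 2).im| ≤ R * (1 / 4) :=
      (Complex.abs_im_le_norm _).trans hh1
    have him2 := abs_le.1 him1
    have he2 := abs_le.1 he
    have hTn : ‖T‖ ≤ b₀ + R := by
      calc ‖T‖ = ‖t + (T - t)‖ := by congr 1; ring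
        _ ≤ ‖t‖ + ‖T - t‖ := norm_add_le _ _
        _ ≤ b₀ + R := add_le_add ht hTle
    have hTρ : ‖T‖ < ρ := by linarith
    have hImρ : |(H T).im| < ρ := by
      rw [hHim, abs_lt]
      constructor <;> linarith
    have h5 := herr1 (T - t) hTle
    have h6 := herr2 (T - t) hTle
    have h3 := sep_quad k β (T - t) hβne
    rw [← hq, hT] at h3
    set u : ℝ := (β * (T - t)).re with hu
    -- bound on u
    have hu1 : |u| ≤ ‖β‖ * R := by
      calc |u| ≤ ‖β * (T - t)‖ := Complex.abs_re_le_norm _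
        _ = ‖β‖ * ‖T - t‖ := norm_mul _ _
        _ = ‖β‖ * R := by rw [hT]
    have hu2 : u ^ 2 / ‖β‖ ^ 2 * k ≤ |u| / 8 := by
      have e1 : u ^ 2 = |u| * |u| := by rw [← sq, sq_abs]
      have e2 : |u| * |u| ≤ |u| * (‖β‖ * R) := by gcongr
      have e3 : u ^ 2 / ‖β‖ ^ 2 ≤ |u| * k' := by
        rw [div_le_iff₀ (by positivity), e1]
        refine e2.trans_eq ?_
        rw [hR]; ring
      calc u ^ 2 / ‖β‖ ^ 2 * k ≤ |u| * k' * k := by gcongr
        _ = |u| * (k * k') := by ring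
        _ = |u| / 8 := by rw [hkk']; ring
    have h3' : (q * (T - t) ^ 2).re ≤ |u| / 4 - k' / 8 * ‖β‖ ^ 2 := by
      rw [h3, ← hkR2]
      have : k * (2 * u ^ 2 / ‖β‖ ^ 2 - R ^ 2) = 2 * (u ^ 2 / ‖β‖ ^ 2 * k) - k * R ^ 2 := by ring
      rw [this]
      linarith
    have h11 : 2 * C * b₀ * (k * R ^ 2) ≤ 1 / 4 * (k' / 8 * ‖β‖ ^ 2) := by
      rw [hkR2]
      gcongr
    have habs : 0 ≤ |u| := abs_nonneg u
    rcases le_total 0 u with hu0 | hu0
    · have h1 := hP T (H T).im hTρ hImρ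
      have h2 := hexc T
      rw [hT, ← hu] at h2
      rw [abs_of_nonneg hu0] at h3' habs
      linarith
    · have h1 := hP' T (H T).im hTρ hImρ
      have h2 := hexc' T
      rw [hT, ← hu] at h2
      rw [abs_of_nonpos hu0] at h3' habs
      linarith

end

end Crest.Agent.R266
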