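import Crest.Agent.R266.Safe
import Crest.Agent.R266.Sep
import Crest.Agent.R266.NCount
import Crest.Agent.R266.LemB
import Crest.Agent.R266.Stokes

/-!
R266 / NC: final assembly of the no-contact theorem `St_NC` (helper399).
-/

set_option autoImplicit false

open scoped Manifold ContDiff Topology ENNReal
open Set Metric Filter MeasureTheory

namespace Crest.Agent.R266

section
variable {n₁ n₂ : ℕ} {X : Type} [TopologicalSpace X]

namespace NCfin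

theorem two_norm_le_coords (p : ℂ × ℂ) : 2 * ‖p‖ ≤ |XX p| + |eta p| + ‖tau p‖ := by
  have hZ : ‖p.1 + p.2‖ ≤ |XX p| + |eta p| := Complex.norm_le_abs_re_add_abs_im _
  have h1 : 2 * ‖p.1‖ ≤ ‖p.1 + p.2‖ + ‖p.1 - p.2‖ := by
    have h : (2 : ℂ) * p.1 = (p.1 + p.2) + (p.1 - p.2) := by ring
    calc 2 * ‖p.1‖ = ‖(2 : ℂ) * p.1‖ := by rw [norm_mul]; norm_num
      _ ≤ _ := by rw [h]; exact norm_add_le _ _
  have h2 : 2 * ‖p.2‖ ≤ ‖p.1 + p.2‖ + ‖p.1 - p.2‖ := by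
    have h : (2 : ℂ) * p.2 = (p.1 + p.2) - (p.1 - p.2) := by ring
    calc 2 * ‖p.2‖ = ‖(2 : ℂ) * p.2‖ := by rw [norm_mul]; norm_num
      _ ≤ _ := by rw [h]; exact norm_sub_le _ _
  have h3 : ‖p.1 - p.2‖ = ‖tau p‖ := rfl
  rw [Prod.norm_def]
  rcases max_cases ‖p.1‖ ‖p.2‖ with h | h <;> rw [h.1] <;> linarith

theorem w_eq_wmin {C : ℝ} {F : Finset (ℂ × ℝ)} {hF : F.Nonempty} {z : ℂ × ℂ}
    (h : 0 < wmin C F hF z) : ∃ q ∈ F, 0 < w_ C q.1 q.2 z := by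
  obtain ⟨q, hq, hqe⟩ := exists_minAff F hF (tau z)
  refine ⟨q, hq, ?_⟩
  unfold wmin at h
  unfold w_
  rw [hqe] at h
  linarith

end NCfin

open NCfin Cont in
/-- **no-contact theorem** -/
theorem NC_of {A : PFol n₁ n₂ X} (K : KMet A) (hP : St_pull K) (hS : St_slack K)
    (hCst : ∀ C : ℝ, 0 ≤ C → St_C K C) (hmax : St_max A) (hD : St_D K) (hB : St_B) :
    St_NC A := by
  intro ε C₀ G₀ hε hC₀ hG₀
  by_contra hirr
  -- shrink the box
  obtain ⟨ε', hε', hεε', h4⟩ : ∃ ε' : ℝ, 0 < ε' ∧ ε' ≤ ε ∧ 4 * C₀ * ε' < 1 := by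
    refine ⟨min ε (1 / (8 * C₀)), by positivity, min_le_left _ _, ?_⟩
    calc 4 * C₀ * min ε (1 / (8 * C₀)) ≤ 4 * C₀ * (1 / (8 * C₀)) := by
          gcongr; exact min_le_right _ _
      _ = 1 / 2 := by field_simp; norm_num
      _ < 1 := by norm_num
  have hsubGD : GD ε' (par C₀) ⊆ GD ε (par C₀) := fun z hz =>
    ⟨hz.1.trans_le hεε', hz.2.1.trans_le hεε', hz.2.2.1, hz.2.2.2.trans_le hεε'⟩
  have hG₀' : IsPC A (GD ε' (par C₀)) G₀ := fun z hz => hG₀ z (hsubGD hz)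
  obtain ⟨m, G, hle, hM, hGG⟩ := hmax ε' C₀ G₀ hε' hC₀ h4 hG₀'
  have hirr' : ¬ ∃ ρ > 0, ∃ G' : ℂ × ℂ → X, IsPC A (ball 0 ρ) G' ∧
      ∀ z ∈ ball (0 : ℂ × ℂ) ρ ∩ GD ε' (par C₀), G' z = G₀ z := by
    rintro ⟨ρ, hρ, G', hG', hag⟩
    apply hirr
    refine ⟨min ρ (ε' / 2), by positivity, G',
      fun z hz => hG' z (ball_subset_ball (min_le_left _ _) hz), fun z hz => ?_⟩
    have hz1 : ‖z‖ < ρ := by
      have := hz.1; rw [mem_ball_zero_iff] at this; exact this.trans_le (min_le_left _ _)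
    have hz2 : ‖z‖ < ε' / 2 := by
      have := hz.1; rw [mem_ball_zero_iff] at this; exact this.trans_le (min_le_right _ _)
    refine hag z ⟨by rwa [mem_ball_zero_iff], ?_, ?_, hz.2.2.2.1, ?_⟩
    · have h1 := NCnt.norm_tau_sub_le z 0
      have h2 : tau (0 : ℂ × ℂ) = 0 := by simp [tau]
      rw [h2, sub_zero, dist_zero_right] at h1
      linarith
    · have h1 := NCnt.abs_eta_sub_le z 0
      have h2 : eta (0 : ℂ × ℂ) = 0 := by simp [eta]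
      rw [h2, sub_zero, dist_zero_right] at h1
      linarith
    · have h1 := NCnt.abs_XX_sub_le z 0
      have h2 : XX (0 : ℂ × ℂ) = 0 := by simp [XX]
      rw [h2, sub_zero, dist_zero_right] at h1
      have h3 := le_abs_self (XX z)
      linarith
  have hm0 : m 0 0 = 0 := m_zero hε' hM hle hGG hirr'
  -- constants
  set C : ℝ := C₀ + 1 with hCdef
  have hC : 0 < C := by linarith
  have hCC : C - C₀ = 1 := by rw [hCdef]; ring
  obtain ⟨c₀, hc₀, κs, hκs, hslk⟩ := hS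
  obtain ⟨ε₀, hε₀, hBm⟩ := slab_min hB c₀ hc₀ C hC
  obtain ⟨χ, S, M, β, ρ, hχ, hχc, hχ1, hχs, hχS, hβ, hρ, hχρ, hχM⟩ :=
    safe K hP (C := C) hε' hC₀.le (by linarith) hM hle hε₀
  obtain ⟨C', hC'⟩ := hBm χ S M hχ hχc hχ1
    (fun z hz => ⟨(hχs z hz).1, (hχs z hz).2.1, (hχs z hz).2.2.1⟩) hχS
  obtain ⟨b₁, hb₁, c₁, hc₁, r₁, hr₁, hmass⟩ := lower_mass K hε' (hCst C hC.le) hM
  obtain ⟨b₀, hb₀, kap, hkap, hsep⟩ := separation hD ε' ε' C hε' le_rfl hC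
  obtain ⟨η₀, hη₀, hη1, hη2, hη3, hη4, hη5, hη6, hη7, hη8, hη9⟩ : ∃ η₀ : ℝ, 0 < η₀ ∧ η₀ ≤ 1 / 2 ∧
      η₀ ≤ ε' / 2 ∧ η₀ ≤ b₁ ∧ η₀ ≤ b₁ / (2 * C + 2) ∧ η₀ ≤ ρ / (4 * (C + 2)) ∧ η₀ ≤ b₀ ∧
      η₀ ≤ ε₀ ∧ η₀ ≤ 1 / (4 * (ε₀ + 1)) ∧ η₀ ≤ β := by
    have h : ∀ᶠ η in 𝓝[>] (0 : ℝ), 0 < η ∧ η ≤ 1 / 2 ∧
      η ≤ ε' / 2 ∧ η ≤ b₁ ∧ η ≤ b₁ / (2 * C + 2) ∧ η ≤ ρ / (4 * (C + 2)) ∧ η ≤ b₀ ∧
      η ≤ ε₀ ∧ η ≤ 1 / (4 * (ε₀ + 1)) ∧ η ≤ β := by
      filter_upwards [Ioc_mem_nhdsGT (show (0 : ℝ) < 1 / 2 by norm_num),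
        Ioc_mem_nhdsGT (show (0 : ℝ) < ε' / 2 by positivity), Ioc_mem_nhdsGT hb₁,
        Ioc_mem_nhdsGT (show (0 : ℝ) < b₁ / (2 * C + 2) by positivity),
        Ioc_mem_nhdsGT (show (0 : ℝ) < ρ / (4 * (C + 2)) by positivity), Ioc_mem_nhdsGT hb₀,
        Ioc_mem_nhdsGT hε₀, Ioc_mem_nhdsGT (show (0 : ℝ) < 1 / (4 * (ε₀ + 1)) by positivity),
        Ioc_mem_nhdsGT hβ] with η a1 a2 a3 a4 a5 a6 a7 a8 a9
      exact ⟨a1.1, a1.2, a2.2, a3.2, a4.2, a5.2, a6.2, a7.2, a8.2, a9.2⟩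
    exact h.exists
  have hη4' : (2 * C + 2) * η₀ ≤ b₁ := by
    rw [le_div_iff₀ (by positivity)] at hη4; linarith
  have hη5' : 4 * ((C + 2) * η₀) ≤ ρ := by
    rw [le_div_iff₀ (by positivity)] at hη5; linarith
  have hη8' : 4 * (ε₀ * η₀) ≤ 1 := by
    rw [le_div_iff₀ (by positivity)] at hη8; nlinarith
  have hηsq : η₀ ^ 2 ≤ η₀ := by nlinarith
  -- contact points
  have key : ∀ b : ℂ, ‖b‖ ≤ η₀ → ∃ (p : ℂ × ℂ) (s : ℝ), ‖tau p‖ ≤ ‖b‖ ∧ |eta p| ≤ ‖b‖ ∧ 0 ≤ s ∧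
      s ≤ η₀ / 4 ∧ XX p = m (tau p) (eta p) ∧ w_ C b s p = 0 ∧
      |XX p| ≤ (2 * C + 2) * η₀ ∧
      ∀ t e, m t e ≤ par C t e + (b * t).re + s := by
    intro b hb
    obtain ⟨p, s, h1, h2, h3, h4, h5, h6, h7, h8⟩ := contact (C := C) hC₀.le (by linarith) hM.usc hle hm0 b
      (by rw [hCC]; linarith)
    rw [hCC, div_one] at h1 h2
    have hbsq : ‖b‖ ^ 2 ≤ η₀ ^ 2 := by gcongr
    refine ⟨p, s, h1, h2, h3, ?_, h5, h6, ?_, h8⟩
    · rw [hCC] at h4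
      nlinarith [norm_nonneg b]
    · rw [hCC] at h7
      have e1 : (2 * C / 1 ^ 2 + 2 / 1) * ‖b‖ ^ 2 = (2 * C + 2) * ‖b‖ ^ 2 := by norm_num
      rw [e1] at h7
      refine h7.trans ?_
      have : ‖b‖ ^ 2 ≤ η₀ := hbsq.trans hηsq
      gcongr
  choose! p s hp using key
  have hmeq : ∀ b, ‖b‖ ≤ η₀ → m (tau (p b)) (eta (p b)) =
      par C (tau (p b)) (eta (p b)) + (b * tau (p b)).re + s b := by
    intro b hb
    obtain ⟨h1, h2, h3, h4, h5, h6, h7, h8⟩ := hp b hb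
    unfold w_ at h6
    linarith
  have hpρ : ∀ b, ‖b‖ ≤ η₀ → ‖p b‖ < ρ / 2 := by
    intro b hb
    obtain ⟨h1, h2, h3, h4, h5, h6, h7, h8⟩ := hp b hb
    have h9 := two_norm_le_coords (p b)
    nlinarith
  have hopen : IsOpen (GD ε' m) := MaxGraph.isOpen_GD hM.usc
  refine counting (C := C) (κ := kap) (η₀ := η₀) (c₁ := c₁) (r₁ := min r₁ (ρ / 2)) (C' := C')
    hC.le hkap hη₀ (by linarith) hc₁ (by positivity) (fun z => ENNReal.ofReal (χ z * trM K G z)) s p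
    (fun b hb => (hp b hb).2.2.2.2.2.1) ?_ ?_ ?_ ?_ ?_ ?_
  · -- hmin
    intro b b' hb hb'
    have h1 := (hp b' hb').2.2.2.2.2.2.2 (tau (p b)) (eta (p b))
    have h2 := hmeq b hb
    linarith
  · -- hsep
    intro b b' hb hb'
    obtain ⟨h1, h2, h3, h4, h5, h6, h7, h8⟩ := hp b hb
    obtain ⟨h1', h2', h3', h4', h5', h6', h7', h8'⟩ := hp b' hb'
    refine hsep m G hM b b' (s b) (s b') (tau (p b)) (tau (p b')) (eta (p b)) (eta (p b'))
      (by linarith) (by linarith) (by linarith) (by linarith) ?_ (by linarith) (by linarith)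
      (fun t e _ _ => h8 t e) (fun t e _ _ => h8' t e) (hmeq b hb) (hmeq b' hb')
    rw [abs_of_nonneg h3]; linarith
  · intro b hb
    have := (hp b hb).1
    linarith
  · intro b hb
    have := (hp b hb).2.1
    linarith
  · -- mass
    intro b hb r hr hrr
    obtain ⟨h1, h2, h3, h4, h5, h6, h7, h8⟩ := hp b hb
    have hr1 : r ≤ r₁ := hrr.trans (min_le_left _ _)
    have hr2 : r ≤ ρ / 2 := hrr.trans (min_le_right _ _)
    refine (hmass b (p b) (s b) (by linarith) (by linarith) (by linarith) (by linarith) h5 h6 h8 r hr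
      hr1).trans (le_of_eq ?_)
    have hmeas : MeasurableSet (ball (p b) r ∩ {z | 0 < w_ C b (s b) z}) :=
      measurableSet_ball.inter (isOpen_lt continuous_const (continuous_w_ C b (s b))).measurableSet
    refine setLIntegral_congr_fun hmeas fun z hz => ?_
    have hz1 : χ z = 1 := by
      refine hχρ z ?_
      have h9 := hz.1
      have h10 := hpρ b hb
      rw [mem_ball] at h9
      rw [mem_ball_zero_iff]
      calc ‖z‖ = dist z 0 := (dist_zero_right z).symm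
        _ ≤ dist z (p b) + dist (p b) 0 := dist_triangle _ _ _
        _ < ρ := by rw [dist_zero_right]; linarith
    simp only [hz1, one_mul]
  · -- slab
    intro F hF hFs r hr hr1
    have hmem : ∀ z ∈ tsupport χ, 0 < wmin C F hF z → z ∈ GD ε' m := by
      intro z hz hw
      obtain ⟨q, hq, hqw⟩ := w_eq_wmin hw
      obtain ⟨hq1, hq2⟩ := hFs q hq
      obtain ⟨-, -, -, a1, a2, a3⟩ := hχs z hz
      refine mem_GD_of_w (C := C) (b := q.1) (s := q.2) ?_ a1 a2 a3 hqw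
      rw [hq2]
      exact (hp q.1 hq1).2.2.2.2.2.2.2
    exact hC' (GD ε' m) (pullM K G) F hF hopen (hP _ _ hopen hM.pc) (hslk _ _ hopen hM.pc).1
      (fun q hq => ((hFs q hq).1).trans hη7)
      (fun t ht => by
        obtain ⟨q, hq, hqe⟩ := exists_minAff F hF t
        obtain ⟨hq1, hq2⟩ := hFs q hq
        obtain ⟨h1, h2, h3, h4, h5, h6, h7, h8⟩ := hp q.1 hq1
        rw [hqe, hq2]
        have h9 : |(q.1 * t).re| ≤ ‖q.1‖ * ‖t‖ := by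
          rw [← norm_mul]; exact Complex.abs_re_le_norm _
        have h10 : ‖q.1‖ * ‖t‖ ≤ η₀ * ε₀ := by gcongr
        have h11 : s q.1 ≤ 1 / 4 := by linarith
        have h12 : |s q.1| ≤ 1 / 4 := by rw [abs_of_nonneg h3]; exact h11
        calc |(q.1 * t).re + s q.1| ≤ |(q.1 * t).re| + |s q.1| := abs_add_le _ _
          _ ≤ 1 / 2 := by linarith)
      hmem
      (fun z hz hw => by
        obtain ⟨q, hq, hqw⟩ := w_eq_wmin hw
        obtain ⟨hq1, hq2⟩ := hFs q hq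
        refine hχM z hz q.1 q.2 (hq1.trans hη9) ?_ hqw
        rw [hq2]
        exact (hp q.1 hq1).2.2.1)
      r hr hr1

/-- the no-contact theorem with `St_B` and Stokes plugged in -/
theorem NC_holds {A : PFol n₁ n₂ X} (K : KMet A) (hP : St_pull K) (hS : St_slack K)
    (hCst : ∀ C : ℝ, 0 ≤ C → St_C K C) (hmax : St_max A) (hD : St_D K) : St_NC A :=
  NC_of K hP hS hCst hmax hD (B_holds stokes_holds)

end

end Crest.Agent.R266
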