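import Crest.Agent.R266.CE

/-!
R266 / ProdExt: product extension along a (possibly punctured) holomorphic curve graph.
-/

set_option autoImplicit false

open scoped Manifold ContDiff Topology ENNReal
open Set Metric Filter MeasureTheory

namespace Crest.Agent.R266

section
variable {n₁ n₂ : ℕ} {X : Type} [TopologicalSpace X]

/-- the inverse branch is analytic -/
theorem analyticAt_branch {f g : ℂ → ℂ} {t₀ : ℂ} {ρ : ℝ}
    (hf : DifferentiableOn ℂ f (ball t₀ ρ)) (hd : ∀ t ∈ ball t₀ ρ, deriv f t ≠ 0)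
    (hg : ∀ t ∈ ball t₀ ρ, g (f t) = t) (ho : IsOpen (f '' ball t₀ ρ))
    (hc : ∀ t ∈ ball t₀ ρ, ContinuousAt g (f t)) :
    ∀ t ∈ ball t₀ ρ, AnalyticAt ℂ g (f t) := by
  intro t ht
  have hB : IsOpen (ball t₀ ρ) := isOpen_ball
  have h1 : DifferentiableOn ℂ g (f '' ball t₀ ρ) := by
    rintro _ ⟨s, hs, rfl⟩
    have h2 : HasDerivAt f (deriv f s) (g (f s)) := by
      rw [hg s hs]
      exact ((hf s hs).differentiableAt (hB.mem_nhds hs)).hasDerivAt
    have h3 : ∀ᶠ y in 𝓝 (f s), f (g y) = y := by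
      filter_upwards [ho.mem_nhds (mem_image_of_mem f hs)] with y hy
      obtain ⟨u, hu, rfl⟩ := hy
      rw [hg u hu]
    exact (HasDerivAt.of_local_left_inverse (hc s hs) h2 (hd s hs)
      h3).differentiableAt.differentiableWithinAt
  exact h1.analyticAt (ho.mem_nhds (mem_image_of_mem f ht))

/-- PRODUCT EXTENSION, punctured form: `g` is holomorphic on the whole disc with values in the
target of the chart `i`, and represents `G` along the curve over the open subset `D'`. -/
theorem product_extension_punct {A : PFol n₁ n₂ X} (hch : St_chart A) {Ω : Set (ℂ × ℂ)}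
    {G : ℂ × ℂ → X} (hG : IsPC A Ω G) {H : ℂ → ℂ} {t₀ : ℂ} {ρ : ℝ} (hρ : 0 < ρ)
    (hH : DifferentiableOn ℂ H (ball t₀ ρ)) (hH' : ∀ t ∈ ball t₀ ρ, ‖deriv H t‖ ≤ 1 / 2)
    {D' : Set ℂ} (hD'o : IsOpen D') (hD' : D' ⊆ ball t₀ ρ)
    (hΩ : ∀ t ∈ D', pt t (H t) ∈ Ω) (i : A.ι) {g : ℂ → EV n₁ × EV n₂}
    (hg : DifferentiableOn ℂ g (ball t₀ ρ)) (hgt : ∀ t ∈ ball t₀ ρ, g t ∈ (A.ch i).target)
    (hgi : ∀ t ∈ D', G (pt t (H t)) ∈ (A.ch i).source ∧ A.ch i (G (pt t (H t))) = g t) :
    ∃ (U₁ U₂ : Set ℂ) (G' : ℂ × ℂ → X), IsOpen U₁ ∧ IsOpen U₂ ∧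
      U₁ = (fun t => (pt t (H t)).1) '' ball t₀ ρ ∧ U₂ = (fun t => (pt t (H t)).2) '' ball t₀ ρ ∧
      ball (pt t₀ (H t₀)) (ρ / 16) ⊆ U₁ ×ˢ U₂ ∧ IsPC A (U₁ ×ˢ U₂) G' ∧
      ∀ t ∈ D', G' =ᶠ[𝓝 (pt t (H t))] G := by
  classical
  set B := ball t₀ ρ with hBdef
  have hB : IsOpen B := isOpen_ball
  have hHd : ∀ t ∈ B, HasDerivAt H (deriv H t) t := fun t ht =>
    ((hH t ht).differentiableAt (hB.mem_nhds ht)).hasDerivAt
  have hxd : ∀ t ∈ B, HasDerivAt (fun t => (pt t (H t)).1) ((deriv H t + 1) / 2) t := by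
    intro t ht
    have := ((hHd t ht).add (hasDerivAt_id t)).div_const 2
    simpa [pt] using this
  have hyd : ∀ t ∈ B, HasDerivAt (fun t => (pt t (H t)).2) ((deriv H t - 1) / 2) t := by
    intro t ht
    have := ((hHd t ht).sub (hasDerivAt_id t)).div_const 2
    simpa [pt] using this
  have hne1 : ∀ t ∈ B, (deriv H t + 1) / 2 ≠ 0 := by
    intro t ht h0
    have h1 : deriv H t = -1 := by
      have : deriv H t + 1 = 0 := by simpa using h0
      linear_combination this
    have h2 := hH' t ht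
    rw [h1] at h2
    norm_num at h2
  have hne2 : ∀ t ∈ B, (deriv H t - 1) / 2 ≠ 0 := by
    intro t ht h0
    have h1 : deriv H t = 1 := by
      have : deriv H t - 1 = 0 := by simpa using h0
      linear_combination this
    have h2 := hH' t ht
    rw [h1] at h2
    norm_num at h2
  have hxD : DifferentiableOn ℂ (fun t => (pt t (H t)).1) B :=
    fun t ht => (hxd t ht).differentiableAt.differentiableWithinAt
  have hyD : DifferentiableOn ℂ (fun t => (pt t (H t)).2) B :=
    fun t ht => (hyd t ht).differentiableAt.differentiableWithinAt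
  obtain ⟨gx, hgx, hxo, hgxc, hxball⟩ := exists_branch (f := fun t => (pt t (H t)).1) (c := 1 / 2)
    hρ (by norm_num) hxD (by
      intro t ht
      rw [(hxd t ht).deriv]
      have h1 : (deriv H t + 1) / 2 - 1 / 2 = deriv H t / 2 := by ring
      rw [h1, norm_div]
      have := hH' t ht
      norm_num
      linarith)
  obtain ⟨gy, hgy, hyo, hgyc, hyball⟩ := exists_branch (f := fun t => (pt t (H t)).2)
    (c := -(1 / 2)) hρ (by norm_num) hyD (by
      intro t ht
      rw [(hyd t ht).deriv]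
      have h1 : (deriv H t - 1) / 2 - -(1 / 2) = deriv H t / 2 := by ring
      rw [h1, norm_div]
      have := hH' t ht
      norm_num
      linarith)
  have hgxa := analyticAt_branch hxD (fun t ht => by rw [(hxd t ht).deriv]; exact hne1 t ht)
    hgx hxo hgxc
  have hgya := analyticAt_branch hyD (fun t ht => by rw [(hyd t ht).deriv]; exact hne2 t ht)
    hgy hyo hgyc
  have hga : ∀ t ∈ B, AnalyticAt ℂ g t := fun t ht => hg.analyticAt (hB.mem_nhds ht)
  set a : ℂ → EV n₁ := fun x => (g (gx x)).1 with ha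
  set b : ℂ → EV n₂ := fun y => (g (gy y)).2 with hb
  have hgtt : ∀ t ∈ B, (g t).1 ∈ ball (0 : EV n₁) 1 ∧ (g t).2 ∈ ball (0 : EV n₂) 1 := by
    intro t ht
    have := hgt t ht
    rw [A.target_eq i] at this
    exact this
  have haU : ∀ x ∈ (fun t => (pt t (H t)).1) '' B, AnalyticAt ℂ a x ∧ a x ∈ ball (0 : EV n₁) 1 := by
    rintro _ ⟨t, ht, rfl⟩
    refine ⟨?_, ?_⟩
    · have h1 : AnalyticAt ℂ g (gx (pt t (H t)).1) := by
        have := hgx t ht
        rw [this]
        exact hga t ht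
      exact analyticAt_fst.comp (h1.comp (hgxa t ht))
    · simp only [ha]
      have := hgx t ht
      rw [this]
      exact (hgtt t ht).1
  have hbU : ∀ x ∈ (fun t => (pt t (H t)).2) '' B, AnalyticAt ℂ b x ∧ b x ∈ ball (0 : EV n₂) 1 := by
    rintro _ ⟨t, ht, rfl⟩
    refine ⟨?_, ?_⟩
    · have h1 : AnalyticAt ℂ g (gy (pt t (H t)).2) := by
        have := hgy t ht
        rw [this]
        exact hga t ht
      exact analyticAt_snd.comp (h1.comp (hgya t ht))
    · simp only [hb]
      have := hgy t ht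
      rw [this]
      exact (hgtt t ht).2
  refine ⟨(fun t => (pt t (H t)).1) '' B, (fun t => (pt t (H t)).2) '' B,
    fun w => (A.ch i).symm (a w.1, b w.2), hxo, hyo, rfl, rfl, ?_, isPC_prod i hxo hyo haU hbU, ?_⟩
  · intro z hz
    rw [mem_ball, Prod.dist_eq, max_lt_iff] at hz
    exact ⟨hxball hz.1, hyball hz.2⟩
  · intro t ht
    have htB : t ∈ B := hD' ht
    obtain ⟨a', b', ha', hb', hev⟩ := hch Ω G hG _ (hΩ t ht) i (hgi t ht).1
    -- along the curve
    have hpc : ContinuousAt (fun t => pt t (H t)) t :=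
      (hxd t htB).continuousAt.prodMk (hyd t htB).continuousAt
    have hcurve : ∀ᶠ s in 𝓝 t, g s = (a' (pt s (H s)).1, b' (pt s (H s)).2) := by
      filter_upwards [hpc.tendsto.eventually hev, hD'o.mem_nhds ht] with s hs hs'
      rw [← (hgi s hs').2]
      exact hs.2
    have htx : Tendsto gx (𝓝 (pt t (H t)).1) (𝓝 t) := by
      have := hgxc t htB
      rw [ContinuousAt, hgx t htB] at this
      exact this
    have hty : Tendsto gy (𝓝 (pt t (H t)).2) (𝓝 t) := by
      have := hgyc t htB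
      rw [ContinuousAt, hgy t htB] at this
      exact this
    have h1 : ∀ᶠ x in 𝓝 (pt t (H t)).1, a x = a' x := by
      filter_upwards [htx.eventually hcurve,
        hxo.mem_nhds (mem_image_of_mem (fun t => (pt t (H t)).1) htB)] with x hx hx3
      obtain ⟨s, hs, rfl⟩ := hx3
      simp only at hx ⊢
      simp only [ha]
      rw [hx]
      have := hgx s hs
      rw [this]
    have h2 : ∀ᶠ y in 𝓝 (pt t (H t)).2, b y = b' y := by
      filter_upwards [hty.eventually hcurve,
        hyo.mem_nhds (mem_image_of_mem (fun t => (pt t (H t)).2) htB)] with x hx hx3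
      obtain ⟨s, hs, rfl⟩ := hx3
      simp only at hx ⊢
      simp only [hb]
      rw [hx]
      have := hgy s hs
      rw [this]
    have h3 : ∀ᶠ w : ℂ × ℂ in 𝓝 (pt t (H t)), a w.1 = a' w.1 :=
      (continuous_fst.tendsto (pt t (H t))).eventually h1
    have h4 : ∀ᶠ w : ℂ × ℂ in 𝓝 (pt t (H t)), b w.2 = b' w.2 :=
      (continuous_snd.tendsto (pt t (H t))).eventually h2
    filter_upwards [hev, h3, h4] with w hw hw1 hw2
    rw [hw1, hw2, ← hw.2]
    exact (A.ch i).left_inv hw.1

end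

end Crest.Agent.R266
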