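import Crest.Agent.R266.DStmts
import Crest.Agent.R266.E0W
import Crest.Agent.R266.ProdExt
import Crest.Agent.R266.Basic

/-!
R266 / Punct (helper464): removal of a puncture (`St_punct`).
-/

set_option autoImplicit false

open scoped Manifold ContDiff Topology ENNReal Real
open Set Metric Filter MeasureTheory

namespace Crest.Agent.R266
namespace Punct

section mean
variable {E : Type} [NormedAddCommGroup E] [NormedSpace ℂ E] [CompleteSpace E]

/-- the mean over the circle -/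
noncomputable def mn (g : ℂ → E) (c : ℂ) (s : ℝ) : E :=
  (2 * π * Complex.I : ℂ)⁻¹ • ∮ z in C(c, s), (z - c)⁻¹ • g z

lemma mn_near {g : ℂ → E} {c : ℂ} {s : ℝ} (hs : 0 < s) (hg : ContinuousOn g (sphere c s))
    {v : E} {δ : ℝ} (h : ∀ z ∈ sphere c s, ‖g z - v‖ ≤ δ) : ‖mn g c s - v‖ ≤ δ := by
  have hne : ∀ z ∈ sphere c s, z - c ≠ 0 := by
    intro z hz h0
    rw [sub_eq_zero] at h0
    subst h0
    simp at hz
    exact hs.ne hz
  have hinv : ContinuousOn (fun z : ℂ => (z - c)⁻¹) (sphere c s) :=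
    ContinuousOn.inv₀ (Continuous.continuousOn (by fun_prop)) hne
  have h1 : CircleIntegrable (fun z => (z - c)⁻¹ • g z) c s :=
    (hinv.smul hg).circleIntegrable hs.le
  have h2 : CircleIntegrable (fun z => (z - c)⁻¹ • v) c s :=
    (hinv.smul continuousOn_const).circleIntegrable hs.le
  have h3 : (∮ z in C(c, s), (z - c)⁻¹ • v) = (2 * π * Complex.I : ℂ) • v := by
    rw [circleIntegral.integral_smul_const, circleIntegral.integral_sub_center_inv c hs.ne']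
  have h4 : mn g c s - v = (2 * π * Complex.I : ℂ)⁻¹ • ∮ z in C(c, s), (z - c)⁻¹ • (g z - v) := by
    have h5 : (fun z => (z - c)⁻¹ • (g z - v)) = fun z => (z - c)⁻¹ • g z - (z - c)⁻¹ • v := by
      funext z; rw [smul_sub]
    rw [h5, circleIntegral.integral_sub h1 h2, h3, smul_sub, smul_smul, inv_mul_cancel₀, one_smul]
    · rfl
    · simp [Real.pi_ne_zero]
  rw [h4]
  have h6 : ∀ z ∈ sphere c s, ‖(z - c)⁻¹ • (g z - v)‖ ≤ s⁻¹ * δ := by
    intro z hz
    rw [norm_smul, norm_inv, show ‖z - c‖ = s from mem_sphere_iff_norm.1 hz]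
    exact mul_le_mul_of_nonneg_left (h z hz) (inv_nonneg.2 hs.le)
  refine (circleIntegral.norm_two_pi_i_inv_smul_integral_le_of_norm_le_const hs.le h6).trans ?_
  rw [← mul_assoc, mul_inv_cancel₀ hs.ne', one_mul]

omit [CompleteSpace E] in
lemma mn_eq {g : ℂ → E} {c : ℂ} {s S : ℝ} (hs : 0 < s) (hsS : s ≤ S)
    (hg : ∀ z, s ≤ ‖z - c‖ → ‖z - c‖ ≤ S → DifferentiableAt ℂ g z) : mn g c S = mn g c s := by
  unfold mn
  rw [Complex.circleIntegral_sub_center_inv_smul_eq_of_differentiable_on_annulus_off_countable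
    hs hsS (s := ∅) countable_empty]
  · rintro z ⟨h1, h2⟩
    refine (hg z ?_ ?_).continuousAt.continuousWithinAt
    · rw [mem_ball, dist_eq_norm, not_lt] at h2; exact h2
    · rw [mem_closedBall, dist_eq_norm] at h1; exact h1
  · rintro z ⟨⟨h1, h2⟩, -⟩
    refine hg z ?_ ?_
    · rw [mem_closedBall, dist_eq_norm, not_le] at h2; exact h2.le
    · rw [mem_ball, dist_eq_norm] at h1; exact h1.le

end mean

section
variable {n₁ n₂ : ℕ} {X : Type} [TopologicalSpace X] {A : PFol n₁ n₂ X}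

/-- tails of a convergent area integral are small -/
lemma tail_small {φ : ℂ → ℝ≥0∞} {t₁ : ℂ} {r : ℝ} (hr : 0 < r)
    (h : ∫⁻ t in ball t₁ r, φ t < ⊤) {a : ℝ≥0∞} (ha : a ≠ 0) :
    ∃ ρ > 0, ρ ≤ r ∧ ∫⁻ t in ball t₁ ρ, φ t ≤ a := by
  obtain ⟨η, hη, hs⟩ := exists_pos_setLIntegral_lt_of_measure_lt h.ne ha
  have hlim : Tendsto (fun ρ : ℝ => volume (ball t₁ ρ)) (𝓝[>] 0) (𝓝 0) := by
    have h1 : Tendsto (fun ρ : ℝ => ENNReal.ofReal ρ ^ 2 * (NNReal.pi : ℝ≥0∞)) (𝓝 0)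
        (𝓝 (ENNReal.ofReal 0 ^ 2 * (NNReal.pi : ℝ≥0∞))) :=
      ENNReal.Tendsto.mul_const (((ENNReal.continuous_pow 2).tendsto _).comp
        (ENNReal.continuous_ofReal.tendsto 0)) (Or.inr ENNReal.coe_ne_top)
    simp only [ENNReal.ofReal_zero, ne_eq, OfNat.ofNat_ne_zero, not_false_eq_true, zero_pow,
      zero_mul] at h1
    refine (h1.mono_left nhdsWithin_le_nhds).congr' ?_
    filter_upwards with ρ
    rw [Complex.volume_ball]
  have h2 : ∀ᶠ ρ in 𝓝[>] (0 : ℝ), volume (ball t₁ ρ) < η := hlim.eventually_lt_const hη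
  have h3 : ∀ᶠ ρ in 𝓝[>] (0 : ℝ), ρ ≤ r := by
    filter_upwards [Ioc_mem_nhdsGT hr] with ρ hρ using hρ.2
  have h4 : ∀ᶠ ρ in 𝓝[>] (0 : ℝ), 0 < ρ := by
    filter_upwards [self_mem_nhdsWithin] with ρ hρ using hρ
  obtain ⟨ρ, h5, h6, h7⟩ := (h2.and (h3.and h4)).exists
  refine ⟨ρ, h7, h6, ?_⟩
  have h8 := hs (ball t₁ ρ) (lt_of_le_of_lt (Measure.restrict_apply_le _ _) h5)
  rw [Measure.restrict_restrict measurableSet_ball,
    inter_eq_self_of_subset_left (ball_subset_ball h6)] at h8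
  exact h8.le

/-- local confinement at every point near the puncture -/
def Conf (A : PFol n₁ n₂ X) (f : ℂ → X) (t₁ : ℂ) (ρ δ : ℝ) : Prop :=
  ∀ z, z ≠ t₁ → ‖z - t₁‖ < ρ → ∀ i, f z ∈ (A.ch i).source → ‖A.ch i (f z)‖ < 3 / 4 →
    ∀ w, ‖w - z‖ < ‖z - t₁‖ / 2 → f w ∈ (A.ch i).source ∧ ‖A.ch i (f w) - A.ch i (f z)‖ ≤ δ

lemma conf_of_area (K : KMet A) (hE : St_E0S K) {f : ℂ → X} {t₁ : ℂ} {r : ℝ} (hr : 0 < r)
    (hf : IsHolC A (ball t₁ r \ {t₁}) f)
    (hfin : ∫⁻ t in ball t₁ r, ENNReal.ofReal (densM K f t) < ⊤) {δ : ℝ} (hδ : 0 < δ) :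
    ∃ ρ > 0, 2 * ρ ≤ r ∧ Conf A f t₁ ρ δ := by
  obtain ⟨a₀, ha₀, hE⟩ := hE δ hδ
  obtain ⟨ρ, hρ, hρr, hsmall⟩ := tail_small hr hfin (a := ENNReal.ofReal a₀) (by simpa using ha₀)
  refine ⟨ρ / 2, by positivity, by linarith, ?_⟩
  intro z hz hzρ i his hin w hw
  have hn : 0 < ‖z - t₁‖ := norm_pos_iff.2 (sub_ne_zero.2 hz)
  have hsub : ball z ‖z - t₁‖ ⊆ ball t₁ ρ \ {t₁} := by
    intro t ht
    rw [mem_ball, dist_eq_norm] at ht
    constructor
    · rw [mem_ball, dist_eq_norm]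
      have : ‖t - t₁‖ ≤ ‖t - z‖ + ‖z - t₁‖ := by
        have := norm_add_le (t - z) (z - t₁)
        simpa using this
      linarith
    · intro h
      have h' : t = t₁ := h
      subst h'
      rw [norm_sub_rev] at ht
      exact lt_irrefl _ ht
  have hf' : IsHolC A (ball z ‖z - t₁‖) f := fun t ht =>
    hf t ⟨ball_subset_ball hρr (hsub ht).1, (hsub ht).2⟩
  have hI : ∫⁻ t in ball z ‖z - t₁‖, ENNReal.ofReal (densM K f t) ≤ ENNReal.ofReal a₀ :=
    (lintegral_mono_set (fun t ht => (hsub ht).1)).trans hsmall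
  refine hE f z ‖z - t₁‖ hn hf' hI i his ?_ w ?_
  · rw [Prod.norm_def, max_lt_iff] at hin
    exact ⟨by simpa using hin.1, by simpa using hin.2⟩
  · rw [mem_ball, dist_eq_norm]; exact hw

/-- the image of a circle around the puncture is small -/
lemma circle_small {f : ℂ → X} {t₁ : ℂ} {ρ δ : ℝ} (hc : Conf A f t₁ ρ δ) (hδ : 0 ≤ δ) {z : ℂ}
    (hz : z ≠ t₁) (hzρ : ‖z - t₁‖ < ρ) {i : A.ι} (his : f z ∈ (A.ch i).source)
    (hin : ‖A.ch i (f z)‖ + 8 * δ < 3 / 4) :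
    ∀ w, ‖w - t₁‖ = ‖z - t₁‖ → f w ∈ (A.ch i).source ∧ ‖A.ch i (f w) - A.ch i (f z)‖ ≤ 8 * δ := by
  intro w hw
  set s := ‖z - t₁‖ with hs
  have hspos : 0 < s := norm_pos_iff.2 (sub_ne_zero.2 hz)
  -- the rotation angle
  obtain ⟨β, hβ, hβw⟩ : ∃ β : ℝ, |β| ≤ π ∧ w - t₁ = Complex.exp (β * Complex.I) * (z - t₁) := by
    have hne : z - t₁ ≠ 0 := sub_ne_zero.2 hz
    refine ⟨Complex.arg ((w - t₁) / (z - t₁)), Complex.abs_arg_le_pi _, ?_⟩
    have h1 : ‖(w - t₁) / (z - t₁)‖ = 1 := by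
      rw [norm_div, hw, ← hs, div_self hspos.ne']
    have h2 := Complex.norm_mul_exp_arg_mul_I ((w - t₁) / (z - t₁))
    rw [h1] at h2
    simp only [Complex.ofReal_one, one_mul] at h2
    rw [h2, div_mul_cancel₀ _ hne]
  set p : ℕ → ℂ := fun k => t₁ + Complex.exp ((k * (β / 8) : ℝ) * Complex.I) * (z - t₁) with hp
  have hp0 : p 0 = z := by simp [hp]
  have hp8 : p 8 = w := by
    have : ((8 : ℕ) * (β / 8) : ℝ) = β := by push_cast; ring
    simp only [hp, this, ← hβw]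
    ring
  have hpn : ∀ k, ‖p k - t₁‖ = s := by
    intro k
    simp only [hp, add_sub_cancel_left, norm_mul, Complex.norm_exp_ofReal_mul_I, one_mul, hs]
  have hstep : ∀ k, ‖p (k + 1) - p k‖ < s / 2 := by
    intro k
    have h1 : p (k + 1) - p k = (Complex.exp ((β / 8 : ℝ) * Complex.I) - 1) *
        (Complex.exp ((k * (β / 8) : ℝ) * Complex.I) * (z - t₁)) := by
      simp only [hp]
      have h2 : (((k + 1 : ℕ) : ℝ) * (β / 8) : ℝ) = k * (β / 8) + β / 8 := by push_cast; ring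
      rw [h2]
      push_cast
      rw [add_mul, Complex.exp_add]
      ring
    rw [h1, norm_mul, norm_mul, Complex.norm_exp_ofReal_mul_I, one_mul, ← hs]
    have h3 : ‖Complex.exp ((β / 8 : ℝ) * Complex.I) - 1‖ ≤ |β / 8| := by
      have := Real.norm_exp_I_mul_ofReal_sub_one_le (x := β / 8)
      rw [mul_comm, Real.norm_eq_abs] at this
      exact this
    have h4 : |β / 8| ≤ π / 8 := by
      rw [abs_div, abs_of_pos (by norm_num : (0 : ℝ) < 8)]
      linarith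
    have h5 : π / 8 < 1 / 2 := by linarith [Real.pi_lt_d2]
    nlinarith
  have key : ∀ k : ℕ, k ≤ 8 → f (p k) ∈ (A.ch i).source ∧
      ‖A.ch i (f (p k)) - A.ch i (f z)‖ ≤ k * δ := by
    intro k
    induction k with
    | zero =>
      intro _
      rw [hp0]
      exact ⟨his, by simp⟩
    | succ k ih =>
      intro hk
      obtain ⟨h1, h2⟩ := ih (by omega)
      have hk' : (k : ℝ) ≤ 8 := by exact_mod_cast (by omega : k ≤ 8)
      have hkd : (k : ℝ) * δ ≤ 8 * δ := mul_le_mul_of_nonneg_right hk' hδ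
      have h3 : ‖A.ch i (f (p k))‖ < 3 / 4 := by
        have := norm_add_le (A.ch i (f (p k)) - A.ch i (f z)) (A.ch i (f z))
        rw [sub_add_cancel] at this
        linarith
      have hpk : p k ≠ t₁ := by
        intro h
        have := hpn k
        rw [h, sub_self, norm_zero] at this
        exact hspos.ne this
      obtain ⟨h4, h5⟩ := hc (p k) hpk (by rw [hpn k]; exact hzρ) i h1 h3 (p (k + 1))
        (by rw [hpn k]; exact hstep k)
      refine ⟨h4, ?_⟩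
      have h6 := norm_add_le (A.ch i (f (p (k + 1))) - A.ch i (f (p k)))
        (A.ch i (f (p k)) - A.ch i (f z))
      rw [sub_add_sub_cancel] at h6
      push_cast
      linarith
  have := key 8 le_rfl
  rw [hp8] at this
  exact_mod_cast this

lemma tri (a b : EV n₁ × EV n₂) : ‖a‖ ≤ ‖a - b‖ + ‖b‖ := by
  have := norm_add_le (a - b) b
  rwa [sub_add_cancel] at this

lemma tri3 (a b c : EV n₁ × EV n₂) : ‖a - c‖ ≤ ‖a - b‖ + ‖b - c‖ := by
  have := norm_add_le (a - b) (b - c)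
  rwa [sub_add_sub_cancel] at this

lemma tri4 (a b c : EV n₁ × EV n₂) : ‖a - c‖ ≤ ‖a - b‖ + ‖c - b‖ := by
  have := norm_sub_le (a - b) (c - b)
  rwa [sub_sub_sub_cancel_right] at this

lemma nrev (a b : EV n₁ × EV n₂) : ‖a - b‖ = ‖b - a‖ := norm_sub_rev a b

/-- removable singularity: finite area near a puncture -/
theorem removable (K : KMet A) (hE : St_E0S K) {f : ℂ → X} {t₁ : ℂ} {r : ℝ} (hr : 0 < r)
    (hf : IsHolC A (ball t₁ r \ {t₁}) f)
    (hfin : ∫⁻ t in ball t₁ r, ENNReal.ofReal (densM K f t) < ⊤) :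
    ∃ (i : A.ι) (ρ : ℝ) (g : ℂ → EV n₁ × EV n₂), 0 < ρ ∧ ρ ≤ r ∧
      DifferentiableOn ℂ g (ball t₁ ρ) ∧ (∀ t ∈ ball t₁ ρ, ‖g t‖ < 1) ∧
      ∀ t ∈ ball t₁ ρ, t ≠ t₁ → f t ∈ (A.ch i).source ∧ A.ch i (f t) = g t := by
  classical
  set δ : ℝ := 1 / 1000 with hδ
  obtain ⟨ρ, hρ, hρr, hc⟩ := conf_of_area K hE hr hf hfin (δ := δ) (by norm_num [hδ])
  set s₁ : ℝ := ρ / 2 with hs₁
  have hs₁pos : 0 < s₁ := by positivity
  have hs₁ρ : s₁ < ρ := by rw [hs₁]; linarith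
  set z₁ : ℂ := t₁ + (s₁ : ℂ) with hz₁
  have hz₁n : ‖z₁ - t₁‖ = s₁ := by
    rw [hz₁, add_sub_cancel_left, Complex.norm_real, Real.norm_eq_abs, abs_of_pos hs₁pos]
  have hz₁ne : z₁ ≠ t₁ := by
    intro h
    rw [h, sub_self, norm_zero] at hz₁n
    exact hs₁pos.ne hz₁n
  set i := A.idx (f z₁) with hi
  have his : f z₁ ∈ (A.ch i).source := E0.idx_source A _
  have hin : ‖A.ch i (f z₁)‖ < 1 / 2 := E0.idx_norm A _
  set g₀ : ℂ → EV n₁ × EV n₂ := fun t => A.ch i (f t) with hg₀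
  have hana : ∀ t, t ≠ t₁ → ‖t - t₁‖ ≤ s₁ → f t ∈ (A.ch i).source → DifferentiableAt ℂ g₀ t := by
    intro t ht htn hts
    refine (E0.hol_chart hf ⟨?_, ht⟩ hts).differentiableAt
    rw [mem_ball, dist_eq_norm]
    linarith
  have hδ0 : (0 : ℝ) ≤ δ := by norm_num [hδ]
  -- mean over a circle whose image is in the chart
  have hcirc : ∀ w, w ≠ t₁ → ‖w - t₁‖ ≤ s₁ → f w ∈ (A.ch i).source → ‖g₀ w‖ + 8 * δ < 3 / 4 →
      (∀ w', ‖w' - t₁‖ = ‖w - t₁‖ → f w' ∈ (A.ch i).source ∧ ‖g₀ w' - g₀ w‖ ≤ 8 * δ) ∧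
      ‖mn g₀ t₁ ‖w - t₁‖ - g₀ w‖ ≤ 8 * δ := by
    intro w hw hws hwi hwn
    have h1 := circle_small hc hδ0 hw (lt_of_le_of_lt hws hs₁ρ) hwi hwn
    refine ⟨h1, mn_near (norm_pos_iff.2 (sub_ne_zero.2 hw)) ?_ ?_⟩
    · intro z hz
      have hz' : ‖z - t₁‖ = ‖w - t₁‖ := mem_sphere_iff_norm.1 hz
      refine (hana z ?_ (hz'.le.trans hws) (h1 z hz').1).continuousAt.continuousWithinAt
      intro h
      rw [h, sub_self, norm_zero] at hz'
      exact (norm_pos_iff.2 (sub_ne_zero.2 hw)).ne hz'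
    · intro z hz
      exact (h1 z (mem_sphere_iff_norm.1 hz)).2
  set c := mn g₀ t₁ s₁ with hcdef
  have hbase := hcirc z₁ hz₁ne hz₁n.le his (by simp only [hg₀, hδ]; linarith)
  rw [hz₁n, ← hcdef] at hbase
  have hcn : ‖c‖ < 1 / 2 + 8 * δ := by
    have h1 : ‖c‖ < 8 * δ + 1 / 2 :=
      lt_of_le_of_lt (tri c (g₀ z₁)) (add_lt_add_of_le_of_lt hbase.2 hin)
    linarith
  have claim : ∀ k : ℕ, ∀ w, s₁ * (2 / 3) ^ k ≤ ‖w - t₁‖ → ‖w - t₁‖ ≤ s₁ →
      f w ∈ (A.ch i).source ∧ ‖g₀ w - c‖ ≤ 16 * δ := by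
    intro k
    induction k with
    | zero =>
      intro w h1 h2
      have h3 : ‖w - t₁‖ = s₁ := le_antisymm h2 (by simpa using h1)
      obtain ⟨h4, h5⟩ := hbase.1 w h3
      refine ⟨h4, ?_⟩
      have h6 := tri4 (g₀ w) (g₀ z₁) c
      linarith [hbase.2]
    | succ k ih =>
      set s : ℝ := s₁ * (2 / 3) ^ k with hs
      have hspos : 0 < s := by positivity
      have hss₁ : s ≤ s₁ := by
        rw [hs]
        exact mul_le_of_le_one_right hs₁pos.le (pow_le_one₀ (by norm_num) (by norm_num))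
      have hpre : ∀ w, s * (2 / 3) ≤ ‖w - t₁‖ → ‖w - t₁‖ ≤ s₁ →
          f w ∈ (A.ch i).source ∧ ‖g₀ w - c‖ ≤ 17 * δ := by
        intro w h1 h2
        rcases le_or_gt s ‖w - t₁‖ with h3 | h3
        · obtain ⟨h4, h5⟩ := ih w h3 h2
          exact ⟨h4, h5.trans (by linarith)⟩
        · have hwpos : 0 < ‖w - t₁‖ := lt_of_lt_of_le (by positivity) h1
          set z : ℂ := t₁ + ((s / ‖w - t₁‖ : ℝ) : ℂ) * (w - t₁) with hz
          have hzn : ‖z - t₁‖ = s := by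
            rw [hz, add_sub_cancel_left, norm_mul, Complex.norm_real, Real.norm_eq_abs,
              abs_of_pos (by positivity), div_mul_cancel₀ _ hwpos.ne']
          have hzne : z ≠ t₁ := by
            intro h
            rw [h, sub_self, norm_zero] at hzn
            exact hspos.ne hzn
          have hwz : ‖w - z‖ < ‖z - t₁‖ / 2 := by
            have h4 : w - z = ((1 - s / ‖w - t₁‖ : ℝ) : ℂ) * (w - t₁) := by
              rw [hz]; push_cast; ring
            rw [h4, norm_mul, Complex.norm_real, Real.norm_eq_abs, hzn]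
            have h5 : |1 - s / ‖w - t₁‖| = s / ‖w - t₁‖ - 1 := by
              rw [abs_sub_comm, abs_of_nonneg]
              rw [sub_nonneg, le_div_iff₀ hwpos]
              linarith
            rw [h5, sub_mul, div_mul_cancel₀ _ hwpos.ne', one_mul]
            linarith
          obtain ⟨h4, h5⟩ := ih z hzn.ge (hzn.le.trans hss₁)
          have h6 : ‖g₀ z‖ < 3 / 4 := by
            have h7 := tri (g₀ z) c
            have h9 : (24 : ℝ) * δ < 1 / 4 := by norm_num [hδ]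
            have h10 : ‖g₀ z‖ ≤ 16 * δ + (1 / 2 + 8 * δ) := h7.trans (add_le_add h5 hcn.le)
            linarith
          obtain ⟨h7, h8⟩ := hc z hzne (by rw [hzn]; linarith) i h4 h6 w hwz
          refine ⟨h7, ?_⟩
          have h9 := tri3 (g₀ w) (g₀ z) c
          have h8' : ‖g₀ w - g₀ z‖ ≤ δ := h8
          linarith
      intro w h1 h2
      have h1' : s * (2 / 3) ≤ ‖w - t₁‖ := by
        rw [hs, mul_assoc, ← pow_succ]; exact h1
      have hwpos : 0 < ‖w - t₁‖ := lt_of_lt_of_le (by positivity) h1'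
      have hwne : w ≠ t₁ := sub_ne_zero.1 (norm_pos_iff.1 hwpos)
      obtain ⟨h3, h4⟩ := hpre w h1' h2
      have h5 : ‖g₀ w‖ + 8 * δ < 3 / 4 := by
        have h7 : ‖g₀ w‖ < 17 * δ + (1 / 2 + 8 * δ) :=
          lt_of_le_of_lt (tri (g₀ w) c) (add_lt_add_of_le_of_lt h4 hcn)
        have : (33 : ℝ) * δ < 1 / 4 := by norm_num [hδ]
        linarith
      have h6 := (hcirc w hwne h2 h3 h5).2
      have h7 : mn g₀ t₁ s₁ = mn g₀ t₁ ‖w - t₁‖ := by
        refine mn_eq hwpos h2 fun z hz1 hz2 => ?_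
        refine hana z ?_ hz2 (hpre z (h1'.trans hz1) hz2).1
        intro h
        rw [h, sub_self, norm_zero] at hz1
        linarith
      rw [← h7, ← hcdef, nrev] at h6
      exact ⟨h3, h6.trans (by linarith)⟩
  have hall : ∀ w, w ≠ t₁ → ‖w - t₁‖ ≤ s₁ → f w ∈ (A.ch i).source ∧ ‖g₀ w‖ ≤ 3 / 4 := by
    intro w hw h1
    have hwpos : 0 < ‖w - t₁‖ := norm_pos_iff.2 (sub_ne_zero.2 hw)
    obtain ⟨k, hk⟩ := exists_pow_lt_of_lt_one (show 0 < ‖w - t₁‖ / s₁ by positivity)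
      (show (2 / 3 : ℝ) < 1 by norm_num)
    have h2 : s₁ * (2 / 3) ^ k ≤ ‖w - t₁‖ := by
      rw [lt_div_iff₀ hs₁pos] at hk
      linarith
    obtain ⟨h3, h4⟩ := claim k w h2 h1
    refine ⟨h3, ?_⟩
    have h7 : ‖g₀ w‖ < 16 * δ + (1 / 2 + 8 * δ) :=
      lt_of_le_of_lt (tri (g₀ w) c) (add_lt_add_of_le_of_lt h4 hcn)
    have : (24 : ℝ) * δ < 1 / 4 := by norm_num [hδ]
    linarith
  set g : ℂ → EV n₁ × EV n₂ := Function.update g₀ t₁ (limUnder (𝓝[≠] t₁) g₀) with hg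
  have hball : ball t₁ s₁ ∈ 𝓝 t₁ := ball_mem_nhds t₁ hs₁pos
  have hgd : DifferentiableOn ℂ g (ball t₁ s₁) := by
    refine Complex.differentiableOn_update_limUnder_of_bddAbove hball ?_ ?_
    · rintro t ⟨h1, h2⟩
      rw [mem_ball, dist_eq_norm] at h1
      exact (hana t h2 h1.le (hall t h2 h1.le).1).differentiableWithinAt
    · refine ⟨3 / 4, ?_⟩
      rintro _ ⟨t, ⟨h1, h2⟩, rfl⟩
      rw [mem_ball, dist_eq_norm] at h1
      exact (hall t h2 h1.le).2
  have hge : ∀ t, t ≠ t₁ → g t = g₀ t := fun t ht => Function.update_of_ne ht _ _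
  refine ⟨i, s₁, g, hs₁pos, by linarith, hgd, ?_, ?_⟩
  · intro t ht
    by_cases h : t = t₁
    · subst h
      have h1 : ContinuousAt g t := (hgd.differentiableAt hball).continuousAt
      have h2 : Tendsto (fun w => ‖g w‖) (𝓝[≠] t) (𝓝 ‖g t‖) :=
        (h1.tendsto.mono_left nhdsWithin_le_nhds).norm
      have h3 : ∀ᶠ w in 𝓝[≠] t, ‖g w‖ ≤ 3 / 4 := by
        filter_upwards [self_mem_nhdsWithin, nhdsWithin_le_nhds hball] with w hw1 hw2
        rw [mem_ball, dist_eq_norm] at hw2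
        rw [hge w hw1]
        exact (hall w hw1 hw2.le).2
      have h4 := le_of_tendsto h2 h3
      linarith
    · rw [mem_ball, dist_eq_norm] at ht
      rw [hge t h]
      have := (hall t h ht.le).2
      linarith
  · intro t ht h
    rw [mem_ball, dist_eq_norm] at ht
    exact ⟨(hall t h ht.le).1, (hge t h).symm⟩

end
end Punct

section
variable {n₁ n₂ : ℕ} {X : Type} [TopologicalSpace X] {A : PFol n₁ n₂ X}

theorem punct_of (K : KMet A) (hE : St_E0S K) : St_punct K := by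
  intro Ω G H t₁ r hr hΩ hG hH hd hin hfin
  have hHd : DifferentiableOn ℂ H (ball t₁ r) := fun t ht =>
    (hH t ht).differentiableAt.differentiableWithinAt
  set f : ℂ → X := fun t => G (pt t (H t)) with hf
  have hopen : IsOpen (ball t₁ r \ {t₁}) := isOpen_ball.sdiff isClosed_singleton
  have hfh : IsHolC A (ball t₁ r \ {t₁}) f :=
    E0.hol_curve hG hopen (hHd.mono sdiff_subset) fun t ht => hin t ht.1 ht.2
  have hdens : ∀ t ∈ ball t₁ r, t ≠ t₁ → densM K f t ≤ 2 * trM K G (pt t (H t)) := by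
    intro t ht hne
    refine E0.dens_curve_le K hG (hH t ht).differentiableAt (hd t ht) (hin t ht hne) ?_
    exact (PCAt.analyticAt_ch (hG _ (hin t ht hne)) (E0.idx_source A _)).differentiableAt
  have hfin' : ∫⁻ t in ball t₁ r, ENNReal.ofReal (densM K f t) < ⊤ := by
    have h1 : ∫⁻ t in ball t₁ r, ENNReal.ofReal (densM K f t)
        ≤ ∫⁻ t in ball t₁ r, ENNReal.ofReal 2 * ENNReal.ofReal (trM K G (pt t (H t))) := by
      refine lintegral_mono_ae ?_
      have hae : ∀ᵐ t : ℂ, t ≠ t₁ := by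
        rw [ae_iff]
        simp
      filter_upwards [ae_restrict_of_ae hae, ae_restrict_mem measurableSet_ball] with t h1 h2
      rw [← ENNReal.ofReal_mul (by norm_num)]
      exact ENNReal.ofReal_le_ofReal (hdens t h2 h1)
    refine lt_of_le_of_lt h1 ?_
    rw [lintegral_const_mul' _ _ ENNReal.ofReal_ne_top]
    exact ENNReal.mul_lt_top ENNReal.ofReal_lt_top hfin
  obtain ⟨i, ρ, g, hρ, hρr, hgd, hg1, hgi⟩ := Punct.removable K hE hr hfh hfin'
  have hsub : ball t₁ ρ ⊆ ball t₁ r := ball_subset_ball hρr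
  obtain ⟨U₁, U₂, G', hU₁, hU₂, -, -, hball, hG', hagree⟩ := product_extension_punct
    (chart_holds A) hG hρ (hHd.mono hsub) (fun t ht => hd t (hsub ht))
    (D' := ball t₁ ρ \ {t₁}) (isOpen_ball.sdiff isClosed_singleton) sdiff_subset
    (fun t ht => hin t (hsub ht.1) ht.2) i hgd
    (fun t ht => (E0.mem_target_iff A i _).2 (hg1 t ht)) (fun t ht => hgi t ht.1 ht.2)
  refine ⟨ρ / 16, by positivity, G', fun z hz => hG' z (hball hz), ?_⟩
  filter_upwards [self_mem_nhdsWithin, nhdsWithin_le_nhds (ball_mem_nhds t₁ hρ)] with t h1 h2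
  exact hagree t ⟨h2, h1⟩

theorem punct_holds [T2Space X] [Finite A.ι] (K : KMet A) : St_punct K :=
  punct_of K (E0.E0S_holds K)

end

end Crest.Agent.R266
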