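import Crest.Agent.R266.Core405
import Crest.Agent.R266.NC
import Crest.Agent.R266.Punct

/-!
R266 / Core405B (helper266): the analytic core of S0405, unconditional.
-/

set_option autoImplicit false

namespace Crest.Agent.R266

/-- `X` Hausdorff with a finite product-foliated atlas with Kähler metric: rectangles exist. -/
theorem completeness_core {n₁ n₂ : ℕ} {X : Type} [TopologicalSpace X] [T2Space X]
    {A : PFol n₁ n₂ X} [Finite A.ι] (K : KMet A) : Completeness A :=
  completeness_core_of K (punct_holds K)
    (fun _ _ hP hS _ hC hmax hD => NC_holds K hP hS hC hmax hD)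

end Crest.Agent.R266
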