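import Crest.Agent.R266.GlobDefs
import Crest.Prelude.Def_TangentSplitting

/-!
R266 / GFinal: the abstract product structure (`ProdStr`) gives `HasCompatibleProductCover`.
-/

set_option autoImplicit false

open scoped Manifold ContDiff Topology
open Set Metric Filter
open Crest.AlgGeometry.HolSplit

namespace Crest.Agent.R266

/-- the charts of a product-foliated atlas on `X'` are holomorphic charts of the complex manifold
`X'`, compatible with the lift of the splitting `S` of the tangent bundle of `X` -/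
structure CompatAtlas {n n₁ n₂ : ℕ} {X : Type} [TopologicalSpace X] [ChartedSpace (Model n) X]
    [IsManifold (mI n) ω X] (S : Splitting n X) {X' : Type} [TopologicalSpace X']
    [ChartedSpace (Model n) X'] [IsManifold (mI n) ω X'] (π : X' → X) (A' : PFol n₁ n₂ X') :
    Prop where
  hol : ∀ i, ContMDiffOn (mI n) 𝓘(ℂ, EV n₁ × EV n₂) ω (A'.ch i) (A'.ch i).source
  symm : ∀ i, ContMDiffOn 𝓘(ℂ, EV n₁ × EV n₂) (mI n) ω (A'.ch i).symm (A'.ch i).target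
  tan1 : ∀ i, ∀ x ∈ (A'.ch i).source, ∀ v : TangentSpace (mI n) x,
    S.proj (π x) (mfderiv (mI n) (mI n) π x v) = mfderiv (mI n) (mI n) π x v →
      (mfderiv (mI n) 𝓘(ℂ, EV n₁ × EV n₂) (A'.ch i) x v : EV n₁ × EV n₂).2 = 0
  tan2 : ∀ i, ∀ x ∈ (A'.ch i).source, ∀ v : TangentSpace (mI n) x,
    S.proj (π x) (mfderiv (mI n) (mI n) π x v) = 0 →
      (mfderiv (mI n) 𝓘(ℂ, EV n₁ × EV n₂) (A'.ch i) x v : EV n₁ × EV n₂).1 = 0

theorem compatible_of_prodStr {n n₁ n₂ : ℕ} {X : Type} [TopologicalSpace X]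
    [ChartedSpace (Model n) X] [IsManifold (mI n) ω X] (S : Splitting n X) (X' : Type)
    [TopologicalSpace X'] [ChartedSpace (Model n) X'] [IsManifold (mI n) ω X'] (π : X' → X)
    (A' : PFol n₁ n₂ X') (hA : CompatAtlas S π A')
    (Y₁ Y₂ : Type) [TopologicalSpace Y₁] [TopologicalSpace Y₂] [ChartedSpace (EV n₁) Y₁]
    [ChartedSpace (EV n₂) Y₂] [IsManifold 𝓘(ℂ, EV n₁) ω Y₁] [IsManifold 𝓘(ℂ, EV n₂) ω Y₂]
    (hc₁ : ConnectedSpace Y₁) (hc₂ : ConnectedSpace Y₂) (hs₁ : SimplyConnectedSpace Y₁)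
    (hs₂ : SimplyConnectedSpace Y₂) (Φ : X' → Y₁ × Y₂) (Ψ : Y₁ × Y₂ → X')
    (hP : ProdStr A' Y₁ Y₂ Φ Ψ) : HasCompatibleProductCover S X' π := by
  have key : ∀ x : X', ∃ i, x ∈ (A'.ch i).source ∧ ∃ (F₁ : X' → Y₁) (F₂ : X' → Y₂),
      (Φ =ᶠ[𝓝 x] fun p => (F₁ p, F₂ p)) ∧
      ContMDiffAt (mI n) (mI n₁) ω F₁ x ∧ ContMDiffAt (mI n) (mI n₂) ω F₂ x ∧
      (∀ v : TangentSpace (mI n) x,
        (mfderiv (mI n) 𝓘(ℂ, EV n₁ × EV n₂) (A'.ch i) x v : EV n₁ × EV n₂).1 = 0 →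
          mfderiv (mI n) (mI n₁) F₁ x v = 0) ∧
      (∀ v : TangentSpace (mI n) x,
        (mfderiv (mI n) 𝓘(ℂ, EV n₁ × EV n₂) (A'.ch i) x v : EV n₁ × EV n₂).2 = 0 →
          mfderiv (mI n) (mI n₂) F₂ x v = 0) := by
    intro x
    obtain ⟨i, hi, -⟩ := A'.cover x
    obtain ⟨φ, ψ, hφ, hψ, hΦ⟩ := hP.loc x i hi
    have hch : ContMDiffAt (mI n) 𝓘(ℂ, EV n₁ × EV n₂) ω (A'.ch i) x :=
      (hA.hol i).contMDiffAt ((A'.ch i).open_source.mem_nhds hi)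
    have h1 : ContMDiffAt (mI n) 𝓘(ℂ, EV n₁) ω (fun p => (A'.ch i p).1) x :=
      (contDiff_fst.contMDiff.contMDiffAt (x := A'.ch i x)).comp x hch
    have h2 : ContMDiffAt (mI n) 𝓘(ℂ, EV n₂) ω (fun p => (A'.ch i p).2) x :=
      (contDiff_snd.contMDiff.contMDiffAt (x := A'.ch i x)).comp x hch
    have hd := (hch.mdifferentiableAt (by simp)).hasMFDerivAt
    have e1 : HasMFDerivAt (mI n) 𝓘(ℂ, EV n₁) (fun p => (A'.ch i p).1) x
        ((ContinuousLinearMap.fst ℂ (EV n₁) (EV n₂)).comp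
          (mfderiv (mI n) 𝓘(ℂ, EV n₁ × EV n₂) (A'.ch i) x)) :=
      HasMFDerivAt.comp x
        ((ContinuousLinearMap.fst ℂ (EV n₁) (EV n₂)).hasFDerivAt.hasMFDerivAt) hd
    have e2 : HasMFDerivAt (mI n) 𝓘(ℂ, EV n₂) (fun p => (A'.ch i p).2) x
        ((ContinuousLinearMap.snd ℂ (EV n₁) (EV n₂)).comp
          (mfderiv (mI n) 𝓘(ℂ, EV n₁ × EV n₂) (A'.ch i) x)) :=
      HasMFDerivAt.comp x
        ((ContinuousLinearMap.snd ℂ (EV n₁) (EV n₂)).hasFDerivAt.hasMFDerivAt) hd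
    have f1 := HasMFDerivAt.comp x (hφ.mdifferentiableAt (by simp)).hasMFDerivAt e1
    have f2 := HasMFDerivAt.comp x (hψ.mdifferentiableAt (by simp)).hasMFDerivAt e2
    refine ⟨i, hi, fun p => φ (A'.ch i p).1, fun p => ψ (A'.ch i p).2, hΦ,
      ContMDiffAt.comp x hφ h1, ContMDiffAt.comp x hψ h2, ?_, ?_⟩
    · intro v hv
      have := congrArg (fun L => L v) f1.mfderiv
      refine this.trans ?_
      change (mfderiv 𝓘(ℂ, EV n₁) (mI n₁) φ (A'.ch i x).1)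
        ((mfderiv (mI n) 𝓘(ℂ, EV n₁ × EV n₂) (A'.ch i) x v : EV n₁ × EV n₂).1) = 0
      rw [hv]
      exact map_zero _
    · intro v hv
      have := congrArg (fun L => L v) f2.mfderiv
      refine this.trans ?_
      change (mfderiv 𝓘(ℂ, EV n₂) (mI n₂) ψ (A'.ch i x).2)
        ((mfderiv (mI n) 𝓘(ℂ, EV n₁ × EV n₂) (A'.ch i) x v : EV n₁ × EV n₂).2) = 0
      rw [hv]
      exact map_zero _
  refine ⟨n₁, n₂, Y₁, Y₂, inferInstance, inferInstance, inferInstance, inferInstance,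
    inferInstance, inferInstance, hc₁, hc₂, hs₁, hs₂, Φ, Ψ, hP.left, hP.right, ?_, ?_, ?_⟩
  · intro x
    obtain ⟨i, hi, F₁, F₂, hΦ, h1, h2, -, -⟩ := key x
    exact (h1.prodMk h2).congr_of_eventuallyEq hΦ
  · intro q
    obtain ⟨i, hi, -⟩ := A'.cover (Ψ q)
    obtain ⟨φ, ψ, hφ, hψ, hΨ⟩ := hP.loc' q i hi
    have h1 : ContMDiffAt ((mI n₁).prod (mI n₂)) 𝓘(ℂ, EV n₁) ω (fun q' : Y₁ × Y₂ => φ q'.1) q :=
      ContMDiffAt.comp q hφ contMDiffAt_fst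
    have h2 : ContMDiffAt ((mI n₁).prod (mI n₂)) 𝓘(ℂ, EV n₂) ω (fun q' : Y₁ × Y₂ => ψ q'.2) q :=
      ContMDiffAt.comp q hψ contMDiffAt_snd
    have h3 : ContMDiffAt ((mI n₁).prod (mI n₂)) 𝓘(ℂ, EV n₁ × EV n₂) ω
        (fun q' : Y₁ × Y₂ => (φ q'.1, ψ q'.2)) q := h1.prodMk_space h2
    have hq : A'.ch i (Ψ q) = (φ q.1, ψ q.2) := hΨ.self_of_nhds.2
    have hm : (φ q.1, ψ q.2) ∈ (A'.ch i).target := hq ▸ (A'.ch i).map_source hi
    have h4 : ContMDiffAt 𝓘(ℂ, EV n₁ × EV n₂) (mI n) ω (A'.ch i).symm (φ q.1, ψ q.2) :=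
      (hA.symm i).contMDiffAt ((A'.ch i).open_target.mem_nhds hm)
    refine (ContMDiffAt.comp q h4 h3).congr_of_eventuallyEq ?_
    filter_upwards [hΨ] with q' hq'
    rw [← (A'.ch i).left_inv hq'.1, hq'.2]
    rfl
  · intro p v
    obtain ⟨i, hi, F₁, F₂, hΦ, h1, h2, d1, d2⟩ := key p
    have hm := mfderiv_prodMk (h1.mdifferentiableAt (by simp)) (h2.mdifferentiableAt (by simp))
    have he : mfderiv (mI n) ((mI n₁).prod (mI n₂)) Φ p v
        = (mfderiv (mI n) (mI n₁) F₁ p v, mfderiv (mI n) (mI n₂) F₂ p v) := by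
      rw [hΦ.mfderiv_eq, hm]
      rfl
    rw [he]
    exact ⟨fun h => d2 v (hA.tan1 i p hi v h), fun h => d1 v (hA.tan2 i p hi v h)⟩

end Crest.Agent.R266
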