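import Crest.Agent.R266.Cover
import Crest.Agent.R266.GFinal
import Crest.Prelude.Def_TangentSplitting

/-!
R266 / CovAdapt (helper926): charts of the covering atlas are holomorphic and adapted.
-/

set_option autoImplicit false

open scoped Manifold ContDiff Topology
open Set Metric Filter
open Crest.AlgGeometry.HolSplit

namespace Crest.Agent.R266

/-- all charts of the product-foliated atlas are biholomorphic -/
structure HolAtl (n : ℕ) {n₁ n₂ : ℕ} {X : Type} [TopologicalSpace X] [ChartedSpace (Model n) X]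
    (A : PFol n₁ n₂ X) : Prop where
  hol : ∀ i, ContMDiffOn (mI n) 𝓘(ℂ, EV n₁ × EV n₂) ω (A.ch i) (A.ch i).source
  hol_symm : ∀ i, ContMDiffOn 𝓘(ℂ, EV n₁ × EV n₂) (mI n) ω (A.ch i).symm (A.ch i).target

namespace CovA

/-- analytic inverse function theorem for an open partial homeomorphism from a manifold to a
normed space -/
theorem symm_contMDiffAt {n : ℕ} {X : Type} [TopologicalSpace X] [ChartedSpace (Model n) X]
    [IsManifold (mI n) ω X] {E : Type} [NormedAddCommGroup E] [NormedSpace ℂ E] [CompleteSpace E]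
    (e : OpenPartialHomeomorph X E) {x : X} (hx : x ∈ e.source)
    (h : ContMDiffAt (mI n) 𝓘(ℂ, E) ω e x)
    (hb : Function.Bijective (mfderiv (mI n) 𝓘(ℂ, E) e x)) :
    ContMDiffAt 𝓘(ℂ, E) (mI n) ω e.symm (e x) := by
  set φ := chartAt (Model n) x with hφ
  have hxφ : x ∈ φ.source := mem_chart_source _ _
  set f := φ.symm.trans e with hf
  have hfs : φ x ∈ f.source := by
    rw [hf, OpenPartialHomeomorph.trans_source]
    refine ⟨φ.map_source hxφ, ?_⟩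
    show φ.symm (φ x) ∈ e.source
    rw [φ.left_inv hxφ]
    exact hx
  have hfx : f (φ x) = e x := by
    show e (φ.symm (φ x)) = e x
    rw [φ.left_inv hxφ]
  have hφs : ContMDiffAt (mI n) (mI n) ω φ.symm (φ x) :=
    contMDiffAt_symm_of_mem_maximalAtlas (IsManifold.chart_mem_maximalAtlas x) (φ.map_source hxφ)
  have h' : ContMDiffAt (mI n) 𝓘(ℂ, E) ω e (φ.symm (φ x)) := by
    rw [φ.left_inv hxφ]; exact h
  have hfc : ContDiffAt ℂ ω f (φ x) := by
    have := ContMDiffAt.comp (φ x) h' hφs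
    exact contMDiffAt_iff_contDiffAt.1 this
  -- derivative is bijective
  have hone : (ω : ℕ∞ω) ≠ 0 := by simp
  have hφd : MDifferentiableAt (mI n) (mI n) φ.symm (φ x) := hφs.mdifferentiableAt hone
  have hed : MDifferentiableAt (mI n) 𝓘(ℂ, E) e (φ.symm (φ x)) := h'.mdifferentiableAt hone
  have hcomp : fderiv ℂ f (φ x) = (mfderiv (mI n) 𝓘(ℂ, E) e (φ.symm (φ x))).comp
      (mfderiv (mI n) (mI n) φ.symm (φ x)) := by
    have h1 := mfderiv_comp (φ x) hed hφd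
    rw [← h1, ← mfderiv_eq_fderiv]
    rfl
  have hφb : Function.Bijective (mfderiv (mI n) (mI n) φ.symm (φ x)) := by
    have := (mdifferentiable_of_mem_atlas (I := mI n) (chart_mem_atlas (Model n) x)
      : φ.MDifferentiable (mI n) (mI n))
    exact (this.symm.mfderiv_bijective (φ.map_source hxφ))
  have hb' : Function.Bijective (mfderiv (mI n) 𝓘(ℂ, E) e (φ.symm (φ x))) := by
    rw [φ.left_inv hxφ]; exact hb
  have hfb : Function.Bijective (fderiv ℂ f (φ x)) := by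
    rw [hcomp]
    exact hb'.comp hφb
  let L : Model n ≃L[ℂ] E := ContinuousLinearEquiv.ofBijective (fderiv ℂ f (φ x))
    (LinearMap.ker_eq_bot.2 hfb.1) (LinearMap.range_eq_top.2 hfb.2)
  have hfd : HasFDerivAt f (L : Model n →L[ℂ] E) (f.symm (e x)) := by
    have h3 : f.symm (e x) = φ x := by
      rw [← hfx]; exact f.left_inv hfs
    rw [h3]
    exact (hfc.differentiableAt (by simp)).hasFDerivAt
  have hfsymm : ContDiffAt ℂ ω f.symm (e x) := by
    refine f.contDiffAt_symm (by rw [← hfx]; exact f.map_source hfs) hfd ?_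
    have h3 : f.symm (e x) = φ x := by
      rw [← hfx]; exact f.left_inv hfs
    rw [h3]
    exact hfc
  have h4 : ContMDiffAt 𝓘(ℂ, E) (mI n) ω (fun p => φ.symm (f.symm p)) (e x) := by
    have h3 : f.symm (e x) = φ x := by
      rw [← hfx]; exact f.left_inv hfs
    refine ContMDiffAt.comp (e x) (g := φ.symm) (f := f.symm) ?_ hfsymm.contMDiffAt
    rw [h3]
    exact hφs
  refine h4.congr_of_eventuallyEq ?_
  have hc : ContinuousAt e.symm (e x) := e.continuousAt_symm (e.map_source hx)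
  have h5 : ∀ᶠ p in 𝓝 (e x), e.symm p ∈ φ.source := by
    refine hc.eventually (φ.open_source.mem_nhds ?_)
    rw [e.left_inv hx]
    exact hxφ
  filter_upwards [h5] with p hp
  show e.symm p = φ.symm (φ (e.symm p))
  rw [φ.left_inv hp]

end CovA

section

variable {n n₁ n₂ : ℕ} {X X' : Type} [TopologicalSpace X] [ChartedSpace (Model n) X]
  [IsManifold (mI n) ω X] [TopologicalSpace X'] [ChartedSpace (Model n) X']
  [IsManifold (mI n) ω X']

/-- the charts of the covering atlas in terms of the charts of the base -/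
theorem coverChart_eq {A : PFol n₁ n₂ X} {A' : PFol n₁ n₂ X'} {π : X' → X}
    (hC : CoverChart A A' π) (i' : A'.ι) : ∃ (i : A.ι) (c : EV n₁ × EV n₂) (r : ℝ), 0 < r ∧
      ∀ x' ∈ (A'.ch i').source, π x' ∈ (A.ch i).source ∧
        A'.ch i' x' = (r : ℂ)⁻¹ • (A.ch i (π x') - c) := by
  obtain ⟨i, c, r, hr, h⟩ := hC i'
  refine ⟨i, c, r, hr, fun x' hx' => ⟨(h x' hx').1, ?_⟩⟩
  have hr' : (r : ℂ) ≠ 0 := by exact_mod_cast hr.ne'
  rw [(h x' hx').2, add_sub_cancel_left, inv_smul_smul₀ hr']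

/-- derivative of a covering chart -/
theorem coverChart_mfderiv {A : PFol n₁ n₂ X} {A' : PFol n₁ n₂ X'} {π : X' → X}
    (hA : HolAtl n A) (hπ : ContMDiff (mI n) (mI n) ω π) (hC : CoverChart A A' π) (i' : A'.ι) :
    ∃ (i : A.ι) (r : ℝ), 0 < r ∧ ∀ x' ∈ (A'.ch i').source, π x' ∈ (A.ch i).source ∧
      ContMDiffAt (mI n) 𝓘(ℂ, EV n₁ × EV n₂) ω (A'.ch i') x' ∧
      mfderiv (mI n) 𝓘(ℂ, EV n₁ × EV n₂) (A'.ch i') x' =
        (r : ℂ)⁻¹ • (mfderiv (mI n) 𝓘(ℂ, EV n₁ × EV n₂) (A.ch i) (π x')).comp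
          (mfderiv (mI n) (mI n) π x') := by
  obtain ⟨i, c, r, hr, h⟩ := coverChart_eq hC i'
  refine ⟨i, r, hr, fun x' hx' => ⟨(h x' hx').1, ?_⟩⟩
  have hone : (ω : ℕ∞ω) ≠ 0 := by simp
  have h1 : ContMDiffAt (mI n) 𝓘(ℂ, EV n₁ × EV n₂) ω (A.ch i) (π x') :=
    (hA.hol i).contMDiffAt ((A.ch i).open_source.mem_nhds (h x' hx').1)
  have h2 : ContMDiffAt (mI n) 𝓘(ℂ, EV n₁ × EV n₂) ω (fun y => A.ch i (π y)) x' :=
    ContMDiffAt.comp x' h1 hπ.contMDiffAt
  have hev : A'.ch i' =ᶠ[𝓝 x'] fun y => (r : ℂ)⁻¹ • (A.ch i (π y) - c) := by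
    filter_upwards [(A'.ch i').open_source.mem_nhds hx'] with y hy
    exact (h y hy).2
  let T : EV n₁ × EV n₂ → EV n₁ × EV n₂ := fun p => (r : ℂ)⁻¹ • (p - c)
  have hT : ContDiff ℂ ω T := by
    show ContDiff ℂ ω (fun p => (r : ℂ)⁻¹ • (p - c))
    fun_prop
  have hTm : ContMDiffAt 𝓘(ℂ, EV n₁ × EV n₂) 𝓘(ℂ, EV n₁ × EV n₂) ω T (A.ch i (π x')) :=
    hT.contDiffAt.contMDiffAt
  have h3 : ContMDiffAt (mI n) 𝓘(ℂ, EV n₁ × EV n₂) ω (fun y => T (A.ch i (π y))) x' :=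
    ContMDiffAt.comp (g := T) (f := fun y => A.ch i (π y)) x' hTm h2
  refine ⟨h3.congr_of_eventuallyEq hev, ?_⟩
  rw [hev.mfderiv_eq]
  have h4 : mfderiv (mI n) 𝓘(ℂ, EV n₁ × EV n₂) (fun y => T (A.ch i (π y))) x' =
      (mfderiv 𝓘(ℂ, EV n₁ × EV n₂) 𝓘(ℂ, EV n₁ × EV n₂) T (A.ch i (π x'))).comp
        (mfderiv (mI n) 𝓘(ℂ, EV n₁ × EV n₂) (fun y => A.ch i (π y)) x') :=
    mfderiv_comp x' (hTm.mdifferentiableAt hone) (h2.mdifferentiableAt hone)
  have h5 : mfderiv (mI n) 𝓘(ℂ, EV n₁ × EV n₂) (fun y => A.ch i (π y)) x' =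
      (mfderiv (mI n) 𝓘(ℂ, EV n₁ × EV n₂) (A.ch i) (π x')).comp (mfderiv (mI n) (mI n) π x') :=
    mfderiv_comp x' (h1.mdifferentiableAt hone) (hπ.contMDiffAt.mdifferentiableAt hone)
  have h6 : mfderiv 𝓘(ℂ, EV n₁ × EV n₂) 𝓘(ℂ, EV n₁ × EV n₂) T (A.ch i (π x')) =
      (r : ℂ)⁻¹ • ContinuousLinearMap.id ℂ (EV n₁ × EV n₂) := by
    rw [mfderiv_eq_fderiv]
    have : HasFDerivAt T ((r : ℂ)⁻¹ • ContinuousLinearMap.id ℂ (EV n₁ × EV n₂))
        (A.ch i (π x')) := by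
      have h0 : HasFDerivAt (fun p : EV n₁ × EV n₂ => p - c)
          (ContinuousLinearMap.id ℂ (EV n₁ × EV n₂)) (A.ch i (π x')) :=
        (hasFDerivAt_id _).sub_const c
      exact h0.const_smul ((r : ℂ)⁻¹)
    exact this.fderiv
  show mfderiv (mI n) 𝓘(ℂ, EV n₁ × EV n₂) (fun y => T (A.ch i (π y))) x' = _
  rw [h4, h5, h6]
  rfl

/-- the covering atlas is holomorphic and adapted -/
theorem cover_adapted {A : PFol n₁ n₂ X} {A' : PFol n₁ n₂ X'} {π : X' → X}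
    (S : Splitting n X) (hA : HolAtl n A)
    (hT : ∀ i, ∀ x ∈ (A.ch i).source, ∀ v : TangentSpace (mI n) x,
      (S.proj x v = v → (mfderiv (mI n) 𝓘(ℂ, EV n₁ × EV n₂) (A.ch i) x v).2 = 0) ∧
      (S.proj x v = 0 → (mfderiv (mI n) 𝓘(ℂ, EV n₁ × EV n₂) (A.ch i) x v).1 = 0))
    (hπ : ContMDiff (mI n) (mI n) ω π)
    (hdπ : ∀ p : X', Function.Bijective (mfderiv (mI n) (mI n) π p))
    (hC : CoverChart A A' π) :
    HolAtl n A' ∧ ∀ i', ∀ x' ∈ (A'.ch i').source, ∀ v : TangentSpace (mI n) x',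
      (S.proj (π x') (mfderiv (mI n) (mI n) π x' v) = mfderiv (mI n) (mI n) π x' v →
        (mfderiv (mI n) 𝓘(ℂ, EV n₁ × EV n₂) (A'.ch i') x' v).2 = 0) ∧
      (S.proj (π x') (mfderiv (mI n) (mI n) π x' v) = 0 →
        (mfderiv (mI n) 𝓘(ℂ, EV n₁ × EV n₂) (A'.ch i') x' v).1 = 0) := by
  have hone : (ω : ℕ∞ω) ≠ 0 := by simp
  refine ⟨⟨?_, ?_⟩, ?_⟩
  · intro i' x' hx'
    obtain ⟨i, r, hr, h⟩ := coverChart_mfderiv hA hπ hC i'
    exact (h x' hx').2.1.contMDiffWithinAt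
  · intro i' p hp
    obtain ⟨i, r, hr, h⟩ := coverChart_mfderiv hA hπ hC i'
    set x' := (A'.ch i').symm p with hx'
    have hxs : x' ∈ (A'.ch i').source := (A'.ch i').map_target hp
    obtain ⟨h1, h2, h3⟩ := h x' hxs
    have hr' : (r : ℂ)⁻¹ ≠ 0 := inv_ne_zero (by exact_mod_cast hr.ne')
    -- derivative of the base chart is bijective
    have hAb : Function.Bijective (mfderiv (mI n) 𝓘(ℂ, EV n₁ × EV n₂) (A.ch i) (π x')) := by
      have hd : (A.ch i).MDifferentiable (mI n) 𝓘(ℂ, EV n₁ × EV n₂) :=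
        ⟨(hA.hol i).mdifferentiableOn hone, (hA.hol_symm i).mdifferentiableOn hone⟩
      exact hd.mfderiv_bijective h1
    have hb : Function.Bijective (mfderiv (mI n) 𝓘(ℂ, EV n₁ × EV n₂) (A'.ch i') x') := by
      rw [h3]
      have hs : Function.Bijective (fun w : EV n₁ × EV n₂ => (r : ℂ)⁻¹ • w) :=
        ⟨smul_right_injective _ hr', fun w => ⟨(r : ℂ) • w, by
          show (r : ℂ)⁻¹ • ((r : ℂ) • w) = w
          rw [smul_smul, inv_mul_cancel₀ (by exact_mod_cast hr.ne'), one_smul]⟩⟩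
      exact hs.comp (hAb.comp (hdπ x'))
    have h4 := CovA.symm_contMDiffAt (A'.ch i') hxs h2 hb
    rw [(A'.ch i').right_inv hp] at h4
    exact h4.contMDiffWithinAt
  · intro i' x' hx' v
    obtain ⟨i, r, hr, h⟩ := coverChart_mfderiv hA hπ hC i'
    obtain ⟨h1, h2, h3⟩ := h x' hx'
    have h5 : mfderiv (mI n) 𝓘(ℂ, EV n₁ × EV n₂) (A'.ch i') x' v =
        (r : ℂ)⁻¹ • (mfderiv (mI n) 𝓘(ℂ, EV n₁ × EV n₂) (A.ch i) (π x')
          (mfderiv (mI n) (mI n) π x' v)) := by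
      rw [h3]; rfl
    have hT' := hT i (π x') h1 (mfderiv (mI n) (mI n) π x' v)
    refine ⟨fun hv => ?_, fun hv => ?_⟩
    · have := hT'.1 hv
      rw [h5]
      show (r : ℂ)⁻¹ • _ = _
      rw [this, smul_zero]
    · have := hT'.2 hv
      rw [h5]
      show (r : ℂ)⁻¹ • _ = _
      rw [this, smul_zero]

/-- output in the form used by `compatible_of_prodStr` -/
theorem compatAtlas_cover {A : PFol n₁ n₂ X} {A' : PFol n₁ n₂ X'} {π : X' → X}
    (S : Splitting n X) (hA : HolAtl n A)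
    (hT : ∀ i, ∀ x ∈ (A.ch i).source, ∀ v : TangentSpace (mI n) x,
      (S.proj x v = v → (mfderiv (mI n) 𝓘(ℂ, EV n₁ × EV n₂) (A.ch i) x v).2 = 0) ∧
      (S.proj x v = 0 → (mfderiv (mI n) 𝓘(ℂ, EV n₁ × EV n₂) (A.ch i) x v).1 = 0))
    (hπ : ContMDiff (mI n) (mI n) ω π)
    (hdπ : ∀ p : X', Function.Bijective (mfderiv (mI n) (mI n) π p))
    (hC : CoverChart A A' π) : CompatAtlas S π A' := by
  obtain ⟨h1, h2⟩ := cover_adapted S hA hT hπ hdπ hC
  exact ⟨h1.hol, h1.hol_symm, fun i x hx v => (h2 i x hx v).1, fun i x hx v => (h2 i x hx v).2⟩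

end

end Crest.Agent.R266
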