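import Crest.Agent.R266.Stmts

/-!
R266 / Cover (node G8): a product-foliated atlas lifts along a covering map, and completeness
lifts as well.
-/

set_option autoImplicit false

open scoped Manifold ContDiff Topology
open Set Metric Filter

namespace Crest.Agent.R266

variable {n₁ n₂ : ℕ} {X X' : Type} [TopologicalSpace X] [TopologicalSpace X']

/-- every chart of `A'` is an affinely rescaled small chart of `A` composed with `π` -/
def CoverChart (A : PFol n₁ n₂ X) (A' : PFol n₁ n₂ X') (π : X' → X) : Prop :=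
  ∀ i' : A'.ι, ∃ (i : A.ι) (c : EV n₁ × EV n₂) (r : ℝ), 0 < r ∧
    ∀ x' ∈ (A'.ch i').source, π x' ∈ (A.ch i).source ∧
      A.ch i (π x') = c + (r : ℂ) • A'.ch i' x'

/-- affine homeomorphism `y ↦ r⁻¹ • (y - c)` -/
noncomputable def affH {E : Type*} [NormedAddCommGroup E] [NormedSpace ℂ E] (c : E) (r : ℝ)
    (hr : 0 < r) : E ≃ₜ E where
  toFun y := (r : ℂ)⁻¹ • (y - c)
  invFun w := c + (r : ℂ) • w
  left_inv y := by
    have h : (r : ℂ) ≠ 0 := by exact_mod_cast hr.ne'
    show c + (r : ℂ) • ((r : ℂ)⁻¹ • (y - c)) = y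
    rw [smul_inv_smul₀ h, add_sub_cancel]
  right_inv w := by
    have h : (r : ℂ) ≠ 0 := by exact_mod_cast hr.ne'
    show (r : ℂ)⁻¹ • (c + (r : ℂ) • w - c) = w
    rw [add_sub_cancel_left, inv_smul_smul₀ h]
  continuous_toFun := by fun_prop
  continuous_invFun := by fun_prop

/-- the chart `r⁻¹ (ψ ∘ π - c)` over a small set -/
noncomputable def pullChart (ψ : OpenPartialHomeomorph X (EV n₁ × EV n₂))
    (e : OpenPartialHomeomorph X' X) (c : EV n₁ × EV n₂) (r : ℝ) (hr : 0 < r) :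
    OpenPartialHomeomorph X' (EV n₁ × EV n₂) :=
  (((e.trans ψ).symm.restrOpen (ball c r) isOpen_ball).symm).transHomeomorph (affH c r hr)

lemma pullChart_apply (ψ : OpenPartialHomeomorph X (EV n₁ × EV n₂))
    (e : OpenPartialHomeomorph X' X) (c : EV n₁ × EV n₂) (r : ℝ) (hr : 0 < r) (x : X') :
    pullChart ψ e c r hr x = (r : ℂ)⁻¹ • (ψ (e x) - c) := rfl

lemma pullChart_symm_apply (ψ : OpenPartialHomeomorph X (EV n₁ × EV n₂))
    (e : OpenPartialHomeomorph X' X) (c : EV n₁ × EV n₂) (r : ℝ) (hr : 0 < r)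
    (p : EV n₁ × EV n₂) :
    (pullChart ψ e c r hr).symm p = e.symm (ψ.symm (c + (r : ℂ) • p)) := rfl

lemma pullChart_target (ψ : OpenPartialHomeomorph X (EV n₁ × EV n₂))
    (e : OpenPartialHomeomorph X' X) (c : EV n₁ × EV n₂) (r : ℝ) (hr : 0 < r)
    (h : ball c r ⊆ (e.trans ψ).target) :
    (pullChart ψ e c r hr).target = ball (0 : EV n₁) 1 ×ˢ ball (0 : EV n₂) 1 := by
  ext p
  have h1 : p ∈ (pullChart ψ e c r hr).target ↔
      (c + (r : ℂ) • p) ∈ (e.trans ψ).target ∩ ball c r := Iff.rfl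
  rw [h1, Set.inter_eq_right.mpr h, ball_prod_same]
  have h2 : ((0 : EV n₁), (0 : EV n₂)) = 0 := rfl
  rw [h2, mem_ball_iff_norm, mem_ball_zero_iff, add_sub_cancel_left, norm_smul]
  simp only [Complex.norm_real, Real.norm_eq_abs, abs_of_pos hr]
  constructor
  · intro h; nlinarith
  · intro h; nlinarith

lemma pullChart_source (ψ : OpenPartialHomeomorph X (EV n₁ × EV n₂))
    (e : OpenPartialHomeomorph X' X) (c : EV n₁ × EV n₂) (r : ℝ) (hr : 0 < r) :
    (pullChart ψ e c r hr).source = (e.trans ψ).source ∩ (e.trans ψ) ⁻¹' (ball c r) := by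
  unfold pullChart
  simp only [OpenPartialHomeomorph.transHomeomorph_source, OpenPartialHomeomorph.symm_source]
  ext x
  simp [OpenPartialHomeomorph.restrOpen]

theorem exists_cover_pfol (A : PFol n₁ n₂ X) (π : X' → X) (hπ : IsLocalHomeomorph π) :
    ∃ A' : PFol n₁ n₂ X', CoverChart A A' π := by
  classical
  have key : ∀ x' : X', ∃ (e : OpenPartialHomeomorph X' X) (r : ℝ), 0 < r ∧ x' ∈ e.source ∧
      (∀ z, e z = π z) ∧ π x' ∈ (A.ch (A.idx (π x'))).source ∧
      ball (A.ch (A.idx (π x')) (π x')) r ⊆ (e.trans (A.ch (A.idx (π x')))).target := by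
    intro x'
    obtain ⟨e, he, hπe⟩ := hπ x'
    have hs : π x' ∈ (A.ch (A.idx (π x'))).source := (Classical.choose_spec (A.cover (π x'))).1
    have hs' : x' ∈ (e.trans (A.ch (A.idx (π x')))).source := by
      rw [OpenPartialHomeomorph.trans_source]
      refine ⟨he, ?_⟩
      simp only [mem_preimage]
      rw [← hπe]; exact hs
    have ht := (e.trans (A.ch (A.idx (π x')))).map_source hs'
    have hopen := (e.trans (A.ch (A.idx (π x')))).open_target
    have hx : (e.trans (A.ch (A.idx (π x')))) x' = A.ch (A.idx (π x')) (π x') := by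
      show A.ch (A.idx (π x')) (e x') = _
      rw [← hπe]
    rw [hx] at ht
    obtain ⟨r, hr, hsub⟩ := Metric.isOpen_iff.mp hopen _ ht
    exact ⟨e, r, hr, he, fun z => by rw [← hπe], hs, hsub⟩
  choose e r hr h1 h2 h3 h4 using key
  set ψ : X' → OpenPartialHomeomorph X (EV n₁ × EV n₂) := fun x' => A.ch (A.idx (π x')) with hψ
  set c : X' → EV n₁ × EV n₂ := fun x' => ψ x' (π x') with hc
  have hr0 : ∀ x', (r x' : ℂ) ≠ 0 := fun x' => by exact_mod_cast (hr x').ne'
  -- the charts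
  set ch : X' → OpenPartialHomeomorph X' (EV n₁ × EV n₂) :=
    fun x' => pullChart (ψ x') (e x') (c x') (r x') (hr x') with hch
  have hval : ∀ i x, ch i x = (r i : ℂ)⁻¹ • (ψ i (π x) - c i) := by
    intro i x
    rw [hch]
    show (r i : ℂ)⁻¹ • (ψ i (e i x) - c i) = _
    rw [h2]
  have hval' : ∀ i x, ψ i (π x) = c i + (r i : ℂ) • ch i x := by
    intro i x
    rw [hval, smul_inv_smul₀ (hr0 i), add_sub_cancel]
  have hsrc : ∀ i x, x ∈ (ch i).source → π x ∈ (ψ i).source := by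
    intro i x hx
    have := (pullChart_source (ψ i) (e i) (c i) (r i) (hr i) ▸ hx).1
    rw [OpenPartialHomeomorph.trans_source] at this
    have h := this.2
    simp only [mem_preimage] at h
    rwa [h2] at h
  refine ⟨⟨X', ch, fun i => pullChart_target _ _ _ _ _ (h4 i), ?_, ?_⟩, ?_⟩
  · intro x
    refine ⟨x, ?_, ?_⟩
    · have : x ∈ (pullChart (ψ x) (e x) (c x) (r x) (hr x)).source := by
        rw [pullChart_source, OpenPartialHomeomorph.trans_source]
        refine ⟨⟨h1 x, ?_⟩, ?_⟩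
        · simp only [mem_preimage]; rw [h2]; exact h3 x
        · show ψ x (e x x) ∈ ball (c x) (r x)
          rw [h2]
          exact mem_ball_self (hr x)
      exact this
    · rw [hval]
      have : (r x : ℂ)⁻¹ • (ψ x (π x) - c x) = 0 := by rw [hc]; simp
      rw [this]
      constructor <;> simp
  · intro i j x hx
    obtain ⟨φ, φ₂, hφ, hφ₂, hev⟩ := A.compat (A.idx (π i)) (A.idx (π j)) (π x)
      ⟨hsrc i x hx.1, hsrc j x hx.2⟩
    refine ⟨fun u => (r j : ℂ)⁻¹ • (φ ((c i).1 + (r i : ℂ) • u) - (c j).1),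
      fun u => (r j : ℂ)⁻¹ • (φ₂ ((c i).2 + (r i : ℂ) • u) - (c j).2), ?_, ?_, ?_⟩
    · have h5 : (ψ i (π x)).1 = (c i).1 + (r i : ℂ) • (ch i x).1 := by rw [hval' i x]; rfl
      have h6 : AnalyticAt ℂ (fun u : EV n₁ => (c i).1 + (r i : ℂ) • u) (ch i x).1 := by
        fun_prop
      have h7 : AnalyticAt ℂ (fun u : EV n₁ => φ ((c i).1 + (r i : ℂ) • u)) (ch i x).1 := by
        refine AnalyticAt.fun_comp (g := φ) ?_ h6
        rw [← h5]; exact hφ
      exact (h7.fun_sub analyticAt_const).fun_const_smul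
    · have h5 : (ψ i (π x)).2 = (c i).2 + (r i : ℂ) • (ch i x).2 := by rw [hval' i x]; rfl
      have h6 : AnalyticAt ℂ (fun u : EV n₂ => (c i).2 + (r i : ℂ) • u) (ch i x).2 := by
        fun_prop
      have h7 : AnalyticAt ℂ (fun u : EV n₂ => φ₂ ((c i).2 + (r i : ℂ) • u)) (ch i x).2 := by
        refine AnalyticAt.fun_comp (g := φ₂) ?_ h6
        rw [← h5]; exact hφ₂
      exact (h7.fun_sub analyticAt_const).fun_const_smul
    · have hcont : Tendsto (fun p : EV n₁ × EV n₂ => c i + (r i : ℂ) • p) (𝓝 (ch i x))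
          (𝓝 (ψ i (π x))) := by
        rw [hval' i x]
        exact Continuous.tendsto (by fun_prop) _
      have ht : ∀ᶠ p in 𝓝 (ch i x), p ∈ (ch i).target :=
        (ch i).open_target.mem_nhds ((ch i).map_source hx.1)
      filter_upwards [hcont.eventually hev, ht] with p hp hpt
      have hπ' : π ((ch i).symm p) = (ψ i).symm (c i + (r i : ℂ) • p) := by
        have h6 : (ch i) ((ch i).symm p) = p := (ch i).right_inv hpt
        have h7 : (ch i).symm p ∈ (ch i).source := (ch i).map_target hpt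
        have h8 := hval' i ((ch i).symm p)
        rw [h6] at h8
        rw [← h8, (ψ i).left_inv (hsrc i _ h7)]
      rw [hval, hπ']
      have hp' : ψ j ((ψ i).symm (c i + (r i : ℂ) • p)) =
        (φ (c i + (r i : ℂ) • p).1, φ₂ (c i + (r i : ℂ) • p).2) := hp
      rw [hp']
      rfl
  · intro i'
    refine ⟨A.idx (π i'), c i', r i', hr i', fun x' hx' => ⟨hsrc i' x' hx', ?_⟩⟩
    exact hval' i' x'

section maps
variable {A : PFol n₁ n₂ X} {A' : PFol n₁ n₂ X'} {π : X' → X}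

lemma IsE1.comp_cover (hC : CoverChart A A' π) {U : Set ℂ} {f : ℂ → X'} (h : IsE1 A' U f) :
    IsE1 A U (fun t => π (f t)) := by
  intro t ht
  obtain ⟨i', a, b, ha, hev⟩ := h t ht
  obtain ⟨i, c0, r, hr, hi⟩ := hC i'
  refine ⟨i, fun s => c0.1 + (r : ℂ) • a s, c0.2 + (r : ℂ) • b, ?_, ?_⟩
  · exact analyticAt_const.fun_add ha.fun_const_smul
  · filter_upwards [hev] with s hs
    obtain ⟨h1, h2⟩ := hi (f s) hs.1
    refine ⟨h1, ?_⟩
    rw [h2, hs.2]; rfl

lemma IsE2.comp_cover (hC : CoverChart A A' π) {U : Set ℂ} {f : ℂ → X'} (h : IsE2 A' U f) :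
    IsE2 A U (fun t => π (f t)) := by
  intro t ht
  obtain ⟨i', a, b, ha, hev⟩ := h t ht
  obtain ⟨i, c0, r, hr, hi⟩ := hC i'
  refine ⟨i, c0.1 + (r : ℂ) • a, fun s => c0.2 + (r : ℂ) • b s, ?_, ?_⟩
  · exact analyticAt_const.fun_add ha.fun_const_smul
  · filter_upwards [hev] with s hs
    obtain ⟨h1, h2⟩ := hi (f s) hs.1
    refine ⟨h1, ?_⟩
    rw [h2, hs.2]; rfl

lemma IsPC.comp_cover (hC : CoverChart A A' π) {Ω : Set (ℂ × ℂ)} {F : ℂ × ℂ → X'}
    (h : IsPC A' Ω F) : IsPC A Ω (fun z => π (F z)) := by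
  intro z hz
  obtain ⟨i', a, b, ha, hb, hev⟩ := h z hz
  obtain ⟨i, c0, r, hr, hi⟩ := hC i'
  refine ⟨i, fun s => c0.1 + (r : ℂ) • a s, fun s => c0.2 + (r : ℂ) • b s, ?_, ?_, ?_⟩
  · exact analyticAt_const.fun_add ha.fun_const_smul
  · exact analyticAt_const.fun_add hb.fun_const_smul
  · filter_upwards [hev] with s hs
    obtain ⟨h1, h2⟩ := hi (F s) hs.1
    refine ⟨h1, ?_⟩
    rw [h2, hs.2]; rfl

/-- a continuous lift of a p.c. map is p.c. -/
lemma IsPC.of_cover (hC : CoverChart A A' π) (hchart : St_chart A) {Ω : Set (ℂ × ℂ)}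
    {F : ℂ × ℂ → X'} (hF : ∀ z ∈ Ω, ContinuousAt F z) (h : IsPC A Ω (fun z => π (F z))) :
    IsPC A' Ω F := by
  intro z hz
  obtain ⟨i', hi', -⟩ := A'.cover (F z)
  obtain ⟨i, c0, r, hr, hi⟩ := hC i'
  have hr0 : (r : ℂ) ≠ 0 := by exact_mod_cast hr.ne'
  obtain ⟨a, b, ha, hb, hev⟩ := hchart Ω (fun z => π (F z)) h z hz i (hi (F z) hi').1
  refine ⟨i', fun s => (r : ℂ)⁻¹ • (a s - c0.1), fun s => (r : ℂ)⁻¹ • (b s - c0.2), ?_, ?_, ?_⟩
  · exact (ha.fun_sub analyticAt_const).fun_const_smul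
  · exact (hb.fun_sub analyticAt_const).fun_const_smul
  · have h1 : ∀ᶠ w in 𝓝 z, F w ∈ (A'.ch i').source :=
      (hF z hz).eventually ((A'.ch i').open_source.mem_nhds hi')
    filter_upwards [hev, h1] with w hw hw1
    refine ⟨hw1, ?_⟩
    have h2 := (hi (F w) hw1).2
    have h3 : A'.ch i' (F w) = (r : ℂ)⁻¹ • (A.ch i (π (F w)) - c0) := by
      rw [h2, add_sub_cancel_left, inv_smul_smul₀ hr0]
    rw [h3, hw.2]; rfl

/-- p.c. maps are continuous -/
private lemma IsPC.continuousAt' {Ω : Set (ℂ × ℂ)} {G : ℂ × ℂ → X} (h : IsPC A Ω G) {z : ℂ × ℂ}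
    (hz : z ∈ Ω) : ContinuousAt G z := by
  obtain ⟨i, a, b, ha, hb, hev⟩ := h z hz
  have h0 := hev.self_of_nhds
  have h1 : ContinuousAt (fun w : ℂ × ℂ => (A.ch i).symm (a w.1, b w.2)) z := by
    have h2 : ContinuousAt (A.ch i).symm (a z.1, b z.2) := by
      rw [← h0.2]
      exact (A.ch i).continuousAt_symm ((A.ch i).map_source h0.1)
    have h3 : ContinuousAt (fun w : ℂ × ℂ => (a w.1, b w.2)) z :=
      (ha.continuousAt.comp continuousAt_fst).prodMk (hb.continuousAt.comp continuousAt_snd)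
    exact ContinuousAt.comp (g := (A.ch i).symm) (f := fun w : ℂ × ℂ => (a w.1, b w.2)) h2 h3
  refine h1.congr ?_
  filter_upwards [hev] with w hw
  rw [← hw.2, (A.ch i).left_inv hw.1]

private lemma IsE1.continuousAt' {U : Set ℂ} {f : ℂ → X} (h : IsE1 A U f) {t : ℂ}
    (ht : t ∈ U) : ContinuousAt f t := by
  obtain ⟨i, a, b, ha, hev⟩ := h t ht
  have h0 := hev.self_of_nhds
  have h1 : ContinuousAt (fun w : ℂ => (A.ch i).symm (a w, b)) t := by
    have h2 : ContinuousAt (A.ch i).symm (a t, b) := by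
      rw [← h0.2]
      exact (A.ch i).continuousAt_symm ((A.ch i).map_source h0.1)
    have h3 : ContinuousAt (fun w : ℂ => (a w, b)) t :=
      ha.continuousAt.prodMk continuousAt_const
    exact ContinuousAt.comp (g := (A.ch i).symm) (f := fun w : ℂ => (a w, b)) h2 h3
  refine h1.congr ?_
  filter_upwards [hev] with w hw
  rw [← hw.2, (A.ch i).left_inv hw.1]

private lemma IsE2.continuousAt' {U : Set ℂ} {f : ℂ → X} (h : IsE2 A U f) {t : ℂ}
    (ht : t ∈ U) : ContinuousAt f t := by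
  obtain ⟨i, a, b, hb, hev⟩ := h t ht
  have h0 := hev.self_of_nhds
  have h1 : ContinuousAt (fun w : ℂ => (A.ch i).symm (a, b w)) t := by
    have h2 : ContinuousAt (A.ch i).symm (a, b t) := by
      rw [← h0.2]
      exact (A.ch i).continuousAt_symm ((A.ch i).map_source h0.1)
    have h3 : ContinuousAt (fun w : ℂ => (a, b w)) t :=
      continuousAt_const.prodMk hb.continuousAt
    exact ContinuousAt.comp (g := (A.ch i).symm) (f := fun w : ℂ => (a, b w)) h2 h3
  refine h1.congr ?_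
  filter_upwards [hev] with w hw
  rw [← hw.2, (A.ch i).left_inv hw.1]

/-- completeness lifts to covering spaces -/
theorem completeness_cover (hcov : IsCoveringMap π) (hchart : St_chart A)
    (hC : CoverChart A A' π) (h : Completeness A) : Completeness A' := by
  classical
  intro R₁ R₂ c₁ c₂ hR₁ hR₂ h1 h2 h0
  obtain ⟨G, hG, hG1, hG2⟩ := h R₁ R₂ (fun t => π (c₁ t)) (fun t => π (c₂ t)) hR₁ hR₂
    (h1.comp_cover hC) (h2.comp_cover hC) (by simp only [h0])
  set D : Set (ℂ × ℂ) := ball 0 R₁ ×ˢ ball 0 R₂ with hD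
  have hDopen : IsOpen D := isOpen_ball.prod isOpen_ball
  have hDconv : Convex ℝ D := (convex_ball _ _).prod (convex_ball _ _)
  have h0D : ((0 : ℂ), (0 : ℂ)) ∈ D := ⟨mem_ball_self hR₁, mem_ball_self hR₂⟩
  have : ContractibleSpace D := hDconv.contractibleSpace ⟨_, h0D⟩
  have : SimplyConnectedSpace D := inferInstance
  have : LocallyPathConnectedSpace D := hDopen.locallyPathConnectedSpace
  have hcontG : Continuous (fun z : D => G z) :=
    continuous_iff_continuousAt.mpr fun z =>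
      (hG.continuousAt' z.2).comp continuous_subtype_val.continuousAt
  obtain ⟨F, ⟨hF0, hF⟩, -⟩ := hcov.existsUnique_continuousMap_lifts (A := D)
    ⟨fun z => G z, hcontG⟩ ⟨(0, 0), h0D⟩ (c₁ 0)
    (by simp only [ContinuousMap.coe_mk]; exact (hG1 0 (mem_ball_self hR₁)).symm)
  have hF' : ∀ z (hz : z ∈ D), π (F ⟨z, hz⟩) = G z := fun z hz => congrFun hF ⟨z, hz⟩
  set G' : ℂ × ℂ → X' := fun z => if h : z ∈ D then F ⟨z, h⟩ else c₁ 0 with hG'
  have hG'D : ∀ z (hz : z ∈ D), G' z = F ⟨z, hz⟩ := fun z hz => by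
    rw [hG']; simp only [dif_pos hz]
  have hπG' : ∀ z ∈ D, π (G' z) = G z := fun z hz => by rw [hG'D z hz, hF' z hz]
  have hG'on : ContinuousOn G' D := by
    rw [continuousOn_iff_continuous_domRestrict]
    have : D.domRestrict G' = F := by
      ext z; exact hG'D z z.2
    rw [this]; exact F.continuous
  have hG'cont : ∀ z ∈ D, ContinuousAt G' z := fun z hz =>
    (hG'on z hz).continuousAt (hDopen.mem_nhds hz)
  have hG'0 : G' (0, 0) = c₁ 0 := by rw [hG'D _ h0D, hF0]
  refine ⟨G', ?_, ?_, ?_⟩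
  · refine IsPC.of_cover hC hchart hG'cont ?_
    intro z hz
    obtain ⟨i, a, b, ha, hb, hev⟩ := hG z hz
    refine ⟨i, a, b, ha, hb, ?_⟩
    filter_upwards [hev, hDopen.mem_nhds hz] with w hw hwD
    rw [hπG' w hwD]; exact hw
  · intro x hx
    have hcs : ContinuousOn (fun x : ℂ => G' (x, 0)) (ball 0 R₁) := by
      refine hG'on.comp (by fun_prop) ?_
      intro y hy; exact ⟨hy, mem_ball_self hR₂⟩
    have hcc : ContinuousOn c₁ (ball 0 R₁) := fun t ht => (h1.continuousAt' ht).continuousWithinAt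
    have := hcov.eqOn_of_comp_eqOn (convex_ball (0 : ℂ) R₁).isPreconnected hcs hcc
      (fun y hy => ?_) (mem_ball_self hR₁) hG'0
    · exact this hx
    · show π (G' (y, 0)) = π (c₁ y)
      rw [hπG' _ ⟨hy, mem_ball_self hR₂⟩, hG1 y hy]
  · intro y hy
    have hcs : ContinuousOn (fun y : ℂ => G' (0, y)) (ball 0 R₂) := by
      refine hG'on.comp (by fun_prop) ?_
      intro y hy; exact ⟨mem_ball_self hR₁, hy⟩
    have hcc : ContinuousOn c₂ (ball 0 R₂) := fun t ht => (h2.continuousAt' ht).continuousWithinAt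
    have := hcov.eqOn_of_comp_eqOn (convex_ball (0 : ℂ) R₂).isPreconnected hcs hcc
      (fun y hy => ?_) (mem_ball_self hR₂) (by rw [← h0]; exact hG'0)
    · exact this hy
    · show π (G' (0, y)) = π (c₂ y)
      rw [hπG' _ ⟨mem_ball_self hR₁, hy⟩, hG2 y hy]

end maps

end Crest.Agent.R266
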