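import Crest.Agent.R266.Stmts

/-!
R266 / DStmts: sub-interface for the disc lemma `St_D` (helper628: `LemD`; helper464: `St_area`, `St_punct`).
-/

set_option autoImplicit false

open scoped Manifold ContDiff Topology ENNReal
open Set Metric Filter MeasureTheory

namespace Crest.Agent.R266

section
variable {n₁ n₂ : ℕ} {X : Type} [TopologicalSpace X]

/-- area bound for the discs `A_s = {pt t (H t + s)}` as `s ↓ s₀`: discs are in `Ω` for `s > s₀`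
and the boundary annulus is in `Ω` for `s = s₀`, too. -/
def St_area {A : PFol n₁ n₂ X} (K : KMet A) : Prop :=
  ∀ (Ω : Set (ℂ × ℂ)) (G : ℂ × ℂ → X) (H : ℂ → ℂ) (t₀ : ℂ) (R' R s₀ S : ℝ), 0 < R' → R' < R →
    s₀ < S → IsOpen Ω → IsPC A Ω G → AnalyticOnNhd ℂ H (closedBall t₀ R) →
    (∀ t ∈ closedBall t₀ R, ‖deriv H t‖ ≤ 1 / 2) →
    (∀ s : ℝ, s₀ < s → s ≤ S → ∀ t ∈ closedBall t₀ R, pt t (H t + s) ∈ Ω) →
    (∀ t ∈ closedBall t₀ R, R' ≤ dist t t₀ → pt t (H t + s₀) ∈ Ω) →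
    ∃ B : ℝ, ∀ s : ℝ, s₀ < s → s ≤ S →
      ∫⁻ t in ball t₀ R', ENNReal.ofReal (trM K G (pt t (H t + s))) ≤ ENNReal.ofReal B

/-- removal of a puncture: a punctured disc of finite area. -/
def St_punct {A : PFol n₁ n₂ X} (K : KMet A) : Prop :=
  ∀ (Ω : Set (ℂ × ℂ)) (G : ℂ × ℂ → X) (H : ℂ → ℂ) (t₁ : ℂ) (r : ℝ), 0 < r → IsOpen Ω →
    IsPC A Ω G → AnalyticOnNhd ℂ H (ball t₁ r) → (∀ t ∈ ball t₁ r, ‖deriv H t‖ ≤ 1 / 2) →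
    (∀ t ∈ ball t₁ r, t ≠ t₁ → pt t (H t) ∈ Ω) →
    (∫⁻ t in ball t₁ r, ENNReal.ofReal (trM K G (pt t (H t))) < ⊤) →
    ∃ ρ > 0, ∃ G' : ℂ × ℂ → X, IsPC A (ball (pt t₁ (H t₁)) ρ) G' ∧
      ∀ᶠ t in 𝓝[≠] t₁, G' =ᶠ[𝓝 (pt t (H t))] G
end

end Crest.Agent.R266
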