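import Mathlib

/-!
R266 / Defs: basic objects for S0405 (product-foliated atlases, product-compatible maps, Kähler
metric in charts, the pulled back metric) and the interface statements of the analytic core.
-/

set_option autoImplicit false

open scoped Manifold ContDiff Topology
open Set Metric Filter

namespace Crest.Agent.R266

abbrev EV (k : ℕ) := EuclideanSpace ℂ (Fin k)

/-- A product-foliated atlas: every chart is a homeomorphism of an open set of `X` onto the product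
of two open unit balls, transition maps are locally products of holomorphic maps. The first
foliation `E₁` has the slices `(·, const)` as plaques, the second one `E₂` the slices
`(const, ·)`. -/
structure PFol (n₁ n₂ : ℕ) (X : Type) [TopologicalSpace X] where
  ι : Type
  ch : ι → OpenPartialHomeomorph X (EV n₁ × EV n₂)
  target_eq : ∀ i, (ch i).target = ball (0 : EV n₁) 1 ×ˢ ball (0 : EV n₂) 1
  cover : ∀ x, ∃ i, x ∈ (ch i).source ∧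
    ch i x ∈ ball (0 : EV n₁) (1 / 2) ×ˢ ball (0 : EV n₂) (1 / 2)
  compat : ∀ i j, ∀ x ∈ (ch i).source ∩ (ch j).source,
    ∃ (φ : EV n₁ → EV n₁) (ψ : EV n₂ → EV n₂), AnalyticAt ℂ φ (ch i x).1 ∧
      AnalyticAt ℂ ψ (ch i x).2 ∧ ∀ᶠ p in 𝓝 (ch i x), ch j ((ch i).symm p) = (φ p.1, ψ p.2)

section
variable {n₁ n₂ : ℕ} {X : Type} [TopologicalSpace X]

/-- product-compatible (p.c.) holomorphic maps `G(x,y)` on `Ω ⊆ ℂ²`: locally in charts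
`G(x,y) = (a(x), b(y))`. -/
def IsPC (A : PFol n₁ n₂ X) (Ω : Set (ℂ × ℂ)) (G : ℂ × ℂ → X) : Prop :=
  ∀ z ∈ Ω, ∃ (i : A.ι) (a : ℂ → EV n₁) (b : ℂ → EV n₂), AnalyticAt ℂ a z.1 ∧ AnalyticAt ℂ b z.2 ∧
    ∀ᶠ w in 𝓝 z, G w ∈ (A.ch i).source ∧ A.ch i (G w) = (a w.1, b w.2)

/-- holomorphic curves tangent to the first foliation -/
def IsE1 (A : PFol n₁ n₂ X) (U : Set ℂ) (c : ℂ → X) : Prop :=
  ∀ t ∈ U, ∃ (i : A.ι) (a : ℂ → EV n₁) (b : EV n₂), AnalyticAt ℂ a t ∧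
    ∀ᶠ s in 𝓝 t, c s ∈ (A.ch i).source ∧ A.ch i (c s) = (a s, b)

/-- holomorphic curves tangent to the second foliation -/
def IsE2 (A : PFol n₁ n₂ X) (U : Set ℂ) (c : ℂ → X) : Prop :=
  ∀ t ∈ U, ∃ (i : A.ι) (a : EV n₁) (b : ℂ → EV n₂), AnalyticAt ℂ b t ∧
    ∀ᶠ s in 𝓝 t, c s ∈ (A.ch i).source ∧ A.ch i (c s) = (a, b s)

/-- the completeness property: rectangles over two discs based at a common point. -/
def Completeness (A : PFol n₁ n₂ X) : Prop :=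
  ∀ (R₁ R₂ : ℝ) (c₁ c₂ : ℂ → X), 0 < R₁ → 0 < R₂ → IsE1 A (ball 0 R₁) c₁ →
    IsE2 A (ball 0 R₂) c₂ → c₁ 0 = c₂ 0 →
    ∃ G : ℂ × ℂ → X, IsPC A (ball 0 R₁ ×ˢ ball 0 R₂) G ∧
      (∀ x ∈ ball (0 : ℂ) R₁, G (x, 0) = c₁ x) ∧ (∀ y ∈ ball (0 : ℂ) R₂, G (0, y) = c₂ y)

/-- the chart index chosen at a point -/
noncomputable def PFol.idx (A : PFol n₁ n₂ X) (x : X) : A.ι := Classical.choose (A.cover x)

/-- Kähler metric in the charts of a product-foliated atlas -/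
structure KMet (A : PFol n₁ n₂ X) where
  g : A.ι → (EV n₁ × EV n₂) → ((EV n₁ × EV n₂) →L[ℝ] (EV n₁ × EV n₂) →L[ℝ] ℝ)
  smooth : ∀ i, ContDiffOn ℝ ∞ (g i) (ball (0 : EV n₁) 1 ×ˢ ball (0 : EV n₂) 1)
  symm : ∀ i, ∀ p ∈ ball (0 : EV n₁) 1 ×ˢ ball (0 : EV n₂) 1, ∀ u v, g i p u v = g i p v u
  pos : ∀ i, ∀ p ∈ ball (0 : EV n₁) 1 ×ˢ ball (0 : EV n₂) 1, ∀ u, u ≠ 0 → 0 < g i p u u
  herm : ∀ i, ∀ p ∈ ball (0 : EV n₁) 1 ×ˢ ball (0 : EV n₂) 1, ∀ u v,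
    g i p (Complex.I • u) (Complex.I • v) = g i p u v
  closed : ∀ i, ∀ p ∈ ball (0 : EV n₁) 1 ×ˢ ball (0 : EV n₂) 1, ∀ u v w,
    fderiv ℝ (fun q => g i q (Complex.I • v) w) p u
      - fderiv ℝ (fun q => g i q (Complex.I • u) w) p v
      + fderiv ℝ (fun q => g i q (Complex.I • u) v) p w = 0
  compat : ∀ i j, ∀ x ∈ (A.ch i).source ∩ (A.ch j).source, ∀ u v,
    g j (A.ch j x) (fderiv ℂ (fun p => A.ch j ((A.ch i).symm p)) (A.ch i x) u)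
      (fderiv ℂ (fun p => A.ch j ((A.ch i).symm p)) (A.ch i x) v) = g i (A.ch i x) u v

/-- the pulled back metric `G^* g` at `z`, as a real bilinear form on `ℂ × ℂ` -/
noncomputable def pullM {A : PFol n₁ n₂ X} (K : KMet A) (G : ℂ × ℂ → X) (z : ℂ × ℂ)
    (u v : ℂ × ℂ) : ℝ :=
  K.g (A.idx (G z)) (A.ch (A.idx (G z)) (G z))
    (fderiv ℂ (fun w => A.ch (A.idx (G z)) (G w)) z u)
    (fderiv ℂ (fun w => A.ch (A.idx (G z)) (G w)) z v)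

/-- trace density `|G_x|² + |G_y|²` -/
noncomputable def trM {A : PFol n₁ n₂ X} (K : KMet A) (G : ℂ × ℂ → X) (z : ℂ × ℂ) : ℝ :=
  pullM K G z (1, 0) (1, 0) + pullM K G z (0, 1) (0, 1)
end

/-! ### closed hermitian semipositive forms on open subsets of `ℂ²` -/

/-- `γ z` is a real bilinear symmetric `i`-invariant semipositive form depending smoothly on
`z ∈ Ω`, whose Kähler form `γ(i·,·)` is closed on `Ω`. -/
structure CForm (Ω : Set (ℂ × ℂ)) (γ : ℂ × ℂ → ℂ × ℂ → ℂ × ℂ → ℝ) : Prop where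
  add_left : ∀ z ∈ Ω, ∀ u u' v, γ z (u + u') v = γ z u v + γ z u' v
  smul_left : ∀ z ∈ Ω, ∀ (c : ℝ) u v, γ z (c • u) v = c * γ z u v
  symm : ∀ z ∈ Ω, ∀ u v, γ z u v = γ z v u
  herm : ∀ z ∈ Ω, ∀ u v, γ z (Complex.I • u) (Complex.I • v) = γ z u v
  nonneg : ∀ z ∈ Ω, ∀ u, 0 ≤ γ z u u
  smooth : ∀ u v, ContDiffOn ℝ ∞ (fun z => γ z u v) Ω
  closed : ∀ z ∈ Ω, ∀ u v w,
    fderiv ℝ (fun q => γ q (Complex.I • v) w) z u
      - fderiv ℝ (fun q => γ q (Complex.I • u) w) z v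
      + fderiv ℝ (fun q => γ q (Complex.I • u) v) z w = 0

/-- slack (uniform transversality of the two foliations) -/
def Slack (c₀ : ℝ) (Ω : Set (ℂ × ℂ)) (γ : ℂ × ℂ → ℂ × ℂ → ℂ × ℂ → ℝ) : Prop :=
  ∀ z ∈ Ω, ∀ s t : ℂ, c₀ * (γ z (s, 0) (s, 0) + γ z (0, t) (0, t)) ≤ γ z (s, t) (s, t)

/-- second real derivative -/
noncomputable def hess (f : ℂ × ℂ → ℝ) (z u v : ℂ × ℂ) : ℝ :=
  fderiv ℝ (fun w => fderiv ℝ f w v) z u

/-- Levi form `D²f(u,v) + D²f(iu,iv)` -/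
noncomputable def levi (f : ℂ × ℂ → ℝ) (z u v : ℂ × ℂ) : ℝ :=
  hess f z u v + hess f z (Complex.I • u) (Complex.I • v)

/-- `df(u)df(v) + df(iu)df(iv)` -/
noncomputable def tens (f : ℂ × ℂ → ℝ) (z u v : ℂ × ℂ) : ℝ :=
  fderiv ℝ f z u * fderiv ℝ f z v +
    fderiv ℝ f z (Complex.I • u) * fderiv ℝ f z (Complex.I • v)

/-- wedge of two hermitian forms on `ℂ²` (as a number) -/
noncomputable def wdg (α β : ℂ × ℂ → ℂ × ℂ → ℝ) : ℝ :=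
  α (1, 0) (1, 0) * β (0, 1) (0, 1) + α (0, 1) (0, 1) * β (1, 0) (1, 0)
    - 2 * (α (1, 0) (0, 1) * β (1, 0) (0, 1))
    - 2 * (α (1, 0) (0, Complex.I) * β (1, 0) (0, Complex.I))

/-! ### coordinates `τ = x - y`, `Z = x + y = X + iη` -/

def tau (z : ℂ × ℂ) : ℂ := z.1 - z.2
def XX (z : ℂ × ℂ) : ℝ := (z.1 + z.2).re
def eta (z : ℂ × ℂ) : ℝ := (z.1 + z.2).im

/-- the point with coordinates `τ = t`, `Z = Z` -/
noncomputable def pt (t Z : ℂ) : ℂ × ℂ := ((Z + t) / 2, (Z - t) / 2)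

/-- graph domain `{‖τ‖ < ε, |η| < ε, φ(τ,η) < X < ε}` -/
def GD (ε : ℝ) (φ : ℂ → ℝ → ℝ) : Set (ℂ × ℂ) :=
  {z | ‖tau z‖ < ε ∧ |eta z| < ε ∧ φ (tau z) (eta z) < XX z ∧ XX z < ε}

/-- the base paraboloid -/
noncomputable def par (C : ℝ) (t : ℂ) (e : ℝ) : ℝ := C * (‖t‖ ^ 2 + e ^ 2)

/-- `{X > C(|τ|²+η²) + Re(bτ) + s}` -/
noncomputable def w_ (C : ℝ) (b : ℂ) (s : ℝ) (z : ℂ × ℂ) : ℝ := XX z - par C (tau z) (eta z) - (b * tau z).re - s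

end Crest.Agent.R266
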