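import Crest.Agent.R266.E0Defs

/-!
R266 / E0: small area implies confinement to a chart (`St_E0S`), for holomorphic curves in a
compact product-foliated manifold with a metric. Bloch type argument + mean value inequality.
-/

set_option autoImplicit false
open scoped Manifold ContDiff Topology ENNReal Real
open Set Metric Filter MeasureTheory

namespace Crest.Agent.R266.E0

section submean
variable {E : Type*} [NormedAddCommGroup E] [NormedSpace ℂ E] [CompleteSpace E]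

/-- circle mean value inequality for `‖h‖²` on the unit circle -/
lemma circle_sq {h : ℂ → E} {R : ℝ} (hR : 1 < R) (hd : DifferentiableOn ℂ h (ball 0 R)) :
    2 * π * ‖h 0‖ ^ 2 ≤ ∫ θ in (0 : ℝ)..2 * π, ‖h (circleMap 0 1 θ)‖ ^ 2 := by
  have hsub : closedBall (0 : ℂ) 1 ⊆ ball 0 R := closedBall_subset_ball hR
  have hc : ContinuousOn h (closedBall 0 1) := hd.continuousOn.mono hsub
  have hcm : ∀ θ : ℝ, circleMap (0 : ℂ) 1 θ ∈ closedBall (0 : ℂ) 1 := fun θ =>
    circleMap_mem_closedBall 0 zero_le_one θ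
  have hcc : Continuous (fun θ : ℝ => h (circleMap 0 1 θ)) :=
    hc.comp_continuous (continuous_circleMap 0 1) hcm
  have hm : Real.circleAverage h 0 1 = h 0 := by
    apply circleAverage_of_differentiable_on_off_countable (s := ∅) countable_empty
    · simpa using hc
    · intro z hz
      have hz' : z ∈ ball (0 : ℂ) R := hsub (ball_subset_closedBall (by simpa using hz.1))
      exact (hd z hz').differentiableAt (isOpen_ball.mem_nhds hz')
  have hm2 : (∫ θ in (0 : ℝ)..2 * π, h (circleMap 0 1 θ)) = ((2 * π : ℝ)) • h 0 := by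
    rw [← hm, Real.circleAverage_def, smul_smul, mul_inv_cancel₀ (by positivity), one_smul]
  have h1 : 2 * π * ‖h 0‖ ≤ ∫ θ in (0 : ℝ)..2 * π, ‖h (circleMap 0 1 θ)‖ := by
    have := intervalIntegral.norm_integral_le_integral_norm (f := fun θ : ℝ => h (circleMap 0 1 θ))
      (μ := volume) (a := 0) (b := 2 * π) (by positivity)
    rw [hm2, norm_smul, Real.norm_of_nonneg (by positivity)] at this
    exact this
  have h2 : (∫ θ in (0 : ℝ)..2 * π, (2 * ‖h 0‖ * ‖h (circleMap 0 1 θ)‖ - ‖h 0‖ ^ 2)) ≤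
      ∫ θ in (0 : ℝ)..2 * π, ‖h (circleMap 0 1 θ)‖ ^ 2 := by
    apply intervalIntegral.integral_mono_on (by positivity)
    · exact Continuous.intervalIntegrable ((continuous_const.mul hcc.norm).sub continuous_const) _ _
    · exact Continuous.intervalIntegrable (hcc.norm.pow 2) _ _
    · intro θ _
      nlinarith [sq_nonneg (‖h (circleMap 0 1 θ)‖ - ‖h 0‖)]
  have i1 : IntervalIntegrable (fun θ : ℝ => 2 * ‖h 0‖ * ‖h (circleMap 0 1 θ)‖) volume 0 (2 * π) :=
    Continuous.intervalIntegrable (continuous_const.mul hcc.norm) _ _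
  have i2 : IntervalIntegrable (fun _ : ℝ => ‖h 0‖ ^ 2) volume 0 (2 * π) :=
    Continuous.intervalIntegrable continuous_const _ _
  rw [intervalIntegral.integral_sub i1 i2, intervalIntegral.integral_const_mul] at h2
  simp only [intervalIntegral.integral_const, smul_eq_mul, sub_zero] at h2
  nlinarith [norm_nonneg (h 0), Real.pi_pos, mul_le_mul_of_nonneg_left h1 (norm_nonneg (h 0))]

lemma circle_sq_lintegral {h : ℂ → E} {R : ℝ} (hR : 1 < R) (hd : DifferentiableOn ℂ h (ball 0 R)) :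
    ENNReal.ofReal (2 * π * ‖h 0‖ ^ 2) ≤
      ∫⁻ θ in Ioc (0 : ℝ) (2 * π), ENNReal.ofReal (‖h (circleMap 0 1 θ)‖ ^ 2) := by
  have hsub : closedBall (0 : ℂ) 1 ⊆ ball 0 R := closedBall_subset_ball hR
  have hc : ContinuousOn h (closedBall 0 1) := hd.continuousOn.mono hsub
  have hcm : ∀ θ : ℝ, circleMap (0 : ℂ) 1 θ ∈ closedBall (0 : ℂ) 1 := fun θ =>
    circleMap_mem_closedBall 0 zero_le_one θ
  have hcc : Continuous (fun θ : ℝ => h (circleMap 0 1 θ)) :=
    hc.comp_continuous (continuous_circleMap 0 1) hcm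
  rw [← ofReal_integral_eq_lintegral_ofReal]
  · rw [← intervalIntegral.integral_of_le (by positivity)]
    exact ENNReal.ofReal_le_ofReal (circle_sq hR hd)
  · exact ((Continuous.intervalIntegrable (μ := volume) (a := 0) (b := 2 * π)
      (u := fun θ : ℝ => ‖h (circleMap 0 1 θ)‖ ^ 2) (hcc.norm.pow 2)).1)
  · exact Eventually.of_forall fun θ => by positivity

/-- area mean value inequality for `‖f‖²` -/
lemma submean {f : ℂ → E} {c : ℂ} {ρ : ℝ} (hρ : 0 < ρ) (hf : DifferentiableOn ℂ f (ball c ρ)) :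
    ENNReal.ofReal (π * ρ ^ 2 * ‖f c‖ ^ 2) ≤ ∫⁻ z in ball c ρ, ENNReal.ofReal (‖f z‖ ^ 2) := by
  classical
  set F : ℂ → ℝ≥0∞ := (ball c ρ).indicator (fun w => ENNReal.ofReal (‖f w‖ ^ 2)) with hF
  have hFm : Measurable F := by
    have h1 : ContinuousOn (fun w => ENNReal.ofReal (‖f w‖ ^ 2)) (ball c ρ) :=
      ENNReal.continuous_ofReal.comp_continuousOn ((hf.continuousOn.norm).pow 2)
    have h2 := h1.measurable_piecewise (g := fun _ => (0 : ℝ≥0∞)) continuousOn_const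
      measurableSet_ball
    have h3 : F = (ball c ρ).piecewise (fun w => ENNReal.ofReal (‖f w‖ ^ 2)) (fun _ => 0) := by
      ext w; simp only [hF, indicator, piecewise]
    rw [h3]; exact h2
  have hint : (∫⁻ z in ball c ρ, ENNReal.ofReal (‖f z‖ ^ 2)) = ∫⁻ z, F z := by
    rw [hF, lintegral_indicator measurableSet_ball]
  have hrot : ∀ θ : ℝ, (∫⁻ z, F (c + circleMap 0 1 θ * z)) = ∫⁻ z, F z := by
    intro θ
    have hn : ‖circleMap (0 : ℂ) 1 θ‖ = 1 := by simp [circleMap]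
    let a : Circle := ⟨circleMap 0 1 θ, by simp [Submonoid.unitSphere]⟩
    have hmp := (rotation a).measurePreserving
    have h1 : (∫⁻ z, F (c + circleMap 0 1 θ * z)) = ∫⁻ z, F (c + z) := by
      have := hmp.lintegral_comp (f := fun z => F (c + z)) (hFm.comp (measurable_const_add c))
      rw [← this]
      rfl
    rw [h1, lintegral_add_left_eq_self]
  have hpi : (0 : ℝ) < 2 * π := by positivity
  -- average
  have h1 : (∫⁻ θ in Ioc (0 : ℝ) (2 * π), ∫⁻ z, F (c + circleMap 0 1 θ * z)) =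
      ENNReal.ofReal (2 * π) * ∫⁻ z, F z := by
    simp only [hrot]
    rw [lintegral_const]
    simp [mul_comm]
  have h2 : (∫⁻ θ in Ioc (0 : ℝ) (2 * π), ∫⁻ z, F (c + circleMap 0 1 θ * z)) =
      ∫⁻ z, ∫⁻ θ in Ioc (0 : ℝ) (2 * π), F (c + circleMap 0 1 θ * z) := by
    apply lintegral_lintegral_swap
    have hcont : Continuous (fun p : ℝ × ℂ => c + circleMap 0 1 p.1 * p.2) := by fun_prop
    exact (hFm.comp hcont.measurable).aemeasurable
  have h3 : (∫⁻ z in ball (0 : ℂ) ρ, ENNReal.ofReal (2 * π * ‖f c‖ ^ 2)) ≤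
      ∫⁻ z, ∫⁻ θ in Ioc (0 : ℝ) (2 * π), F (c + circleMap 0 1 θ * z) := by
    refine le_trans ?_ (setLIntegral_le_lintegral (ball (0 : ℂ) ρ) _)
    apply setLIntegral_mono' measurableSet_ball
    intro z hz
    have hz' : ‖z‖ < ρ := by simpa using hz
    -- the function w ↦ f (c + w z)
    obtain ⟨R, hR1, hR2⟩ : ∃ R : ℝ, 1 < R ∧ R * ‖z‖ < ρ := by
      rcases eq_or_ne z 0 with rfl | hz0
      · exact ⟨2, by norm_num, by simpa using hρ⟩
      · have hzp : 0 < ‖z‖ := norm_pos_iff.2 hz0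
        obtain ⟨R, h1, h2⟩ := exists_between ((one_lt_div hzp).2 hz')
        exact ⟨R, h1, (lt_div_iff₀ hzp).1 h2⟩
    have hd : DifferentiableOn ℂ (fun w => f (c + w * z)) (ball 0 R) := by
      apply hf.comp (by fun_prop)
      intro w hw
      have hw' : ‖w‖ < R := by simpa using hw
      simp only [mem_ball, dist_eq_norm, add_sub_cancel_left, norm_mul]
      exact lt_of_le_of_lt (mul_le_mul_of_nonneg_right hw'.le (norm_nonneg z)) hR2
    have h4 := circle_sq_lintegral hR1 hd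
    simp only [zero_mul, add_zero] at h4
    refine h4.trans (lintegral_mono fun θ => ?_)
    have hmem : c + circleMap 0 1 θ * z ∈ ball c ρ := by
      simp only [mem_ball, dist_eq_norm, add_sub_cancel_left, norm_mul]
      simpa [circleMap] using hz'
    simp only [hF, indicator_of_mem hmem]
    exact le_rfl
  rw [← h2, h1, lintegral_const] at h3
  simp only [Measure.restrict_apply, MeasurableSet.univ, univ_inter] at h3
  rw [Complex.volume_ball] at h3
  rw [hint]
  have h5 : ENNReal.ofReal (2 * π) * ENNReal.ofReal (π * ρ ^ 2 * ‖f c‖ ^ 2) ≤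
      ENNReal.ofReal (2 * π) * ∫⁻ z, F z := by
    refine le_trans (le_of_eq ?_) h3
    have h6 : (NNReal.pi : ℝ≥0∞) = ENNReal.ofReal π := by
      rw [← NNReal.coe_real_pi, ENNReal.ofReal_coe_nnreal]
    rw [h6, ← ENNReal.ofReal_mul hpi.le, ← ENNReal.ofReal_pow hρ.le,
      ← ENNReal.ofReal_mul (by positivity), ← ENNReal.ofReal_mul (by positivity)]
    congr 1
    ring
  exact (ENNReal.mul_le_mul_iff_right (by simpa using hpi) ENNReal.ofReal_ne_top).1 h5

end submean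

variable {n₁ n₂ : ℕ} {X : Type} [TopologicalSpace X]

lemma target_ball (A : PFol n₁ n₂ X) (i : A.ι) :
    (A.ch i).target = ball (0 : EV n₁ × EV n₂) 1 := by
  rw [A.target_eq, ball_prod_same]; rfl

lemma mem_target_iff (A : PFol n₁ n₂ X) (i : A.ι) (p : EV n₁ × EV n₂) :
    p ∈ (A.ch i).target ↔ ‖p‖ < 1 := by
  rw [target_ball]; simp

lemma ch_norm_lt (A : PFol n₁ n₂ X) {i : A.ι} {x : X} (hx : x ∈ (A.ch i).source) :
    ‖A.ch i x‖ < 1 := (mem_target_iff A i _).1 ((A.ch i).map_source hx)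

lemma idx_source (A : PFol n₁ n₂ X) (x : X) : x ∈ (A.ch (A.idx x)).source :=
  (Classical.choose_spec (A.cover x)).1

lemma idx_norm (A : PFol n₁ n₂ X) (x : X) : ‖A.ch (A.idx x) x‖ < 1 / 2 := by
  have h : A.ch (A.idx x) x ∈ ball (0 : EV n₁) (1 / 2) ×ˢ ball (0 : EV n₂) (1 / 2) :=
    (Classical.choose_spec (A.cover x)).2
  rw [Prod.norm_def, max_lt_iff]
  exact ⟨by simpa using h.1, by simpa using h.2⟩

/-- comparison of one chart metric with the norm on a compact ball -/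
lemma comp_one {A : PFol n₁ n₂ X} (K : KMet A) (i : A.ι) {ρ : ℝ} (hρ : ρ < 1) :
    ∃ κ > 0, ∀ p : EV n₁ × EV n₂, ‖p‖ ≤ ρ → ∀ u : EV n₁ × EV n₂,
      κ * ‖u‖ ^ 2 ≤ K.g i p u u ∧ K.g i p u u ≤ κ⁻¹ * ‖u‖ ^ 2 := by
  have hbb : ball (0 : EV n₁) 1 ×ˢ ball (0 : EV n₂) 1 = ball (0 : EV n₁ × EV n₂) 1 := by
    rw [ball_prod_same]; rfl
  set C : Set (EV n₁ × EV n₂) := closedBall 0 ρ with hC
  have hCsub : C ⊆ ball (0 : EV n₁ × EV n₂) 1 := closedBall_subset_ball hρ
  have hCc : IsCompact C := isCompact_closedBall _ _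
  have hcont : ContinuousOn (K.g i) C :=
    (K.smooth i).continuousOn.mono (by rw [hbb]; exact hCsub)
  have hmem : ∀ p : EV n₁ × EV n₂, ‖p‖ ≤ ρ ↔ p ∈ C := by intro p; simp [hC]
  simp only [hmem]
  -- upper bound
  obtain ⟨M, hM⟩ := IsCompact.exists_bound_of_continuousOn
    (E := (EV n₁ × EV n₂) →L[ℝ] (EV n₁ × EV n₂) →L[ℝ] ℝ) hCc hcont
  have hup : ∀ p ∈ C, ∀ u : EV n₁ × EV n₂, K.g i p u u ≤ (|M| + 1) * ‖u‖ ^ 2 := by
    intro p hp u
    have h1 : K.g i p u u ≤ ‖K.g i p u‖ * ‖u‖ :=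
      le_trans (le_abs_self _) ((K.g i p u).le_opNorm u)
    have h2 : ‖K.g i p u‖ ≤ ‖K.g i p‖ * ‖u‖ := (K.g i p).le_opNorm u
    have h3 : ‖K.g i p‖ ≤ |M| + 1 := (hM p hp).trans ((le_abs_self M).trans (by linarith))
    calc K.g i p u u ≤ ‖K.g i p u‖ * ‖u‖ := h1
      _ ≤ (‖K.g i p‖ * ‖u‖) * ‖u‖ := by gcongr
      _ ≤ ((|M| + 1) * ‖u‖) * ‖u‖ := by gcongr
      _ = (|M| + 1) * ‖u‖ ^ 2 := by ring
  -- lower bound on the unit sphere
  have hlow : ∃ m > 0, ∀ p ∈ C, ∀ u : EV n₁ × EV n₂, ‖u‖ = 1 → m ≤ K.g i p u u := by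
    have hc : IsCompact (C ×ˢ sphere (0 : EV n₁ × EV n₂) 1) :=
      hCc.prod (isCompact_sphere _ _)
    have hf : ContinuousOn (fun q : (EV n₁ × EV n₂) × (EV n₁ × EV n₂) => K.g i q.1 q.2 q.2)
        (C ×ˢ sphere (0 : EV n₁ × EV n₂) 1) := by
      have h1 : ContinuousOn (fun q : (EV n₁ × EV n₂) × (EV n₁ × EV n₂) => K.g i q.1)
          (C ×ˢ sphere (0 : EV n₁ × EV n₂) 1) :=
        hcont.comp continuous_fst.continuousOn (fun q hq => hq.1)
      exact (h1.clm_apply continuous_snd.continuousOn).clm_apply continuous_snd.continuousOn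
    rcases (C ×ˢ sphere (0 : EV n₁ × EV n₂) 1).eq_empty_or_nonempty with he | hne
    · refine ⟨1, one_pos, fun p hp u hu => ?_⟩
      have : (p, u) ∈ C ×ˢ sphere (0 : EV n₁ × EV n₂) 1 := ⟨hp, by simpa using hu⟩
      rw [he] at this
      exact this.elim
    · obtain ⟨q, hq, hmin⟩ := hc.exists_isMinOn hne hf
      refine ⟨K.g i q.1 q.2 q.2, ?_, fun p hp u hu => ?_⟩
      · apply K.pos i q.1 (by rw [hbb]; exact hCsub hq.1)
        intro h0
        have h2 : ‖q.2‖ = 1 := by simpa using hq.2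
        rw [h0] at h2
        simp at h2
      · exact hmin (show (p, u) ∈ C ×ˢ sphere (0 : EV n₁ × EV n₂) 1 from
          ⟨hp, by simpa using hu⟩)
  obtain ⟨m, hm, hlow⟩ := hlow
  have hMpos : 0 < |M| + 1 := by positivity
  refine ⟨min m (|M| + 1)⁻¹, lt_min hm (inv_pos.2 hMpos), fun p hp u => ⟨?_, ?_⟩⟩
  · by_cases hu : u = 0
    · subst hu; simp
    have hn : 0 < ‖u‖ := norm_pos_iff.2 hu
    have h1 := hlow p hp ((‖u‖⁻¹ : ℝ) • u) (by
      rw [norm_smul, norm_inv, norm_norm, inv_mul_cancel₀ hn.ne'])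
    have h2 : K.g i p ((‖u‖⁻¹ : ℝ) • u) ((‖u‖⁻¹ : ℝ) • u) = ‖u‖⁻¹ * (‖u‖⁻¹ * K.g i p u u) := by
      simp [map_smul]
    rw [h2] at h1
    have h3 : m * ‖u‖ ^ 2 ≤ K.g i p u u := by
      have h4 := mul_le_mul_of_nonneg_right h1 (sq_nonneg ‖u‖)
      have h5 : ‖u‖⁻¹ * (‖u‖⁻¹ * K.g i p u u) * ‖u‖ ^ 2 = K.g i p u u := by
        field_simp
      rwa [h5] at h4
    refine le_trans ?_ h3
    gcongr
    exact min_le_left _ _
  · refine (hup p hp u).trans ?_
    have h1 : |M| + 1 ≤ (min m (|M| + 1)⁻¹)⁻¹ := by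
      rw [le_inv_comm₀ hMpos (lt_min hm (inv_pos.2 hMpos))]
      exact min_le_right _ _
    gcongr

/-- comparison, uniform over a finite atlas -/
lemma comp_all {A : PFol n₁ n₂ X} [Finite A.ι] (K : KMet A) {ρ : ℝ} (hρ : ρ < 1) :
    ∃ κ > 0, ∀ i, ∀ p : EV n₁ × EV n₂, ‖p‖ ≤ ρ → ∀ u : EV n₁ × EV n₂,
      κ * ‖u‖ ^ 2 ≤ K.g i p u u ∧ K.g i p u u ≤ κ⁻¹ * ‖u‖ ^ 2 := by
  classical
  have := Fintype.ofFinite A.ι
  choose κ hκ h using fun i => comp_one K i hρ
  obtain ⟨κ₀, hκ₀, hle⟩ : ∃ κ₀ > 0, ∀ i, κ₀ ≤ κ i := by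
    rcases isEmpty_or_nonempty A.ι with he | hne
    · exact ⟨1, one_pos, fun i => he.elim i⟩
    · obtain ⟨i₀, hi₀⟩ := Finite.exists_min κ
      exact ⟨κ i₀, hκ i₀, hi₀⟩
  refine ⟨κ₀, hκ₀, fun i p hp u => ⟨?_, ?_⟩⟩
  · refine le_trans ?_ (h i p hp u).1
    gcongr
    exact hle i
  · refine (h i p hp u).2.trans ?_
    gcongr
    exact hle i

lemma trans_analytic (A : PFol n₁ n₂ X) {i j : A.ι} {x : X} (hi : x ∈ (A.ch i).source)
    (hj : x ∈ (A.ch j).source) :
    AnalyticAt ℂ (fun p => A.ch j ((A.ch i).symm p)) (A.ch i x) := by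
  obtain ⟨φ, ψ, hφ, hψ, h⟩ := A.compat i j x ⟨hi, hj⟩
  have h1 : AnalyticAt ℂ (fun p : EV n₁ × EV n₂ => (φ p.1, ψ p.2)) (A.ch i x) := by
    apply AnalyticAt.prod
    · exact AnalyticAt.fun_comp (g := φ) (f := Prod.fst) hφ analyticAt_fst
    · exact AnalyticAt.fun_comp (g := ψ) (f := Prod.snd) hψ analyticAt_snd
  exact h1.congr (h.mono fun p hp => hp.symm)

variable {A : PFol n₁ n₂ X} {U : Set ℂ} {f : ℂ → X} {t : ℂ}

lemma hol_continuousAt (hf : IsHolC A U f) (ht : t ∈ U) : ContinuousAt f t := by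
  obtain ⟨i, g, hg, h⟩ := hf t ht
  have ht' := h.self_of_nhds
  have hmem : g t ∈ (A.ch i).target := by rw [← ht'.2]; exact (A.ch i).map_source ht'.1
  have h1 : ContinuousAt (fun s => (A.ch i).symm (g s)) t :=
    ContinuousAt.comp (g := (A.ch i).symm) ((A.ch i).continuousAt_symm hmem) hg.continuousAt
  refine h1.congr (h.mono fun s hs => ?_)
  simp only [← hs.2, (A.ch i).left_inv hs.1]

lemma hol_ev (hf : IsHolC A U f) (ht : t ∈ U) {j : A.ι} (hj : f t ∈ (A.ch j).source) :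
    ∀ᶠ s in 𝓝 t, f s ∈ (A.ch j).source :=
  (hol_continuousAt hf ht).eventually ((A.ch j).open_source.mem_nhds hj)

lemma hol_chart (hf : IsHolC A U f) (ht : t ∈ U) {j : A.ι} (hj : f t ∈ (A.ch j).source) :
    AnalyticAt ℂ (fun s => A.ch j (f s)) t := by
  obtain ⟨i, g, hg, h⟩ := hf t ht
  have ht' := h.self_of_nhds
  have h1 := trans_analytic A ht'.1 hj
  rw [ht'.2] at h1
  have h2 : AnalyticAt ℂ (fun s => A.ch j ((A.ch i).symm (g s))) t :=
    AnalyticAt.fun_comp (g := fun p => A.ch j ((A.ch i).symm p)) (f := g) h1 hg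
  refine h2.congr (h.mono fun s hs => ?_)
  simp only [← hs.2, (A.ch i).left_inv hs.1]

/-- the energy density in any chart -/
lemma dens_chart (K : KMet A) (hf : IsHolC A U f) (ht : t ∈ U) {j : A.ι}
    (hj : f t ∈ (A.ch j).source) :
    densM K f t = K.g j (A.ch j (f t)) (deriv (fun s => A.ch j (f s)) t)
      (deriv (fun s => A.ch j (f s)) t) := by
  set i := A.idx (f t) with hi
  have his : f t ∈ (A.ch i).source := idx_source A (f t)
  have hT := trans_analytic A his hj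
  have hg := hol_chart hf ht his
  have hder : fderiv ℂ (fun p => A.ch j ((A.ch i).symm p)) (A.ch i (f t))
      (deriv (fun s => A.ch i (f s)) t) = deriv (fun s => A.ch j (f s)) t := by
    have h1 : HasDerivAt (fun s => A.ch j ((A.ch i).symm (A.ch i (f s))))
        (fderiv ℂ (fun p => A.ch j ((A.ch i).symm p)) (A.ch i (f t))
          (deriv (fun s => A.ch i (f s)) t)) t :=
      HasFDerivAt.comp_hasDerivAt (l := fun p => A.ch j ((A.ch i).symm p))
        (f := fun s => A.ch i (f s)) t hT.differentiableAt.hasFDerivAt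
        hg.differentiableAt.hasDerivAt
    have h2 : (fun s => A.ch j (f s)) =ᶠ[𝓝 t] fun s => A.ch j ((A.ch i).symm (A.ch i (f s))) :=
      (hol_ev hf ht his).mono fun s hs => by simp only [(A.ch i).left_inv hs]
    exact ((h1.congr_of_eventuallyEq h2).deriv).symm
  have := K.compat i j (f t) ⟨his, hj⟩ (deriv (fun s => A.ch i (f s)) t)
    (deriv (fun s => A.ch i (f s)) t)
  rw [hder] at this
  rw [this]
  rfl

lemma dens_nonneg (K : KMet A) (f : ℂ → X) (t : ℂ) : 0 ≤ densM K f t := by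
  unfold densM
  by_cases h : deriv (fun s => A.ch (A.idx (f t)) (f s)) t = 0
  · rw [h]; simp
  · refine (K.pos _ _ ?_ _ h).le
    rw [← A.target_eq (A.idx (f t))]
    exact (A.ch _).map_source (idx_source A _)

lemma dens_continuousAt (K : KMet A) (hU : IsOpen U) (hf : IsHolC A U f) (ht : t ∈ U) :
    ContinuousAt (densM K f) t := by
  set j := A.idx (f t) with hj
  have hjs : f t ∈ (A.ch j).source := idx_source A (f t)
  have hg := hol_chart hf ht hjs
  have h1 : (fun s => K.g j (A.ch j (f s)) (deriv (fun s => A.ch j (f s)) s)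
      (deriv (fun s => A.ch j (f s)) s)) =ᶠ[𝓝 t] densM K f := by
    filter_upwards [hol_ev hf ht hjs, hU.mem_nhds ht] with s hs hsU
    exact (dens_chart K hf hsU hs).symm
  refine ContinuousAt.congr ?_ h1
  have h2 : ContinuousAt (K.g j) (A.ch j (f t)) := by
    have h3 := (K.smooth j).continuousOn
    refine h3.continuousAt (IsOpen.mem_nhds (isOpen_ball.prod isOpen_ball) ?_)
    rw [← A.target_eq j]
    exact (A.ch j).map_source hjs
  have h3 : ContinuousAt (fun s => K.g j (A.ch j (f s))) t :=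
    ContinuousAt.comp (g := K.g j) (f := fun s => A.ch j (f s)) h2 hg.continuousAt
  have h4 : ContinuousAt (deriv (fun s => A.ch j (f s))) t := hg.deriv.continuousAt
  exact (h3.clm_apply h4).clm_apply h4

/-- confinement: a derivative bound keeps the image in the chart -/
lemma confine [T2Space X] (K : KMet A) {κ : ℝ} (hκ : 0 < κ)
    (hcomp : ∀ i, ∀ p : EV n₁ × EV n₂, ‖p‖ ≤ 7 / 8 → ∀ u : EV n₁ × EV n₂,
      κ * ‖u‖ ^ 2 ≤ K.g i p u u) {t₀ : ℂ} {r : ℝ} (hf : IsHolC A (ball t₀ r) f) {M : ℝ}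
    (hM : 0 ≤ M) (hdens : ∀ t ∈ ball t₀ r, densM K f t ≤ κ * M ^ 2) (hMr : M * r < 1 / 8)
    {i : A.ι} (hi : f t₀ ∈ (A.ch i).source) (h34 : ‖A.ch i (f t₀)‖ ≤ 3 / 4) :
    ∀ t ∈ ball t₀ r, f t ∈ (A.ch i).source ∧ ‖A.ch i (f t) - A.ch i (f t₀)‖ ≤ M * ‖t - t₀‖ := by
  intro t ht
  have hdr : ‖t - t₀‖ < r := by simpa [dist_eq_norm] using ht
  set d : ℝ := ‖t - t₀‖ with hd
  have hd0 : 0 ≤ d := norm_nonneg _
  set c := A.ch i (f t₀) with hc
  set γ : ℝ → ℂ := fun s => t₀ + (s : ℂ) * (t - t₀) with hγ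
  have hγc : Continuous γ := by rw [hγ]; fun_prop
  have hγball : ∀ s : ℝ, s ∈ Icc (0 : ℝ) 1 → γ s ∈ ball t₀ r := by
    intro s hs
    simp only [hγ, mem_ball, dist_eq_norm, add_sub_cancel_left, norm_mul, Complex.norm_real]
    rw [Real.norm_of_nonneg hs.1]
    calc s * ‖t - t₀‖ ≤ 1 * ‖t - t₀‖ := by gcongr; exact hs.2
      _ < r := by rw [one_mul]; exact hdr
  have hfγ : ContinuousOn (fun s => f (γ s)) (Icc 0 1) := fun s hs =>
    (ContinuousAt.comp (g := f) (hol_continuousAt hf (hγball s hs))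
      hγc.continuousAt).continuousWithinAt
  have hMd : M * d ≤ 1 / 8 := by nlinarith
  have hMds : ∀ s ∈ Icc (0 : ℝ) 1, M * d * s ≤ M * d := fun s hs => by
    have : 0 ≤ M * d := mul_nonneg hM hd0
    nlinarith [hs.2]
  -- compact set
  have hCt : closedBall c (1 / 8) ⊆ (A.ch i).target := by
    intro p hp
    rw [mem_target_iff]
    have h1 : ‖p - c‖ ≤ 1 / 8 := by simpa [dist_eq_norm] using hp
    have h2 : ‖p‖ ≤ ‖p - c‖ + ‖c‖ := by simpa using norm_add_le (p - c) c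
    linarith
  have hcomp' : IsCompact ((A.ch i).symm '' closedBall c (1 / 8)) :=
    (isCompact_closedBall c (1 / 8)).image_of_continuousOn
      ((A.ch i).continuousOn_symm.mono hCt)
  have hclosed : IsClosed ((A.ch i).symm '' closedBall c (1 / 8)) := hcomp'.isClosed
  set S : Set ℝ := {s | f (γ s) ∈ (A.ch i).source ∧ ‖A.ch i (f (γ s)) - c‖ ≤ M * d * s} with hS
  have key : Icc (0 : ℝ) 1 ⊆ S := by
    apply IsClosed.Icc_subset_of_forall_exists_gt
    · -- closedness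
      have h1 : IsClosed (Icc (0 : ℝ) 1 ∩
          (fun s => f (γ s)) ⁻¹' ((A.ch i).symm '' closedBall c (1 / 8))) :=
        hfγ.preimage_isClosed_of_isClosed isClosed_Icc hclosed
      have h2 : ContinuousOn (fun s => ‖A.ch i (f (γ s)) - c‖ - M * d * s) (Icc (0 : ℝ) 1 ∩
          (fun s => f (γ s)) ⁻¹' ((A.ch i).symm '' closedBall c (1 / 8))) := by
        apply ContinuousOn.sub
        · apply ContinuousOn.norm
          apply ContinuousOn.sub _ continuousOn_const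
          apply (A.ch i).continuousOn.comp (hfγ.mono inter_subset_left)
          rintro s ⟨_, p, hp, hps⟩
          change f (γ s) ∈ (A.ch i).source
          change (A.ch i).symm p = f (γ s) at hps
          rw [← hps]
          exact (A.ch i).map_target (hCt hp)
        · fun_prop
      have h3 := h2.preimage_isClosed_of_isClosed h1 (isClosed_Iic (a := (0 : ℝ)))
      convert h3 using 1
      ext s
      constructor
      · rintro ⟨⟨h4, h5⟩, h6⟩
        refine ⟨⟨h6, A.ch i (f (γ s)), ?_, (A.ch i).left_inv h4⟩, ?_⟩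
        · rw [mem_closedBall, dist_eq_norm]
          exact h5.trans ((hMds s h6).trans hMd)
        · simpa using h5
      · rintro ⟨⟨h6, p, hp, hps⟩, h5⟩
        refine ⟨⟨?_, ?_⟩, h6⟩
        · simp only at hps
          rw [← hps]
          exact (A.ch i).map_target (hCt hp)
        · simpa using h5
    · refine ⟨?_, ?_⟩
      · simpa [hγ] using hi
      · simp [hγ, hc]
    · rintro x ⟨⟨hx1, hx2⟩, hx3⟩ y hy
      have hxI : x ∈ Icc (0 : ℝ) 1 := Ico_subset_Icc_self hx3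
      have hxn : ‖A.ch i (f (γ x))‖ < 7 / 8 := by
        have h1 : ‖A.ch i (f (γ x))‖ ≤ ‖A.ch i (f (γ x)) - c‖ + ‖c‖ := by
          simpa using norm_add_le (A.ch i (f (γ x)) - c) c
        have h2 : M * d * x < 1 / 8 := by
          rcases eq_or_lt_of_le hM with h | h
          · rw [← h]; norm_num
          · have : M * d < M * r := mul_lt_mul_of_pos_left hdr h
            exact ((hMds x hxI).trans_lt this).trans hMr
        linarith
      -- neighbourhood
      have hev : ∀ᶠ s in 𝓝 x, γ s ∈ ball t₀ r ∧ f (γ s) ∈ (A.ch i).source ∧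
          ‖A.ch i (f (γ s))‖ < 7 / 8 := by
        have h1 : ∀ᶠ s in 𝓝 x, γ s ∈ ball t₀ r :=
          hγc.continuousAt.eventually (isOpen_ball.mem_nhds (hγball x hxI))
        have h2 : ∀ᶠ s in 𝓝 x, f (γ s) ∈ (A.ch i).source :=
          hγc.continuousAt.eventually (hol_ev hf (hγball x hxI) hx1)
        have h3 : ContinuousAt (fun s => ‖A.ch i (f (γ s))‖) x := by
          apply ContinuousAt.norm
          exact ContinuousAt.comp (g := fun z => A.ch i (f z))
            (hol_chart hf (hγball x hxI) hx1).continuousAt hγc.continuousAt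
        exact h1.and (h2.and (h3.eventually (gt_mem_nhds hxn)))
      obtain ⟨ε, hε, hball⟩ := Metric.eventually_nhds_iff_ball.1 hev
      have hder : ∀ s ∈ ball x ε, HasDerivWithinAt (fun s => A.ch i (f (γ s)))
          ((t - t₀) • deriv (fun z => A.ch i (f z)) (γ s)) (ball x ε) s := by
        intro s hs
        obtain ⟨h1, h2, _⟩ := hball s hs
        have h3 : HasDerivAt (fun z => A.ch i (f z)) (deriv (fun z => A.ch i (f z)) (γ s)) (γ s) :=
          (hol_chart hf h1 h2).differentiableAt.hasDerivAt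
        have h4 : HasDerivAt γ (t - t₀) s := by
          have h5 : HasDerivAt (fun s : ℝ => (s : ℂ) * (t - t₀)) (1 * (t - t₀)) s :=
            (Complex.ofRealCLM.hasDerivAt (x := s)).mul_const (t - t₀)
          rw [one_mul] at h5
          exact h5.const_add t₀
        exact (HasDerivAt.scomp (g₁ := fun z => A.ch i (f z)) (h := γ) s h3 h4).hasDerivWithinAt
      have hbound : ∀ s ∈ ball x ε,
          ‖(t - t₀) • deriv (fun z => A.ch i (f z)) (γ s)‖ ≤ M * d := by
        intro s hs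
        obtain ⟨h1, h2, h3⟩ := hball s hs
        have h4 := hcomp i (A.ch i (f (γ s))) h3.le (deriv (fun z => A.ch i (f z)) (γ s))
        rw [← dens_chart K hf h1 h2] at h4
        have h5 : ‖deriv (fun z => A.ch i (f z)) (γ s)‖ ^ 2 ≤ M ^ 2 :=
          le_of_mul_le_mul_left (h4.trans (hdens _ h1)) hκ
        have h6 : ‖deriv (fun z => A.ch i (f z)) (γ s)‖ ≤ M :=
          abs_le_of_sq_le_sq' h5 hM |>.2
        rw [norm_smul, mul_comm M d]
        gcongr
      set z := min y (x + ε / 2) with hz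
      have hxz : x < z := lt_min hy (by linarith)
      have hzb : z ∈ ball x ε := by
        rw [Metric.mem_ball, Real.dist_eq, abs_of_pos (by linarith)]
        have : z ≤ x + ε / 2 := min_le_right _ _
        linarith
      have h7 := Convex.norm_image_sub_le_of_norm_hasDerivWithin_le hder hbound
        (convex_ball x ε) (mem_ball_self hε) hzb
      rw [Real.norm_of_nonneg (by linarith : 0 ≤ z - x)] at h7
      refine ⟨z, ⟨(hball z hzb).2.1, ?_⟩, hxz, min_le_left _ _⟩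
      have h8 : ‖A.ch i (f (γ z)) - c‖ ≤ ‖A.ch i (f (γ z)) - A.ch i (f (γ x))‖ +
          ‖A.ch i (f (γ x)) - c‖ := norm_sub_le_norm_sub_add_norm_sub _ _ _
      linarith
  have h1 := key (right_mem_Icc.2 zero_le_one)
  have hγ1 : γ 1 = t := by simp [hγ]
  rw [hS, mem_ofPred_eq, hγ1, mul_one] at h1
  exact h1

/-- mean value inequality for the energy density -/
lemma mean_dens (K : KMet A) {κ : ℝ} (hκ : 0 < κ)
    (hcomp : ∀ i, ∀ p : EV n₁ × EV n₂, ‖p‖ ≤ 7 / 8 → ∀ u : EV n₁ × EV n₂,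
      κ * ‖u‖ ^ 2 ≤ K.g i p u u ∧ K.g i p u u ≤ κ⁻¹ * ‖u‖ ^ 2)
    {ρ : ℝ} (hρ : 0 < ρ) (hf : IsHolC A (ball t ρ) f) {i : A.ι}
    (hi : ∀ s ∈ ball t ρ, f s ∈ (A.ch i).source ∧ ‖A.ch i (f s)‖ ≤ 7 / 8) :
    ENNReal.ofReal (π * ρ ^ 2 * κ ^ 2 * densM K f t) ≤
      ∫⁻ s in ball t ρ, ENNReal.ofReal (densM K f s) := by
  have htt : t ∈ ball t ρ := mem_ball_self hρ
  have hd : DifferentiableOn ℂ (deriv (fun s => A.ch i (f s))) (ball t ρ) := fun s hs =>
    (hol_chart hf hs (hi s hs).1).deriv.differentiableAt.differentiableWithinAt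
  have h1 := submean hρ hd
  have h2 : ENNReal.ofReal (π * ρ ^ 2 * κ * densM K f t) ≤
      ENNReal.ofReal (π * ρ ^ 2 * ‖deriv (fun s => A.ch i (f s)) t‖ ^ 2) := by
    apply ENNReal.ofReal_le_ofReal
    have h3 := (hcomp i _ (hi t htt).2 (deriv (fun s => A.ch i (f s)) t)).2
    rw [← dens_chart K hf htt (hi t htt).1] at h3
    have h4 : κ * densM K f t ≤ ‖deriv (fun s => A.ch i (f s)) t‖ ^ 2 := by
      have := mul_le_mul_of_nonneg_left h3 hκ.le
      rwa [mul_inv_cancel_left₀ hκ.ne'] at this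
    calc π * ρ ^ 2 * κ * densM K f t = π * ρ ^ 2 * (κ * densM K f t) := by ring
      _ ≤ _ := by gcongr
  have h3 : ENNReal.ofReal κ * ∫⁻ s in ball t ρ,
      ENNReal.ofReal (‖deriv (fun s => A.ch i (f s)) s‖ ^ 2) ≤
      ∫⁻ s in ball t ρ, ENNReal.ofReal (densM K f s) := by
    rw [← lintegral_const_mul' _ _ ENNReal.ofReal_ne_top]
    apply setLIntegral_mono' measurableSet_ball
    intro s hs
    rw [← ENNReal.ofReal_mul hκ.le]
    apply ENNReal.ofReal_le_ofReal
    have h4 := (hcomp i _ (hi s hs).2 (deriv (fun s => A.ch i (f s)) s)).1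
    rwa [← dens_chart K hf hs (hi s hs).1] at h4
  calc ENNReal.ofReal (π * ρ ^ 2 * κ ^ 2 * densM K f t)
      = ENNReal.ofReal κ * ENNReal.ofReal (π * ρ ^ 2 * κ * densM K f t) := by
        rw [← ENNReal.ofReal_mul hκ.le]; congr 1; ring
    _ ≤ ENNReal.ofReal κ * ∫⁻ s in ball t ρ,
          ENNReal.ofReal (‖deriv (fun s => A.ch i (f s)) s‖ ^ 2) := by
        gcongr
        exact h2.trans h1
    _ ≤ _ := h3

/-- Bloch type estimate -/
lemma bloch [T2Space X] (K : KMet A) {κ : ℝ} (hκ : 0 < κ)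
    (hcomp : ∀ i, ∀ p : EV n₁ × EV n₂, ‖p‖ ≤ 7 / 8 → ∀ u : EV n₁ × EV n₂,
      κ * ‖u‖ ^ 2 ≤ K.g i p u u ∧ K.g i p u u ≤ κ⁻¹ * ‖u‖ ^ 2)
    {t₀ : ℂ} {r R : ℝ} (hR : 0 < R) (hRr : R < r) (hf : IsHolC A (ball t₀ r) f) {a : ℝ}
    (ha : 0 ≤ a) (hsmall : a < π * κ ^ 3 / 1024)
    (hA : ∫⁻ t in ball t₀ r, ENNReal.ofReal (densM K f t) ≤ ENNReal.ofReal a) :
    ∀ s ∈ closedBall t₀ R, densM K f s * (R - ‖s - t₀‖) ^ 2 ≤ 4 * a / (π * κ ^ 2) := by
  have hsubR : closedBall t₀ R ⊆ ball t₀ r := closedBall_subset_ball hRr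
  have hcont : ContinuousOn (fun s => densM K f s * (R - ‖s - t₀‖) ^ 2) (closedBall t₀ R) := by
    apply ContinuousOn.mul
    · intro s hs
      exact (dens_continuousAt K isOpen_ball hf (hsubR hs)).continuousWithinAt
    · fun_prop
  obtain ⟨t₁, ht₁, hmax⟩ := (isCompact_closedBall t₀ R).exists_isMaxOn
    ⟨t₀, mem_closedBall_self hR.le⟩ hcont
  suffices hgoal : densM K f t₁ * (R - ‖t₁ - t₀‖) ^ 2 ≤ 4 * a / (π * κ ^ 2) from
    fun s hs => (hmax hs).trans hgoal
  by_contra hcon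
  rw [not_le] at hcon
  set e := densM K f t₁ with he
  set d := R - ‖t₁ - t₀‖ with hd
  have hd0 : 0 ≤ d := by
    have : ‖t₁ - t₀‖ ≤ R := by simpa [dist_eq_norm] using ht₁
    linarith
  have he0 : 0 ≤ e := dens_nonneg K f t₁
  have hapos : 0 ≤ 4 * a / (π * κ ^ 2) := by positivity
  have hed : 0 < e * d ^ 2 := lt_of_le_of_lt hapos hcon
  have hdpos : 0 < d := by
    rcases hd0.eq_or_lt with h | h
    · rw [← h] at hed; simp at hed
    · exact h
  have hepos : 0 < e := by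
    rcases he0.eq_or_lt with h | h
    · rw [← h] at hed; simp at hed
    · exact h
  set m := Real.sqrt e with hm
  have hm0 : 0 < m := Real.sqrt_pos.2 hepos
  have hmsq : m ^ 2 = e := Real.sq_sqrt he0
  set k := Real.sqrt κ with hk
  have hk0 : 0 < k := Real.sqrt_pos.2 hκ
  have hksq : k ^ 2 = κ := Real.sq_sqrt hκ.le
  set M := 2 * m / k with hM
  have hM0 : 0 < M := by positivity
  have hMsq : κ * M ^ 2 = 4 * e := by
    rw [hM, ← hksq, ← hmsq]; field_simp; ring
  have hmaxball : ∀ s ∈ ball t₁ (d / 2), s ∈ closedBall t₀ R ∧ densM K f s ≤ κ * M ^ 2 := by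
    intro s hs
    have h1 : ‖s - t₁‖ < d / 2 := by simpa [dist_eq_norm] using hs
    have h2 : ‖s - t₀‖ ≤ ‖s - t₁‖ + ‖t₁ - t₀‖ := norm_sub_le_norm_sub_add_norm_sub _ _ _
    have h3 : d / 2 < R - ‖s - t₀‖ := by linarith
    have hs' : s ∈ closedBall t₀ R := by
      rw [mem_closedBall, dist_eq_norm]; linarith
    refine ⟨hs', ?_⟩
    have h4 : densM K f s * (R - ‖s - t₀‖) ^ 2 ≤ e * d ^ 2 := hmax hs'
    rw [hMsq]
    have h5 : (d / 2) ^ 2 ≤ (R - ‖s - t₀‖) ^ 2 := by gcongr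
    have h6 : densM K f s * (d / 2) ^ 2 ≤ e * d ^ 2 :=
      (mul_le_mul_of_nonneg_left h5 (dens_nonneg K f s)).trans h4
    have h7 : densM K f s * (d / 2) ^ 2 ≤ (4 * e) * (d / 2) ^ 2 := by
      calc densM K f s * (d / 2) ^ 2 ≤ e * d ^ 2 := h6
        _ = (4 * e) * (d / 2) ^ 2 := by ring
    exact le_of_mul_le_mul_right h7 (by positivity)
  set ρ := min (d / 2) (1 / (16 * M)) with hρ
  have hρ0 : 0 < ρ := lt_min (by positivity) (by positivity)
  have hMρ : M * ρ ≤ 1 / 16 := by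
    have : ρ ≤ 1 / (16 * M) := min_le_right _ _
    calc M * ρ ≤ M * (1 / (16 * M)) := by gcongr
      _ = 1 / 16 := by field_simp
  have hsubρ : ball t₁ ρ ⊆ ball t₁ (d / 2) := ball_subset_ball (min_le_left _ _)
  have hsubr : ball t₁ ρ ⊆ ball t₀ r := fun s hs => hsubR (hmaxball s (hsubρ hs)).1
  have hfρ : IsHolC A (ball t₁ ρ) f := fun s hs => hf s (hsubr hs)
  have hconf := confine K hκ (fun i p hp u => (hcomp i p hp u).1) hfρ hM0.le
    (fun s hs => (hmaxball s (hsubρ hs)).2) (by linarith)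
    (idx_source A (f t₁)) (by have := idx_norm A (f t₁); linarith)
  have hmean := mean_dens K hκ hcomp hρ0 hfρ (i := A.idx (f t₁)) (fun s hs => by
    obtain ⟨h1, h2⟩ := hconf s hs
    refine ⟨h1, ?_⟩
    have h3 : ‖s - t₁‖ < ρ := by simpa [dist_eq_norm] using hs
    have h4 : M * ‖s - t₁‖ ≤ 1 / 16 := (mul_le_mul_of_nonneg_left h3.le hM0.le).trans hMρ
    have h5 := idx_norm A (f t₁)
    have h6 : ‖A.ch (A.idx (f t₁)) (f s)‖ ≤ ‖A.ch (A.idx (f t₁)) (f s) -
        A.ch (A.idx (f t₁)) (f t₁)‖ + ‖A.ch (A.idx (f t₁)) (f t₁)‖ := by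
      simpa using norm_add_le (A.ch (A.idx (f t₁)) (f s) - A.ch (A.idx (f t₁)) (f t₁))
        (A.ch (A.idx (f t₁)) (f t₁))
    linarith)
  have h1 : ENNReal.ofReal (π * ρ ^ 2 * κ ^ 2 * e) ≤ ENNReal.ofReal a :=
    hmean.trans ((lintegral_mono_set hsubr).trans hA)
  have h2 : π * ρ ^ 2 * κ ^ 2 * e ≤ a := (ENNReal.ofReal_le_ofReal_iff ha).1 h1
  rcases min_choice (d / 2) (1 / (16 * M)) with h | h
  · rw [hρ, h] at h2
    apply absurd hcon
    rw [not_lt, le_div_iff₀ (by positivity)]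
    nlinarith
  · rw [hρ, h] at h2
    have h3 : π * (1 / (16 * M)) ^ 2 * κ ^ 2 * e = π * κ ^ 3 / 1024 := by
      have : (1 / (16 * M)) ^ 2 = κ / (1024 * e) := by
        rw [hM, ← hksq, ← hmsq]; field_simp; ring
      rw [this]; field_simp
    rw [h3] at h2
    linarith

/-- **E0, strong form.** -/
theorem E0S_holds [T2Space X] [Finite A.ι] (K : KMet A) : St_E0S K := by
  obtain ⟨κ, hκ, hcomp⟩ := comp_all K (ρ := 7 / 8) (by norm_num)
  intro δ hδ
  set δ' := min δ (1 / 16) with hδ'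
  have hδ'0 : 0 < δ' := lt_min hδ (by norm_num)
  set a := min (π * κ ^ 3 / 2048) (π * κ ^ 3 * δ' ^ 2 / 16) with ha
  have ha0 : 0 < a := lt_min (by positivity) (by positivity)
  refine ⟨a, ha0, fun f t₀ r hr hf hA i hi h34 => ?_⟩
  have hsmall : a < π * κ ^ 3 / 1024 := by
    have h1 : a ≤ π * κ ^ 3 / 2048 := min_le_left _ _
    have h2 : 0 < π * κ ^ 3 := by positivity
    linarith
  have hb := bloch K hκ hcomp (R := 3 / 4 * r) (by positivity) (by linarith) hf ha0.le hsmall hA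
  have hdens : ∀ s ∈ ball t₀ (r / 2), densM K f s ≤ κ * (2 * δ' / r) ^ 2 := by
    intro s hs
    have h1 : ‖s - t₀‖ < r / 2 := by simpa [dist_eq_norm] using hs
    have h2 := hb s (by rw [mem_closedBall, dist_eq_norm]; linarith)
    have h3 : (r / 4) ^ 2 ≤ (3 / 4 * r - ‖s - t₀‖) ^ 2 := by
      have : 0 ≤ r / 4 := by positivity
      have h4 : r / 4 ≤ 3 / 4 * r - ‖s - t₀‖ := by linarith
      gcongr
    have h4 : densM K f s * (r / 4) ^ 2 ≤ 4 * a / (π * κ ^ 2) :=
      (mul_le_mul_of_nonneg_left h3 (dens_nonneg K f s)).trans h2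
    have h5 : 4 * a / (π * κ ^ 2) ≤ κ * δ' ^ 2 / 4 := by
      rw [div_le_iff₀ (by positivity)]
      have h6 : a ≤ π * κ ^ 3 * δ' ^ 2 / 16 := min_le_right _ _
      calc 4 * a ≤ 4 * (π * κ ^ 3 * δ' ^ 2 / 16) := by linarith
        _ = κ * δ' ^ 2 / 4 * (π * κ ^ 2) := by ring
    have h6 : densM K f s * (r / 4) ^ 2 ≤ (κ * (2 * δ' / r) ^ 2) * (r / 4) ^ 2 := by
      refine (h4.trans h5).trans (le_of_eq ?_)
      field_simp; ring
    exact le_of_mul_le_mul_right h6 (by positivity)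
  have h34' : ‖A.ch i (f t₀)‖ ≤ 3 / 4 := by
    rw [Prod.norm_def]
    exact max_le (by simpa using (mem_ball_zero_iff.1 h34.1).le)
      (by simpa using (mem_ball_zero_iff.1 h34.2).le)
  have hf2 : IsHolC A (ball t₀ (r / 2)) f := fun s hs =>
    hf s (ball_subset_ball (by linarith) hs)
  have hδ16 : δ' ≤ 1 / 16 := min_le_right _ _
  have hconf := confine K hκ (fun i p hp u => (hcomp i p hp u).1) hf2
    (M := 2 * δ' / r) (by positivity) hdens
    (by
      have : 2 * δ' / r * (r / 2) = δ' := by field_simp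
      rw [this]; linarith) hi h34'
  intro t ht
  obtain ⟨h1, h2⟩ := hconf t ht
  refine ⟨h1, h2.trans ?_⟩
  have h3 : ‖t - t₀‖ < r / 2 := by simpa [dist_eq_norm] using ht
  calc 2 * δ' / r * ‖t - t₀‖ ≤ 2 * δ' / r * (r / 2) := by gcongr
    _ = δ' := by field_simp
    _ ≤ δ := min_le_left _ _

end Crest.Agent.R266.E0
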