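import Crest.Agent.R266.Stmts

/-!
R266 / E0Defs: holomorphic curves in `X`, energy density, the strong form of `E0`
(small area ⇒ derivative bound ⇒ confinement to a chart).
-/

set_option autoImplicit false

open scoped Manifold ContDiff Topology ENNReal
open Set Metric Filter MeasureTheory

namespace Crest.Agent.R266

section
variable {n₁ n₂ : ℕ} {X : Type} [TopologicalSpace X]

/-- holomorphic curves (no tangency condition) -/
def IsHolC (A : PFol n₁ n₂ X) (U : Set ℂ) (f : ℂ → X) : Prop :=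
  ∀ t ∈ U, ∃ (i : A.ι) (g : ℂ → EV n₁ × EV n₂), AnalyticAt ℂ g t ∧
    ∀ᶠ s in 𝓝 t, f s ∈ (A.ch i).source ∧ A.ch i (f s) = g s

/-- the energy density `|f'(t)|²` of a holomorphic curve -/
noncomputable def densM {A : PFol n₁ n₂ X} (K : KMet A) (f : ℂ → X) (t : ℂ) : ℝ :=
  K.g (A.idx (f t)) (A.ch (A.idx (f t)) (f t))
    (deriv (fun s => A.ch (A.idx (f t)) (f s)) t) (deriv (fun s => A.ch (A.idx (f t)) (f s)) t)

/-- strong form of E0: small area on `ball t₀ r` confines `f (ball t₀ (r/2))` to a small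
neighbourhood of `f t₀`, in every chart in which `f t₀` is well inside. -/
def St_E0S {A : PFol n₁ n₂ X} (K : KMet A) : Prop :=
  ∀ δ > 0, ∃ a₀ > 0, ∀ (f : ℂ → X) (t₀ : ℂ) (r : ℝ), 0 < r → IsHolC A (ball t₀ r) f →
    (∫⁻ t in ball t₀ r, ENNReal.ofReal (densM K f t) ≤ ENNReal.ofReal a₀) →
    ∀ i, f t₀ ∈ (A.ch i).source →
      A.ch i (f t₀) ∈ ball (0 : EV n₁) (3 / 4) ×ˢ ball (0 : EV n₂) (3 / 4) →
      ∀ t ∈ ball t₀ (r / 2), f t ∈ (A.ch i).source ∧ ‖A.ch i (f t) - A.ch i (f t₀)‖ ≤ δ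
end

end Crest.Agent.R266
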