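import Crest.Agent.R266.HolC

/-!
R266 / E0Mean: the area sub-mean value inequality for holomorphic functions and the confinement
lemma for holomorphic curves.
-/

set_option autoImplicit false

open scoped Manifold ContDiff Topology ENNReal
open Set Metric Filter MeasureTheory

namespace Crest.Agent.R266

namespace HC

section MV

variable {E : Type*} [NormedAddCommGroup E] [NormedSpace ℂ E] [CompleteSpace E]

lemma circle_lower {h : ℂ → E} {t₁ : ℂ} {ρ s : ℝ} (hρ : 0 < ρ) (hρs : ρ < s)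
    (hd : DifferentiableOn ℂ h (ball t₁ s)) :
    ENNReal.ofReal (2 * Real.pi * ‖h t₁‖ ^ 2) ≤
      ∫⁻ θ in Ioo (-Real.pi) Real.pi, ENNReal.ofReal (‖h (circleMap t₁ ρ θ)‖ ^ 2) := by
  set c := ‖h t₁‖ with hc
  have hsub : closedBall t₁ |ρ| ⊆ ball t₁ s := by
    rw [abs_of_pos hρ]; exact closedBall_subset_ball hρs
  have hmem : ∀ θ : ℝ, circleMap t₁ ρ θ ∈ ball t₁ s := fun θ =>
    hsub (sphere_subset_closedBall (circleMap_mem_sphere' t₁ ρ θ))
  have hcont : Continuous fun θ : ℝ => h (circleMap t₁ ρ θ) :=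
    hd.continuousOn.comp_continuous (continuous_circleMap t₁ ρ) hmem
  have hdc : DiffContOnCl ℂ h (ball t₁ |ρ|) := by
    refine ⟨hd.mono (ball_subset_closedBall.trans hsub), ?_⟩
    have h1 : closure (ball t₁ |ρ|) ⊆ closedBall t₁ |ρ| := closure_ball_subset_closedBall
    exact hd.continuousOn.mono (h1.trans hsub)
  have hmean := hdc.circleAverage
  rw [Real.circleAverage_def] at hmean
  have hper : Function.Periodic (fun θ : ℝ => h (circleMap t₁ ρ θ)) (2 * Real.pi) := by
    intro θ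
    simp only [periodic_circleMap t₁ ρ θ]
  have hshift : ∫ θ in (0 : ℝ)..(2 * Real.pi), h (circleMap t₁ ρ θ) =
      ∫ θ in (-Real.pi)..Real.pi, h (circleMap t₁ ρ θ) := by
    have := hper.intervalIntegral_add_eq (-Real.pi) 0
    rw [show -Real.pi + 2 * Real.pi = Real.pi by ring, zero_add] at this
    exact this.symm
  have hle : -Real.pi ≤ Real.pi := by linarith [Real.pi_pos]
  have h2 : 2 * Real.pi * c ≤ ∫ θ in (-Real.pi)..Real.pi, ‖h (circleMap t₁ ρ θ)‖ := by
    have h3 : ‖∫ θ in (-Real.pi)..Real.pi, h (circleMap t₁ ρ θ)‖ ≤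
        ∫ θ in (-Real.pi)..Real.pi, ‖h (circleMap t₁ ρ θ)‖ :=
      intervalIntegral.norm_integral_le_integral_norm hle
    have h4 : ∫ θ in (-Real.pi)..Real.pi, h (circleMap t₁ ρ θ) = (2 * Real.pi) • h t₁ := by
      rw [← hshift, ← hmean, smul_smul, mul_inv_cancel₀ (by positivity), one_smul]
    rw [h4, norm_smul, Real.norm_eq_abs, abs_of_pos (by positivity)] at h3
    exact h3
  have h5 : 2 * Real.pi * c ^ 2 ≤ ∫ θ in (-Real.pi)..Real.pi, ‖h (circleMap t₁ ρ θ)‖ ^ 2 := by
    have hi1 : IntervalIntegrable (fun θ : ℝ => ‖h (circleMap t₁ ρ θ)‖) volume (-Real.pi) Real.pi :=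
      hcont.norm.intervalIntegrable _ _
    have hi2 : IntervalIntegrable (fun θ : ℝ => ‖h (circleMap t₁ ρ θ)‖ ^ 2) volume (-Real.pi)
        Real.pi := (hcont.norm.pow 2).intervalIntegrable _ _
    have h6 : ∫ θ in (-Real.pi)..Real.pi, (2 * c * ‖h (circleMap t₁ ρ θ)‖ - c ^ 2) ≤
        ∫ θ in (-Real.pi)..Real.pi, ‖h (circleMap t₁ ρ θ)‖ ^ 2 := by
      apply intervalIntegral.integral_mono_on hle
      · exact (hi1.const_mul _).sub intervalIntegrable_const
      · exact hi2
      · intro θ _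
        nlinarith [sq_nonneg (‖h (circleMap t₁ ρ θ)‖ - c)]
    rw [intervalIntegral.integral_sub (hi1.const_mul _) intervalIntegrable_const,
      intervalIntegral.integral_const_mul, intervalIntegral.integral_const] at h6
    have hc0 : 0 ≤ c := norm_nonneg _
    have h7 : 2 * c * (2 * Real.pi * c) ≤
        2 * c * ∫ θ in (-Real.pi)..Real.pi, ‖h (circleMap t₁ ρ θ)‖ := by gcongr
    simp only [smul_eq_mul] at h6
    nlinarith
  have h8 : ∫⁻ θ in Ioo (-Real.pi) Real.pi, ENNReal.ofReal (‖h (circleMap t₁ ρ θ)‖ ^ 2) =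
      ENNReal.ofReal (∫ θ in (-Real.pi)..Real.pi, ‖h (circleMap t₁ ρ θ)‖ ^ 2) := by
    rw [intervalIntegral.integral_of_le hle, integral_Ioc_eq_integral_Ioo]
    rw [ofReal_integral_eq_lintegral_ofReal]
    · exact ((hcont.norm.pow 2).integrableOn_Icc (a := -Real.pi) (b := Real.pi)).mono_set
        Ioo_subset_Icc_self
    · exact Eventually.of_forall fun θ => by positivity
  rw [h8]
  exact ENNReal.ofReal_le_ofReal h5

/-- area sub-mean value inequality -/
theorem mean_value {h : ℂ → E} {t₁ : ℂ} {s : ℝ} (hs : 0 < s)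
    (hd : DifferentiableOn ℂ h (ball t₁ s)) :
    ENNReal.ofReal (Real.pi * s ^ 2 * ‖h t₁‖ ^ 2) ≤
      ∫⁻ t in ball t₁ s, ENNReal.ofReal (‖h t‖ ^ 2) := by
  set F : ℂ → ℝ≥0∞ := fun t => ENNReal.ofReal (‖h t‖ ^ 2) with hF
  have e1 : ∫⁻ t in ball t₁ s, F t = ∫⁻ z, (ball t₁ s).indicator F (t₁ + z) := by
    rw [lintegral_add_left_eq_self, lintegral_indicator measurableSet_ball]
  have e2 := Complex.lintegral_comp_polarCoord_symm (fun z => (ball t₁ s).indicator F (t₁ + z))
  rw [e1, ← e2]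
  have hsub : Ioo 0 s ×ˢ Ioo (-Real.pi) Real.pi ⊆ polarCoord.target := by
    rw [polarCoord_target]
    exact Set.prod_mono Ioo_subset_Ioi_self Subset.rfl
  refine le_trans ?_ (lintegral_mono_set hsub)
  have hms : MeasurableSet (Ioo 0 s ×ˢ Ioo (-Real.pi) Real.pi : Set (ℝ × ℝ)) :=
    measurableSet_Ioo.prod measurableSet_Ioo
  have hcm : ∀ p : ℝ × ℝ, t₁ + Complex.polarCoord.symm p = circleMap t₁ p.1 p.2 := by
    intro p
    rw [Complex.polarCoord_symm_apply, circleMap, Complex.exp_mul_I]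
    push_cast
    ring
  have e3 : ∫⁻ p in Ioo 0 s ×ˢ Ioo (-Real.pi) Real.pi,
      ENNReal.ofReal p.1 • (ball t₁ s).indicator F (t₁ + Complex.polarCoord.symm p) =
      ∫⁻ p in Ioo 0 s ×ˢ Ioo (-Real.pi) Real.pi,
        ENNReal.ofReal p.1 * F (circleMap t₁ p.1 p.2) := by
    apply setLIntegral_congr_fun hms
    intro p hp
    have hmem : t₁ + Complex.polarCoord.symm p ∈ ball t₁ s := by
      rw [mem_ball, dist_eq_norm, add_sub_cancel_left, Complex.norm_polarCoord_symm,
        abs_of_pos hp.1.1]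
      exact hp.1.2
    rw [hcm] at hmem
    simp only [smul_eq_mul, hcm, indicator_of_mem hmem]
  rw [e3]
  have hcontp : ContinuousOn (fun p : ℝ × ℝ => ENNReal.ofReal p.1 * F (circleMap t₁ p.1 p.2))
      (Ioo 0 s ×ˢ Ioo (-Real.pi) Real.pi) := by
    have h1 : ContinuousOn (fun p : ℝ × ℝ => h (circleMap t₁ p.1 p.2))
        (Ioo 0 s ×ˢ Ioo (-Real.pi) Real.pi) := by
      apply hd.continuousOn.comp
      · have : Continuous fun p : ℝ × ℝ => circleMap t₁ p.1 p.2 := by
          unfold circleMap; fun_prop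
        exact this.continuousOn
      · intro p hp
        rw [mem_ball, dist_eq_norm, circleMap_sub_center, norm_circleMap_zero, abs_of_pos hp.1.1]
        exact hp.1.2
    have h2 : ContinuousOn (fun p : ℝ × ℝ => ENNReal.ofReal (p.1 * ‖h (circleMap t₁ p.1 p.2)‖ ^ 2))
        (Ioo 0 s ×ˢ Ioo (-Real.pi) Real.pi) :=
      ENNReal.continuous_ofReal.comp_continuousOn
        (continuous_fst.continuousOn.mul (h1.norm.pow 2))
    refine h2.congr ?_
    intro p hp
    simp only [hF]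
    rw [ENNReal.ofReal_mul hp.1.1.le]
  rw [Measure.volume_eq_prod, ← Measure.prod_restrict, lintegral_prod]
  · have hin : ∀ ρ ∈ Ioo 0 s, ENNReal.ofReal (ρ * (2 * Real.pi * ‖h t₁‖ ^ 2)) ≤
        ∫⁻ θ in Ioo (-Real.pi) Real.pi, ENNReal.ofReal ρ * F (circleMap t₁ ρ θ) := by
      intro ρ hρ
      rw [lintegral_const_mul' _ _ ENNReal.ofReal_ne_top, ENNReal.ofReal_mul hρ.1.le]
      gcongr
      exact circle_lower hρ.1 hρ.2 hd
    calc ENNReal.ofReal (Real.pi * s ^ 2 * ‖h t₁‖ ^ 2)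
        = ∫⁻ ρ in Ioo 0 s, ENNReal.ofReal (ρ * (2 * Real.pi * ‖h t₁‖ ^ 2)) := by
          rw [← ofReal_integral_eq_lintegral_ofReal]
          · congr 1
            rw [← integral_Ioc_eq_integral_Ioo, ← intervalIntegral.integral_of_le hs.le,
              intervalIntegral.integral_mul_const, integral_id]
            ring
          · exact ((continuous_id.mul continuous_const).integrableOn_Icc (a := 0) (b := s)).mono_set
              Ioo_subset_Icc_self
          · refine (ae_restrict_iff' measurableSet_Ioo).2 (Eventually.of_forall fun ρ hρ => ?_)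
            have := hρ.1
            simp only [Pi.zero_apply]
            positivity
      _ ≤ ∫⁻ ρ in Ioo 0 s, ∫⁻ θ in Ioo (-Real.pi) Real.pi,
            ENNReal.ofReal ρ * F (circleMap t₁ ρ θ) :=
          setLIntegral_mono' measurableSet_Ioo hin
  · rw [Measure.prod_restrict, ← Measure.volume_eq_prod]
    exact hcontp.aemeasurable hms

end MV

section Conf

variable {n₁ n₂ : ℕ} {X : Type} [TopologicalSpace X]

/-- confinement: as long as the curve is in the chart ball its speed is at most `L`, and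
`L * s ≤ ε`; then it stays in the chart ball. -/
theorem conf [T2Space X] {A : PFol n₁ n₂ X} (i : A.ι) {f : ℂ → X} {t₁ : ℂ} {s : ℝ}
    (hf : IsHolC A (ball t₁ s) f) (h1 : f t₁ ∈ (A.ch i).source) {ε L : ℝ} (hε : 0 < ε)
    (hsub : closedBall (A.ch i (f t₁)) ε ⊆ (A.ch i).target) (hL : 0 ≤ L) (hLs : L * s ≤ ε)
    (hd : ∀ t ∈ ball t₁ s, f t ∈ (A.ch i).source → ‖A.ch i (f t) - A.ch i (f t₁)‖ ≤ ε →
      ‖deriv (fun s => A.ch i (f s)) t‖ ≤ L) :
    ∀ t ∈ ball t₁ s, f t ∈ (A.ch i).source ∧ ‖A.ch i (f t) - A.ch i (f t₁)‖ ≤ L * ‖t - t₁‖ := by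
  intro t ht
  set p₀ := A.ch i (f t₁) with hp₀
  set Kc : Set X := (A.ch i).symm '' closedBall p₀ ε with hKc
  have hKcomp : IsCompact Kc :=
    (isCompact_closedBall p₀ ε).image_of_continuousOn ((A.ch i).continuousOn_symm.mono hsub)
  have hKclosed : IsClosed Kc := hKcomp.isClosed
  have hKmem : ∀ x, x ∈ Kc ↔ x ∈ (A.ch i).source ∧ ‖A.ch i x - p₀‖ ≤ ε := by
    intro x
    constructor
    · rintro ⟨p, hp, rfl⟩
      refine ⟨(A.ch i).map_target (hsub hp), ?_⟩
      rw [(A.ch i).right_inv (hsub hp)]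
      rwa [mem_closedBall, dist_eq_norm] at hp
    · rintro ⟨hx, hn⟩
      refine ⟨A.ch i x, ?_, (A.ch i).left_inv hx⟩
      rwa [mem_closedBall, dist_eq_norm]
  have hsegm : ∀ u ∈ Icc (0 : ℝ) 1, t₁ + (u : ℂ) * (t - t₁) ∈ ball t₁ s := by
    intro u hu
    rw [mem_ball, dist_eq_norm, add_sub_cancel_left, norm_mul, Complex.norm_real, Real.norm_eq_abs,
      abs_of_nonneg hu.1]
    rw [mem_ball, dist_eq_norm] at ht
    have : u * ‖t - t₁‖ ≤ 1 * ‖t - t₁‖ := by
      apply mul_le_mul_of_nonneg_right hu.2 (norm_nonneg _)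
    linarith
  set γ : ℝ → ℂ := fun u => t₁ + (u : ℂ) * (t - t₁) with hγ
  have hγc : Continuous γ := by simp only [hγ]; fun_prop
  have hfγ : ∀ u ∈ Icc (0 : ℝ) 1, ContinuousAt (fun v => f (γ v)) u := by
    intro u hu
    exact ContinuousAt.comp (g := f) (f := γ) (continuousAt hf (hsegm u hu)) hγc.continuousAt
  have hγ0 : γ 0 = t₁ := by simp [hγ]
  have hγ1 : γ 1 = t := by simp [hγ]
  -- the closed set of good parameters
  set C : Set ℝ := {u | u ∈ Icc (0 : ℝ) 1 ∧ f (γ u) ∈ Kc} with hC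
  have hCclosed : IsClosed C := by
    have hco : ContinuousOn (fun v => f (γ v)) (Icc (0 : ℝ) 1) := fun u hu =>
      (hfγ u hu).continuousWithinAt
    have := hco.preimage_isClosed_of_isClosed isClosed_Icc hKclosed
    exact this
  set S : Set ℝ := {u | u ∈ Icc (0 : ℝ) 1 ∧ Icc 0 u ⊆ C} with hS
  have h0C : (0 : ℝ) ∈ C := by
    refine ⟨⟨le_refl _, zero_le_one⟩, ?_⟩
    rw [hγ0, hKmem]
    exact ⟨h1, by simp [hp₀, hε.le]⟩
  have h0S : (0 : ℝ) ∈ S := by
    refine ⟨⟨le_refl _, zero_le_one⟩, ?_⟩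
    intro v hv
    have : v = 0 := le_antisymm hv.2 hv.1
    rw [this]; exact h0C
  -- derivative bound on good initial segments
  have hbound : ∀ u ∈ S, ‖A.ch i (f (γ u)) - p₀‖ ≤ L * ‖t - t₁‖ * u := by
    intro u hu
    have hder : ∀ v ∈ Icc 0 u, HasDerivWithinAt (fun v => A.ch i (f (γ v)))
        ((t - t₁) • deriv (fun s => A.ch i (f s)) (γ v)) (Icc 0 u) v := by
      intro v hv
      have hvC := hu.2 hv
      have hfs := ((hKmem _).1 hvC.2).1
      have h2 : HasDerivAt (fun s => A.ch i (f s)) (deriv (fun s => A.ch i (f s)) (γ v)) (γ v) :=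
        (chart hf (hsegm v hvC.1) i hfs).differentiableAt.hasDerivAt
      have h3 : HasDerivAt γ (t - t₁) v := by
        have h4 : HasDerivAt (fun u : ℝ => (u : ℂ)) 1 v := Complex.ofRealCLM.hasDerivAt
        have h5 := (h4.mul_const (t - t₁)).const_add t₁
        simpa [hγ] using h5
      exact (h2.scomp v h3).hasDerivWithinAt
    have hb : ∀ v ∈ Ico 0 u, ‖(t - t₁) • deriv (fun s => A.ch i (f s)) (γ v)‖ ≤ L * ‖t - t₁‖ := by
      intro v hv
      have hvC := hu.2 ⟨hv.1, hv.2.le⟩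
      have hfs := (hKmem _).1 hvC.2
      rw [norm_smul, mul_comm]
      gcongr
      exact hd (γ v) (hsegm v hvC.1) hfs.1 hfs.2
    have h6 := norm_image_sub_le_of_norm_deriv_le_segment' hder hb u ⟨hu.1.1, le_refl _⟩
    simpa [hγ0, hp₀] using h6
  -- closedness of S
  have hSclosed : IsClosed (S ∩ Icc 0 1) := by
    apply isClosed_of_closure_subset
    intro u hu
    have hu01 : u ∈ Icc (0 : ℝ) 1 := by
      have := closure_mono (inter_subset_right (s := S) (t := Icc (0 : ℝ) 1)) hu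
      rwa [isClosed_Icc.closure_eq] at this
    refine ⟨⟨hu01, ?_⟩, hu01⟩
    have hIco : Ico 0 u ⊆ C := by
      intro v hv
      obtain ⟨w, hw1, hw2⟩ := mem_closure_iff.1 hu (Ioi v) isOpen_Ioi hv.2
      exact hw2.1.2 ⟨hv.1, le_of_lt hw1⟩
    intro v hv
    rcases hv.2.lt_or_eq with hlt | heq
    · exact hIco ⟨hv.1, hlt⟩
    · rw [heq]
      rcases hu01.1.lt_or_eq with hpos | h0
      · have h7 : u ∈ closure (Ico 0 u) := by
          rw [closure_Ico hpos.ne]
          exact ⟨hpos.le, le_refl _⟩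
        have h8 := closure_mono hIco h7
        rwa [hCclosed.closure_eq] at h8
      · rw [← h0]; exact h0C
  -- openness to the right
  have hstep : ∀ x ∈ S ∩ Ico 0 1, (S ∩ Ioc x 1).Nonempty := by
    intro x hx
    have hb := hbound x hx.1
    have hlt : ‖A.ch i (f (γ x)) - p₀‖ < ε := by
      rw [mem_ball, dist_eq_norm] at ht
      rcases hL.lt_or_eq with hLpos | hL0
      · have h9 : L * ‖t - t₁‖ * x ≤ L * ‖t - t₁‖ * 1 := by
          gcongr
          exact hx.2.2.le
        have h10 : L * ‖t - t₁‖ < L * s := by gcongr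
        linarith
      · rw [← hL0] at hb
        simp only [zero_mul] at hb
        linarith
    have hxC := hx.1.2 (show x ∈ Icc 0 x from ⟨hx.1.1.1, le_refl _⟩)
    have hsrc := ((hKmem _).1 hxC.2).1
    have hnhds : ∀ᶠ v in 𝓝 x, f (γ v) ∈ Kc := by
      have hA : ∀ᶠ y in 𝓝 (f (γ x)), y ∈ Kc := by
        have h11 : ContinuousAt (fun y => ‖A.ch i y - p₀‖) (f (γ x)) :=
          (((A.ch i).continuousAt hsrc).sub continuousAt_const).norm
        filter_upwards [(A.ch i).open_source.mem_nhds hsrc, h11.eventually_lt continuousAt_const hlt]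
          with y hy1 hy2
        exact (hKmem y).2 ⟨hy1, hy2.le⟩
      exact (hfγ x hxC.1).eventually hA
    obtain ⟨δ, hδ, hball⟩ := Metric.eventually_nhds_iff.1 hnhds
    set z := min 1 (x + δ / 2) with hz
    have hxz : x < z := lt_min hx.2.2 (by linarith)
    have hz1 : z ≤ 1 := min_le_left _ _
    refine ⟨z, ⟨⟨⟨hx.2.1.trans hxz.le, hz1⟩, ?_⟩, ⟨hxz, hz1⟩⟩⟩
    intro v hv
    by_cases hvx : v ≤ x
    · exact hx.1.2 ⟨hv.1, hvx⟩
    · push Not at hvx
      refine ⟨⟨hv.1, hv.2.trans hz1⟩, hball ?_⟩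
      rw [Real.dist_eq, abs_of_pos (by linarith)]
      have : z ≤ x + δ / 2 := min_le_right _ _
      linarith [hv.2]
  have h1S : (1 : ℝ) ∈ S :=
    hSclosed.mem_of_ge_of_forall_exists_gt h0S zero_le_one hstep
  have h1C := h1S.2 (show (1 : ℝ) ∈ Icc 0 1 from ⟨zero_le_one, le_refl _⟩)
  have hfin := hbound 1 h1S
  rw [hγ1, mul_one] at hfin
  have hsrc := ((hKmem _).1 h1C.2).1
  rw [hγ1] at hsrc
  exact ⟨hsrc, hfin⟩

end Conf

end HC

end Crest.Agent.R266
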