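import Crest.Agent.R266.GCompUniq

/-!
R266 / GComp (helper660): rectangles over balls from rectangles over discs
(`compG_step`, `compG_swap`, `compG_of_completeness`).
-/

set_option autoImplicit false
set_option linter.unusedSectionVars false

open scoped Manifold ContDiff Topology
open Set Metric Filter

namespace Crest.Agent.R266

section
variable {n₁ n₂ : ℕ} {X : Type} [TopologicalSpace X]
variable {V₁ V₂ : Type} [NormedAddCommGroup V₁] [NormedSpace ℂ V₁] [NormedAddCommGroup V₂]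
  [NormedSpace ℂ V₂]

namespace GComp

theorem eventually_pcat {A : PFol n₁ n₂ X} {G : V₁ × V₂ → X} {z : V₁ × V₂}
    (h : IsPCg A {z} G) : ∀ᶠ w in 𝓝 z, IsPCg A {w} G := by
  obtain ⟨i, a, b, ha, hb, h⟩ := h z rfl
  have h1 : ∀ᶠ w in 𝓝 z, AnalyticAt ℂ a w.1 :=
    continuousAt_fst.eventually ha.eventually_analyticAt
  have h2 : ∀ᶠ w in 𝓝 z, AnalyticAt ℂ b w.2 :=
    continuousAt_snd.eventually hb.eventually_analyticAt
  filter_upwards [h1, h2, h.eventually_nhds] with w hw1 hw2 hw3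
  rintro w' rfl
  exact ⟨i, a, b, hw1, hw2, hw3⟩

theorem pcat_of_mem {A : PFol n₁ n₂ X} {G : V₁ × V₂ → X} {U : Set (V₁ × V₂)} {z : V₁ × V₂}
    (h : IsPCg A U G) (hz : z ∈ U) : IsPCg A {z} G := by
  rintro w rfl
  exact h w hz

theorem pcat_congr {A : PFol n₁ n₂ X} {G K : V₁ × V₂ → X} {z : V₁ × V₂}
    (h : IsPCg A {z} K) (e : K =ᶠ[𝓝 z] G) : IsPCg A {z} G := by
  rintro w rfl
  obtain ⟨i, a, b, ha, hb, h⟩ := h w rfl
  refine ⟨i, a, b, ha, hb, ?_⟩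
  filter_upwards [h, e] with w' h1 h2
  rw [← h2]; exact h1

/-- an open product neighbourhood -/
theorem exists_ball {P : V₁ × V₂ → Prop} {a : V₁} {b : V₂} (h : ∀ᶠ w in 𝓝 (a, b), P w) :
    ∃ δ > 0, ∀ w ∈ ball a δ ×ˢ ball b δ, P w := by
  obtain ⟨δ, hδ, h⟩ := Metric.eventually_nhds_iff_ball.1 h
  refine ⟨δ, hδ, fun w hw => h w ?_⟩
  rw [← ball_prod_same]
  exact hw

theorem pc_ball {A : PFol n₁ n₂ X} {G : V₁ × V₂ → X} {a : V₁} {b : V₂}
    (h : IsPCg A {(a, b)} G) : ∃ δ > 0, IsPCg A (ball a δ ×ˢ ball b δ) G := by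
  obtain ⟨δ, hδ, h⟩ := exists_ball (eventually_pcat h)
  exact ⟨δ, hδ, fun w hw => h w hw w rfl⟩

/-- the complex line -/
def line (a₀ a : V₁) (ζ : ℂ) : V₁ := a₀ + ζ • (a - a₀)

theorem line_zero (a₀ a : V₁) : line a₀ a 0 = a₀ := by simp [line]

theorem line_one (a₀ a : V₁) : line a₀ a 1 = a := by simp [line]

theorem line_line (a₀ a : V₁) (t ζ : ℂ) : line a₀ (line a₀ a t) ζ = line a₀ a (ζ * t) := by
  simp [line, smul_smul]

theorem analytic_line (a₀ a : V₁) (ζ : ℂ) : AnalyticAt ℂ (line a₀ a) ζ := by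
  unfold line
  exact analyticAt_const.add (analyticAt_id.smul analyticAt_const)

theorem continuous_line (a₀ a : V₁) : Continuous (line a₀ a) := by
  unfold line; fun_prop

theorem continuous_line' (a₀ : V₁) (ζ : ℂ) : Continuous (fun a => line a₀ a ζ) := by
  unfold line; fun_prop

open Classical in
/-- the radius of the disc on the line -/
noncomputable def rad (a₀ : V₁) (r : ℝ) (a : V₁) : ℝ := if a = a₀ then 2 else r / ‖a - a₀‖

theorem one_lt_rad {a₀ : V₁} {r : ℝ} {a : V₁} (ha : a ∈ ball a₀ r) : 1 < rad a₀ r a := by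
  unfold rad
  split_ifs with h
  · norm_num
  · have h1 : 0 < ‖a - a₀‖ := norm_pos_iff.2 (sub_ne_zero.2 h)
    rw [one_lt_div h1]
    rwa [mem_ball, dist_eq_norm] at ha

theorem line_mem {a₀ : V₁} {r : ℝ} (hr : 0 < r) {a : V₁} {ζ : ℂ} (hζ : ζ ∈ ball (0 : ℂ) (rad a₀ r a)) :
    line a₀ a ζ ∈ ball a₀ r := by
  rw [mem_ball_zero_iff] at hζ
  unfold rad at hζ
  rw [mem_ball, dist_eq_norm]
  have h0 : line a₀ a ζ - a₀ = ζ • (a - a₀) := by simp [line]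
  rw [h0, norm_smul]
  split_ifs at hζ with h
  · subst h; simpa using hr
  · have h1 : 0 < ‖a - a₀‖ := norm_pos_iff.2 (sub_ne_zero.2 h)
    rwa [lt_div_iff₀ h1] at hζ

theorem mem_rad {a₀ : V₁} {r : ℝ} {a : V₁} (ha : a ≠ a₀) {ζ : ℂ} (hζ : line a₀ a ζ ∈ ball a₀ r) :
    ζ ∈ ball (0 : ℂ) (rad a₀ r a) := by
  rw [mem_ball_zero_iff]
  unfold rad
  rw [if_neg ha]
  have h1 : 0 < ‖a - a₀‖ := norm_pos_iff.2 (sub_ne_zero.2 ha)
  rw [lt_div_iff₀ h1]
  rw [mem_ball, dist_eq_norm] at hζ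
  have h0 : line a₀ a ζ - a₀ = ζ • (a - a₀) := by simp [line]
  rwa [h0, norm_smul] at hζ

/-- the part of the line in a convex open set -/
theorem isOpen_W (a₀ : V₁) (a : V₁) (ρ : ℝ) {N : Set V₁} (hN : IsOpen N) :
    IsOpen (ball (0 : ℂ) ρ ∩ line a₀ a ⁻¹' N) :=
  isOpen_ball.inter (hN.preimage (continuous_line a₀ a))

theorem convex_W (a₀ : V₁) (a : V₁) (ρ : ℝ) {N : Set V₁} (hN : ∀ x ∈ N, ∀ y ∈ N, ∀ s t : ℝ, 0 ≤ s →
    0 ≤ t → s + t = 1 → (s : ℂ) • x + (t : ℂ) • y ∈ N) :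
    IsPreconnected (ball (0 : ℂ) ρ ∩ line a₀ a ⁻¹' N) := by
  have h : Convex ℝ (ball (0 : ℂ) ρ ∩ line a₀ a ⁻¹' N) := by
    intro ζ hζ η hη s t hs ht hst
    refine ⟨convex_ball (0 : ℂ) ρ hζ.1 hη.1 hs ht hst, ?_⟩
    have h1 := hN _ hζ.2 _ hη.2 s t hs ht hst
    have h2 : line a₀ a (s • ζ + t • η) = (s : ℂ) • line a₀ a ζ + (t : ℂ) • line a₀ a η := by
      have h3 : (s : ℂ) + (t : ℂ) = 1 := by exact_mod_cast hst
      have h4 : a₀ = ((s : ℂ) + (t : ℂ)) • a₀ := by rw [h3, one_smul]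
      simp only [line, Complex.real_smul]
      calc a₀ + ((s : ℂ) * ζ + (t : ℂ) * η) • (a - a₀)
          = ((s : ℂ) + (t : ℂ)) • a₀ + ((s : ℂ) * ζ + (t : ℂ) * η) • (a - a₀) := by rw [← h4]
        _ = _ := by simp only [smul_add, add_smul, smul_smul]; abel
    rw [mem_preimage, h2]
    exact h1
  exact h.isPreconnected

theorem ball_conv (a : V₁) (δ : ℝ) : ∀ x ∈ ball a δ, ∀ y ∈ ball a δ, ∀ s t : ℝ, 0 ≤ s →
    0 ≤ t → s + t = 1 → (s : ℂ) • x + (t : ℂ) • y ∈ ball a δ := by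
  intro x hx y hy s t hs ht hst
  rw [mem_ball, dist_eq_norm] at hx hy ⊢
  have h3 : (s : ℂ) + (t : ℂ) = 1 := by exact_mod_cast hst
  have h4 : (s : ℂ) • x + (t : ℂ) • y - a = (s : ℂ) • (x - a) + (t : ℂ) • (y - a) := by
    have h5 : a = ((s : ℂ) + (t : ℂ)) • a := by rw [h3, one_smul]
    calc (s : ℂ) • x + (t : ℂ) • y - a = (s : ℂ) • x + (t : ℂ) • y - ((s : ℂ) + (t : ℂ)) • a := by
          rw [← h5]
      _ = _ := by simp only [smul_sub, add_smul]; abel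
  rw [h4]
  have h6 : ‖(s : ℂ) • (x - a) + (t : ℂ) • (y - a)‖ ≤ s * ‖x - a‖ + t * ‖y - a‖ := by
    refine (norm_add_le _ _).trans ?_
    rw [norm_smul, norm_smul, Complex.norm_real, Complex.norm_real, Real.norm_of_nonneg hs,
      Real.norm_of_nonneg ht]
  refine lt_of_le_of_lt h6 ?_
  rcases eq_or_lt_of_le hs with h | h
  · have : t = 1 := by linarith
    rw [← h, this]; linarith
  · have h7 : s * ‖x - a‖ < s * δ := mul_lt_mul_of_pos_left hx h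
    have h8 : t * ‖y - a‖ ≤ t * δ := mul_le_mul_of_nonneg_left hy.le ht
    calc s * ‖x - a‖ + t * ‖y - a‖ < s * δ + t * δ := add_lt_add_of_lt_of_le h7 h8
      _ = δ := by rw [← add_mul, hst, one_mul]

/-- the data of the proof -/
structure Dat (A : PFol n₁ n₂ X) (a₀ : V₁) (b₀ : V₂) (r₁ r₂ : ℝ) (c₁ : V₁ → X) (c₂ : V₂ → X)
    (Gf : V₁ → ℂ × V₂ → X) : Prop where
  hr₁ : 0 < r₁
  hr₂ : 0 < r₂
  h₁ : IsE1g A (ball a₀ r₁) c₁
  h₂ : IsE2g A (ball b₀ r₂) c₂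
  h₀ : c₁ a₀ = c₂ b₀
  pc : ∀ a ∈ ball a₀ r₁, IsPCg A (ball (0 : ℂ) (rad a₀ r₁ a) ×ˢ ball b₀ r₂) (Gf a)
  ax1 : ∀ a ∈ ball a₀ r₁, ∀ ζ ∈ ball (0 : ℂ) (rad a₀ r₁ a), Gf a (ζ, b₀) = c₁ (line a₀ a ζ)
  ax2 : ∀ a ∈ ball a₀ r₁, ∀ b ∈ ball b₀ r₂, Gf a (0, b) = c₂ b

section Main
variable [T2Space X] {A : PFol n₁ n₂ X} {a₀ : V₁} {b₀ : V₂} {r₁ r₂ : ℝ} {c₁ : V₁ → X}
  {c₂ : V₂ → X} {Gf : V₁ → ℂ × V₂ → X} (D : Dat A a₀ b₀ r₁ r₂ c₁ c₂ Gf)
include D

theorem star {a : V₁} (ha : a ∈ ball a₀ r₁) {t : ℂ} (ht : t ∈ ball (0 : ℂ) (rad a₀ r₁ a)) {b : V₂}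
    (hb : b ∈ ball b₀ r₂) : Gf (line a₀ a t) (1, b) = Gf a (t, b) := by
  set a' := line a₀ a t with ha'
  have ha'm : a' ∈ ball a₀ r₁ := line_mem D.hr₁ ht
  set W : Set ℂ := ball (0 : ℂ) (rad a₀ r₁ a') ∩ line (0 : ℂ) t ⁻¹' (ball 0 (rad a₀ r₁ a)) with hW
  have hWo : IsOpen W := isOpen_W _ _ _ isOpen_ball
  have hWc : IsPreconnected W := convex_W _ _ _ (ball_conv _ _)
  have hlin : ∀ ζ, line (0 : ℂ) t ζ = ζ * t := by intro ζ; simp [line]
  have hpc1 : IsPCg A (W ×ˢ ball b₀ r₂) (Gf a') :=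
    isPCg_mono (D.pc a' ha'm) (prod_mono inter_subset_left Subset.rfl)
  have hpc2 : IsPCg A (W ×ˢ ball b₀ r₂) (fun z => Gf a (line (0 : ℂ) t z.1, id z.2)) :=
    isPCg_comp (D.pc a ha) (fun z hz => ⟨analytic_line _ _ _, analyticAt_id, hz.1.2, hz.2⟩)
  have h0 : (0 : ℂ) ∈ W := by
    refine ⟨mem_ball_self (lt_trans one_pos (one_lt_rad ha'm)), ?_⟩
    rw [mem_preimage, hlin, zero_mul]
    exact mem_ball_self (lt_trans one_pos (one_lt_rad ha))
  have h1 : (1 : ℂ) ∈ W := by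
    refine ⟨by simpa using one_lt_rad ha'm, ?_⟩
    rw [mem_preimage, hlin, one_mul]; exact ht
  have key := unique_axes hWc (ball_preconn b₀ r₂) hpc1 hpc2 h0
    (mem_ball_self D.hr₂) ?_ ?_
  · have := key (show ((1 : ℂ), b) ∈ W ×ˢ ball b₀ r₂ from ⟨h1, hb⟩)
    simpa [hlin] using this
  · filter_upwards [hWo.mem_nhds h0] with ζ hζ
    simp only [id]
    rw [D.ax1 a' ha'm ζ hζ.1, D.ax1 a ha _ hζ.2, hlin, ha', line_line]
  · filter_upwards [isOpen_ball.mem_nhds (mem_ball_self D.hr₂)] with b hb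
    simp only [id]
    rw [D.ax2 a' ha'm b hb, line_zero, D.ax2 a ha b hb]

/-- the candidate -/
theorem linecmp {K : V₁ × V₂ → X} {a₁ : V₁} {δ : ℝ} {M : Set V₂} (hM : IsOpen M)
    (hMc : IsPreconnected M) (hMb : M ⊆ ball b₀ r₂) (hK : IsPCg A (ball a₁ δ ×ˢ M) K) {a : V₁}
    (ha : a ∈ ball a₀ r₁) {ζ₀ ζ₁ : ℂ} (h0 : ζ₀ ∈ ball (0 : ℂ) (rad a₀ r₁ a))
    (h1 : ζ₁ ∈ ball (0 : ℂ) (rad a₀ r₁ a)) (h0' : line a₀ a ζ₀ ∈ ball a₁ δ)
    (h1' : line a₀ a ζ₁ ∈ ball a₁ δ) {b' : V₂} (hb' : b' ∈ M)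
    (he : ∀ᶠ w in 𝓝 (line a₀ a ζ₀, b'), K w = Gf w.1 (1, w.2)) :
    ∀ b ∈ M, K (line a₀ a ζ₁, b) = Gf a (ζ₁, b) := by
  set W : Set ℂ := ball (0 : ℂ) (rad a₀ r₁ a) ∩ line a₀ a ⁻¹' (ball a₁ δ) with hW
  have hWo : IsOpen W := isOpen_W _ _ _ isOpen_ball
  have hWc : IsPreconnected W := convex_W _ _ _ (ball_conv _ _)
  have hpc1 : IsPCg A (W ×ˢ M) (Gf a) :=
    isPCg_mono (D.pc a ha) (prod_mono inter_subset_left hMb)
  have hpc2 : IsPCg A (W ×ˢ M) (fun z => K (line a₀ a z.1, id z.2)) :=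
    isPCg_comp hK (fun z hz => ⟨analytic_line _ _ _, analyticAt_id, hz.1.2, hz.2⟩)
  have key := unique_pc (hWc.prod hMc) hpc2 hpc1
    (t := (ζ₀, b')) ⟨⟨h0, h0'⟩, hb'⟩ ?_
  · intro b hb
    exact key (show (ζ₁, b) ∈ W ×ˢ M from ⟨⟨h1, h1'⟩, hb⟩)
  · have hc : ContinuousAt (fun z : ℂ × V₂ => (line a₀ a z.1, z.2)) (ζ₀, b') :=
      (((continuous_line a₀ a).comp continuous_fst).prodMk continuous_snd).continuousAt
    have h2 := hc.eventually he
    have h3 : ∀ᶠ z : ℂ × V₂ in 𝓝 (ζ₀, b'), z ∈ W ×ˢ M :=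
      (hWo.prod hM).mem_nhds ⟨⟨h0, h0'⟩, hb'⟩
    filter_upwards [h2, h3] with z hz hz'
    simp only [id]
    rw [hz]
    exact star D ha hz'.1.1 (hMb hz'.2)

theorem G_base {a : V₁} (ha : a ∈ ball a₀ r₁) : Gf a (1, b₀) = c₁ a := by
  rw [D.ax1 a ha 1 (by simpa using one_lt_rad ha), line_one]

/-- Step A -/
theorem stepA : IsPCg A {(a₀, b₀)} (fun w => Gf w.1 (1, w.2)) := by
  have e1 : IsE1g A {a₀} c₁ := isE1g_mono D.h₁ (singleton_subset_iff.2 (mem_ball_self D.hr₁))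
  have e2 : IsE2g A {b₀} c₂ := by
    rintro _ rfl; exact D.h₂ _ (mem_ball_self D.hr₂)
  obtain ⟨δ, K, hδ, hK, hK1, hK2⟩ := exists_local_rect e1 e2 D.h₀
  set δ' := min δ (min r₁ r₂) with hδ'
  have hδ'0 : 0 < δ' := lt_min hδ (lt_min D.hr₁ D.hr₂)
  have hd : δ' ≤ δ := min_le_left _ _
  have hd1 : δ' ≤ r₁ := (min_le_right _ _).trans (min_le_left _ _)
  have hd2 : δ' ≤ r₂ := (min_le_right _ _).trans (min_le_right _ _)
  have hK' : IsPCg A (ball a₀ δ' ×ˢ ball b₀ δ') K :=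
    isPCg_mono hK (prod_mono (ball_subset_ball hd) (ball_subset_ball hd))
  refine pcat_congr (pcat_of_mem hK' ⟨mem_ball_self hδ'0, mem_ball_self hδ'0⟩) ?_
  have hn : ball a₀ δ' ×ˢ ball b₀ δ' ∈ 𝓝 (a₀, b₀) :=
    (isOpen_ball.prod isOpen_ball).mem_nhds ⟨mem_ball_self hδ'0, mem_ball_self hδ'0⟩
  filter_upwards [hn] with w hw
  obtain ⟨a, b⟩ := w
  have ha : a ∈ ball a₀ r₁ := ball_subset_ball hd1 hw.1
  set W : Set ℂ := ball (0 : ℂ) (rad a₀ r₁ a) ∩ line a₀ a ⁻¹' (ball a₀ δ') with hW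
  have hWo : IsOpen W := isOpen_W _ _ _ isOpen_ball
  have hWc : IsPreconnected W := convex_W _ _ _ (ball_conv _ _)
  have hpc1 : IsPCg A (W ×ˢ ball b₀ δ') (Gf a) :=
    isPCg_mono (D.pc a ha) (prod_mono inter_subset_left (ball_subset_ball hd2))
  have hpc2 : IsPCg A (W ×ˢ ball b₀ δ') (fun z => K (line a₀ a z.1, id z.2)) :=
    isPCg_comp hK' (fun z hz => ⟨analytic_line _ _ _, analyticAt_id, hz.1.2, hz.2⟩)
  have h0 : (0 : ℂ) ∈ W :=
    ⟨mem_ball_self (lt_trans one_pos (one_lt_rad ha)), by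
      rw [mem_preimage, line_zero]; exact mem_ball_self hδ'0⟩
  have h1 : (1 : ℂ) ∈ W :=
    ⟨by simpa using one_lt_rad ha, by rw [mem_preimage, line_one]; exact hw.1⟩
  have key := unique_axes hWc (ball_preconn b₀ δ') hpc2 hpc1 h0
    (mem_ball_self hδ'0) ?_ ?_
  · have := key (show ((1 : ℂ), b) ∈ W ×ˢ ball b₀ δ' from ⟨h1, hw.2⟩)
    simpa [line_one] using this
  · filter_upwards [hWo.mem_nhds h0] with ζ hζ
    simp only [id]
    rw [D.ax1 a ha ζ hζ.1, hK1 _ (ball_subset_ball hd hζ.2)]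
  · filter_upwards [isOpen_ball.mem_nhds (mem_ball_self hδ'0)] with b hb
    simp only [id]
    rw [D.ax2 a ha b (ball_subset_ball hd2 hb), line_zero, hK2 b (ball_subset_ball hd hb)]

/-- Step B -/
theorem stepB {a₁ : V₁} (ha₁ : a₁ ∈ ball a₀ r₁) :
    IsPCg A {(a₁, b₀)} (fun w => Gf w.1 (1, w.2)) := by
  set G : V₁ × V₂ → X := fun w => Gf w.1 (1, w.2) with hG
  set S : Set ℂ := {ζ | IsPCg A {(line a₀ a₁ ζ, b₀)} G} with hS
  have hSo : IsOpen S := by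
    rw [isOpen_iff_mem_nhds]
    intro ζ hζ
    have hc : ContinuousAt (fun ζ : ℂ => (line a₀ a₁ ζ, b₀)) ζ :=
      ((continuous_line a₀ a₁).prodMk continuous_const).continuousAt
    exact hc.eventually (eventually_pcat hζ)
  have hR : 1 < rad a₀ r₁ a₁ := one_lt_rad ha₁
  have h0S : (0 : ℂ) ∈ S := by
    rw [hS, mem_ofPred_eq, line_zero]; exact stepA D
  have hsub : ball (0 : ℂ) (rad a₀ r₁ a₁) ⊆ S := by
    refine (ball_preconn (0 : ℂ) _).subset_of_closure_inter_subset hSo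
      ⟨0, mem_ball_self (lt_trans one_pos hR), h0S⟩ ?_
    rintro ζs ⟨hcl, hζs⟩
    set as := line a₀ a₁ ζs with has
    have hasm : as ∈ ball a₀ r₁ := line_mem D.hr₁ hζs
    by_cases hcase : as = a₀
    · rw [hS, mem_ofPred_eq, ← has, hcase]; exact stepA D
    have hζs0 : ζs ≠ 0 := by
      rintro rfl; exact hcase (by rw [has, line_zero])
    -- local rectangle at `(as, b₀)`
    have e1 : IsE1g A {as} c₁ := isE1g_mono D.h₁ (singleton_subset_iff.2 hasm)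
    have e2 : IsE2g A {b₀} (fun b => Gf a₁ (ζs, b)) := by
      rintro _ rfl; exact isPCg_slice2 (D.pc a₁ ha₁) hζs _ (mem_ball_self D.hr₂)
    have e0 : c₁ as = (fun b => Gf a₁ (ζs, b)) b₀ := (D.ax1 a₁ ha₁ ζs hζs).symm
    obtain ⟨δ₀, K, hδ₀, hK, hK1, hK2⟩ := exists_local_rect e1 e2 e0
    obtain ⟨δ₁, hδ₁, hδ₁'⟩ := Metric.isOpen_iff.1 isOpen_ball as hasm
    set δ := min δ₀ (min δ₁ r₂) with hδ
    have hδ0 : 0 < δ := lt_min hδ₀ (lt_min hδ₁ D.hr₂)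
    have hd : δ ≤ δ₀ := min_le_left _ _
    have hd1 : ball as δ ⊆ ball a₀ r₁ :=
      (ball_subset_ball ((min_le_right _ _).trans (min_le_left _ _))).trans hδ₁'
    have hd2 : δ ≤ r₂ := (min_le_right _ _).trans (min_le_right _ _)
    have hK' : IsPCg A (ball as δ ×ˢ ball b₀ δ) K :=
      isPCg_mono hK (prod_mono (ball_subset_ball hd) (ball_subset_ball hd))
    -- comparison on the line through `a₁`
    set W : Set ℂ := ball (0 : ℂ) (rad a₀ r₁ a₁) ∩ line a₀ a₁ ⁻¹' (ball as δ) with hW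
    have hWo : IsOpen W := isOpen_W _ _ _ isOpen_ball
    have hWc : IsPreconnected W := convex_W _ _ _ (ball_conv _ _)
    have hpc1 : IsPCg A (W ×ˢ ball b₀ δ) (Gf a₁) :=
      isPCg_mono (D.pc a₁ ha₁) (prod_mono inter_subset_left (ball_subset_ball hd2))
    have hpc2 : IsPCg A (W ×ˢ ball b₀ δ) (fun z => K (line a₀ a₁ z.1, id z.2)) :=
      isPCg_comp hK' (fun z hz => ⟨analytic_line _ _ _, analyticAt_id, hz.1.2, hz.2⟩)
    have hsW : ζs ∈ W := ⟨hζs, by rw [mem_preimage, ← has]; exact mem_ball_self hδ0⟩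
    have cmp := unique_axes hWc (ball_preconn b₀ δ) hpc2 hpc1 hsW
      (mem_ball_self hδ0) (by
        filter_upwards [hWo.mem_nhds hsW] with ζ hζ
        simp only [id]
        rw [D.ax1 a₁ ha₁ ζ hζ.1, hK1 _ (ball_subset_ball hd hζ.2)]) (by
        filter_upwards [isOpen_ball.mem_nhds (mem_ball_self hδ0)] with b hb
        simp only [id]
        rw [← has, hK2 b (ball_subset_ball hd hb)])
    -- a good point near `ζs`
    obtain ⟨ζ', hζ'W, hζ'S⟩ := mem_closure_iff_nhds.1 hcl W (hWo.mem_nhds hsW)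
    set q : ℂ := ζ' / ζs with hq
    have hqs : q * ζs = ζ' := div_mul_cancel₀ _ hζs0
    have hlq : line a₀ as q = line a₀ a₁ ζ' := by rw [has, line_line, hqs]
    set a' := line a₀ a₁ ζ' with ha'
    have ha'm : a' ∈ ball as δ := hζ'W.2
    -- `K = G` near `(a', b₀)`
    have hKG : ∀ᶠ w in 𝓝 (a', b₀), K w = G w := by
      obtain ⟨ε, hε, hεpc⟩ := pc_ball (show IsPCg A {(a', b₀)} G from hζ'S)
      obtain ⟨ε₁, hε₁, hε₁'⟩ := Metric.isOpen_iff.1 isOpen_ball a' ha'm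
      set η := min ε (min ε₁ δ) with hη
      have hη0 : 0 < η := lt_min hε (lt_min hε₁ hδ0)
      have hηε : η ≤ ε := min_le_left _ _
      have hηa : ball a' η ⊆ ball as δ :=
        (ball_subset_ball ((min_le_right _ _).trans (min_le_left _ _))).trans hε₁'
      have hηδ : η ≤ δ := (min_le_right _ _).trans (min_le_right _ _)
      have p1 : IsPCg A (ball a' η ×ˢ ball b₀ η) K :=
        isPCg_mono hK' (prod_mono hηa (ball_subset_ball hηδ))
      have p2 : IsPCg A (ball a' η ×ˢ ball b₀ η) G :=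
        isPCg_mono hεpc (prod_mono (ball_subset_ball hηε) (ball_subset_ball hηε))
      have k := unique_axes (ball_preconn a' η) (ball_preconn b₀ η)
        p1 p2 (mem_ball_self hη0) (mem_ball_self hη0) (by
          filter_upwards [isOpen_ball.mem_nhds (mem_ball_self hη0)] with a ha
          have ha1 : a ∈ ball as δ := hηa ha
          rw [hK1 a (ball_subset_ball hd ha1), hG]
          exact (G_base D (hd1 ha1)).symm) (by
          filter_upwards [isOpen_ball.mem_nhds (mem_ball_self hη0)] with b hb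
          have hb1 : b ∈ ball b₀ δ := ball_subset_ball hηδ hb
          have := cmp (show (ζ', b) ∈ W ×ˢ ball b₀ δ from ⟨hζ'W, hb1⟩)
          simp only [id] at this
          rw [ha', this, hG]
          exact (star D ha₁ hζ'W.1 (ball_subset_ball hd2 hb1)).symm)
      filter_upwards [(isOpen_ball.prod isOpen_ball).mem_nhds
        (show (a', b₀) ∈ ball a' η ×ˢ ball b₀ η from ⟨mem_ball_self hη0, mem_ball_self hη0⟩)]
        with w hw
      exact k hw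
    -- hence near `(as, b₀)`
    have hnear : ∀ᶠ a in 𝓝 as, a ∈ ball as δ ∧ a ≠ a₀ ∧ line a₀ a q ∈ ball as δ ∧
        ∀ᶠ w in 𝓝 (line a₀ a q, b₀), K w = G w := by
      have c1 : Tendsto (fun a => line a₀ a q) (𝓝 as) (𝓝 a') := by
        rw [← hlq]; exact (continuous_line' a₀ q).continuousAt
      have c2 : Tendsto (fun a => (line a₀ a q, b₀)) (𝓝 as) (𝓝 (a', b₀)) := by
        rw [← hlq]; exact ((continuous_line' a₀ q).prodMk continuous_const).continuousAt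
      have k1 : ∀ᶠ a in 𝓝 as, line a₀ a q ∈ ball as δ :=
        c1.eventually (isOpen_ball.mem_nhds ha'm)
      have k2 : ∀ᶠ a in 𝓝 as, ∀ᶠ w in 𝓝 (line a₀ a q, b₀), K w = G w :=
        c2.eventually hKG.eventually_nhds
      filter_upwards [isOpen_ball.mem_nhds (mem_ball_self hδ0), isOpen_ne.mem_nhds hcase, k1, k2]
        with a h1 h2 h3 h4
      exact ⟨h1, h2, h3, h4⟩
    refine pcat_congr (pcat_of_mem hK' ⟨mem_ball_self hδ0, mem_ball_self hδ0⟩) ?_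
    have hn : ∀ᶠ w : V₁ × V₂ in 𝓝 (as, b₀), w.2 ∈ ball b₀ δ :=
      continuousAt_snd.eventually (isOpen_ball.mem_nhds (mem_ball_self hδ0))
    have hn' : ∀ᶠ w : V₁ × V₂ in 𝓝 (as, b₀), w.1 ∈ ball as δ ∧ w.1 ≠ a₀ ∧
        line a₀ w.1 q ∈ ball as δ ∧ ∀ᶠ w' in 𝓝 (line a₀ w.1 q, b₀), K w' = G w' :=
      (continuousAt_fst (p := (as, b₀)) : Tendsto Prod.fst (𝓝 (as, b₀)) (𝓝 as)).eventually hnear
    filter_upwards [hn, hn'] with w hw2 hw1
    obtain ⟨a, b⟩ := w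
    obtain ⟨g1, g2, g3, g4⟩ := hw1
    have ham : a ∈ ball a₀ r₁ := hd1 g1
    have := linecmp D isOpen_ball (ball_preconn b₀ δ) (ball_subset_ball hd2) hK' ham
      (ζ₀ := q) (ζ₁ := 1) (mem_rad g2 (hd1 g3)) (by simpa using one_lt_rad ham) g3
      (by rw [line_one]; exact g1) (mem_ball_self hδ0) g4 b hw2
    rw [line_one] at this
    exact this
  have := hsub (show (1 : ℂ) ∈ ball (0 : ℂ) (rad a₀ r₁ a₁) by simpa using hR)
  rw [hS, mem_ofPred_eq, line_one] at this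
  exact this

/-- Step C -/
theorem stepC {a₁ : V₁} (ha₁ : a₁ ∈ ball a₀ r₁) {b₁ : V₂} (hb₁ : b₁ ∈ ball b₀ r₂) :
    IsPCg A {(a₁, b₁)} (fun w => Gf w.1 (1, w.2)) := by
  set G : V₁ × V₂ → X := fun w => Gf w.1 (1, w.2) with hG
  set S : Set V₂ := {b | IsPCg A {(a₁, b)} G} with hS
  have hSo : IsOpen S := by
    rw [isOpen_iff_mem_nhds]
    intro b hb
    have hc : ContinuousAt (fun b : V₂ => (a₁, b)) b :=
      (continuous_const.prodMk continuous_id).continuousAt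
    exact hc.eventually (eventually_pcat hb)
  have hR : 1 < rad a₀ r₁ a₁ := one_lt_rad ha₁
  have h1R : (1 : ℂ) ∈ ball (0 : ℂ) (rad a₀ r₁ a₁) := by simpa using hR
  refine (ball_preconn b₀ r₂).subset_of_closure_inter_subset hSo
      ⟨b₀, mem_ball_self D.hr₂, stepB D ha₁⟩ ?_ hb₁
  rintro bs ⟨hcl, hbs⟩
  obtain ⟨i, hi, -⟩ := A.cover (Gf a₁ (1, bs))
  obtain ⟨α, β, -, hβ, hαβ⟩ := isPCg_chart (D.pc a₁ ha₁)
    (z := ((1 : ℂ), bs)) ⟨h1R, hbs⟩ hi
  -- the good set of `b`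
  have hc : ContinuousAt (fun b : V₂ => ((1 : ℂ), b)) bs :=
    (continuous_const.prodMk continuous_id).continuousAt
  have g1 := hc.eventually hαβ
  have g2 : ∀ᶠ b in 𝓝 bs, AnalyticAt ℂ β b := hβ.eventually_analyticAt
  have g3 : ∀ᶠ b in 𝓝 bs, b ∈ ball b₀ r₂ := isOpen_ball.mem_nhds hbs
  obtain ⟨ε, hε, hεP⟩ := Metric.eventually_nhds_iff_ball.1 (g1.and (g2.and g3))
  obtain ⟨b', hb'ε, hb'S⟩ := mem_closure_iff_nhds.1 hcl (ball bs ε)
    (isOpen_ball.mem_nhds (mem_ball_self hε))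
  have hGb' : G (a₁, b') ∈ (A.ch i).source := (hεP b' hb'ε).1.1
  obtain ⟨φ, ψ, hφ, -, hφψ⟩ := isPCg_chart (show IsPCg A {(a₁, b')} G from hb'S) rfl hGb'
  have hch : A.ch i (G (a₁, b')) = (α 1, β b') := (hεP b' hb'ε).1.2
  have hch2 : A.ch i (G (a₁, b')) = (φ a₁, ψ b') := hφψ.self_of_nhds.2
  have hφα : φ a₁ = α 1 := by
    have := hch2.symm.trans hch
    exact congrArg Prod.fst this
  have hψβ : ψ b' = β b' := by
    have := hch2.symm.trans hch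
    exact congrArg Prod.snd this
  -- the good set of `a`
  have k1 : ∀ᶠ a in 𝓝 a₁, G (a, b') ∈ (A.ch i).source ∧ A.ch i (G (a, b')) = (φ a, ψ b') := by
    have hc' : ContinuousAt (fun a : V₁ => (a, b')) a₁ :=
      (continuous_id.prodMk continuous_const).continuousAt
    exact hc'.eventually hφψ
  have k2 : ∀ᶠ a in 𝓝 a₁, AnalyticAt ℂ φ a := hφ.eventually_analyticAt
  have k3 : ∀ᶠ a in 𝓝 a₁, a ∈ ball a₀ r₁ := isOpen_ball.mem_nhds ha₁
  obtain ⟨δ, hδ, hδP⟩ := Metric.eventually_nhds_iff_ball.1 (k1.and (k2.and k3))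
  set K : V₁ × V₂ → X := fun w => (A.ch i).symm (φ w.1, β w.2) with hKdef
  have htar : ∀ a ∈ ball a₁ δ, ∀ b ∈ ball bs ε, (φ a, β b) ∈ (A.ch i).target := by
    intro a ha b hb
    have h1 := (A.ch i).map_source (hδP a ha).1.1
    rw [(hδP a ha).1.2, A.target_eq i] at h1
    have h2 := (A.ch i).map_source (hεP b hb).1.1
    rw [(hεP b hb).1.2, A.target_eq i] at h2
    rw [A.target_eq i]
    exact ⟨h1.1, h2.2⟩
  have hK : IsPCg A (ball a₁ δ ×ˢ ball bs ε) K := by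
    rintro ⟨a, b⟩ ⟨ha, hb⟩
    refine ⟨i, φ, β, (hδP a ha).2.1, (hεP b hb).2.1, ?_⟩
    filter_upwards [(isOpen_ball.prod isOpen_ball).mem_nhds
      (show (a, b) ∈ ball a₁ δ ×ˢ ball bs ε from ⟨ha, hb⟩)] with w hw
    have ht := htar w.1 hw.1 w.2 hw.2
    exact ⟨(A.ch i).map_target ht, (A.ch i).right_inv ht⟩
  -- `K = G` near `(a₁, b')`
  have hKG : ∀ᶠ w in 𝓝 (a₁, b'), K w = G w := by
    obtain ⟨η₀, hη₀, hη₀pc⟩ := pc_ball (show IsPCg A {(a₁, b')} G from hb'S)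
    obtain ⟨ε₁, hε₁, hε₁'⟩ := Metric.isOpen_iff.1 isOpen_ball b' hb'ε
    set η := min η₀ (min ε₁ δ) with hη
    have hη0 : 0 < η := lt_min hη₀ (lt_min hε₁ hδ)
    have hηη : η ≤ η₀ := min_le_left _ _
    have hηb : ball b' η ⊆ ball bs ε :=
      (ball_subset_ball ((min_le_right _ _).trans (min_le_left _ _))).trans hε₁'
    have hηδ : η ≤ δ := (min_le_right _ _).trans (min_le_right _ _)
    have p1 : IsPCg A (ball a₁ η ×ˢ ball b' η) K :=
      isPCg_mono hK (prod_mono (ball_subset_ball hηδ) hηb)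
    have p2 : IsPCg A (ball a₁ η ×ˢ ball b' η) G :=
      isPCg_mono hη₀pc (prod_mono (ball_subset_ball hηη) (ball_subset_ball hηη))
    have k := unique_axes (ball_preconn a₁ η) (ball_preconn b' η)
      p1 p2 (mem_ball_self hη0) (mem_ball_self hη0) (by
        filter_upwards [isOpen_ball.mem_nhds (mem_ball_self hη0)] with a ha
        have ha1 := (hδP a (ball_subset_ball hηδ ha)).1
        rw [hKdef]
        simp only
        rw [← hψβ, ← ha1.2, (A.ch i).left_inv ha1.1]) (by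
        filter_upwards [isOpen_ball.mem_nhds (mem_ball_self hη0)] with b hb
        have hb1 := (hεP b (hηb hb)).1
        rw [hKdef]
        simp only
        rw [hφα, ← hb1.2, (A.ch i).left_inv hb1.1])
    filter_upwards [(isOpen_ball.prod isOpen_ball).mem_nhds
      (show (a₁, b') ∈ ball a₁ η ×ˢ ball b' η from ⟨mem_ball_self hη0, mem_ball_self hη0⟩)]
      with w hw
    exact k hw
  have hnear : ∀ᶠ a in 𝓝 a₁, a ∈ ball a₁ δ ∧ ∀ᶠ w in 𝓝 (a, b'), K w = G w := by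
    have c2 : ContinuousAt (fun a : V₁ => (a, b')) a₁ :=
      (continuous_id.prodMk continuous_const).continuousAt
    filter_upwards [isOpen_ball.mem_nhds (mem_ball_self hδ), c2.eventually hKG.eventually_nhds]
      with a h1 h2
    exact ⟨h1, h2⟩
  refine pcat_congr (pcat_of_mem hK ⟨mem_ball_self hδ, mem_ball_self hε⟩) ?_
  have hn : ∀ᶠ w : V₁ × V₂ in 𝓝 (a₁, bs), w.2 ∈ ball bs ε :=
    continuousAt_snd.eventually (isOpen_ball.mem_nhds (mem_ball_self hε))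
  have hn' : ∀ᶠ w : V₁ × V₂ in 𝓝 (a₁, bs), w.1 ∈ ball a₁ δ ∧
      ∀ᶠ w' in 𝓝 (w.1, b'), K w' = G w' :=
    (continuousAt_fst (p := (a₁, bs)) : Tendsto Prod.fst (𝓝 (a₁, bs)) (𝓝 a₁)).eventually hnear
  filter_upwards [hn, hn'] with w hw2 hw1
  obtain ⟨a, b⟩ := w
  obtain ⟨g1, g4⟩ := hw1
  have ham : a ∈ ball a₀ r₁ := (hδP a g1).2.2
  have hone : (1 : ℂ) ∈ ball (0 : ℂ) (rad a₀ r₁ a) := by simpa using one_lt_rad ham
  have := linecmp D isOpen_ball (ball_preconn bs ε) (fun b hb => (hεP b hb).2.2) hK ham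
    (ζ₀ := 1) (ζ₁ := 1) hone hone (by rw [line_one]; exact g1)
    (by rw [line_one]; exact g1) hb'ε (by rw [line_one]; exact g4) b hw2
  rw [line_one] at this
  exact this

end Main

end GComp

open GComp in
/-- use the rectangles over the complex lines through `a₀`, continuity method -/
theorem compG_step [T2Space X] {A : PFol n₁ n₂ X} (h : CompG A ℂ V₂) : CompG A V₁ V₂ := by
  intro a₀ b₀ r₁ r₂ c₁ c₂ hr₁ hr₂ h₁ h₂ h₀
  have hex : ∀ a ∈ ball a₀ r₁, ∃ G : ℂ × V₂ → X,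
      IsPCg A (ball (0 : ℂ) (rad a₀ r₁ a) ×ˢ ball b₀ r₂) G ∧
      (∀ ζ ∈ ball (0 : ℂ) (rad a₀ r₁ a), G (ζ, b₀) = c₁ (line a₀ a ζ)) ∧
      (∀ b ∈ ball b₀ r₂, G (0, b) = c₂ b) := by
    intro a ha
    refine h 0 b₀ (rad a₀ r₁ a) r₂ (fun ζ => c₁ (line a₀ a ζ)) c₂
      (lt_trans one_pos (one_lt_rad ha)) hr₂ ?_ h₂ ?_
    · exact isE1g_comp h₁ (fun ζ _ => analytic_line a₀ a ζ) (fun ζ hζ => line_mem hr₁ hζ)
    · simp only [line_zero]; exact h₀
  classical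
  have : Nonempty X := ⟨c₁ a₀⟩
  choose! Gf hpc hax1 hax2 using hex
  have D : Dat A a₀ b₀ r₁ r₂ c₁ c₂ Gf := ⟨hr₁, hr₂, h₁, h₂, h₀, hpc, hax1, hax2⟩
  refine ⟨fun w => Gf w.1 (1, w.2), ?_, ?_, ?_⟩
  · rintro ⟨a, b⟩ ⟨ha, hb⟩
    exact stepC D ha hb _ rfl
  · intro a ha
    exact G_base D ha
  · intro b hb
    have ha₀ : a₀ ∈ ball a₀ r₁ := mem_ball_self hr₁
    have h0m : (0 : ℂ) ∈ ball (0 : ℂ) (rad a₀ r₁ a₀) :=
      mem_ball_self (lt_trans one_pos (one_lt_rad ha₀))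
    have := star D ha₀ h0m hb
    rw [line_zero] at this
    simp only
    rw [this]
    exact hax2 a₀ ha₀ b hb

theorem compG_swap_aux {A : PFol n₁ n₂ X} (h : CompG A V₁ V₂) : CompG A.swap V₂ V₁ := by
  intro b₀ a₀ r₂ r₁ c₂ c₁ hr₂ hr₁ h₂ h₁ h₀
  obtain ⟨G, hG, hG1, hG2⟩ := h a₀ b₀ r₁ r₂ c₁ c₂ hr₁ hr₂ (isE2g_swap.1 h₁) (isE1g_swap.1 h₂)
    h₀.symm
  refine ⟨fun z => G z.swap, ?_, ?_, ?_⟩
  · exact isPCg_mono (isPCg_swap hG) (fun z hz => ⟨hz.2, hz.1⟩)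
  · intro b hb; exact hG2 b hb
  · intro a ha; exact hG1 a ha

theorem compG_swap {A : PFol n₁ n₂ X} : CompG A.swap V₂ V₁ ↔ CompG A V₁ V₂ := by
  constructor
  · intro h
    intro a₀ b₀ r₁ r₂ c₁ c₂ hr₁ hr₂ h₁ h₂ h₀
    obtain ⟨G, hG, hG1, hG2⟩ := h b₀ a₀ r₂ r₁ c₂ c₁ hr₂ hr₁ (isE1g_swap.2 h₂) (isE2g_swap.2 h₁)
      h₀.symm
    refine ⟨fun z => G z.swap, ?_, ?_, ?_⟩
    · have h3 := isPCg_swap hG
      rintro z hz
      obtain ⟨i, a, b, ha, hb, hab⟩ := h3 z ⟨hz.2, hz.1⟩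
      refine ⟨i, a, b, ha, hb, ?_⟩
      have hs : (A.swap.swap.ch i).source = (A.ch i).source :=
        (PFol.swap_source A.swap i).trans (PFol.swap_source A i)
      filter_upwards [hab] with w hw
      rw [hs] at hw
      exact hw
    · intro b hb; exact hG2 b hb
    · intro a ha; exact hG1 a ha
  · exact compG_swap_aux

theorem compG_of_completeness [T2Space X] {A : PFol n₁ n₂ X} (h : Completeness A) :
    CompG A V₁ V₂ := by
  have h1 : CompG A ℂ ℂ := by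
    intro a₀ b₀ r₁ r₂ c₁ c₂ hr₁ hr₂ h₁ h₂ h₀
    obtain ⟨G, hG, hG1, hG2⟩ := h r₁ r₂ (fun x => c₁ (a₀ + x)) (fun y => c₂ (b₀ + y)) hr₁ hr₂
      (isE1g_comp h₁ (θ := fun x => a₀ + x)
        (fun x _ => analyticAt_const.add analyticAt_id)
        (fun x hx => by simpa [dist_eq_norm] using hx))
      (by
        have := isE1g_comp (isE1g_swap.2 h₂) (θ := fun x => b₀ + x) (U' := ball (0 : ℂ) r₂)
          (fun x _ => analyticAt_const.add analyticAt_id)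
          (fun x hx => by simpa [dist_eq_norm] using hx)
        exact isE1g_swap.1 this)
      (by simpa using h₀)
    refine ⟨fun z => G (z.1 - a₀, z.2 - b₀), ?_, ?_, ?_⟩
    · have := isPCg_comp (A := A) (U := ball (0 : ℂ) r₁ ×ˢ ball (0 : ℂ) r₂)
        (U' := ball a₀ r₁ ×ˢ ball b₀ r₂) (G := G) hG (θ₁ := fun x => x - a₀)
        (θ₂ := fun y => y - b₀) (fun z hz => ⟨analyticAt_id.sub analyticAt_const,
          analyticAt_id.sub analyticAt_const, by simpa [dist_eq_norm] using hz.1,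
          by simpa [dist_eq_norm] using hz.2⟩)
      exact this
    · intro a ha
      have := hG1 (a - a₀) (by simpa [dist_eq_norm] using ha)
      simpa using this
    · intro b hb
      have := hG2 (b - b₀) (by simpa [dist_eq_norm] using hb)
      simpa using this
  have h2 : CompG A V₁ ℂ := compG_step h1
  have h3 : CompG A.swap ℂ V₁ := compG_swap.2 h2
  have h4 : CompG A.swap V₂ V₁ := compG_step h3
  exact compG_swap.1 h4

end

end Crest.Agent.R266
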