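import Crest.Agent.R266.GlobDefs

/-!
R266 / GImm (part of node G5b of the global part): immersed plaques.
-/

set_option autoImplicit false

open scoped Manifold ContDiff Topology
open Set Metric Filter

namespace Crest.Agent.R266

section
variable {n₁ n₂ : ℕ} {X : Type} [TopologicalSpace X]

theorem imm1_plq (A : PFol n₁ n₂ X) (i : A.ι) {b : EV n₂} (hb : b ∈ ball (0 : EV n₂) 1) :
    Imm1 A (ball 0 1) (plq A i b) := by
  intro t ht
  refine ⟨i, id, b, analyticAt_id, ?_, ?_⟩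
  · rw [fderiv_id]
    exact ⟨ContinuousLinearEquiv.refl ℂ _, rfl⟩
  · filter_upwards [isOpen_ball.mem_nhds ht] with s hs
    have hm : (s, b) ∈ (A.ch i).target := by
      rw [A.target_eq]; exact ⟨hs, hb⟩
    exact ⟨(A.ch i).map_target hm, (A.ch i).right_inv hm⟩

theorem imm1_isE1g {A : PFol n₁ n₂ X} {U : Set (EV n₁)} {c : EV n₁ → X} (h : Imm1 A U c) :
    IsE1g A U c := by
  intro t ht
  obtain ⟨i, a, b, ha, _, hev⟩ := h t ht
  exact ⟨i, a, b, ha, hev⟩

namespace GTE

/-- the transition maps of a product-foliated atlas have invertible first component -/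
lemma trans_invertible (A : PFol n₁ n₂ X) (i j : A.ι) (x : X) (hi : x ∈ (A.ch i).source)
    (hj : x ∈ (A.ch j).source) (φ : EV n₁ → EV n₁) (ψ : EV n₂ → EV n₂)
    (hφ : AnalyticAt ℂ φ (A.ch i x).1)
    (h : ∀ᶠ p in 𝓝 (A.ch i x), A.ch j ((A.ch i).symm p) = (φ p.1, ψ p.2)) :
    (fderiv ℂ φ (A.ch i x).1).IsInvertible := by
  obtain ⟨φ', ψ', hφ', _, h'⟩ := A.compat j i x ⟨hj, hi⟩
  -- values at the point
  have hix : (A.ch i).symm (A.ch i x) = x := (A.ch i).left_inv hi
  have hjx : (A.ch j).symm (A.ch j x) = x := (A.ch j).left_inv hj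
  have v1 : φ (A.ch i x).1 = (A.ch j x).1 := by
    have := h.self_of_nhds
    rw [hix] at this
    rw [this]
  have v2 : φ' (A.ch j x).1 = (A.ch i x).1 := by
    have := h'.self_of_nhds
    rw [hjx] at this
    rw [this]
  -- slices
  have key : ∀ (k l : A.ι) (_ : x ∈ (A.ch k).source) (_ : x ∈ (A.ch l).source)
      (f g : EV n₁ → EV n₁) (f₂ g₂ : EV n₂ → EV n₂)
      (_ : ∀ᶠ p in 𝓝 (A.ch k x), A.ch l ((A.ch k).symm p) = (f p.1, f₂ p.2))
      (_ : ∀ᶠ p in 𝓝 (A.ch l x), A.ch k ((A.ch l).symm p) = (g p.1, g₂ p.2)),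
      ∀ᶠ a in 𝓝 (A.ch k x).1, g (f a) = a := by
    intro k l hk hl f g f₂ g₂ hf hg
    have hkt : A.ch k x ∈ (A.ch k).target := (A.ch k).map_source hk
    -- continuity of p ↦ ch l (symm p)
    have hc1 : Tendsto (fun p => (A.ch k).symm p) (𝓝 (A.ch k x)) (𝓝 x) := by
      have := (A.ch k).continuousAt_symm hkt
      rw [ContinuousAt, (A.ch k).left_inv hk] at this
      exact this
    have hc2 : Tendsto (fun p => A.ch l ((A.ch k).symm p)) (𝓝 (A.ch k x)) (𝓝 (A.ch l x)) :=
      ((A.ch l).continuousAt hl).tendsto.comp hc1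
    have e1 : ∀ᶠ p in 𝓝 (A.ch k x), g (f p.1) = p.1 := by
      filter_upwards [hf, hc2.eventually hg, hc1.eventually ((A.ch l).open_source.mem_nhds hl),
        (A.ch k).open_target.mem_nhds hkt] with p hp hp2 hp3 hp4
      rw [(A.ch l).left_inv hp3, (A.ch k).right_inv hp4, hp] at hp2
      have := congrArg Prod.fst hp2
      exact this.symm
    have hsl : Tendsto (fun a : EV n₁ => (a, (A.ch k x).2)) (𝓝 (A.ch k x).1) (𝓝 (A.ch k x)) := by
      have : Continuous (fun a : EV n₁ => (a, (A.ch k x).2)) := by fun_prop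
      exact this.tendsto _
    exact hsl.eventually e1
  have e1 : ∀ᶠ a in 𝓝 (A.ch i x).1, φ' (φ a) = a := key i j hi hj φ φ' ψ ψ' h h'
  have e2 : ∀ᶠ a in 𝓝 (A.ch j x).1, φ (φ' a) = a := key j i hj hi φ' φ ψ' ψ h' h
  have d1 : (fderiv ℂ φ' (A.ch j x).1).comp (fderiv ℂ φ (A.ch i x).1) =
      ContinuousLinearMap.id ℂ _ := by
    have hc : HasFDerivAt (fun a => φ' (φ a))
        ((fderiv ℂ φ' (A.ch j x).1).comp (fderiv ℂ φ (A.ch i x).1)) (A.ch i x).1 := by
      refine HasFDerivAt.comp (A.ch i x).1 ?_ hφ.differentiableAt.hasFDerivAt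
      rw [v1]
      exact hφ'.differentiableAt.hasFDerivAt
    exact (hc.congr_of_eventuallyEq (f₁ := fun a => a) (e1.mono fun a ha => ha.symm)).unique
      (hasFDerivAt_id _)
  have d2 : (fderiv ℂ φ (A.ch i x).1).comp (fderiv ℂ φ' (A.ch j x).1) =
      ContinuousLinearMap.id ℂ _ := by
    have hc : HasFDerivAt (fun a => φ (φ' a))
        ((fderiv ℂ φ (A.ch i x).1).comp (fderiv ℂ φ' (A.ch j x).1)) (A.ch j x).1 := by
      refine HasFDerivAt.comp (A.ch j x).1 ?_ hφ'.differentiableAt.hasFDerivAt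
      rw [v2]
      exact hφ.differentiableAt.hasFDerivAt
    exact (hc.congr_of_eventuallyEq (f₁ := fun a => a) (e2.mono fun a ha => ha.symm)).unique
      (hasFDerivAt_id _)
  refine ⟨ContinuousLinearEquiv.equivOfInverse (fderiv ℂ φ (A.ch i x).1)
    (fderiv ℂ φ' (A.ch j x).1) (fun v => ?_) (fun v => ?_), rfl⟩
  · exact DFunLike.congr_fun d1 v
  · exact DFunLike.congr_fun d2 v

/-- being an immersed plaque can be tested in any chart -/
lemma imm_iff (A : PFol n₁ n₂ X) {c : EV n₁ → X} {t : EV n₁} {i : A.ι} {a : EV n₁ → EV n₁}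
    {b : EV n₂} (ha : AnalyticAt ℂ a t)
    (h : ∀ᶠ s in 𝓝 t, c s ∈ (A.ch i).source ∧ A.ch i (c s) = (a s, b)) :
    Imm1 A {t} c ↔ (fderiv ℂ a t).IsInvertible := by
  constructor
  · intro hI
    obtain ⟨j, a', b', ha', hinv, hev⟩ := hI t rfl
    have hi : c t ∈ (A.ch i).source := h.self_of_nhds.1
    have hj : c t ∈ (A.ch j).source := hev.self_of_nhds.1
    obtain ⟨φ, ψ, hφ, hψ, hT⟩ := A.compat j i (c t) ⟨hj, hi⟩
    have hφinv := trans_invertible A j i (c t) hj hi φ ψ hφ hT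
    have hjt : A.ch j (c t) = (a' t, b') := hev.self_of_nhds.2
    -- continuity of a' at t
    have hcont : Tendsto (fun s => (a' s, b')) (𝓝 t) (𝓝 (A.ch j (c t))) := by
      rw [hjt]
      exact ha'.continuousAt.prodMk_nhds tendsto_const_nhds
    have e : a =ᶠ[𝓝 t] (fun s => φ (a' s)) := by
      filter_upwards [h, hev, hcont.eventually hT] with s h1 h2 h3
      have h4 : (A.ch j).symm (a' s, b') = c s := by
        rw [← h2.2, (A.ch j).left_inv h2.1]
      rw [h4, h1.2] at h3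
      exact congrArg Prod.fst h3
    have hφ' : AnalyticAt ℂ φ (a' t) := by
      have : (A.ch j (c t)).1 = a' t := by rw [hjt]
      rw [← this]; exact hφ
    have hφi' : (fderiv ℂ φ (a' t)).IsInvertible := by
      have : (A.ch j (c t)).1 = a' t := by rw [hjt]
      rw [← this]; exact hφinv
    rw [e.fderiv_eq, fderiv_fun_comp t hφ'.differentiableAt ha'.differentiableAt]
    exact hφi'.comp hinv
  · intro hinv s hs
    rw [mem_singleton_iff] at hs
    subst hs
    exact ⟨i, a, b, ha, hinv, h⟩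

end GTE

theorem trS_imm1 {A : PFol n₁ n₂ X} {W : Set (EV n₁)} (hW : IsOpen W) {B B' : EV n₁ → X}
    (hB : Imm1 A W B) (h : TrS A W B B') : Imm1 A W B' := by
  induction h with
  | refl => exact hB
  | @tail B₁ B₂ _ htr ih =>
    obtain ⟨R, G, s, hR, hs, hG, hG0, hGs⟩ := htr
    intro t ht
    -- the property along the disc
    have hloc : ∀ s₀ ∈ ball (0 : ℂ) R, ∀ᶠ s' in 𝓝[ball (0 : ℂ) R] s₀,
        (Imm1 A {t} (fun a => G (a, s₀)) ↔ Imm1 A {t} (fun a => G (a, s'))) := by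
      intro s₀ hs₀
      obtain ⟨i, α, β, hα, _, hev⟩ := hG (t, s₀) ⟨ht, hs₀⟩
      have hsw : Tendsto (fun w : ℂ × EV n₁ => (w.2, w.1)) (𝓝 (s₀, t)) (𝓝 (t, s₀)) :=
        (continuous_snd.prodMk continuous_fst).tendsto _
      have h2 : ∀ᶠ s' in 𝓝 s₀, ∀ᶠ a in 𝓝 t, G (a, s') ∈ (A.ch i).source ∧
          A.ch i (G (a, s')) = (α a, β s') := (hsw.eventually hev).curry_nhds
      have h3 := h2.self_of_nhds
      refine (h2.filter_mono nhdsWithin_le_nhds).mono fun s' hs' => ?_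
      rw [GTE.imm_iff A hα h3, GTE.imm_iff A hα hs']
    have hconst := (convex_ball (0 : ℂ) R).isPreconnected.induction₂
      (fun u v => (Imm1 A {t} (fun a => G (a, u)) ↔ Imm1 A {t} (fun a => G (a, v)))) hloc
      (fun u v w _ _ _ h1 h2 => h1.trans h2) (fun u v _ _ h1 => h1.symm)
      (mem_ball_self hR) hs
    -- congruence at both ends
    have hcg : ∀ (c c' : EV n₁ → X), (∀ a ∈ W, c a = c' a) → Imm1 A {t} c → Imm1 A {t} c' := by
      intro c c' hcc hc u hu
      rw [mem_singleton_iff] at hu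
      subst hu
      obtain ⟨i, a, b, ha, hinv, hev⟩ := hc u rfl
      refine ⟨i, a, b, ha, hinv, ?_⟩
      filter_upwards [hev, hW.mem_nhds ht] with v hv hvW
      rw [← hcc v hvW]
      exact hv
    have h1 : Imm1 A {t} B₁ := fun u hu => by
      rw [mem_singleton_iff] at hu
      subst hu
      exact ih u ht
    have h2 : Imm1 A {t} (fun a => G (a, 0)) := hcg _ _ (fun a ha => (hG0 a ha).symm) h1
    exact hcg _ _ hGs (hconst.1 h2) t rfl

end

end Crest.Agent.R266
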