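import Crest.Agent.R266.GlobDefs

/-!
R266 / GLeaf (helper926): the leaf topology and the leaf manifold of the first foliation.
-/

set_option autoImplicit false

open scoped Manifold ContDiff Topology
open Set Metric Filter

namespace Crest.Agent.R266

namespace LeafA

variable {n₁ n₂ : ℕ} {X : Type} [TopologicalSpace X]

theorem ch_mem {A : PFol n₁ n₂ X} {i : A.ι} {y : X} (hy : y ∈ (A.ch i).source) :
    (A.ch i y).1 ∈ ball (0 : EV n₁) 1 ∧ (A.ch i y).2 ∈ ball (0 : EV n₂) 1 := by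
  have := (A.ch i).map_source hy
  rw [A.target_eq i] at this
  exact this

theorem ch_symm {A : PFol n₁ n₂ X} {i : A.ι} {a : EV n₁} {b : EV n₂} (ha : a ∈ ball (0 : EV n₁) 1)
    (hb : b ∈ ball (0 : EV n₂) 1) :
    (A.ch i).symm (a, b) ∈ (A.ch i).source ∧ A.ch i ((A.ch i).symm (a, b)) = (a, b) := by
  have h : (a, b) ∈ (A.ch i).target := by
    rw [A.target_eq i]
    exact ⟨ha, hb⟩
  exact ⟨(A.ch i).map_target h, (A.ch i).right_inv h⟩

/-- the plaque chart -/
noncomputable def pch (A : PFol n₁ n₂ X) (i : A.ι) (b : EV n₂) (hb : b ∈ ball (0 : EV n₂) 1) :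
    PartialEquiv (Leaf1 A) (EV n₁) where
  toFun y := (A.ch i (ofL y)).1
  invFun a := toL A (plq A i b a)
  source := {y | ofL y ∈ (A.ch i).source ∧ (A.ch i (ofL y)).2 = b}
  target := ball 0 1
  map_source' y hy := (ch_mem hy.1).1
  map_target' a ha := by
    have := ch_symm (A := A) (i := i) ha hb
    refine ⟨this.1, ?_⟩
    show (A.ch i ((A.ch i).symm (a, b))).2 = b
    rw [this.2]
  left_inv' y hy := by
    show toL A ((A.ch i).symm ((A.ch i (ofL y)).1, b)) = y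
    have : (A.ch i).symm ((A.ch i (ofL y)).1, b) = ofL y := by
      rw [← hy.2]
      exact (A.ch i).left_inv hy.1
    rw [this]
    rfl
  right_inv' a ha := by
    show (A.ch i ((A.ch i).symm (a, b))).1 = a
    rw [(ch_symm (A := A) (i := i) ha hb).2]

@[simp] theorem pch_apply (A : PFol n₁ n₂ X) (i : A.ι) (b : EV n₂) (hb : b ∈ ball (0 : EV n₂) 1)
    (y : Leaf1 A) : pch A i b hb y = (A.ch i (ofL y)).1 := rfl

@[simp] theorem pch_symm_apply (A : PFol n₁ n₂ X) (i : A.ι) (b : EV n₂)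
    (hb : b ∈ ball (0 : EV n₂) 1) (a : EV n₁) : (pch A i b hb).symm a = toL A (plq A i b a) := rfl

/-- the analytic transition between plaque charts -/
theorem trans_loc (A : PFol n₁ n₂ X) (i j : A.ι) (b b' : EV n₂) (hb : b ∈ ball (0 : EV n₂) 1)
    (hb' : b' ∈ ball (0 : EV n₂) 1) {a : EV n₁}
    (ha : a ∈ ((pch A i b hb).symm.trans (pch A j b' hb')).source) :
    ∃ φ : EV n₁ → EV n₁, AnalyticAt ℂ φ a ∧
      ∀ᶠ a' in 𝓝 a, a' ∈ ((pch A i b hb).symm.trans (pch A j b' hb')).source ∧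
        ((pch A i b hb).symm.trans (pch A j b' hb')) a' = φ a' := by
  rw [PartialEquiv.trans_source] at ha
  have ha1 : a ∈ ball (0 : EV n₁) 1 := ha.1
  have ha2 : plq A i b a ∈ (A.ch j).source ∧ (A.ch j (plq A i b a)).2 = b' := ha.2
  have hs := ch_symm (A := A) (i := i) ha1 hb
  obtain ⟨φ, ψ, hφ, hψ, h⟩ := A.compat i j (plq A i b a) ⟨hs.1, ha2.1⟩
  have hpt : A.ch i (plq A i b a) = (a, b) := hs.2
  rw [hpt] at hφ hψ h
  refine ⟨φ, hφ, ?_⟩
  have hcont : ContinuousAt (fun a' : EV n₁ => (a', b)) a := by fun_prop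
  have h1 : ∀ᶠ a' in 𝓝 a, A.ch j ((A.ch i).symm (a', b)) = (φ a', ψ b) := hcont.eventually h
  have h2 : ∀ᶠ a' in 𝓝 a, a' ∈ ball (0 : EV n₁) 1 := isOpen_ball.mem_nhds ha1
  have h3 : ∀ᶠ a' in 𝓝 a, plq A i b a' ∈ (A.ch j).source := by
    have hc : ContinuousAt (fun a' : EV n₁ => (A.ch i).symm (a', b)) a := by
      refine ContinuousAt.comp (g := (A.ch i).symm) (f := fun a' : EV n₁ => (a', b)) ?_ hcont
      exact (A.ch i).continuousAt_symm (by rw [A.target_eq i]; exact ⟨ha1, hb⟩)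
    exact hc.eventually ((A.ch j).open_source.mem_nhds ha2.1)
  have hψb : ψ b = b' := by
    have := h1.self_of_nhds
    have h4 : (A.ch j (plq A i b a)) = (φ a, ψ b) := this
    rw [h4] at ha2
    exact ha2.2
  filter_upwards [h1, h2, h3] with a' e1 e2 e3
  have e1' : A.ch j (plq A i b a') = (φ a', ψ b) := e1
  refine ⟨?_, ?_⟩
  · rw [PartialEquiv.trans_source]
    refine ⟨e2, ?_⟩
    show plq A i b a' ∈ (A.ch j).source ∧ (A.ch j (plq A i b a')).2 = b'
    refine ⟨e3, ?_⟩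
    rw [e1']
    exact hψb
  · show (A.ch j (plq A i b a')).1 = φ a'
    rw [e1']

/-- the core -/
noncomputable def core (A : PFol n₁ n₂ X) : ChartedSpaceCore (EV n₁) (Leaf1 A) where
  atlas := {e | ∃ (i : A.ι) (b : EV n₂) (hb : b ∈ ball (0 : EV n₂) 1), e = pch A i b hb}
  chartAt y := pch A (Classical.choose (A.cover (ofL y)))
    (A.ch (Classical.choose (A.cover (ofL y))) (ofL y)).2
    (ch_mem (Classical.choose_spec (A.cover (ofL y))).1).2
  mem_chart_source y := ⟨(Classical.choose_spec (A.cover (ofL y))).1, rfl⟩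
  chart_mem_atlas y := ⟨_, _, _, rfl⟩
  open_source := by
    rintro e e' ⟨i, b, hb, rfl⟩ ⟨j, b', hb', rfl⟩
    rw [isOpen_iff_mem_nhds]
    intro a ha
    obtain ⟨φ, -, h⟩ := trans_loc A i j b b' hb hb' ha
    filter_upwards [h] with a' ha'
    exact ha'.1
  continuousOn_toFun := by
    rintro e e' ⟨i, b, hb, rfl⟩ ⟨j, b', hb', rfl⟩
    intro a ha
    obtain ⟨φ, hφ, h⟩ := trans_loc A i j b b' hb hb' ha
    refine ContinuousAt.continuousWithinAt ?_
    exact hφ.continuousAt.congr (h.mono fun a' ha' => ha'.2.symm)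

end LeafA

open LeafA

variable {n₁ n₂ : ℕ} {X : Type} [TopologicalSpace X]

noncomputable instance leafTop (A : PFol n₁ n₂ X) : TopologicalSpace (Leaf1 A) :=
  (core A).toTopologicalSpace

noncomputable instance leafCharted (A : PFol n₁ n₂ X) : ChartedSpace (EV n₁) (Leaf1 A) :=
  (core A).toChartedSpace

namespace LeafA

/-- the plaque chart as an open partial homeomorphism -/
noncomputable def pcho (A : PFol n₁ n₂ X) (i : A.ι) (b : EV n₂) (hb : b ∈ ball (0 : EV n₂) 1) :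
    OpenPartialHomeomorph (Leaf1 A) (EV n₁) :=
  (core A).openPartialHomeomorph (pch A i b hb) ⟨i, b, hb, rfl⟩

theorem pcho_mem (A : PFol n₁ n₂ X) (i : A.ι) (b : EV n₂) (hb : b ∈ ball (0 : EV n₂) 1) :
    pcho A i b hb ∈ atlas (EV n₁) (Leaf1 A) := by
  show pcho A i b hb ∈ ⋃ (e : PartialEquiv (Leaf1 A) (EV n₁)) (he : e ∈ (core A).atlas),
    {(core A).openPartialHomeomorph e he}
  simp only [mem_iUnion, mem_singleton_iff]
  exact ⟨pch A i b hb, ⟨i, b, hb, rfl⟩, rfl⟩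

theorem mem_atlas {A : PFol n₁ n₂ X} {e : OpenPartialHomeomorph (Leaf1 A) (EV n₁)}
    (he : e ∈ atlas (EV n₁) (Leaf1 A)) : ∃ i b hb, e = pcho A i b hb := by
  have he' : e ∈ ⋃ (e : PartialEquiv (Leaf1 A) (EV n₁)) (he : e ∈ (core A).atlas),
    {(core A).openPartialHomeomorph e he} := he
  simp only [mem_iUnion, mem_singleton_iff] at he'
  obtain ⟨e', ⟨i, b, hb, rfl⟩, rfl⟩ := he'
  exact ⟨i, b, hb, rfl⟩

@[simp] theorem pcho_apply (A : PFol n₁ n₂ X) (i : A.ι) (b : EV n₂) (hb : b ∈ ball (0 : EV n₂) 1)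
    (y : Leaf1 A) : pcho A i b hb y = (A.ch i (ofL y)).1 := rfl

@[simp] theorem pcho_symm_apply (A : PFol n₁ n₂ X) (i : A.ι) (b : EV n₂)
    (hb : b ∈ ball (0 : EV n₂) 1) (a : EV n₁) : (pcho A i b hb).symm a = toL A (plq A i b a) := rfl

theorem pcho_source (A : PFol n₁ n₂ X) (i : A.ι) (b : EV n₂) (hb : b ∈ ball (0 : EV n₂) 1) :
    (pcho A i b hb).source = {y | ofL y ∈ (A.ch i).source ∧ (A.ch i (ofL y)).2 = b} := rfl

theorem pcho_target (A : PFol n₁ n₂ X) (i : A.ι) (b : EV n₂) (hb : b ∈ ball (0 : EV n₂) 1) :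
    (pcho A i b hb).target = ball 0 1 := rfl

end LeafA

instance leafManifold (A : PFol n₁ n₂ X) : IsManifold 𝓘(ℂ, EV n₁) ω (Leaf1 A) := by
  apply isManifold_of_contDiffOn
  intro e e' he he'
  obtain ⟨i, b, hb, rfl⟩ := mem_atlas he
  obtain ⟨j, b', hb', rfl⟩ := mem_atlas he'
  simp only [modelWithCornersSelf_coe, modelWithCornersSelf_coe_symm, Function.comp_id,
    Function.id_comp, preimage_id, range_id, inter_univ]
  intro a ha
  obtain ⟨φ, hφ, h⟩ := trans_loc A i j b b' hb hb' (a := a) ha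
  refine ContDiffAt.contDiffWithinAt ?_
  exact hφ.contDiffAt.congr_of_eventuallyEq (h.mono fun a' ha' => ha'.2)

theorem leaf_continuous (A : PFol n₁ n₂ X) : Continuous (ofL : Leaf1 A → X) := by
  rw [continuous_iff_continuousAt]
  intro y
  obtain ⟨i, hi, -⟩ := A.cover (ofL y)
  have hb := (ch_mem hi).2
  set e := pcho A i _ hb with he
  have hy : y ∈ e.source := ⟨hi, rfl⟩
  have h1 : ContinuousAt e y := e.continuousAt hy
  have h2 : ContinuousAt (fun a : EV n₁ => (A.ch i).symm (a, (A.ch i (ofL y)).2)) (e y) := by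
    refine ContinuousAt.comp (g := (A.ch i).symm)
      (f := fun a' : EV n₁ => (a', (A.ch i (ofL y)).2)) ?_ (by fun_prop)
    exact (A.ch i).continuousAt_symm ((A.ch i).map_source hi)
  refine (h2.comp h1).congr ?_
  filter_upwards [e.open_source.mem_nhds hy] with z hz
  have hz' : ofL z ∈ (A.ch i).source ∧ (A.ch i (ofL z)).2 = (A.ch i (ofL y)).2 := hz
  show (A.ch i).symm ((A.ch i (ofL z)).1, (A.ch i (ofL y)).2) = ofL z
  rw [← hz'.2]
  exact (A.ch i).left_inv hz'.1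

instance leaf_t2 (A : PFol n₁ n₂ X) [T2Space X] : T2Space (Leaf1 A) :=
  T2Space.of_injective_continuous (f := (ofL : Leaf1 A → X)) (fun _ _ h => h) (leaf_continuous A)

/-- a map tangent to the first foliation near a point, in the plaque chart -/
theorem leaf_contMDiffAt {V : Type} [NormedAddCommGroup V] [NormedSpace ℂ V] {A : PFol n₁ n₂ X}
    {t : V} {c : V → X} (h : IsE1g A {t} c) :
    ContMDiffAt 𝓘(ℂ, V) 𝓘(ℂ, EV n₁) ω (fun s => toL A (c s)) t := by
  obtain ⟨i, a, b, ha, hev⟩ := h t rfl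
  have ht := hev.self_of_nhds
  have hb : b ∈ ball (0 : EV n₂) 1 := by
    have := (ch_mem ht.1).2
    rw [ht.2] at this
    exact this
  have hat : a t ∈ ball (0 : EV n₁) 1 := by
    have := (ch_mem ht.1).1
    rw [ht.2] at this
    exact this
  have he : pcho A i b hb ∈ IsManifold.maximalAtlas 𝓘(ℂ, EV n₁) ω (Leaf1 A) :=
    IsManifold.subset_maximalAtlas (pcho_mem A i b hb)
  have h1 : ContMDiffAt 𝓘(ℂ, EV n₁) 𝓘(ℂ, EV n₁) ω (pcho A i b hb).symm (a t) :=
    contMDiffAt_symm_of_mem_maximalAtlas he (by rw [pcho_target]; exact hat)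
  have h2 : ContMDiffAt 𝓘(ℂ, V) 𝓘(ℂ, EV n₁) ω a t := ha.contDiffAt.contMDiffAt
  refine (ContMDiffAt.comp t h1 h2).congr_of_eventuallyEq ?_
  filter_upwards [hev] with s hs
  show toL A (c s) = toL A (plq A i b (a s))
  congr 1
  show c s = (A.ch i).symm (a s, b)
  rw [← hs.2]
  exact ((A.ch i).left_inv hs.1).symm

theorem leaf_continuousAt {V : Type} [NormedAddCommGroup V] [NormedSpace ℂ V] {A : PFol n₁ n₂ X}
    {t : V} {c : V → X} (h : IsE1g A {t} c) :
    ContinuousAt (fun s => toL A (c s)) t := (leaf_contMDiffAt h).continuousAt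

theorem leaf_coord (A : PFol n₁ n₂ X) (i : A.ι) (y : Leaf1 A) (hy : ofL y ∈ (A.ch i).source) :
    ContMDiffAt 𝓘(ℂ, EV n₁) 𝓘(ℂ, EV n₁) ω (fun z : Leaf1 A => (A.ch i (ofL z)).1) y ∧
    ∀ᶠ z : Leaf1 A in 𝓝 y, ofL z ∈ (A.ch i).source ∧
      (A.ch i (ofL z)).2 = (A.ch i (ofL y)).2 := by
  have hb := (ch_mem hy).2
  have he : pcho A i _ hb ∈ IsManifold.maximalAtlas 𝓘(ℂ, EV n₁) ω (Leaf1 A) :=
    IsManifold.subset_maximalAtlas (pcho_mem A i _ hb)
  have hs : y ∈ (pcho A i _ hb).source := ⟨hy, rfl⟩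
  refine ⟨contMDiffAt_of_mem_maximalAtlas he hs, ?_⟩
  filter_upwards [(pcho A i _ hb).open_source.mem_nhds hs] with z hz
  exact hz

end Crest.Agent.R266
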