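import Crest.Agent.R266.GLeaf

/-!
R266 / GLeafInv (helper529): local inverse of an immersed plaque (block G4).
-/

set_option autoImplicit false

open scoped Manifold ContDiff Topology
open Set Metric Filter

namespace Crest.Agent.R266

variable {n₁ n₂ : ℕ} {X : Type} [TopologicalSpace X]

/-- local inverse of an immersed plaque -/
theorem leaf_inverse {A : PFol n₁ n₂ X} {t : EV n₁} {c : EV n₁ → X} (h : Imm1 A {t} c) :
    ∃ κ : Leaf1 A → EV n₁, ContMDiffAt 𝓘(ℂ, EV n₁) 𝓘(ℂ, EV n₁) ω κ (toL A (c t)) ∧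
      (∀ᶠ s in 𝓝 t, κ (toL A (c s)) = s) ∧
      ∀ᶠ y : Leaf1 A in 𝓝 (toL A (c t)), toL A (c (κ y)) = y := by
  obtain ⟨i, a, b, ha, ⟨f', hf'⟩, hev⟩ := h t rfl
  have ht := hev.self_of_nhds
  have hC : ContDiffAt ℂ ω a t := ha.contDiffAt
  have hD : HasFDerivAt a (f' : EV n₁ →L[ℂ] EV n₁) t := by
    rw [hf']
    exact ha.differentiableAt.hasFDerivAt
  have hn : (ω : WithTop ℕ∞) ≠ 0 := by simp
  set e := hC.toOpenPartialHomeomorph a hD hn with he
  have hts : t ∈ e.source := hC.mem_toOpenPartialHomeomorph_source hD hn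
  have hea : (e : EV n₁ → EV n₁) = a := rfl
  have hsymm : ContDiffAt ℂ ω e.symm (a t) := hC.to_localInverse hD hn
  have hat : a t ∈ e.target := e.map_source hts
  have hsa : e.symm (a t) = t := e.left_inv hts
  obtain ⟨hco, hco2⟩ := leaf_coord A i (toL A (c t)) ht.1
  have hy0 : (A.ch i (ofL (toL A (c t)))).1 = a t := by
    show (A.ch i (c t)).1 = a t
    rw [ht.2]
  have hκ : ContMDiffAt 𝓘(ℂ, EV n₁) 𝓘(ℂ, EV n₁) ω
      (fun y : Leaf1 A => e.symm (A.ch i (ofL y)).1) (toL A (c t)) := by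
    refine ContMDiffAt.comp (g := e.symm) (f := fun z : Leaf1 A => (A.ch i (ofL z)).1)
      (toL A (c t)) ?_ hco
    rw [hy0]
    exact hsymm.contMDiffAt
  refine ⟨fun y => e.symm (A.ch i (ofL y)).1, hκ, ?_, ?_⟩
  · filter_upwards [hev, e.open_source.mem_nhds hts] with s hs hse
    show e.symm (A.ch i (c s)).1 = s
    rw [hs.2]
    exact e.left_inv hse
  · have hκc : Tendsto (fun y : Leaf1 A => e.symm (A.ch i (ofL y)).1) (𝓝 (toL A (c t))) (𝓝 t) := by
      have := hκ.continuousAt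
      have h2 : e.symm (A.ch i (ofL (toL A (c t)))).1 = t := by rw [hy0, hsa]
      rw [ContinuousAt, h2] at this
      exact this
    have hcoc : Tendsto (fun y : Leaf1 A => (A.ch i (ofL y)).1) (𝓝 (toL A (c t))) (𝓝 (a t)) := by
      have := hco.continuousAt
      rw [ContinuousAt, hy0] at this
      exact this
    have hb : (A.ch i (ofL (toL A (c t)))).2 = b := by
      show (A.ch i (c t)).2 = b
      rw [ht.2]
    filter_upwards [hco2, hκc.eventually hev, hcoc.eventually (e.open_target.mem_nhds hat)]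
      with y h1 h2 h3
    have h4 : a (e.symm (A.ch i (ofL y)).1) = (A.ch i (ofL y)).1 := e.right_inv h3
    have h5 : A.ch i (c (e.symm (A.ch i (ofL y)).1)) = A.ch i (ofL y) := by
      rw [h2.2, h4, ← hb, ← h1.2]
    have h6 := (A.ch i).injOn h2.1 h1.1 h5
    show toL A (c (e.symm (A.ch i (ofL y)).1)) = y
    rw [h6]
    rfl

end Crest.Agent.R266
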