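import Crest.Agent.R266.Mono

/-!
R266 / GMono: abstract monodromy theorem for presheaves of sections (G3 of GlobIface).
-/

set_option autoImplicit false

open Set Filter Topology

namespace Crest.Agent.R266

theorem monodromy_sections {Y T : Type} [TopologicalSpace Y] [SimplyConnectedSpace Y]
    [LocallyPathConnectedSpace Y] (Sec : Set Y → (Y → T) → Prop)
    (hmono : ∀ U V f, IsOpen V → V ⊆ U → Sec U f → Sec V f)
    (hcongr : ∀ U f g, IsOpen U → Sec U f → EqOn f g U → Sec U g)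
    (huniq : ∀ U f g, IsOpen U → IsPreconnected U → Sec U f → Sec U g →
      (∃ x ∈ U, f =ᶠ[𝓝 x] g) → EqOn f g U)
    (hext : ∀ y, ∃ U, IsOpen U ∧ y ∈ U ∧ IsPreconnected U ∧
      ∀ x ∈ U, ∀ V f, IsOpen V → x ∈ V → Sec V f → ∃ g, Sec U g ∧ g =ᶠ[𝓝 x] f)
    (y₀ : Y) (V₀ : Set Y) (f₀ : Y → T) (hV₀ : IsOpen V₀) (hy₀ : y₀ ∈ V₀) (hf₀ : Sec V₀ f₀) :
    ∃ g : Y → T, (∀ y, ∃ U, IsOpen U ∧ y ∈ U ∧ Sec U g) ∧ g =ᶠ[𝓝 y₀] f₀ := by
  classical
  -- admissible germs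
  let S : ∀ y : Y, Set ((𝓝 y).Germ T) := fun y =>
    {g | ∃ (V : Set Y) (f : Y → T), IsOpen V ∧ y ∈ V ∧ Sec V f ∧ g = (f : (𝓝 y).Germ T)}
  have hS_iff : ∀ (y : Y) (f : Y → T), (f : (𝓝 y).Germ T) ∈ S y →
      ∃ V : Set Y, IsOpen V ∧ y ∈ V ∧ Sec V f := by
    rintro y f ⟨V, f', hV, hy, hs, he⟩
    have he' : f =ᶠ[𝓝 y] f' := Filter.Germ.coe_eq.mp he
    obtain ⟨W, hWsub, hW, hyW⟩ := mem_nhds_iff.1 he'
    refine ⟨V ∩ W, hV.inter hW, ⟨hy, hyW⟩, ?_⟩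
    refine hcongr _ f' f (hV.inter hW) (hmono V _ f' (hV.inter hW) inter_subset_left hs) ?_
    intro z hz
    exact (hWsub hz.2).symm
  have hgood : ∀ x : Y, ∃ U : Set Y, IsOpen U ∧ x ∈ U ∧ Mono.Good S U := by
    intro x
    obtain ⟨U, hU, hxU, hUc, hUe⟩ := hext x
    refine ⟨U, hU, hxU, ?_, ?_⟩
    · intro y hy f hf
      obtain ⟨V, hV, hyV, hs⟩ := hS_iff y f hf
      obtain ⟨g, hg, hgf⟩ := hUe y hy V f hV hyV hs
      exact ⟨g, fun z hz => ⟨U, g, hU, hz, hg, rfl⟩, hgf⟩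
    · intro f f' hf hf' hex y hy
      -- clopen argument
      have hloc : ∀ z ∈ U, ∃ V, IsOpen V ∧ z ∈ V ∧ IsPreconnected V ∧ Sec V f ∧ Sec V f' := by
        intro z hz
        obtain ⟨V₁, hV₁, hz₁, hs₁⟩ := hS_iff z f (hf z hz)
        obtain ⟨V₂, hV₂, hz₂, hs₂⟩ := hS_iff z f' (hf' z hz)
        obtain ⟨V, hVsub, hVo, hzV, hVc⟩ :=
          locallyConnectedSpace_iff_subsets_isOpen_isConnected.1 inferInstance z (V₁ ∩ V₂)
            ((hV₁.inter hV₂).mem_nhds ⟨hz₁, hz₂⟩)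
        exact ⟨V, hVo, hzV, hVc.isPreconnected,
          hmono _ _ _ hVo (hVsub.trans inter_subset_left) hs₁,
          hmono _ _ _ hVo (hVsub.trans inter_subset_right) hs₂⟩
      let E : Set Y := {z | f =ᶠ[𝓝 z] f'}
      have hEo : IsOpen E := by
        rw [isOpen_iff_mem_nhds]
        intro z hz
        exact eventually_eventually_nhds.2 hz
      have hcl : ∀ z ∈ U, z ∈ closure E → z ∈ E := by
        intro z hz hzc
        obtain ⟨V, hVo, hzV, hVc, hs, hs'⟩ := hloc z hz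
        obtain ⟨w, hwV, hwE⟩ := mem_closure_iff.1 hzc V hVo hzV
        have := huniq V f f' hVo hVc hs hs' ⟨w, hwV, hwE⟩
        exact Filter.eventuallyEq_of_mem (hVo.mem_nhds hzV) this
      obtain ⟨w, hwU, hwE⟩ := hex
      have hsub : U ⊆ E :=
        hUc.subset_of_closure_inter_subset hEo ⟨w, hwU, hwE⟩ (fun z hz => hcl z hz.2 hz.1)
      exact hsub hy
  obtain ⟨F, hF, hF0⟩ := Mono.mono S hgood y₀ f₀ ⟨V₀, f₀, hV₀, hy₀, hf₀, rfl⟩
  exact ⟨F, fun y => hS_iff y F (hF y), hF0⟩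

end Crest.Agent.R266
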