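import Crest.Agent.R266.GlobDefs

/-!
R266 / GTrans (helper260), node G5 of GlobIface: transport of first-leaf maps.
-/

set_option autoImplicit false

open scoped Manifold ContDiff Topology
open Set Metric Filter

namespace Crest.Agent.R266

section
variable {n₁ n₂ : ℕ} {X : Type} [TopologicalSpace X]
variable {V V' : Type} [NormedAddCommGroup V] [NormedSpace ℂ V] [NormedAddCommGroup V']
  [NormedSpace ℂ V']

namespace GT

theorem mono {V₁ V₂ : Type} [NormedAddCommGroup V₁] [NormedSpace ℂ V₁] [NormedAddCommGroup V₂]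
    [NormedSpace ℂ V₂] {A : PFol n₁ n₂ X} {U U' : Set (V₁ × V₂)} {G : V₁ × V₂ → X}
    (h : IsPCg A U G) (hU : U' ⊆ U) : IsPCg A U' G := fun z hz => h z (hU hz)

theorem comp {V₁ V₂ V₁' V₂' : Type} [NormedAddCommGroup V₁] [NormedSpace ℂ V₁]
    [NormedAddCommGroup V₂] [NormedSpace ℂ V₂] [NormedAddCommGroup V₁'] [NormedSpace ℂ V₁']
    [NormedAddCommGroup V₂'] [NormedSpace ℂ V₂'] {A : PFol n₁ n₂ X} {U : Set (V₁ × V₂)}
    {U' : Set (V₁' × V₂')}
    {G : V₁ × V₂ → X} (h : IsPCg A U G) {θ₁ : V₁' → V₁} {θ₂ : V₂' → V₂}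
    (hθ : ∀ z ∈ U', AnalyticAt ℂ θ₁ z.1 ∧ AnalyticAt ℂ θ₂ z.2 ∧ (θ₁ z.1, θ₂ z.2) ∈ U) :
    IsPCg A U' (fun z => G (θ₁ z.1, θ₂ z.2)) := by
  intro z hz
  obtain ⟨h1, h2, h3⟩ := hθ z hz
  obtain ⟨i, a, b, ha, hb, hev⟩ := h _ h3
  refine ⟨i, a ∘ θ₁, b ∘ θ₂, (show AnalyticAt ℂ a (θ₁ z.1) from ha).comp h1,
    (show AnalyticAt ℂ b (θ₂ z.2) from hb).comp h2, ?_⟩
  have hc : ContinuousAt (fun z : V₁' × V₂' => (θ₁ z.1, θ₂ z.2)) z :=
    (h1.continuousAt.comp continuousAt_fst).prodMk (h2.continuousAt.comp continuousAt_snd)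
  exact hc.eventually hev

theorem of_fst {V₁ V₂ : Type} [NormedAddCommGroup V₁] [NormedSpace ℂ V₁] [NormedAddCommGroup V₂]
    [NormedSpace ℂ V₂] {A : PFol n₁ n₂ X} {W : Set V₁} {c : V₁ → X} (h : IsE1g A W c)
    (W₂ : Set V₂) : IsPCg A (W ×ˢ W₂) (fun p => c p.1) := by
  intro z hz
  obtain ⟨i, a, b, ha, hev⟩ := h z.1 hz.1
  refine ⟨i, a, fun _ => b, ha, analyticAt_const, ?_⟩
  exact (continuousAt_fst (p := z)).eventually hev

theorem slice {V₁ V₂ : Type} [NormedAddCommGroup V₁] [NormedSpace ℂ V₁] [NormedAddCommGroup V₂]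
    [NormedSpace ℂ V₂] {A : PFol n₁ n₂ X} {W₁ : Set V₁} {W₂ : Set V₂} {G : V₁ × V₂ → X}
    (h : IsPCg A (W₁ ×ˢ W₂) G) {b : V₂} (hb : b ∈ W₂) : IsE1g A W₁ (fun a => G (a, b)) := by
  intro t ht
  obtain ⟨i, a, b', ha, hb', hev⟩ := h (t, b) ⟨ht, hb⟩
  refine ⟨i, a, b' b, ha, ?_⟩
  have hc : ContinuousAt (fun s : V₁ => (s, b)) t := by fun_prop
  exact hc.eventually hev

theorem congr1 {A : PFol n₁ n₂ X} {U : Set V} (hU : IsOpen U) {c c' : V → X} (h : IsE1g A U c)
    (hc : EqOn c c' U) : IsE1g A U c' := by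
  intro t ht
  obtain ⟨i, a, b, ha, hev⟩ := h t ht
  refine ⟨i, a, b, ha, ?_⟩
  filter_upwards [hev, hU.mem_nhds ht] with s hs hs'
  rw [← hc hs']
  exact hs

end GT

theorem trS_mono {A : PFol n₁ n₂ X} {W W' : Set V} {B B' : V → X} (h : TrS A W B B')
    (hW : W' ⊆ W) : TrS A W' B B' := by
  induction h with
  | refl => exact Relation.ReflTransGen.refl
  | tail _ h ih =>
    refine ih.tail ?_
    obtain ⟨R, G, s, hR, hs, hG, h0, h1⟩ := h
    exact ⟨R, G, s, hR, hs, GT.mono hG (prod_mono hW subset_rfl), fun a ha => h0 a (hW ha),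
      fun a ha => h1 a (hW ha)⟩

theorem trS_isE1g {A : PFol n₁ n₂ X} {W : Set V} (hW : IsOpen W) {B B' : V → X}
    (hB : IsE1g A W B) (h : TrS A W B B') : IsE1g A W B' := by
  induction h with
  | refl => exact hB
  | tail _ h _ =>
    obtain ⟨R, G, s, hR, hs, hG, h0, h1⟩ := h
    exact GT.congr1 hW (GT.slice hG hs) h1

theorem GT.tr_of_eqOn {A : PFol n₁ n₂ X} {W : Set V} {B B₁ B₂ : V → X} (hB : IsE1g A W B)
    (e₁ : EqOn B B₁ W) (e₂ : EqOn B B₂ W) : TrS A W B₁ B₂ :=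
  Relation.ReflTransGen.single ⟨1, fun p => B p.1, 0, one_pos, mem_ball_self one_pos,
    GT.of_fst hB _, fun _ ha => e₁ ha, fun _ ha => e₂ ha⟩

/-- congruence on `W` (`W` open, `B` tangent to the first foliation) -/
theorem trS_congr {A : PFol n₁ n₂ X} {W : Set V} (hW : IsOpen W) {B B' B₁ B₁' : V → X}
    (hB : IsE1g A W B) (h : TrS A W B B') (e : EqOn B B₁ W) (e' : EqOn B' B₁' W) :
    TrS A W B₁ B₁' :=
  ((GT.tr_of_eqOn hB e (fun _ _ => rfl)).trans h).trans
    (GT.tr_of_eqOn (trS_isE1g hW hB h) (fun _ _ => rfl) e')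

theorem trS_comp {A : PFol n₁ n₂ X} {W : Set V} {W' : Set V'} {B B' : V → X} (h : TrS A W B B')
    {θ : V' → V} (hθ : AnalyticOnNhd ℂ θ W') (hm : MapsTo θ W' W) :
    TrS A W' (B ∘ θ) (B' ∘ θ) := by
  induction h with
  | refl => exact Relation.ReflTransGen.refl
  | tail _ h ih =>
    refine ih.tail ?_
    obtain ⟨R, G, s, hR, hs, hG, h0, h1⟩ := h
    refine ⟨R, fun z => G (θ z.1, z.2), s, hR, hs, ?_, fun a ha => h0 _ (hm ha),
      fun a ha => h1 _ (hm ha)⟩
    exact GT.comp (θ₂ := id) hG (fun z hz => ⟨hθ _ hz.1, analyticAt_id, hm hz.1, hz.2⟩)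

theorem GT.tr_step {A : PFol n₁ n₂ X} {W : Set V} {R : ℝ} {G : V × ℂ → X}
    (hG : IsPCg A (W ×ˢ ball (0 : ℂ) R) G) {s s' : ℂ} {ρ : ℝ} (hρ : 0 < ρ)
    (h : ball s ρ ⊆ ball 0 R) (hs : s' ∈ ball s ρ) :
    TrS A W (fun a => G (a, s)) (fun a => G (a, s')) := by
  refine Relation.ReflTransGen.single ⟨ρ, fun z => G (z.1, s + z.2), s' - s, hρ, ?_, ?_, ?_, ?_⟩
  · rw [mem_ball_zero_iff, ← dist_eq_norm]; exact hs
  · refine GT.comp (θ₁ := id) (θ₂ := fun t => s + t) hG (fun z hz => ⟨analyticAt_id,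
      analyticAt_const.add analyticAt_id, hz.1, h ?_⟩)
    have := hz.2
    rw [mem_ball_zero_iff] at this
    rw [mem_ball, dist_eq_norm]
    simpa using this
  · intro a _; simp
  · intro a _; simp

set_option linter.unusedVariables false in
/-- the slices of one rectangle are all related -/
theorem trS_slices {A : PFol n₁ n₂ X} {W : Set V} (hW : IsOpen W) {R : ℝ} {G : V × ℂ → X}
    (hG : IsPCg A (W ×ˢ ball (0 : ℂ) R) G) {s s' : ℂ} (hs : s ∈ ball (0 : ℂ) R)
    (hs' : s' ∈ ball (0 : ℂ) R) : TrS A W (fun a => G (a, s)) (fun a => G (a, s')) := by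
  rw [mem_ball_zero_iff] at hs hs'
  set m : ℝ := max ‖s‖ ‖s'‖ with hm
  have hmR : m < R := max_lt hs hs'
  obtain ⟨N, hN⟩ := exists_nat_gt (‖s' - s‖ / (R - m))
  have hN0 : (0 : ℝ) < N := lt_of_le_of_lt (div_nonneg (norm_nonneg _) (sub_pos.2 hmR).le) hN
  have hN1 : ‖s' - s‖ < (R - m) * N := by
    rw [div_lt_iff₀ (sub_pos.2 hmR)] at hN
    linarith
  have hNc : (N : ℂ) ≠ 0 := by exact_mod_cast hN0.ne'
  set p : ℕ → ℂ := fun k => s + ((k : ℂ) / N) * (s' - s) with hp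
  have hpn : ∀ k ≤ N, ‖p k‖ ≤ m := by
    intro k hk
    have hk1 : (k : ℝ) / N ≤ 1 := by
      rw [div_le_one hN0]; exact_mod_cast hk
    have hk0 : (0 : ℝ) ≤ (k : ℝ) / N := by positivity
    have e : p k = (((1 - (k : ℝ) / N : ℝ)) : ℂ) * s + (((k : ℝ) / N : ℝ) : ℂ) * s' := by
      simp only [hp]; push_cast; ring
    rw [e]
    refine (norm_add_le _ _).trans ?_
    rw [norm_mul, norm_mul, Complex.norm_real, Complex.norm_real, Real.norm_of_nonneg hk0,
      Real.norm_of_nonneg (by linarith)]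
    have h1 : ‖s‖ ≤ m := le_max_left _ _
    have h2 : ‖s'‖ ≤ m := le_max_right _ _
    nlinarith [mul_le_mul_of_nonneg_left h1 (by linarith : (0 : ℝ) ≤ 1 - (k : ℝ) / N),
      mul_le_mul_of_nonneg_left h2 hk0]
  have key : ∀ k ≤ N, TrS A W (fun a => G (a, s)) (fun a => G (a, p k)) := by
    intro k
    induction k with
    | zero =>
      intro _
      have : p 0 = s := by simp [hp]
      rw [this]
      exact Relation.ReflTransGen.refl
    | succ k ih =>
      intro hk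
      refine (ih (by omega)).trans (GT.tr_step hG (ρ := R - m) (sub_pos.2 hmR) ?_ ?_)
      · intro z hz
        rw [mem_ball, dist_eq_norm] at hz
        rw [mem_ball_zero_iff]
        have : z = (z - p k) + p k := by ring
        rw [this]
        have := hpn k (by omega)
        linarith [norm_add_le (z - p k) (p k)]
      · rw [mem_ball, dist_eq_norm]
        have : p (k + 1) - p k = (s' - s) / N := by
          simp only [hp]; push_cast; field_simp; ring
        rw [this, norm_div, Complex.norm_natCast, div_lt_iff₀ hN0]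
        exact hN1
  have := key N le_rfl
  have e : p N = s' := by simp only [hp]; field_simp; ring
  rwa [e] at this

theorem trS_symm {A : PFol n₁ n₂ X} {W : Set V} (hW : IsOpen W) {B B' : V → X}
    (hB : IsE1g A W B) (h : TrS A W B B') : TrS A W B' B := by
  induction h with
  | refl => exact Relation.ReflTransGen.refl
  | tail h0 h ih =>
    refine Relation.ReflTransGen.trans ?_ ih
    have hE := trS_isE1g hW hB h0
    obtain ⟨R, G, s, hR, hs, hG, h0, h1⟩ := h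
    exact trS_congr hW (GT.slice hG hs) (trS_slices hW hG hs (mem_ball_self hR)) h1 h0

theorem GT.isE1g_plq (A : PFol n₁ n₂ X) (i : A.ι) {b : EV n₂} (hb : b ∈ ball (0 : EV n₂) 1) :
    IsE1g A (ball 0 1) (plq A i b) := by
  intro t ht
  refine ⟨i, id, b, analyticAt_id, ?_⟩
  filter_upwards [isOpen_ball.mem_nhds ht] with s hs
  have hm : (s, b) ∈ (A.ch i).target := by rw [A.target_eq i]; exact ⟨hs, hb⟩
  exact ⟨(A.ch i).map_target hm, (A.ch i).right_inv hm⟩

theorem GT.isPCg_symm (A : PFol n₁ n₂ X) (i : A.ι) :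
    IsPCg A (ball (0 : EV n₁) 1 ×ˢ ball (0 : EV n₂) 1) (A.ch i).symm := by
  intro z hz
  refine ⟨i, id, id, analyticAt_id, analyticAt_id, ?_⟩
  filter_upwards [(isOpen_ball.prod isOpen_ball).mem_nhds hz] with w hw
  have hm : w ∈ (A.ch i).target := by rw [A.target_eq i]; exact hw
  exact ⟨(A.ch i).map_target hm, (A.ch i).right_inv hm⟩

theorem GT.trS_plq0 (A : PFol n₁ n₂ X) (i : A.ι) {b : EV n₂} (hb : b ∈ ball (0 : EV n₂) 1) :
    TrS A (ball (0 : EV n₁) 1) (plq A i 0) (plq A i b) := by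
  rw [mem_ball_zero_iff] at hb
  have hpos : 0 < 1 + ‖b‖ := by positivity
  refine Relation.ReflTransGen.single ⟨2 / (1 + ‖b‖), fun z => (A.ch i).symm (z.1, z.2 • b), 1,
    by positivity, ?_, ?_, ?_, ?_⟩
  · rw [mem_ball_zero_iff, norm_one, lt_div_iff₀ hpos]; linarith
  · refine GT.comp (θ₁ := id) (θ₂ := fun t : ℂ => t • b) (GT.isPCg_symm A i)
      (fun z hz => ⟨analyticAt_id, by fun_prop, hz.1, ?_⟩)
    have := hz.2
    rw [mem_ball_zero_iff] at this ⊢
    rw [lt_div_iff₀ hpos] at this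
    rw [norm_smul]
    nlinarith [norm_nonneg z.2, norm_nonneg b]
  · intro a _; simp [plq]
  · intro a _; simp [plq]

/-- plaques of one chart are related -/
theorem trS_plq (A : PFol n₁ n₂ X) (i : A.ι) {b b' : EV n₂} (hb : b ∈ ball (0 : EV n₂) 1)
    (hb' : b' ∈ ball (0 : EV n₂) 1) :
    TrS A (ball (0 : EV n₁) 1) (plq A i b) (plq A i b') :=
  (trS_symm isOpen_ball (GT.isE1g_plq A i (mem_ball_self one_pos)) (GT.trS_plq0 A i hb)).trans
    (GT.trS_plq0 A i hb')

/-- change of chart for plaques: near a point of `X` the plaque maps of two charts differ by an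
analytic reparametrisation with invertible derivative -/
theorem plq_change (A : PFol n₁ n₂ X) (i j : A.ι) (x : X) (hi : x ∈ (A.ch i).source)
    (hj : x ∈ (A.ch j).source) :
    ∃ (θ : EV n₁ → EV n₁), AnalyticAt ℂ θ (A.ch i x).1 ∧ θ (A.ch i x).1 = (A.ch j x).1 ∧
      (fderiv ℂ θ (A.ch i x).1).IsInvertible ∧
      (∀ᶠ y in 𝓝 x, θ (A.ch i y).1 = (A.ch j y).1) ∧
      ∀ᶠ a in 𝓝 (A.ch i x).1, plq A i (A.ch i x).2 a = plq A j (A.ch j x).2 (θ a) := by
  obtain ⟨φ, ψ, hφ, hψ, h⟩ := A.compat i j x ⟨hi, hj⟩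
  obtain ⟨φ', ψ', hφ', hψ', h'⟩ := A.compat j i x ⟨hj, hi⟩
  have hx : (A.ch i).symm (A.ch i x) = x := (A.ch i).left_inv hi
  have hx' : (A.ch j).symm (A.ch j x) = x := (A.ch j).left_inv hj
  have e0 : A.ch j x = (φ (A.ch i x).1, ψ (A.ch i x).2) := by
    have := h.self_of_nhds; rwa [hx] at this
  have e0' : A.ch i x = (φ' (A.ch j x).1, ψ' (A.ch j x).2) := by
    have := h'.self_of_nhds; rwa [hx'] at this
  have ci : ContinuousAt (A.ch i) x := (A.ch i).continuousAt hi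
  have cj : ContinuousAt (A.ch j) x := (A.ch j).continuousAt hj
  -- near x
  have n1 : ∀ᶠ y in 𝓝 x, A.ch j y = (φ (A.ch i y).1, ψ (A.ch i y).2) := by
    filter_upwards [ci.eventually h, (A.ch i).open_source.mem_nhds hi] with y hy hyi
    rwa [(A.ch i).left_inv hyi] at hy
  have n2 : ∀ᶠ y in 𝓝 x, A.ch i y = (φ' (A.ch j y).1, ψ' (A.ch j y).2) := by
    filter_upwards [cj.eventually h', (A.ch j).open_source.mem_nhds hj] with y hy hyj
    rwa [(A.ch j).left_inv hyj] at hy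
  -- inverse relations
  have ti : (A.ch i x) ∈ (A.ch i).target := (A.ch i).map_source hi
  have tj : (A.ch j x) ∈ (A.ch j).target := (A.ch j).map_source hj
  have si : ContinuousAt (A.ch i).symm (A.ch i x) := (A.ch i).continuousAt_symm ti
  have sj : ContinuousAt (A.ch j).symm (A.ch j x) := (A.ch j).continuousAt_symm tj
  have si' : Tendsto (A.ch i).symm (𝓝 (A.ch i x)) (𝓝 x) := by
    have := si.tendsto; rwa [hx] at this
  have sj' : Tendsto (A.ch j).symm (𝓝 (A.ch j x)) (𝓝 x) := by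
    have := sj.tendsto; rwa [hx'] at this
  have k1 : ∀ᶠ a in 𝓝 (A.ch i x).1, φ' (φ a) = a := by
    have hc : Tendsto (fun a => (a, (A.ch i x).2)) (𝓝 (A.ch i x).1) (𝓝 (A.ch i x)) := by
      have : ContinuousAt (fun a => (a, (A.ch i x).2)) (A.ch i x).1 := by fun_prop
      exact this
    have hm := hc.eventually ((si'.eventually (n1.and n2)).and
      ((A.ch i).open_target.mem_nhds ti))
    filter_upwards [hm] with a ha
    obtain ⟨⟨h1, h2⟩, h3⟩ := ha
    rw [(A.ch i).right_inv h3] at h1 h2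
    have := congrArg Prod.fst h2
    simp only [h1] at this
    exact this.symm
  have k2 : ∀ᶠ a in 𝓝 (A.ch j x).1, φ (φ' a) = a := by
    have hc : Tendsto (fun a => (a, (A.ch j x).2)) (𝓝 (A.ch j x).1) (𝓝 (A.ch j x)) := by
      have : ContinuousAt (fun a => (a, (A.ch j x).2)) (A.ch j x).1 := by fun_prop
      exact this
    have hm := hc.eventually ((sj'.eventually (n1.and n2)).and
      ((A.ch j).open_target.mem_nhds tj))
    filter_upwards [hm] with a ha
    obtain ⟨⟨h1, h2⟩, h3⟩ := ha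
    rw [(A.ch j).right_inv h3] at h1 h2
    have := congrArg Prod.fst h1
    simp only [h2] at this
    exact this.symm
  have e1 : φ (A.ch i x).1 = (A.ch j x).1 := by rw [e0]
  have e1' : φ' (A.ch j x).1 = (A.ch i x).1 := by rw [e0']
  refine ⟨φ, hφ, e1, ?_, ?_, ?_⟩
  · have d1 : HasFDerivAt φ (fderiv ℂ φ (A.ch i x).1) (A.ch i x).1 :=
      hφ.differentiableAt.hasFDerivAt
    have d2 : HasFDerivAt φ' (fderiv ℂ φ' (A.ch j x).1) (A.ch j x).1 :=
      hφ'.differentiableAt.hasFDerivAt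
    have c1 : (fderiv ℂ φ' (A.ch j x).1).comp (fderiv ℂ φ (A.ch i x).1)
        = ContinuousLinearMap.id ℂ (EV n₁) := by
      have d3 : HasFDerivAt (φ' ∘ φ) ((fderiv ℂ φ' (A.ch j x).1).comp
          (fderiv ℂ φ (A.ch i x).1)) (A.ch i x).1 := by
        rw [← e1] at d2 ⊢
        exact d2.comp _ d1
      have d4 : HasFDerivAt (φ' ∘ φ) (ContinuousLinearMap.id ℂ (EV n₁)) (A.ch i x).1 :=
        (hasFDerivAt_id _).congr_of_eventuallyEq k1
      exact d3.unique d4
    have c2 : (fderiv ℂ φ (A.ch i x).1).comp (fderiv ℂ φ' (A.ch j x).1)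
        = ContinuousLinearMap.id ℂ (EV n₁) := by
      have d3 : HasFDerivAt (φ ∘ φ') ((fderiv ℂ φ (A.ch i x).1).comp
          (fderiv ℂ φ' (A.ch j x).1)) (A.ch j x).1 := by
        rw [← e1'] at d1 ⊢
        exact d1.comp _ d2
      have d4 : HasFDerivAt (φ ∘ φ') (ContinuousLinearMap.id ℂ (EV n₁)) (A.ch j x).1 :=
        (hasFDerivAt_id _).congr_of_eventuallyEq k2
      exact d3.unique d4
    exact ContinuousLinearMap.IsInvertible.of_inverse c2 c1
  · filter_upwards [n1] with y hy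
    rw [hy]
  · have hc : Tendsto (fun a => (a, (A.ch i x).2)) (𝓝 (A.ch i x).1) (𝓝 (A.ch i x)) := by
      have : ContinuousAt (fun a => (a, (A.ch i x).2)) (A.ch i x).1 := by fun_prop
      exact this
    filter_upwards [hc.eventually ((si'.eventually (n1.and ((A.ch j).open_source.mem_nhds hj))).and
      ((A.ch i).open_target.mem_nhds ti))] with a ha
    obtain ⟨⟨h1, h2⟩, h3⟩ := ha
    rw [(A.ch i).right_inv h3] at h1
    have h4 : (φ a, (A.ch j x).2) = A.ch j ((A.ch i).symm (a, (A.ch i x).2)) := by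
      rw [h1, e0]
    simp only [plq]
    rw [h4, (A.ch j).left_inv h2]

end

end Crest.Agent.R266
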