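import Crest.Agent.R266.GBasic

/-!
R266 / GUniq (helper599): identity theorems for `IsE1g`, `IsE2g`, `IsPCg` (section G1b of GlobIface).
-/

set_option autoImplicit false

open scoped Manifold ContDiff Topology
open Set Metric Filter

namespace Crest.Agent.R266

/-! lemmas of helper432 -/

namespace GU

section
variable {n₁ n₂ : ℕ} {X : Type} [TopologicalSpace X]
variable {W : Type} [NormedAddCommGroup W] [NormedSpace ℂ W]

/-- holomorphic at `t` as a map into the atlas -/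
def HolC (A : PFol n₁ n₂ X) (c : W → X) (t : W) : Prop :=
  ∀ i, c t ∈ (A.ch i).source → ∃ f : W → EV n₁ × EV n₂, AnalyticAt ℂ f t ∧
    ∀ᶠ s in 𝓝 t, c s ∈ (A.ch i).source ∧ A.ch i (c s) = f s

lemma HolC.continuousAt {A : PFol n₁ n₂ X} {c : W → X} {t : W} (h : HolC A c t) :
    ContinuousAt c t := by
  obtain ⟨i, hi, _⟩ := A.cover (c t)
  obtain ⟨f, hf, hev⟩ := h i hi
  have h1 : c =ᶠ[𝓝 t] fun s => (A.ch i).symm (f s) := by
    filter_upwards [hev] with s hs
    rw [← hs.2, (A.ch i).left_inv hs.1]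
  have h2 : f t = A.ch i (c t) := hev.self_of_nhds.2.symm
  have h3 : ContinuousAt (fun s => (A.ch i).symm (f s)) t := by
    refine ContinuousAt.comp (g := (A.ch i).symm) ?_ hf.continuousAt
    rw [h2]
    exact (A.ch i).continuousAt_symm ((A.ch i).map_source hi)
  exact h3.congr h1.symm

lemma ident [T2Space X] {A : PFol n₁ n₂ X} {U : Set W} (hU : IsPreconnected U) {c c' : W → X}
    (h : ∀ t ∈ U, HolC A c t) (h' : ∀ t ∈ U, HolC A c' t) {t₀ : W} (ht₀ : t₀ ∈ U)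
    (e : c =ᶠ[𝓝 t₀] c') : EqOn c c' U := by
  have hsub : U ⊆ {t | c =ᶠ[𝓝 t] c'} := by
    refine hU.subset_of_closure_inter_subset isOpen_setOfPred_eventually_nhds ⟨t₀, ht₀, e⟩ ?_
    rintro t ⟨htc, htU⟩
    have hfr : ∃ᶠ s in 𝓝 t, c s = c' s := by
      refine (mem_closure_iff_frequently.1 htc).mono fun s hs => ?_
      exact Filter.EventuallyEq.eq_of_nhds hs
    have hval : c t = c' t := tendsto_nhds_unique_of_frequently_eq (h t htU).continuousAt
      (h' t htU).continuousAt hfr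
    obtain ⟨i, hi, _⟩ := A.cover (c t)
    obtain ⟨f, hf, hev⟩ := h t htU i hi
    obtain ⟨f', hf', hev'⟩ := h' t htU i (hval ▸ hi)
    have hall := (hf.eventually_analyticAt.and hf'.eventually_analyticAt).and (hev.and hev')
    obtain ⟨ε, hε, hb⟩ := Metric.eventually_nhds_iff_ball.1 hall
    obtain ⟨s, hs, hsb⟩ := mem_closure_iff.1 htc (ball t ε) isOpen_ball (mem_ball_self hε)
    have hfs : f =ᶠ[𝓝 s] f' := by
      filter_upwards [hsb, isOpen_ball.mem_nhds hs] with u hu hub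
      rw [← (hb u hub).2.1.2, ← (hb u hub).2.2.2, hu]
    have hEq : EqOn f f' (ball t ε) :=
      AnalyticOnNhd.eqOn_of_preconnected_of_eventuallyEq (fun u hu => (hb u hu).1.1)
        (fun u hu => (hb u hu).1.2) (convex_ball t ε).isPreconnected hs hfs
    show c =ᶠ[𝓝 t] c'
    filter_upwards [isOpen_ball.mem_nhds (mem_ball_self hε)] with u hu
    have h1 := (hb u hu).2.1
    have h2 := (hb u hu).2.2
    rw [← (A.ch i).left_inv h1.1, ← (A.ch i).left_inv h2.1, h1.2, h2.2, hEq hu]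
  intro t ht
  exact Filter.EventuallyEq.eq_of_nhds (hsub ht)

end

section
variable {n₁ n₂ : ℕ} {X : Type} [TopologicalSpace X]
variable {V V₁ V₂ : Type} [NormedAddCommGroup V] [NormedSpace ℂ V]
  [NormedAddCommGroup V₁] [NormedSpace ℂ V₁] [NormedAddCommGroup V₂] [NormedSpace ℂ V₂]

lemma holC_of_isE1g {A : PFol n₁ n₂ X} {U : Set V} {c : V → X} (h : IsE1g A U c) {t : V}
    (ht : t ∈ U) : HolC A c t := by
  intro i hi
  obtain ⟨a, ha, hev⟩ := isE1g_chart h ht hi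
  exact ⟨fun s => (a s, (A.ch i (c t)).2), ha.prod analyticAt_const, hev⟩

lemma holC_of_isPCg {A : PFol n₁ n₂ X} {U : Set (V₁ × V₂)} {G : V₁ × V₂ → X} (h : IsPCg A U G)
    {z : V₁ × V₂} (hz : z ∈ U) : HolC A G z := by
  intro i hi
  obtain ⟨a, b, ha, hb, hev⟩ := isPCg_chart h hz hi
  refine ⟨fun w => (a w.1, b w.2), ?_, hev⟩
  exact (ha.comp analyticAt_fst).prod (hb.comp analyticAt_snd)

end
end GU

section
variable {n₁ n₂ : ℕ} {X : Type} [TopologicalSpace X]
variable {V V₁ V₂ : Type} [NormedAddCommGroup V] [NormedSpace ℂ V]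
  [NormedAddCommGroup V₁] [NormedSpace ℂ V₁] [NormedAddCommGroup V₂] [NormedSpace ℂ V₂]

namespace GU

/-- holomorphic map into `X` (analytic in some chart at every point) -/
def Hol (A : PFol n₁ n₂ X) (U : Set V) (c : V → X) : Prop :=
  ∀ t ∈ U, ∀ i, c t ∈ (A.ch i).source → ContinuousAt c t ∧ AnalyticAt ℂ (fun s => A.ch i (c s)) t

/-- the identity theorem for holomorphic maps into `X` -/
theorem hol_unique [T2Space X] {A : PFol n₁ n₂ X} {U : Set V}
    (hU' : IsPreconnected U) {c c' : V → X} (h : Hol A U c) (h' : Hol A U c') {t : V}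
    (ht : t ∈ U) (hc : c =ᶠ[𝓝 t] c') : EqOn c c' U := by
  set S : Set V := {s | c =ᶠ[𝓝 s] c'} with hS
  have hSo : IsOpen S := by
    rw [isOpen_iff_mem_nhds]
    intro s hs
    exact hs.eventually_nhds
  have hcl : closure S ∩ U ⊆ S := by
    rintro s ⟨hs, hsU⟩
    obtain ⟨i, hi, -⟩ := A.cover (c s)
    obtain ⟨hcont, han⟩ := h s hsU i hi
    have hfr : ∃ᶠ u in 𝓝 s, u ∈ S := mem_closure_iff_frequently.mp hs
    obtain ⟨j, hj, -⟩ := A.cover (c' s)
    have hcont' := (h' s hsU j hj).1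
    have heq : c s = c' s := by
      by_contra hne
      have h1 : ∀ᶠ u in 𝓝 s, c u ≠ c' u := by
        obtain ⟨O, O', hO, hO', hx, hx', hd⟩ := t2_separation hne
        filter_upwards [hcont.eventually (hO.mem_nhds hx), hcont'.eventually (hO'.mem_nhds hx')]
          with u hu hu' he
        exact Set.disjoint_left.mp hd hu (he ▸ hu')
      obtain ⟨u, hu, hu'⟩ := (hfr.and_eventually h1).exists
      exact hu' hu.self_of_nhds
    have hi' : c' s ∈ (A.ch i).source := heq ▸ hi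
    have han' := (h' s hsU i hi').2
    obtain ⟨ε, hε, hball⟩ := Metric.eventually_nhds_iff_ball.mp
      (han.eventually_analyticAt.and han'.eventually_analyticAt)
    obtain ⟨u, huS, huB⟩ := (hfr.and_eventually (ball_mem_nhds s hε)).exists
    have hE : EqOn (fun w => A.ch i (c w)) (fun w => A.ch i (c' w)) (ball s ε) := by
      apply AnalyticOnNhd.eqOn_of_preconnected_of_eventuallyEq (𝕜 := ℂ) (z₀ := u)
        (fun w hw => (hball w hw).1) (fun w hw => (hball w hw).2)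
        (convex_ball s ε).isPreconnected huB
      filter_upwards [huS] with w hw
      simp only [hw]
    show c =ᶠ[𝓝 s] c'
    filter_upwards [hcont.eventually ((A.ch i).open_source.mem_nhds hi),
      hcont'.eventually ((A.ch i).open_source.mem_nhds hi'), ball_mem_nhds s hε] with w h1 h2 h3
    exact (A.ch i).injOn h1 h2 (hE h3)
  have := hU'.subset_of_closure_inter_subset hSo ⟨t, ht, hc⟩ hcl
  intro s hs
  exact (this hs).self_of_nhds

theorem hol_of_isE1g {A : PFol n₁ n₂ X} {U : Set V} {c : V → X} (h : IsE1g A U c) :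
    Hol A U c := by
  intro t ht i hi
  refine ⟨isE1g_continuousAt h ht, ?_⟩
  obtain ⟨a, ha, hw⟩ := isE1g_chart h ht hi
  refine (ha.prod (analyticAt_const (v := (A.ch i (c t)).2))).congr ?_
  filter_upwards [hw] with s hs
  exact hs.2.symm

theorem hol_of_isE2g {A : PFol n₁ n₂ X} {U : Set V} {c : V → X} (h : IsE2g A U c) :
    Hol A U c := by
  intro t ht i hi
  refine ⟨isE2g_continuousAt h ht, ?_⟩
  obtain ⟨a, ha, hw⟩ := isE2g_chart h ht hi
  refine ((analyticAt_const (v := (A.ch i (c t)).1)).prod ha).congr ?_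
  filter_upwards [hw] with s hs
  exact hs.2.symm

theorem hol_of_isPCg {A : PFol n₁ n₂ X} {U : Set (V₁ × V₂)} {G : V₁ × V₂ → X}
    (h : IsPCg A U G) : Hol A U G := by
  intro t ht i hi
  refine ⟨isPCg_continuousAt h ht, ?_⟩
  obtain ⟨a, b, ha, hb, hw⟩ := isPCg_chart h ht hi
  refine ((ha.comp analyticAt_fst).prod (hb.comp analyticAt_snd)).congr ?_
  filter_upwards [hw] with s hs
  exact hs.2.symm

end GU

/-- identity theorems -/
theorem isE1g_unique [T2Space X] {A : PFol n₁ n₂ X} {U : Set V} (_hU : IsOpen U)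
    (hU' : IsPreconnected U) {c c' : V → X} (h : IsE1g A U c) (h' : IsE1g A U c') {t : V}
    (ht : t ∈ U) (hc : c =ᶠ[𝓝 t] c') : EqOn c c' U :=
  GU.hol_unique hU' (GU.hol_of_isE1g h) (GU.hol_of_isE1g h') ht hc

theorem isE2g_unique [T2Space X] {A : PFol n₁ n₂ X} {U : Set V} (_hU : IsOpen U)
    (hU' : IsPreconnected U) {c c' : V → X} (h : IsE2g A U c) (h' : IsE2g A U c') {t : V}
    (ht : t ∈ U) (hc : c =ᶠ[𝓝 t] c') : EqOn c c' U :=
  GU.hol_unique hU' (GU.hol_of_isE2g h) (GU.hol_of_isE2g h') ht hc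

theorem isPCg_unique [T2Space X] {A : PFol n₁ n₂ X} {U : Set (V₁ × V₂)} (_hU : IsOpen U)
    (hU' : IsPreconnected U) {G G' : V₁ × V₂ → X} (h : IsPCg A U G) (h' : IsPCg A U G')
    {t : V₁ × V₂} (ht : t ∈ U) (hc : G =ᶠ[𝓝 t] G') : EqOn G G' U :=
  GU.hol_unique hU' (GU.hol_of_isPCg h) (GU.hol_of_isPCg h') ht hc

/-- p.c. maps on a connected product are determined by the two axes through a point -/
theorem isPCg_unique_axes [T2Space X] {A : PFol n₁ n₂ X} {W₁ : Set V₁} {W₂ : Set V₂}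
    (h₁ : IsOpen W₁) (h₂ : IsOpen W₂) (h₁' : IsPreconnected W₁) (h₂' : IsPreconnected W₂)
    {G G' : V₁ × V₂ → X} (h : IsPCg A (W₁ ×ˢ W₂) G) (h' : IsPCg A (W₁ ×ˢ W₂) G')
    {a₀ : V₁} {b₀ : V₂} (ha : a₀ ∈ W₁) (hb : b₀ ∈ W₂)
    (e₁ : ∀ᶠ a in 𝓝 a₀, G (a, b₀) = G' (a, b₀)) (e₂ : ∀ᶠ b in 𝓝 b₀, G (a₀, b) = G' (a₀, b)) :
    EqOn G G' (W₁ ×ˢ W₂) := by
  refine isPCg_unique (h₁.prod h₂) (h₁'.prod h₂') h h' (t := (a₀, b₀)) ⟨ha, hb⟩ ?_
  obtain ⟨i, hi, -⟩ := A.cover (G (a₀, b₀))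
  have hi' : G' (a₀, b₀) ∈ (A.ch i).source := e₁.self_of_nhds ▸ hi
  obtain ⟨a, b, -, -, hw⟩ := isPCg_chart h (z := (a₀, b₀)) ⟨ha, hb⟩ hi
  obtain ⟨a', b', -, -, hw'⟩ := isPCg_chart h' (z := (a₀, b₀)) ⟨ha, hb⟩ hi'
  have t1 : Tendsto (fun x : V₁ => (x, b₀)) (𝓝 a₀) (𝓝 (a₀, b₀)) :=
    (continuous_id.prodMk continuous_const).tendsto a₀
  have t2 : Tendsto (fun y : V₂ => (a₀, y)) (𝓝 b₀) (𝓝 (a₀, b₀)) :=
    (continuous_const.prodMk continuous_id).tendsto b₀
  have ea : ∀ᶠ x in 𝓝 a₀, a x = a' x := by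
    filter_upwards [t1.eventually hw, t1.eventually hw', e₁] with x h3 h4 h5
    have h6 := h3.2
    rw [h5, h4.2] at h6
    exact (congrArg Prod.fst h6).symm
  have eb : ∀ᶠ y in 𝓝 b₀, b y = b' y := by
    filter_upwards [t2.eventually hw, t2.eventually hw', e₂] with x h3 h4 h5
    have h6 := h3.2
    rw [h5, h4.2] at h6
    exact (congrArg Prod.snd h6).symm
  have ef : ∀ᶠ w : V₁ × V₂ in 𝓝 (a₀, b₀), a w.1 = a' w.1 :=
    (continuous_fst.tendsto (a₀, b₀)).eventually ea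
  have eg : ∀ᶠ w : V₁ × V₂ in 𝓝 (a₀, b₀), b w.2 = b' w.2 :=
    (continuous_snd.tendsto (a₀, b₀)).eventually eb
  filter_upwards [hw, hw', ef, eg] with w h3 h4 h5 h6
  refine (A.ch i).injOn h3.1 h4.1 ?_
  rw [h3.2, h4.2, h5, h6]

end

end Crest.Agent.R266
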