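import Crest.Agent.R266.GBasic
import Crest.Agent.R266.GTrans
import Crest.Agent.R266.GUniq

/-!
R266 / GProjBasic (helper529): uniqueness and basic properties of global sections (block G6).
-/

set_option autoImplicit false

open scoped Manifold ContDiff Topology
open Set Metric Filter

namespace Crest.Agent.R266

namespace GPB

/-- clopen induction on a preconnected set -/
theorem preconn_ind {Y : Type} [TopologicalSpace Y] {U : Set Y} (hU : IsPreconnected U)
    {P : Y → Prop} (hex : ∃ y ∈ U, ∀ᶠ z in 𝓝 y, P z)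
    (h : ∀ y ∈ U, (∃ᶠ z in 𝓝 y, ∀ᶠ w in 𝓝 z, P w) → ∀ᶠ z in 𝓝 y, P z) :
    ∀ y ∈ U, ∀ᶠ z in 𝓝 y, P z := by
  have hsub : U ⊆ {y | ∀ᶠ z in 𝓝 y, P z} := by
    refine hU.subset_of_closure_inter_subset isOpen_setOfPred_eventually_nhds ?_ ?_
    · obtain ⟨y, hy, hy'⟩ := hex
      exact ⟨y, hy, hy'⟩
    · rintro y ⟨hy, hyU⟩
      exact h y hyU (mem_closure_iff_frequently.mp hy)
  exact hsub

variable {n₁ n₂ : ℕ} {X : Type} [TopologicalSpace X]

theorem trS_plq_isE1g {A : PFol n₁ n₂ X} {i : A.ι} {b : EV n₂} (hb : b ∈ ball (0 : EV n₂) 1)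
    {a₀ : EV n₁} {δ : ℝ} (hδ : ball a₀ δ ⊆ ball 0 1) {B : EV n₁ → X}
    (h : TrS A (ball a₀ δ) (plq A i b) B) : IsE1g A (ball a₀ δ) B :=
  trS_isE1g isOpen_ball (isE1g_mono (isE1g_plq A i hb) hδ) h

end GPB

open GPB

variable {n₁ n₂ : ℕ} {X : Type} [TopologicalSpace X]

/-- a section maps first-leaf curves to first-leaf curves -/
theorem sec1_comp {V : Type} [NormedAddCommGroup V] [NormedSpace ℂ V] {A : PFol n₁ n₂ X}
    {p : X → X} (hp : Sec1 A univ p) {U : Set V} {c : V → X} (hc : IsE1g A U c) :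
    IsE1g A U (p ∘ c) := by
  intro t ht
  obtain ⟨i, B, δ, hδ, hi, hsub, hTr, hev⟩ := hp (c t) (mem_univ _)
  obtain ⟨a, ha, hca⟩ := isE1g_chart hc ht hi
  have hb : (A.ch i (c t)).2 ∈ ball (0 : EV n₂) 1 := by
    have := (A.ch i).map_source hi
    rw [A.target_eq i] at this
    exact this.2
  have hB := trS_plq_isE1g hb hsub hTr
  have hat : a t = (A.ch i (c t)).1 := by
    rw [hca.self_of_nhds.2]
  have h1 : IsE1g A {t} (B ∘ a) := by
    refine isE1g_comp hB ?_ ?_
    · rintro s rfl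
      exact ha
    · rintro s rfl
      rw [hat]
      exact mem_ball_self hδ
  have hcont : ContinuousAt c t := isE1g_continuousAt hc ht
  have h2 : IsE1g A {t} (p ∘ c) := by
    refine isE1g_congr h1 ?_
    rintro s rfl
    filter_upwards [hca, hcont.eventually hev] with s' e1 e2
    show B (a s') = p (c s')
    rw [e2, e1.2]
  exact h2 t rfl

/-- a section is constant along second-leaf curves -/
theorem sec1_const {V : Type} [NormedAddCommGroup V] [NormedSpace ℂ V] {A : PFol n₁ n₂ X}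
    {p : X → X} (hp : Sec1 A univ p) {U : Set V} (hU : IsOpen U) (hU' : IsPreconnected U)
    {c : V → X} (hc : IsE2g A U c) {s t : V} (hs : s ∈ U) (ht : t ∈ U) : p (c s) = p (c t) := by
  have hloc : ∀ r ∈ U, ∀ᶠ r' in 𝓝 r, p (c r') = p (c r) := by
    intro r hr
    obtain ⟨i, B, δ, hδ, hi, hsub, hTr, hev⟩ := hp (c r) (mem_univ _)
    obtain ⟨b, hb, hcb⟩ := isE2g_chart hc hr hi
    have hcont : ContinuousAt c r := isE2g_continuousAt hc hr
    have e0 := hev.self_of_nhds
    filter_upwards [hcb, hcont.eventually hev] with r' e1 e2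
    rw [e2, e0, e1.2]
  have key := preconn_ind hU' (P := fun r => p (c r) = p (c t)) ⟨t, ht, hloc t ht⟩ ?_
  · exact (key s hs).self_of_nhds
  · intro r hr hfr
    have h1 := hloc r hr
    obtain ⟨r', h2, h3⟩ := (hfr.and_eventually h1).exists
    have h4 : p (c r) = p (c t) := by rw [← h3]; exact h2.self_of_nhds
    filter_upwards [h1] with r'' h5
    rw [h5, h4]

theorem sec1_unique [T2Space X] {A : PFol n₁ n₂ X} {U : Set X} (hU : IsOpen U)
    (hU' : IsPreconnected U) {f g : X → X} (hf : Sec1 A U f) (hg : Sec1 A U g) {x : X}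
    (hx : x ∈ U) (e : f =ᶠ[𝓝 x] g) : EqOn f g U := by
  have key := preconn_ind hU' (P := fun y => f y = g y) ⟨x, hx, e⟩ ?_
  · intro y hy
    exact (key y hy).self_of_nhds
  intro y hy hfr
  obtain ⟨i, B, δ, hδ, hi, hsub, hTr, hev⟩ := hf y hy
  obtain ⟨j, B', δ', hδ', hj, hsub', hTr', hev'⟩ := hg y hy
  obtain ⟨θ, hθ, hθ0, -, hθe, -⟩ := plq_change A i j y hi hj
  have hbi : (A.ch i y).2 ∈ ball (0 : EV n₂) 1 := by
    have := (A.ch i).map_source hi
    rw [A.target_eq i] at this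
    exact this.2
  have hbj : (A.ch j y).2 ∈ ball (0 : EV n₂) 1 := by
    have := (A.ch j).map_source hj
    rw [A.target_eq j] at this
    exact this.2
  have hB := trS_plq_isE1g hbi hsub hTr
  have hB' := trS_plq_isE1g hbj hsub' hTr'
  -- a small ball around `a₀`
  have hθb : ∀ᶠ a in 𝓝 (A.ch i y).1, θ a ∈ ball (A.ch j y).1 δ' := by
    have h1 := hθ.continuousAt
    rw [ContinuousAt, hθ0] at h1
    exact h1.eventually (isOpen_ball.mem_nhds (mem_ball_self hδ'))
  obtain ⟨ρ, hρ, hρs⟩ := Metric.eventually_nhds_iff_ball.mp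
    ((hθ.eventually_analyticAt.and hθb).and
      (isOpen_ball.mem_nhds (mem_ball_self hδ) : ∀ᶠ a in 𝓝 (A.ch i y).1, a ∈ ball (A.ch i y).1 δ))
  have hBρ : IsE1g A (ball (A.ch i y).1 ρ) B := isE1g_mono hB fun a ha => (hρs a ha).2
  have hBρ' : IsE1g A (ball (A.ch i y).1 ρ) (B' ∘ θ) :=
    isE1g_comp hB' (fun a ha => (hρs a ha).1.1) fun a ha => (hρs a ha).1.2
  -- all the facts near `y`
  have hchc : ContinuousAt (fun y' => (A.ch i y').1) y :=
    continuous_fst.continuousAt.comp ((A.ch i).continuousAt hi)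
  have hall : ∀ᶠ z in 𝓝 y, (f z = B (A.ch i z).1 ∧ g z = (B' ∘ θ) (A.ch i z).1) ∧
      z ∈ (A.ch i).source ∧ (A.ch i z).1 ∈ ball (A.ch i y).1 ρ := by
    filter_upwards [hev, hev', hθe, (A.ch i).open_source.mem_nhds hi,
      hchc.eventually (isOpen_ball.mem_nhds (mem_ball_self hρ))] with z e1 e2 e3 e4 e5
    refine ⟨⟨e1, ?_⟩, e4, e5⟩
    show g z = B' (θ (A.ch i z).1)
    rw [e2, e3]
  obtain ⟨z, hz1, hz2⟩ := (hfr.and_eventually hall.eventually_nhds).exists
  have hz0 := hz2.self_of_nhds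
  have hBB : B =ᶠ[𝓝 (A.ch i z).1] (B' ∘ θ) := by
    have hc : Tendsto (fun a : EV n₁ => (A.ch i).symm (a, (A.ch i z).2)) (𝓝 (A.ch i z).1)
        (𝓝 z) := by
      have h1 : ContinuousAt (fun a : EV n₁ => (a, (A.ch i z).2)) (A.ch i z).1 := by fun_prop
      have h2 : ContinuousAt (A.ch i).symm (A.ch i z) :=
        (A.ch i).continuousAt_symm ((A.ch i).map_source hz0.2.1)
      have h3 := ContinuousAt.comp (g := (A.ch i).symm)
        (f := fun a : EV n₁ => (a, (A.ch i z).2)) (x := (A.ch i z).1) h2 h1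
      have h4 : (A.ch i).symm ((A.ch i z).1, (A.ch i z).2) = z := (A.ch i).left_inv hz0.2.1
      rw [ContinuousAt, Function.comp_apply, h4] at h3
      exact h3
    have hbz : (A.ch i z).2 ∈ ball (0 : EV n₂) 1 := by
      have := (A.ch i).map_source hz0.2.1
      rw [A.target_eq i] at this
      exact this.2
    have haz : (A.ch i z).1 ∈ ball (0 : EV n₁) 1 := by
      have := (A.ch i).map_source hz0.2.1
      rw [A.target_eq i] at this
      exact this.1
    filter_upwards [hc.eventually hz1, hc.eventually hz2, isOpen_ball.mem_nhds haz]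
      with a h1 h2 h3
    have h5 : A.ch i ((A.ch i).symm (a, (A.ch i z).2)) = (a, (A.ch i z).2) :=
      (A.ch i).right_inv (by rw [A.target_eq i]; exact ⟨h3, hbz⟩)
    have h6 := h2.1.1
    have h7 := h2.1.2
    rw [h5] at h6 h7
    rw [← h6, ← h7]
    exact h1
  have hEq := isE1g_unique isOpen_ball (convex_ball _ _).isPreconnected hBρ hBρ' hz0.2.2 hBB
  filter_upwards [hall] with w hw
  rw [hw.1.1, hw.1.2]
  exact hEq hw.2.2

end Crest.Agent.R266
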