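import Crest.Agent.R266.GProjChart

/-!
R266 / GProjExt (helper668, node G6): extension of section germs over a chart box.
-/

set_option autoImplicit false

open scoped Manifold ContDiff Topology
open Set Metric Filter

namespace Crest.Agent.R266

section
variable {n₁ n₂ : ℕ} {X : Type} [TopologicalSpace X]

/-- sections of the form `B ∘ (ch i ·).1` on a set contained in the chart domain -/
theorem sec1_of_plq {A : PFol n₁ n₂ X} {i : A.ι} {U : Set X} (hU : U ⊆ (A.ch i).source)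
    {W : Set (EV n₁)} (hW : IsOpen W) (hW1 : W ⊆ ball 0 1) {b : EV n₂} (hb : b ∈ ball (0 : EV n₂) 1)
    {B : EV n₁ → X} (hT : TrS A W (plq A i b) B) (hUW : ∀ y ∈ U, (A.ch i y).1 ∈ W) :
    Sec1 A U (fun y => B (A.ch i y).1) := by
  intro y hy
  obtain ⟨δ, hδ, hδW⟩ := Metric.isOpen_iff.1 hW _ (hUW y hy)
  refine ⟨i, B, δ, hδ, hU hy, hδW.trans hW1, ?_, Eventually.of_forall fun _ => rfl⟩
  exact (trS_mono (trS_plq A i (GB.ch_mem A (hU hy)).2 hb) (hδW.trans hW1)).trans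
    (trS_mono hT hδW)

theorem sec1_extend [T2Space X] {A : PFol n₁ n₂ X} (hC : CompG A (EV n₁) ℂ) (y : X) :
    ∃ U, IsOpen U ∧ y ∈ U ∧ IsPreconnected U ∧
      ∀ x ∈ U, ∀ V f, IsOpen V → x ∈ V → Sec1 A V f → ∃ g, Sec1 A U g ∧ g =ᶠ[𝓝 x] f := by
  obtain ⟨i, hi, hi'⟩ := A.cover y
  have hm := GB.ch_mem A hi
  -- radii
  have hρ : (0 : ℝ) < 1 / 8 := by norm_num
  set a₀ : EV n₁ := (A.ch i y).1 with ha₀
  set b₀ : EV n₂ := (A.ch i y).2 with hb₀
  have ha₀n : ‖a₀‖ < 1 / 2 := by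
    have := hi'.1
    rwa [mem_ball_zero_iff] at this
  have hb₀n : ‖b₀‖ < 1 / 2 := by
    have := hi'.2
    rwa [mem_ball_zero_iff] at this
  have hbox : ball a₀ (1 / 8) ×ˢ ball b₀ (1 / 8) ⊆ (A.ch i).target := by
    rintro ⟨p, q⟩ ⟨hp, hq⟩
    rw [GB.mem_target, mem_ball_zero_iff, mem_ball_zero_iff]
    rw [mem_ball, dist_eq_norm] at hp hq
    constructor
    · have : p = (p - a₀) + a₀ := by abel
      show ‖p‖ < 1
      rw [this]
      linarith [norm_add_le (p - a₀) a₀]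
    · have : q = (q - b₀) + b₀ := by abel
      show ‖q‖ < 1
      rw [this]
      linarith [norm_add_le (q - b₀) b₀]
  refine ⟨(A.ch i).symm '' (ball a₀ (1 / 8) ×ˢ ball b₀ (1 / 8)), ?_, ?_, ?_, ?_⟩
  · exact (A.ch i).symm.isOpen_image_of_subset_source (isOpen_ball.prod isOpen_ball) hbox
  · exact ⟨A.ch i y, ⟨mem_ball_self hρ, mem_ball_self hρ⟩, (A.ch i).left_inv hi⟩
  · exact ((convex_ball a₀ (1 / 8)).prod (convex_ball b₀ (1 / 8))).isPreconnected.image _
      ((A.ch i).continuousOn_symm.mono hbox)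
  · intro x hx V f hV hxV hf
    have hUs : (A.ch i).symm '' (ball a₀ (1 / 8) ×ˢ ball b₀ (1 / 8)) ⊆ (A.ch i).source := by
      rintro _ ⟨p, hp, rfl⟩
      exact (A.ch i).map_target (hbox hp)
    have hUb : ∀ z ∈ (A.ch i).symm '' (ball a₀ (1 / 8) ×ˢ ball b₀ (1 / 8)),
        A.ch i z ∈ ball a₀ (1 / 8) ×ˢ ball b₀ (1 / 8) := by
      rintro _ ⟨p, hp, rfl⟩
      rw [(A.ch i).right_inv (hbox hp)]
      exact hp
    have hxi := hUs hx
    have hxb := hUb x hx
    obtain ⟨B, δ, hδ, hb, hT, -, hfB⟩ := sec1_chart hV hf hxV hxi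
    have hx1 : ‖(A.ch i x).1‖ < 5 / 8 := by
      have := hxb.1
      rw [mem_ball, dist_eq_norm] at this
      have e : (A.ch i x).1 = ((A.ch i x).1 - a₀) + a₀ := by abel
      rw [e]
      linarith [norm_add_le ((A.ch i x).1 - a₀) a₀]
    have hbig : ball (A.ch i x).1 (1 / 4) ⊆ ball (0 : EV n₁) 1 := by
      intro p hp
      rw [mem_ball, dist_eq_norm] at hp
      rw [mem_ball_zero_iff]
      have e : p = (p - (A.ch i x).1) + (A.ch i x).1 := by abel
      rw [e]
      linarith [norm_add_le (p - (A.ch i x).1) (A.ch i x).1]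
    have hx2 := (GB.ch_mem A hxi).2
    have hδ' : 0 < min δ (1 / 4) := lt_min hδ (by norm_num)
    obtain ⟨B'', hT'', hB''⟩ := trS_extend hC (a₀ := (A.ch i x).1) hδ' (min_le_right δ (1 / 4))
      (isE1g_mono (isE1g_plq A i hx2) hbig)
      (trS_mono hT (ball_subset_ball (min_le_left δ (1 / 4))))
    refine ⟨fun z => B'' (A.ch i z).1, ?_, ?_⟩
    · refine sec1_of_plq hUs isOpen_ball hbig hx2 hT'' ?_
      intro z hz
      have h1 := (hUb z hz).1
      have h2 := hxb.1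
      rw [mem_ball] at h1 h2 ⊢
      linarith [dist_triangle_right (A.ch i z).1 (A.ch i x).1 a₀]
    · have hc : ContinuousAt (fun z => (A.ch i z).1) x :=
        continuousAt_fst.comp ((A.ch i).continuousAt hxi)
      filter_upwards [hfB, hc.eventually (isOpen_ball.mem_nhds (mem_ball_self hδ'))] with z h1 h2
      rw [h1]
      exact hB'' _ h2

end

end Crest.Agent.R266
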