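import Crest.Agent.R266.GTrans
import Crest.Agent.R266.GMono
import Crest.Agent.R266.GProjBasic
import Crest.Agent.R266.GProjExt

/-!
R266 / GProj (helper660): the global projection to a first leaf (`exists_proj`).
-/

set_option autoImplicit false

open scoped Manifold ContDiff Topology
open Set Metric Filter

namespace Crest.Agent.R266

variable {n₁ n₂ : ℕ} {X : Type} [TopologicalSpace X]

namespace GProj

theorem sec1_mono {A : PFol n₁ n₂ X} {U V : Set X} {f : X → X} (h : Sec1 A U f) (hV : V ⊆ U) :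
    Sec1 A V f := fun y hy => h y (hV hy)

theorem sec1_congr {A : PFol n₁ n₂ X} {U : Set X} {f g : X → X} (hU : IsOpen U)
    (h : Sec1 A U f) (e : EqOn f g U) : Sec1 A U g := by
  intro y hy
  obtain ⟨i, B, δ, hδ, hi, hb, hT, hf⟩ := h y hy
  refine ⟨i, B, δ, hδ, hi, hb, hT, ?_⟩
  filter_upwards [hf, hU.mem_nhds hy] with y' h1 h2
  rw [← e h2, h1]

/-- the projection inside a chart -/
theorem sec1_chartProj (A : PFol n₁ n₂ X) (i : A.ι) {b : EV n₂} (hb : b ∈ ball (0 : EV n₂) 1) :
    Sec1 A (A.ch i).source (fun y => plq A i b (A.ch i y).1) := by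
  intro y hy
  have ht := (A.ch i).map_source hy
  rw [A.target_eq i] at ht
  obtain ⟨δ, hδ, hsub⟩ := Metric.isOpen_iff.1 isOpen_ball (A.ch i y).1 ht.1
  refine ⟨i, plq A i b, δ, hδ, hy, hsub, trS_mono (trS_plq A i ht.2 hb) hsub, ?_⟩
  exact Eventually.of_forall fun y' => rfl

end GProj

open GProj in
/-- the global projection to the first leaf through `o` (germ at `o`: projection inside a chart) -/
theorem exists_proj [T2Space X] [SimplyConnectedSpace X] [LocallyPathConnectedSpace X]
    {A : PFol n₁ n₂ X} (hC : CompG A (EV n₁) ℂ) (o : X) :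
    ∃ p : X → X, Sec1 A univ p ∧ p o = o ∧
      (∀ i, o ∈ (A.ch i).source → ∀ᶠ y in 𝓝 o, p y = plq A i (A.ch i o).2 (A.ch i y).1) := by
  obtain ⟨i, hi, -⟩ := A.cover o
  have ht := (A.ch i).map_source hi
  rw [A.target_eq i] at ht
  obtain ⟨p, hp, hpo⟩ := monodromy_sections (Y := X) (T := X) (fun U f => Sec1 A U f)
    (fun U V f _ hVU h => sec1_mono h hVU)
    (fun U f g hU h e => sec1_congr hU h e)
    (fun U f g hU hU' hf hg ⟨x, hx, e⟩ => _root_.Crest.Agent.R266.sec1_unique hU hU' hf hg hx e)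
    (fun y => _root_.Crest.Agent.R266.sec1_extend hC y)
    o (A.ch i).source (fun y => plq A i (A.ch i o).2 (A.ch i y).1) (A.ch i).open_source hi
    (sec1_chartProj A i ht.2)
  refine ⟨p, ?_, ?_, ?_⟩
  · intro y _
    obtain ⟨U, -, hyU, hU⟩ := hp y
    exact hU y hyU
  · rw [hpo.self_of_nhds]
    simp only [plq]
    exact (A.ch i).left_inv hi
  · intro j hj
    obtain ⟨θ, hθ, -, -, h1, h2⟩ := plq_change A i j o hi hj
    have hc : Tendsto (fun y => (A.ch i y).1) (𝓝 o) (𝓝 (A.ch i o).1) :=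
      (continuous_fst.tendsto _).comp ((A.ch i).continuousAt hi)
    filter_upwards [hpo, h1, hc.eventually h2] with y k1 k2 k3
    rw [k1, k3, k2]

end Crest.Agent.R266
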