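import Crest.Agent.R266.GTransExt

/-!
R266 / GProjChart (helper668, node G6): local form of sections in an arbitrary chart.
-/

set_option autoImplicit false

open scoped Manifold ContDiff Topology
open Set Metric Filter

namespace Crest.Agent.R266

section
variable {n₁ n₂ : ℕ} {X : Type} [TopologicalSpace X]

theorem imm1_mono {A : PFol n₁ n₂ X} {U U' : Set (EV n₁)} {c : EV n₁ → X} (h : Imm1 A U c)
    (hU : U' ⊆ U) : Imm1 A U' c := fun t ht => h t (hU ht)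

/-- change of chart for transports of plaques -/
theorem trS_plq_change {A : PFol n₁ n₂ X} {y : X} {i j : A.ι} (hi : y ∈ (A.ch i).source)
    (hj : y ∈ (A.ch j).source) {B : EV n₁ → X} {δ : ℝ} (hδ : 0 < δ)
    (hb : ball (A.ch j y).1 δ ⊆ ball 0 1)
    (hT : TrS A (ball (A.ch j y).1 δ) (plq A j (A.ch j y).2) B) :
    ∃ (θ : EV n₁ → EV n₁) (δ' : ℝ), 0 < δ' ∧ AnalyticOnNhd ℂ θ (ball (A.ch i y).1 δ') ∧
      ball (A.ch i y).1 δ' ⊆ ball 0 1 ∧ MapsTo θ (ball (A.ch i y).1 δ') (ball (A.ch j y).1 δ) ∧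
      TrS A (ball (A.ch i y).1 δ') (plq A i (A.ch i y).2) (B ∘ θ) ∧
      ∀ᶠ y' in 𝓝 y, θ (A.ch i y').1 = (A.ch j y').1 := by
  obtain ⟨θ, hθ, hθ0, -, h1, h2⟩ := plq_change A i j y hi hj
  have hmem := GB.ch_mem A hi
  have e1 : ∀ᶠ a in 𝓝 (A.ch i y).1, a ∈ ball (0 : EV n₁) 1 := isOpen_ball.mem_nhds hmem.1
  have e2 : ∀ᶠ a in 𝓝 (A.ch i y).1, θ a ∈ ball (A.ch j y).1 δ := by
    refine hθ.continuousAt.eventually (isOpen_ball.mem_nhds ?_)
    rw [hθ0]; exact mem_ball_self hδ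
  obtain ⟨δ', hδ', e⟩ := Metric.eventually_nhds_iff_ball.1
    (((e1.and e2).and h2).and hθ.eventually_analyticAt)
  have hmaps : MapsTo θ (ball (A.ch i y).1 δ') (ball (A.ch j y).1 δ) := fun a ha => (e a ha).1.1.2
  have hana : AnalyticOnNhd ℂ θ (ball (A.ch i y).1 δ') := fun a ha => (e a ha).2
  have hE : IsE1g A (ball (A.ch j y).1 δ) (plq A j (A.ch j y).2) :=
    isE1g_mono (isE1g_plq A j (GB.ch_mem A hj).2) hb
  refine ⟨θ, δ', hδ', hana, fun a ha => (e a ha).1.1.1, hmaps, ?_, h1⟩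
  refine trS_congr isOpen_ball (isE1g_comp hE hana hmaps) (trS_comp hT hana hmaps) ?_
    (fun _ _ => rfl)
  intro a ha
  exact (e a ha).1.2.symm

/-- local form of a section in ANY chart: `f = B ∘ (ch i ·).1` with `B` an immersion to a first leaf
obtained by transport of the plaque -/
theorem sec1_chart {A : PFol n₁ n₂ X} {U : Set X} (_hU : IsOpen U) {f : X → X} (hf : Sec1 A U f)
    {y : X} (hy : y ∈ U) {i : A.ι} (hi : y ∈ (A.ch i).source) :
    ∃ (B : EV n₁ → X) (δ : ℝ), 0 < δ ∧ ball (A.ch i y).1 δ ⊆ ball 0 1 ∧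
      TrS A (ball (A.ch i y).1 δ) (plq A i (A.ch i y).2) B ∧ Imm1 A (ball (A.ch i y).1 δ) B ∧
      ∀ᶠ y' in 𝓝 y, f y' = B (A.ch i y').1 := by
  obtain ⟨j, B, δ, hδ, hj, hb, hT, hfB⟩ := hf y hy
  obtain ⟨θ, δ', hδ', -, hb', -, hT', hθ⟩ := trS_plq_change hi hj hδ hb hT
  refine ⟨B ∘ θ, δ', hδ', hb', hT', ?_, ?_⟩
  · exact trS_imm1 isOpen_ball (imm1_mono (imm1_plq A i (GB.ch_mem A hi).2) hb') hT'
  · filter_upwards [hfB, hθ] with y' h1 h2
    rw [h1, Function.comp_apply, h2]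

theorem sec1_mono {A : PFol n₁ n₂ X} {U V : Set X} {f : X → X} (h : Sec1 A U f) (hV : V ⊆ U) :
    Sec1 A V f := fun y hy => h y (hV hy)

theorem sec1_congr {A : PFol n₁ n₂ X} {U : Set X} (hU : IsOpen U) {f g : X → X}
    (h : Sec1 A U f) (e : EqOn f g U) : Sec1 A U g := by
  intro y hy
  obtain ⟨j, B, δ, hδ, hj, hb, hT, hfB⟩ := h y hy
  refine ⟨j, B, δ, hδ, hj, hb, hT, ?_⟩
  filter_upwards [hfB, hU.mem_nhds hy] with y' h1 h2
  rw [← e h2, h1]

end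

end Crest.Agent.R266
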