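import Crest.Agent.R266.GlobDefs

/-!
R266 / GBasic (helper527): calculus of `IsE1g`, `IsE2g`, `IsPCg` (section G1 of GlobIface without the
identity theorems).
-/

set_option autoImplicit false

open scoped Manifold ContDiff Topology
open Set Metric Filter

namespace Crest.Agent.R266

section
variable {n₁ n₂ : ℕ} {X : Type} [TopologicalSpace X]
variable {V V' V₁ V₂ V₁' V₂' : Type} [NormedAddCommGroup V] [NormedSpace ℂ V]
  [NormedAddCommGroup V'] [NormedSpace ℂ V'] [NormedAddCommGroup V₁]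
  [NormedSpace ℂ V₁] [NormedAddCommGroup V₂] [NormedSpace ℂ V₂] [NormedAddCommGroup V₁']
  [NormedSpace ℂ V₁'] [NormedAddCommGroup V₂'] [NormedSpace ℂ V₂']

namespace GB

/-- chart values lie in the unit balls -/
theorem ch_mem (A : PFol n₁ n₂ X) {i : A.ι} {x : X} (hx : x ∈ (A.ch i).source) :
    (A.ch i x).1 ∈ ball (0 : EV n₁) 1 ∧ (A.ch i x).2 ∈ ball (0 : EV n₂) 1 := by
  have := (A.ch i).map_source hx
  rw [A.target_eq] at this
  exact this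

theorem mem_target (A : PFol n₁ n₂ X) (i : A.ι) {p : EV n₁ × EV n₂} :
    p ∈ (A.ch i).target ↔ p.1 ∈ ball (0 : EV n₁) 1 ∧ p.2 ∈ ball (0 : EV n₂) 1 := by
  rw [A.target_eq]; exact Iff.rfl

/-- general principle: a map which is locally `symm (a(u), b(u))` with `a,b` continuous is
continuous -/
theorem continuousAt_of_chart {W : Type} [TopologicalSpace W] {A : PFol n₁ n₂ X} {i : A.ι}
    {c : W → X} {f : W → EV n₁ × EV n₂} {t : W} (hf : ContinuousAt f t)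
    (h : ∀ᶠ s in 𝓝 t, c s ∈ (A.ch i).source ∧ A.ch i (c s) = f s) : ContinuousAt c t := by
  have ht := h.self_of_nhds
  have h1 : c =ᶠ[𝓝 t] fun w => (A.ch i).symm (f w) := by
    filter_upwards [h] with w h2
    rw [← h2.2, (A.ch i).left_inv h2.1]
  have h4 : ContinuousAt (A.ch i).symm (f t) := by
    apply (A.ch i).symm.continuousAt
    rw [← ht.2]
    exact (A.ch i).map_source ht.1
  exact ContinuousAt.congr (ContinuousAt.comp (f := f) h4 hf) h1.symm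

/-- change of chart along a map -/
theorem change_chart {W : Type} [TopologicalSpace W] {A : PFol n₁ n₂ X} {i j : A.ι}
    {c : W → X} {f : W → EV n₁ × EV n₂} {t : W} (hf : ContinuousAt f t)
    (h : ∀ᶠ s in 𝓝 t, c s ∈ (A.ch i).source ∧ A.ch i (c s) = f s) (hj : c t ∈ (A.ch j).source) :
    ∃ (φ : EV n₁ → EV n₁) (ψ : EV n₂ → EV n₂), AnalyticAt ℂ φ (f t).1 ∧ AnalyticAt ℂ ψ (f t).2 ∧
      ∀ᶠ s in 𝓝 t, c s ∈ (A.ch j).source ∧ A.ch j (c s) = (φ (f s).1, ψ (f s).2) := by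
  have hc := continuousAt_of_chart hf h
  have ht := h.self_of_nhds
  obtain ⟨φ, ψ, hφ, hψ, hp⟩ := A.compat i j (c t) ⟨ht.1, hj⟩
  rw [ht.2] at hφ hψ hp
  refine ⟨φ, ψ, hφ, hψ, ?_⟩
  have h5 : ∀ᶠ w in 𝓝 t, c w ∈ (A.ch j).source :=
    hc.eventually ((A.ch j).open_source.mem_nhds hj)
  have h6 : ∀ᶠ w in 𝓝 t, A.ch j ((A.ch i).symm (f w)) = (φ (f w).1, ψ (f w).2) :=
    hf.eventually hp
  filter_upwards [h, h5, h6] with w h7 h8 h9
  refine ⟨h8, ?_⟩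
  rw [← h7.2, (A.ch i).left_inv h7.1] at h9
  rw [h9, h7.2]

/-- building maps with values in one chart -/
theorem symm_chart {W : Type} [TopologicalSpace W] {A : PFol n₁ n₂ X} (i : A.ι)
    {f : W → EV n₁ × EV n₂} {t : W} (hf : ContinuousAt f t)
    (h1 : (f t).1 ∈ ball (0 : EV n₁) 1) (h2 : (f t).2 ∈ ball (0 : EV n₂) 1) :
    ∀ᶠ s in 𝓝 t, (A.ch i).symm (f s) ∈ (A.ch i).source ∧
      A.ch i ((A.ch i).symm (f s)) = f s := by
  have h3 : (A.ch i).target ∈ 𝓝 (f t) :=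
    (A.ch i).open_target.mem_nhds ((mem_target A i).2 ⟨h1, h2⟩)
  filter_upwards [hf.eventually h3] with s hs
  exact ⟨(A.ch i).map_target hs, (A.ch i).right_inv hs⟩

theorem swap_aux (A : PFol n₁ n₂ X) (i : A.ι) {x : X} {a : EV n₂} {b : EV n₁}
    (h : x ∈ (A.swap.ch i).source) (h' : A.swap.ch i x = (a, b)) :
    x ∈ (A.ch i).source ∧ A.ch i x = (b, a) := by
  rw [PFol.swap_source] at h
  rw [PFol.swap_ch] at h'
  exact ⟨h, by rw [← Prod.swap_swap (A.ch i x), h']; rfl⟩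

end GB

open GB

theorem isE1g_mono {A : PFol n₁ n₂ X} {U U' : Set V} {c : V → X} (h : IsE1g A U c) (hU : U' ⊆ U) :
    IsE1g A U' c := fun t ht => h t (hU ht)

theorem isE2g_mono {A : PFol n₁ n₂ X} {U U' : Set V} {c : V → X} (h : IsE2g A U c) (hU : U' ⊆ U) :
    IsE2g A U' c := fun t ht => h t (hU ht)

theorem isPCg_mono {A : PFol n₁ n₂ X} {U U' : Set (V₁ × V₂)} {G : V₁ × V₂ → X} (h : IsPCg A U G)
    (hU : U' ⊆ U) : IsPCg A U' G := fun t ht => h t (hU ht)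

theorem isE1g_congr {A : PFol n₁ n₂ X} {U : Set V} {c c' : V → X} (h : IsE1g A U c)
    (hc : ∀ t ∈ U, c =ᶠ[𝓝 t] c') : IsE1g A U c' := by
  intro t ht
  obtain ⟨i, a, b, ha, hw⟩ := h t ht
  refine ⟨i, a, b, ha, ?_⟩
  filter_upwards [hw, hc t ht] with w h1 h2
  rw [← h2]; exact h1

theorem isE2g_congr {A : PFol n₁ n₂ X} {U : Set V} {c c' : V → X} (h : IsE2g A U c)
    (hc : ∀ t ∈ U, c =ᶠ[𝓝 t] c') : IsE2g A U c' := by
  intro t ht
  obtain ⟨i, a, b, ha, hw⟩ := h t ht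
  refine ⟨i, a, b, ha, ?_⟩
  filter_upwards [hw, hc t ht] with w h1 h2
  rw [← h2]; exact h1

theorem isPCg_congr {A : PFol n₁ n₂ X} {U : Set (V₁ × V₂)} {G G' : V₁ × V₂ → X} (h : IsPCg A U G)
    (hc : ∀ t ∈ U, G =ᶠ[𝓝 t] G') : IsPCg A U G' := by
  intro t ht
  obtain ⟨i, a, b, ha, hb, hw⟩ := h t ht
  refine ⟨i, a, b, ha, hb, ?_⟩
  filter_upwards [hw, hc t ht] with w h1 h2
  rw [← h2]; exact h1

theorem isE1g_continuousAt {A : PFol n₁ n₂ X} {U : Set V} {c : V → X} (h : IsE1g A U c) {t : V}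
    (ht : t ∈ U) : ContinuousAt c t := by
  obtain ⟨i, a, b, ha, hw⟩ := h t ht
  exact continuousAt_of_chart (f := fun s => (a s, b)) (ha.continuousAt.prodMk continuousAt_const) hw

theorem isE2g_continuousAt {A : PFol n₁ n₂ X} {U : Set V} {c : V → X} (h : IsE2g A U c) {t : V}
    (ht : t ∈ U) : ContinuousAt c t := by
  obtain ⟨i, a, b, hb, hw⟩ := h t ht
  exact continuousAt_of_chart (f := fun s => (a, b s)) (continuousAt_const.prodMk hb.continuousAt) hw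

theorem isPCg_continuousAt {A : PFol n₁ n₂ X} {U : Set (V₁ × V₂)} {G : V₁ × V₂ → X}
    (h : IsPCg A U G) {t : V₁ × V₂} (ht : t ∈ U) : ContinuousAt G t := by
  obtain ⟨i, a, b, ha, hb, hw⟩ := h t ht
  exact continuousAt_of_chart (f := fun s : V₁ × V₂ => (a s.1, b s.2))
    ((ha.continuousAt.comp continuousAt_fst).prodMk (hb.continuousAt.comp continuousAt_snd)) hw

/-- local form in ANY chart containing the point -/
theorem isE1g_chart {A : PFol n₁ n₂ X} {U : Set V} {c : V → X} (h : IsE1g A U c) {t : V}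
    (ht : t ∈ U) {i : A.ι} (hi : c t ∈ (A.ch i).source) :
    ∃ (a : V → EV n₁), AnalyticAt ℂ a t ∧
      ∀ᶠ s in 𝓝 t, c s ∈ (A.ch i).source ∧ A.ch i (c s) = (a s, (A.ch i (c t)).2) := by
  obtain ⟨j, a, b, ha, hw⟩ := h t ht
  obtain ⟨φ, ψ, hφ, hψ, h1⟩ := change_chart (f := fun s => (a s, b))
    (ha.continuousAt.prodMk continuousAt_const) hw hi
  refine ⟨fun s => φ (a s), AnalyticAt.comp hφ ha, ?_⟩
  have h2 := h1.self_of_nhds.2
  filter_upwards [h1] with s hs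
  refine ⟨hs.1, ?_⟩
  rw [hs.2, h2]

theorem isE2g_chart {A : PFol n₁ n₂ X} {U : Set V} {c : V → X} (h : IsE2g A U c) {t : V}
    (ht : t ∈ U) {i : A.ι} (hi : c t ∈ (A.ch i).source) :
    ∃ (b : V → EV n₂), AnalyticAt ℂ b t ∧
      ∀ᶠ s in 𝓝 t, c s ∈ (A.ch i).source ∧ A.ch i (c s) = ((A.ch i (c t)).1, b s) := by
  obtain ⟨j, a, b, hb, hw⟩ := h t ht
  obtain ⟨φ, ψ, hφ, hψ, h1⟩ := change_chart (f := fun s => (a, b s))
    (continuousAt_const.prodMk hb.continuousAt) hw hi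
  refine ⟨fun s => ψ (b s), AnalyticAt.comp hψ hb, ?_⟩
  have h2 := h1.self_of_nhds.2
  filter_upwards [h1] with s hs
  refine ⟨hs.1, ?_⟩
  rw [hs.2, h2]

theorem isPCg_chart {A : PFol n₁ n₂ X} {U : Set (V₁ × V₂)} {G : V₁ × V₂ → X} (h : IsPCg A U G)
    {z : V₁ × V₂} (hz : z ∈ U) {i : A.ι} (hi : G z ∈ (A.ch i).source) :
    ∃ (a : V₁ → EV n₁) (b : V₂ → EV n₂), AnalyticAt ℂ a z.1 ∧ AnalyticAt ℂ b z.2 ∧
      ∀ᶠ w in 𝓝 z, G w ∈ (A.ch i).source ∧ A.ch i (G w) = (a w.1, b w.2) := by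
  obtain ⟨j, a, b, ha, hb, hw⟩ := h z hz
  obtain ⟨φ, ψ, hφ, hψ, h1⟩ := change_chart (f := fun s : V₁ × V₂ => (a s.1, b s.2))
    ((ha.continuousAt.comp continuousAt_fst).prodMk (hb.continuousAt.comp continuousAt_snd)) hw hi
  exact ⟨fun s => φ (a s), fun s => ψ (b s), AnalyticAt.comp hφ ha, AnalyticAt.comp hψ hb, h1⟩

theorem isE1g_comp {A : PFol n₁ n₂ X} {U : Set V} {U' : Set V'} {c : V → X} (h : IsE1g A U c)
    {θ : V' → V} (hθ : AnalyticOnNhd ℂ θ U') (hm : MapsTo θ U' U) : IsE1g A U' (c ∘ θ) := by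
  intro t ht
  obtain ⟨i, a, b, ha, hw⟩ := h (θ t) (hm ht)
  refine ⟨i, a ∘ θ, b, AnalyticAt.comp ha (hθ t ht), ?_⟩
  filter_upwards [(hθ t ht).continuousAt.eventually hw] with s hs
  exact hs

theorem isE2g_comp {A : PFol n₁ n₂ X} {U : Set V} {U' : Set V'} {c : V → X} (h : IsE2g A U c)
    {θ : V' → V} (hθ : AnalyticOnNhd ℂ θ U') (hm : MapsTo θ U' U) : IsE2g A U' (c ∘ θ) := by
  intro t ht
  obtain ⟨i, a, b, hb, hw⟩ := h (θ t) (hm ht)
  refine ⟨i, a, b ∘ θ, AnalyticAt.comp hb (hθ t ht), ?_⟩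
  filter_upwards [(hθ t ht).continuousAt.eventually hw] with s hs
  exact hs

theorem isPCg_comp {A : PFol n₁ n₂ X} {U : Set (V₁ × V₂)} {U' : Set (V₁' × V₂')}
    {G : V₁ × V₂ → X} (h : IsPCg A U G) {θ₁ : V₁' → V₁} {θ₂ : V₂' → V₂}
    (hθ : ∀ z ∈ U', AnalyticAt ℂ θ₁ z.1 ∧ AnalyticAt ℂ θ₂ z.2 ∧ (θ₁ z.1, θ₂ z.2) ∈ U) :
    IsPCg A U' (fun z => G (θ₁ z.1, θ₂ z.2)) := by
  intro z hz
  obtain ⟨h1, h2, h3⟩ := hθ z hz
  obtain ⟨i, a, b, ha, hb, hw⟩ := h _ h3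
  refine ⟨i, a ∘ θ₁, b ∘ θ₂, AnalyticAt.comp ha h1, AnalyticAt.comp hb h2, ?_⟩
  have hc : ContinuousAt (fun w : V₁' × V₂' => (θ₁ w.1, θ₂ w.2)) z :=
    (h1.continuousAt.comp continuousAt_fst).prodMk (h2.continuousAt.comp continuousAt_snd)
  filter_upwards [hc.eventually hw] with s hs
  exact hs

/-- slices of p.c. maps -/
theorem isPCg_slice1 {A : PFol n₁ n₂ X} {W₁ : Set V₁} {W₂ : Set V₂} {G : V₁ × V₂ → X}
    (h : IsPCg A (W₁ ×ˢ W₂) G) {b : V₂} (hb : b ∈ W₂) : IsE1g A W₁ (fun a => G (a, b)) := by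
  intro t ht
  obtain ⟨i, α, β, hα, hβ, hw⟩ := h (t, b) ⟨ht, hb⟩
  refine ⟨i, α, β b, hα, ?_⟩
  have hc : ContinuousAt (fun a : V₁ => (a, b)) t := continuousAt_id.prodMk continuousAt_const
  filter_upwards [hc.eventually hw] with s hs
  exact hs

theorem isPCg_slice2 {A : PFol n₁ n₂ X} {W₁ : Set V₁} {W₂ : Set V₂} {G : V₁ × V₂ → X}
    (h : IsPCg A (W₁ ×ˢ W₂) G) {a : V₁} (ha : a ∈ W₁) : IsE2g A W₂ (fun b => G (a, b)) := by
  intro t ht
  obtain ⟨i, α, β, hα, hβ, hw⟩ := h (a, t) ⟨ha, ht⟩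
  refine ⟨i, α a, β, hβ, ?_⟩
  have hc : ContinuousAt (fun b : V₂ => (a, b)) t := continuousAt_const.prodMk continuousAt_id
  filter_upwards [hc.eventually hw] with s hs
  exact hs

theorem isPCg_of_fst {A : PFol n₁ n₂ X} {W : Set V₁} {c : V₁ → X} (h : IsE1g A W c)
    (W₂ : Set V₂) : IsPCg A (W ×ˢ W₂) (fun p => c p.1) := by
  rintro ⟨t, u⟩ ⟨ht, _⟩
  obtain ⟨i, a, b, ha, hw⟩ := h t ht
  refine ⟨i, a, fun _ => b, ha, analyticAt_const, ?_⟩
  filter_upwards [(continuousAt_fst (p := ((t, u) : V₁ × V₂))).eventually hw] with s hs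
  exact hs

theorem isPCg_of_snd {A : PFol n₁ n₂ X} {W : Set V₂} {c : V₂ → X} (h : IsE2g A W c)
    (W₁ : Set V₁) : IsPCg A (W₁ ×ˢ W) (fun p => c p.2) := by
  rintro ⟨t, u⟩ ⟨_, ht⟩
  obtain ⟨i, a, b, ha, hw⟩ := h u ht
  refine ⟨i, fun _ => a, b, analyticAt_const, ha, ?_⟩
  filter_upwards [(continuousAt_snd (p := ((t, u) : V₁ × V₂))).eventually hw] with s hs
  exact hs

/-- swap -/
theorem isE1g_swap {A : PFol n₁ n₂ X} {U : Set V} {c : V → X} :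
    IsE1g A.swap U c ↔ IsE2g A U c := by
  constructor
  · intro h t ht
    obtain ⟨i, a, b, ha, hw⟩ := h t ht
    refine ⟨i, b, a, ha, ?_⟩
    filter_upwards [hw] with s hs
    exact swap_aux A i hs.1 hs.2
  · intro h t ht
    obtain ⟨i, a, b, hb, hw⟩ := h t ht
    refine ⟨i, b, a, hb, ?_⟩
    filter_upwards [hw] with s hs
    rw [PFol.swap_source, PFol.swap_ch, hs.2]
    exact ⟨hs.1, rfl⟩

theorem isE2g_swap {A : PFol n₁ n₂ X} {U : Set V} {c : V → X} :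
    IsE2g A.swap U c ↔ IsE1g A U c := by
  constructor
  · intro h t ht
    obtain ⟨i, a, b, hb, hw⟩ := h t ht
    refine ⟨i, b, a, hb, ?_⟩
    filter_upwards [hw] with s hs
    exact swap_aux A i hs.1 hs.2
  · intro h t ht
    obtain ⟨i, a, b, ha, hw⟩ := h t ht
    refine ⟨i, b, a, ha, ?_⟩
    filter_upwards [hw] with s hs
    rw [PFol.swap_source, PFol.swap_ch, hs.2]
    exact ⟨hs.1, rfl⟩

theorem isPCg_swap {A : PFol n₁ n₂ X} {U : Set (V₁ × V₂)} {G : V₁ × V₂ → X} (h : IsPCg A U G) :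
    IsPCg A.swap (Prod.swap ⁻¹' U) (fun z => G z.swap) := by
  intro z hz
  obtain ⟨i, a, b, ha, hb, hw⟩ := h z.swap hz
  refine ⟨i, b, a, hb, ha, ?_⟩
  have hc : ContinuousAt (Prod.swap : V₂ × V₁ → V₁ × V₂) z := continuous_swap.continuousAt
  filter_upwards [hc.eventually hw] with s hs
  rw [PFol.swap_source, PFol.swap_ch, hs.2]
  exact ⟨hs.1, rfl⟩

/-- converse of `isPCg_swap` -/
theorem isPCg_of_swap {A : PFol n₁ n₂ X} {U : Set (V₂ × V₁)} {G : V₂ × V₁ → X}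
    (h : IsPCg A.swap U G) : IsPCg A (Prod.swap ⁻¹' U) (fun z : V₁ × V₂ => G z.swap) := by
  intro z hz
  obtain ⟨i, a, b, ha, hb, hw⟩ := h z.swap hz
  refine ⟨i, b, a, hb, ha, ?_⟩
  have hc : ContinuousAt (Prod.swap : V₁ × V₂ → V₂ × V₁) z := continuous_swap.continuousAt
  filter_upwards [hc.eventually hw] with s hs
  exact swap_aux A i hs.1 hs.2

/-- a plaque is tangent to the first foliation -/
theorem isE1g_plq (A : PFol n₁ n₂ X) (i : A.ι) {b : EV n₂} (hb : b ∈ ball (0 : EV n₂) 1) :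
    IsE1g A (ball 0 1) (plq A i b) := by
  intro t ht
  exact ⟨i, fun s => s, b, analyticAt_id, symm_chart (A := A) i (f := fun s => (s, b))
    (continuousAt_id.prodMk continuousAt_const) ht hb⟩

/-- a chart inverse is p.c. -/
theorem isPCg_symm (A : PFol n₁ n₂ X) (i : A.ι) :
    IsPCg A (ball (0 : EV n₁) 1 ×ˢ ball (0 : EV n₂) 1) (A.ch i).symm := by
  rintro ⟨t, u⟩ ⟨ht, hu⟩
  exact ⟨i, fun s => s, fun s => s, analyticAt_id, analyticAt_id,
    symm_chart (A := A) i (f := fun s : EV n₁ × EV n₂ => (s.1, s.2)) continuousAt_id ht hu⟩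

/-- local product of two transversal germs -/
theorem exists_local_rect {A : PFol n₁ n₂ X} {a₀ : V₁} {b₀ : V₂} {c₁ : V₁ → X} {c₂ : V₂ → X}
    (h₁ : IsE1g A {a₀} c₁) (h₂ : IsE2g A {b₀} c₂) (h : c₁ a₀ = c₂ b₀) :
    ∃ (δ : ℝ) (G : V₁ × V₂ → X), 0 < δ ∧ IsPCg A (ball a₀ δ ×ˢ ball b₀ δ) G ∧
      (∀ a ∈ ball a₀ δ, G (a, b₀) = c₁ a) ∧ (∀ b ∈ ball b₀ δ, G (a₀, b) = c₂ b) := by
  obtain ⟨i, α, β₀, hα, hw₁⟩ := h₁ a₀ rfl
  have h0 := hw₁.self_of_nhds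
  have hi : c₂ b₀ ∈ (A.ch i).source := by rw [← h]; exact h0.1
  obtain ⟨β, hβ, hw₂⟩ := isE2g_chart h₂ (t := b₀) rfl hi
  have h0' := hw₂.self_of_nhds
  have hα1 : ∀ᶠ a in 𝓝 a₀, α a ∈ ball (0 : EV n₁) 1 := by
    refine hα.continuousAt.eventually (isOpen_ball.mem_nhds ?_)
    have := (ch_mem A h0.1).1
    rwa [h0.2] at this
  have hβ1 : ∀ᶠ b in 𝓝 b₀, β b ∈ ball (0 : EV n₂) 1 := by
    refine hβ.continuousAt.eventually (isOpen_ball.mem_nhds ?_)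
    have := (ch_mem A h0'.1).2
    rwa [h0'.2] at this
  obtain ⟨δ₁, hδ₁, e₁⟩ := Metric.eventually_nhds_iff_ball.1
    ((hw₁.and hα1).and hα.eventually_analyticAt)
  obtain ⟨δ₂, hδ₂, e₂⟩ := Metric.eventually_nhds_iff_ball.1
    ((hw₂.and hβ1).and hβ.eventually_analyticAt)
  refine ⟨min δ₁ δ₂, fun w => (A.ch i).symm (α w.1, β w.2), lt_min hδ₁ hδ₂, ?_, ?_, ?_⟩
  · rintro ⟨t, u⟩ ⟨ht, hu⟩
    have ht' := e₁ t (ball_subset_ball (min_le_left _ _) ht)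
    have hu' := e₂ u (ball_subset_ball (min_le_right _ _) hu)
    exact ⟨i, α, β, ht'.2, hu'.2, symm_chart (A := A) i (f := fun w : V₁ × V₂ => (α w.1, β w.2))
      ((ht'.2.continuousAt.comp continuousAt_fst).prodMk
        (hu'.2.continuousAt.comp continuousAt_snd)) ht'.1.2 hu'.1.2⟩
  · intro a ha
    have ht' := e₁ a (ball_subset_ball (min_le_left _ _) ha)
    have hb : β b₀ = β₀ := by
      have e3 := h0'.2
      rw [← h, h0.2] at e3
      exact (congrArg Prod.snd e3).symm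
    show (A.ch i).symm (α a, β b₀) = c₁ a
    rw [hb, ← ht'.1.1.2, (A.ch i).left_inv ht'.1.1.1]
  · intro b hb
    have hu' := e₂ b (ball_subset_ball (min_le_right _ _) hb)
    have ha : α a₀ = (A.ch i (c₂ b₀)).1 := by
      rw [← h, h0.2]
    show (A.ch i).symm (α a₀, β b) = c₂ b
    rw [ha, ← hu'.1.1.2, (A.ch i).left_inv hu'.1.1.1]

end

end Crest.Agent.R266
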