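import Crest.Agent.R266.GImm
import Crest.Agent.R266.GBasic
import Crest.Agent.R266.GUniq
import Crest.Agent.R266.GTrans

/-!
R266 / GTransExt (node G5b of the global part): extension of transported germs.
-/

set_option autoImplicit false

open scoped Manifold ContDiff Topology
open Set Metric Filter

namespace Crest.Agent.R266



section
variable {n₁ n₂ : ℕ} {X : Type} [TopologicalSpace X]
variable {V : Type} [NormedAddCommGroup V] [NormedSpace ℂ V]

/-- EXTENSION: a transported germ of a map defined on a big ball extends to the big ball -/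
theorem trS_extend [T2Space X] {A : PFol n₁ n₂ X} (hC : CompG A V ℂ) {a₀ : V} {δ r : ℝ}
    (hδ : 0 < δ) (hr : δ ≤ r) {B B' : V → X} (hB : IsE1g A (ball a₀ r) B)
    (h : TrS A (ball a₀ δ) B B') :
    ∃ B'' : V → X, TrS A (ball a₀ r) B B'' ∧ ∀ a ∈ ball a₀ δ, B'' a = B' a := by
  induction h with
  | refl => exact ⟨B, Relation.ReflTransGen.refl, fun _ _ => rfl⟩
  | @tail B₁ B₂ _ htr ih =>
    obtain ⟨B₁', hB₁', he⟩ := ih
    obtain ⟨R, G, s, hR, hs, hG, hG0, hGs⟩ := htr
    have hmem : a₀ ∈ ball a₀ δ := mem_ball_self hδ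
    have hE1 : IsE1g A (ball a₀ r) B₁' := trS_isE1g isOpen_ball hB hB₁'
    have hE2 : IsE2g A (ball (0 : ℂ) R) (fun t => G (a₀, t)) := isPCg_slice2 hG hmem
    obtain ⟨G', hG', h1, h2⟩ := hC a₀ 0 r R B₁' (fun t => G (a₀, t)) (hδ.trans_le hr) hR hE1 hE2
      (by rw [he a₀ hmem, hG0 a₀ hmem])
    refine ⟨fun a => G' (a, s), hB₁'.tail ⟨R, G', s, hR, hs, hG', h1, fun _ _ => rfl⟩, ?_⟩
    intro a ha
    have hsub : ball a₀ δ ×ˢ ball (0 : ℂ) R ⊆ ball a₀ r ×ˢ ball (0 : ℂ) R :=
      prod_mono (ball_subset_ball hr) Subset.rfl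
    have hEq : EqOn G' G (ball a₀ δ ×ˢ ball (0 : ℂ) R) := by
      refine isPCg_unique_axes isOpen_ball isOpen_ball (convex_ball a₀ δ).isPreconnected
        (convex_ball (0 : ℂ) R).isPreconnected (isPCg_mono hG' hsub) hG hmem (mem_ball_self hR) ?_ ?_
      · filter_upwards [isOpen_ball.mem_nhds hmem] with b hb
        rw [h1 b (ball_subset_ball hr hb), he b hb, hG0 b hb]
      · filter_upwards [isOpen_ball.mem_nhds (mem_ball_self hR)] with b hb
        rw [h2 b hb]
    show G' (a, s) = B₂ a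
    rw [hEq ⟨ha, hs⟩, hGs a ha]

end

end Crest.Agent.R266
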