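import Crest.Agent.R266.AnaChart
import Crest.Agent.R266.GTransExt

/-!
R266 / GProjLift (part of node G6): lifting leaf balls through a global section.
-/

set_option autoImplicit false

open scoped Manifold ContDiff Topology
open Set Metric Filter

namespace Crest.Agent.R266

variable {n₁ n₂ : ℕ} {X : Type} [TopologicalSpace X]

/-- local inverse with analytic inverse, pointwise form -/
lemma GPL.exists_local_inv {f : EV n₁ → EV n₁} {a : EV n₁} (hf : AnalyticAt ℂ f a)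
    (hinv : (fderiv ℂ f a).IsInvertible) :
    ∃ g : EV n₁ → EV n₁, AnalyticAt ℂ g (f a) ∧ g (f a) = a ∧ ∀ᶠ y in 𝓝 (f a), f (g y) = y := by
  obtain ⟨L, hL⟩ := hinv
  have h' : HasFDerivAt f (L : EV n₁ →L[ℂ] EV n₁) a := by
    rw [hL]; exact hf.differentiableAt.hasFDerivAt
  obtain ⟨e, ha, _, he, _, hes, _⟩ := exists_chart hf h' (N := univ) univ_mem
  have hfa : f a ∈ e.target := by rw [← he a]; exact e.map_source ha
  refine ⟨e.symm, hes _ hfa, ?_, ?_⟩
  · rw [← he a]; exact e.left_inv ha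
  · filter_upwards [e.open_target.mem_nhds hfa] with y hy
    rw [← he, e.right_inv hy]

/-- local form of a section in any chart -/
lemma GPL.chart {A : PFol n₁ n₂ X} {U : Set X} {f : X → X} (hf : Sec1 A U f)
    {y : X} (hy : y ∈ U) {i : A.ι} (hi : y ∈ (A.ch i).source) :
    ∃ (B : EV n₁ → X) (δ : ℝ), 0 < δ ∧ ball (A.ch i y).1 δ ⊆ ball 0 1 ∧
      TrS A (ball (A.ch i y).1 δ) (plq A i (A.ch i y).2) B ∧ Imm1 A (ball (A.ch i y).1 δ) B ∧
      ∀ᶠ y' in 𝓝 y, f y' = B (A.ch i y').1 := by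
  obtain ⟨k, B₀, δ₀, hδ₀, hk, hb₀, hT₀, hf₀⟩ := hf y hy
  obtain ⟨θ, hθ, hθv, _, hθy, hθp⟩ := plq_change A i k y hi hk
  have him : A.ch i y ∈ ball (0 : EV n₁) 1 ×ˢ ball (0 : EV n₂) 1 := by
    rw [← A.target_eq i]; exact (A.ch i).map_source hi
  have hθc : Tendsto θ (𝓝 (A.ch i y).1) (𝓝 (A.ch k y).1) := by
    have := hθ.continuousAt.tendsto
    rwa [hθv] at this
  have hall : ∀ᶠ a in 𝓝 (A.ch i y).1, (AnalyticAt ℂ θ a ∧ θ a ∈ ball (A.ch k y).1 δ₀) ∧
      plq A i (A.ch i y).2 a = plq A k (A.ch k y).2 (θ a) ∧ a ∈ ball (0 : EV n₁) 1 :=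
    (hθ.eventually_analyticAt.and (hθc.eventually (isOpen_ball.mem_nhds (mem_ball_self hδ₀)))).and
      (hθp.and (isOpen_ball.mem_nhds him.1))
  obtain ⟨δ, hδ, hb⟩ := Metric.eventually_nhds_iff_ball.1 hall
  have hsub : ball (A.ch i y).1 δ ⊆ ball 0 1 := fun a ha => (hb a ha).2.2
  have hE : Imm1 A (ball (A.ch i y).1 δ) (plq A i (A.ch i y).2) :=
    fun a ha => imm1_plq A i him.2 a (hsub ha)
  have hkm : (A.ch k y).2 ∈ ball (0 : EV n₂) 1 := by
    have h := (A.ch k).map_source hk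
    rw [A.target_eq] at h
    exact h.2
  have hEk : IsE1g A (ball (A.ch i y).1 δ) (plq A k (A.ch k y).2 ∘ θ) :=
    isE1g_comp (isE1g_mono (isE1g_plq A k hkm) hb₀) (fun a ha => (hb a ha).1.1)
      (fun a ha => (hb a ha).1.2)
  have hT : TrS A (ball (A.ch i y).1 δ) (plq A i (A.ch i y).2) (B₀ ∘ θ) :=
    trS_congr isOpen_ball hEk
      (trS_comp hT₀ (fun a ha => (hb a ha).1.1) (fun a ha => (hb a ha).1.2))
      (fun a ha => ((hb a ha).2.1).symm) (fun a _ => rfl)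
  refine ⟨B₀ ∘ θ, δ, hδ, hsub, hT, trS_imm1 isOpen_ball hE hT, ?_⟩
  filter_upwards [hf₀, hθy] with y' h1 h2
  rw [h1, Function.comp, h2]

/-- a section maps first-leaf curves to first-leaf curves -/
lemma GPL.comp {V : Type} [NormedAddCommGroup V] [NormedSpace ℂ V] {A : PFol n₁ n₂ X}
    {p : X → X} (hp : Sec1 A univ p) {U : Set V} {c : V → X} (hc : IsE1g A U c) :
    IsE1g A U (p ∘ c) := by
  intro t ht
  obtain ⟨i, hi, _⟩ := A.cover (c t)
  obtain ⟨a, ha, hev⟩ := isE1g_chart hc ht hi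
  obtain ⟨B, δ, hδ, _, _, hI, hpB⟩ := GPL.chart hp (mem_univ (c t)) hi
  have hat : a t = (A.ch i (c t)).1 := (congrArg Prod.fst hev.self_of_nhds.2).symm
  have hB : IsE1g A (ball (A.ch i (c t)).1 δ) B := imm1_isE1g hI
  have hBa : IsE1g A {t} (B ∘ a) :=
    isE1g_comp hB (fun s hs => by rw [mem_singleton_iff] at hs; rw [hs]; exact ha)
      (fun s hs => by rw [mem_singleton_iff] at hs; rw [hs, hat]; exact mem_ball_self hδ)
  have hcc : ContinuousAt c t := isE1g_continuousAt hc ht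
  have he : (B ∘ a) =ᶠ[𝓝 t] (p ∘ c) := by
    filter_upwards [hev, hcc.eventually hpB] with s h1 h2
    simp only [Function.comp]
    rw [h2, h1.2]
  exact (isE1g_congr hBa (fun s hs => by rw [mem_singleton_iff] at hs; rw [hs]; exact he)) t rfl

/-- lifting of leaf balls: if `p` is a global section and `p q = u`, then over a ball of a plaque
around `u` there is a first-leaf map `R` with `R` at the centre equal to `q` and `p ∘ R = ` plaque. -/
theorem exists_leaf_lift [T2Space X] {A : PFol n₁ n₂ X} (hC : CompG A (EV n₁) ℂ) {p : X → X}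
    (hp : Sec1 A univ p) (q : X) {j : A.ι} (hj : p q ∈ (A.ch j).source) {r : ℝ} (hr : 0 < r)
    (hb : ball (A.ch j (p q)).1 r ⊆ ball 0 1) :
    ∃ R : EV n₁ → X, IsE1g A (ball (A.ch j (p q)).1 r) R ∧ R (A.ch j (p q)).1 = q ∧
      ∀ a ∈ ball (A.ch j (p q)).1 r, p (R a) = plq A j (A.ch j (p q)).2 a := by
  obtain ⟨i, hi, _⟩ := A.cover q
  obtain ⟨B, δ, hδ, hδb, hTB, hIB, hpB⟩ := GPL.chart hp (mem_univ q) hi
  set α₀ := (A.ch i q).1 with hα₀
  set bq := (A.ch i q).2 with hbq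
  set a₁ := (A.ch j (p q)).1 with ha₁
  set bu := (A.ch j (p q)).2 with hbu
  have hα₀m : α₀ ∈ ball α₀ δ := mem_ball_self hδ
  have hBα : B α₀ = p q := (hpB.self_of_nhds).symm
  -- heights are in the unit ball
  have hbum : bu ∈ ball (0 : EV n₂) 1 := by
    have h := (A.ch j).map_source hj
    rw [A.target_eq] at h
    exact h.2
  have hbqm : bq ∈ ball (0 : EV n₂) 1 := by
    have h := (A.ch i).map_source hi
    rw [A.target_eq] at h
    exact h.2
  -- local form of `B` in the chart `j`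
  have hEB : IsE1g A (ball α₀ δ) B := imm1_isE1g hIB
  obtain ⟨θ₀, hθ₀, hθ₀ev⟩ := isE1g_chart hEB hα₀m (i := j) (by rw [hBα]; exact hj)
  rw [hBα] at hθ₀ev
  have hinv : (fderiv ℂ θ₀ α₀).IsInvertible :=
    (GTE.imm_iff A hθ₀ hθ₀ev).1 (fun u hu => by
      rw [mem_singleton_iff] at hu; subst hu; exact hIB _ hα₀m)
  have hθ₀v : θ₀ α₀ = a₁ := by
    have := hθ₀ev.self_of_nhds.2
    rw [hBα] at this
    exact (congrArg Prod.fst this).symm
  obtain ⟨θ, hθ, hθv, hθi⟩ := GPL.exists_local_inv hθ₀ hinv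
  rw [hθ₀v] at hθ hθv hθi
  have hθc : Tendsto θ (𝓝 a₁) (𝓝 α₀) := by
    have := hθ.continuousAt.tendsto
    rwa [hθv] at this
  -- `B (θ a) = plq j bu a` near `a₁`
  have hBθ : ∀ᶠ a in 𝓝 a₁, B (θ a) = plq A j bu a := by
    filter_upwards [hθc.eventually hθ₀ev, hθi] with a h1 h2
    unfold plq
    rw [← (A.ch j).left_inv h1.1, h1.2, h2]
  -- choose a small ball
  have hall : ∀ᶠ a in 𝓝 a₁, B (θ a) = plq A j bu a ∧ AnalyticAt ℂ θ a ∧ θ a ∈ ball α₀ δ :=
    hBθ.and (hθ.eventually_analyticAt.and (hθc.eventually (isOpen_ball.mem_nhds hα₀m)))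
  obtain ⟨δ₁, hδ₁, hδ₁b⟩ := Metric.eventually_nhds_iff_ball.1 hall
  set δ' := min δ₁ r with hδ'
  have hδ'pos : 0 < δ' := lt_min hδ₁ hr
  have hsm : ∀ a ∈ ball a₁ δ', B (θ a) = plq A j bu a ∧ AnalyticAt ℂ θ a ∧ θ a ∈ ball α₀ δ :=
    fun a ha => hδ₁b a (ball_subset_ball (min_le_left _ _) ha)
  -- transport pulled back by `θ`
  have hT1 : TrS A (ball a₁ δ') (plq A i bq ∘ θ) (B ∘ θ) :=
    trS_comp hTB (fun a ha => (hsm a ha).2.1) (fun a ha => (hsm a ha).2.2)
  have hE1 : IsE1g A (ball a₁ δ') (plq A i bq ∘ θ) :=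
    isE1g_comp (isE1g_mono (isE1g_plq A i hbqm) hδb) (fun a ha => (hsm a ha).2.1)
      (fun a ha => (hsm a ha).2.2)
  have hT2 : TrS A (ball a₁ δ') (B ∘ θ) (plq A i bq ∘ θ) := trS_symm isOpen_ball hE1 hT1
  have hT3 : TrS A (ball a₁ δ') (plq A j bu) (plq A i bq ∘ θ) :=
    trS_congr isOpen_ball (trS_isE1g isOpen_ball hE1 hT1) hT2 (fun a ha => (hsm a ha).1)
      (fun a _ => rfl)
  have hEj : IsE1g A (ball a₁ r) (plq A j bu) := isE1g_mono (isE1g_plq A j hbum) hb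
  obtain ⟨R, hTR, hRe⟩ := trS_extend hC hδ'pos (min_le_right _ _) hEj hT3
  have hER : IsE1g A (ball a₁ r) R := trS_isE1g isOpen_ball hEj hTR
  have hqplq : plq A i bq α₀ = q := by
    unfold plq
    exact (A.ch i).left_inv hi
  have hRa : R a₁ = q := by
    rw [hRe a₁ (mem_ball_self hδ'pos)]
    show plq A i bq (θ a₁) = q
    rw [hθv, hqplq]
  refine ⟨R, hER, hRa, ?_⟩
  -- `p ∘ R` and the plaque agree near `a₁`
  have hcplq : Tendsto (fun a => plq A i bq (θ a)) (𝓝 a₁) (𝓝 q) := by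
    have h1 : ContinuousAt (plq A i bq) α₀ :=
      isE1g_continuousAt (isE1g_plq A i hbqm) (hδb hα₀m)
    have h2 := h1.tendsto.comp hθc
    rw [hqplq] at h2
    exact h2
  have hnear : (p ∘ R) =ᶠ[𝓝 a₁] plq A j bu := by
    filter_upwards [hcplq.eventually hpB, isOpen_ball.mem_nhds (mem_ball_self hδ'pos)] with a h1 h2
    show p (R a) = plq A j bu a
    rw [hRe a h2]
    show p (plq A i bq (θ a)) = plq A j bu a
    rw [h1]
    have hm : (θ a, bq) ∈ (A.ch i).target := by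
      rw [A.target_eq]; exact ⟨hδb (hsm a h2).2.2, hbqm⟩
    have h3 : (A.ch i (plq A i bq (θ a))).1 = θ a := by
      unfold plq
      rw [(A.ch i).right_inv hm]
    rw [h3]
    exact (hsm a h2).1
  intro a ha
  exact isE1g_unique isOpen_ball (convex_ball a₁ r).isPreconnected (GPL.comp hp hER) hEj
    (mem_ball_self hr) hnear ha

end Crest.Agent.R266
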