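import Crest.Agent.R266.GBasic
import Crest.Agent.R266.GUniq
import Crest.Agent.R266.GComp
import Crest.Agent.R266.GMono
import Crest.Agent.R266.GLeaf
import Crest.Agent.R266.GLeafInv
import Crest.Agent.R266.GTrans
import Crest.Agent.R266.GImm
import Crest.Agent.R266.GTransExt
import Crest.Agent.R266.GProjBasic
import Crest.Agent.R266.GProjChart
import Crest.Agent.R266.GProjExt
import Crest.Agent.R266.GProjLift
import Crest.Agent.R266.GProj
import Crest.Agent.R266.GTop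

/-!
R266 / GAsm (helper926): the abstract global theorem `global_product`.
-/

set_option autoImplicit false

open scoped Manifold ContDiff Topology
open Set Metric Filter

namespace Crest.Agent.R266

namespace GA

variable {n₁ n₂ : ℕ} {X : Type} [TopologicalSpace X]

/-! ### the leaf through `o` -/

theorem contMDiffAt_val_iff {n m : ℕ} {M M' : Type} [TopologicalSpace M] [TopologicalSpace M']
    [ChartedSpace (EV n) M] [ChartedSpace (EV m) M'] {U : TopologicalSpace.Opens M'} {f : M → U}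
    {x : M} :
    ContMDiffAt 𝓘(ℂ, EV n) 𝓘(ℂ, EV m) ω (Subtype.val ∘ f) x ↔
      ContMDiffAt 𝓘(ℂ, EV n) 𝓘(ℂ, EV m) ω f x := by
  rw [ContMDiffAt, ContMDiffAt]
  exact ChartedSpace.liftPropWithinAt_subtypeVal_comp_iff ..

theorem isOpen_cc (A : PFol n₁ n₂ X) (y : Leaf1 A) : IsOpen (connectedComponent y) := by
  haveI : LocallyConnectedSpace (Leaf1 A) := ChartedSpace.locallyConnectedSpace (EV n₁) (Leaf1 A)
  exact isOpen_connectedComponent

/-- the leaf of the first foliation through `o`, as an open subset of the leaf manifold -/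
noncomputable def LY (A : PFol n₁ n₂ X) (o : X) : TopologicalSpace.Opens (Leaf1 A) :=
  ⟨connectedComponent (toL A o), isOpen_cc A _⟩

theorem ly_connected (A : PFol n₁ n₂ X) (o : X) : ConnectedSpace (LY A o) :=
  isConnected_iff_connectedSpace.1 isConnected_connectedComponent

/-- local form of a section: chart, immersion -/
theorem sec_chart {A : PFol n₁ n₂ X} {p : X → X} (hp : Sec1 A univ p) {y : X} {i : A.ι}
    (hi : y ∈ (A.ch i).source) :
    ∃ (B : EV n₁ → X) (δ : ℝ), 0 < δ ∧ Imm1 A (ball (A.ch i y).1 δ) B ∧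
      ∀ᶠ y' in 𝓝 y, p y' = B (A.ch i y').1 := by
  obtain ⟨B, δ, hδ, _, _, h3, h4⟩ := sec1_chart isOpen_univ hp (mem_univ y) hi
  exact ⟨B, δ, hδ, h3, h4⟩

theorem continuousAt_ch {A : PFol n₁ n₂ X} {y : X} {i : A.ι} (hi : y ∈ (A.ch i).source) :
    ContinuousAt (A.ch i) y :=
  (A.ch i).continuousAt hi

theorem imm_cont {A : PFol n₁ n₂ X} {t : EV n₁} {B : EV n₁ → X} {δ : ℝ} (hδ : 0 < δ)
    (h : Imm1 A (ball t δ) B) : ContinuousAt (fun s => toL A (B s)) t :=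
  leaf_continuousAt (isE1g_mono (imm1_isE1g h) (by simpa using hδ))

/-- a global section is continuous into the leaf space -/
theorem sec_continuous {A : PFol n₁ n₂ X} {p : X → X} (hp : Sec1 A univ p) :
    Continuous (fun y => toL A (p y)) := by
  rw [continuous_iff_continuousAt]
  intro y
  obtain ⟨i, hi, -⟩ := A.cover y
  obtain ⟨B, δ, hδ, hB, h⟩ := sec_chart hp hi
  have h1 := imm_cont hδ hB
  have h2 : ContinuousAt (fun y' => toL A (B (A.ch i y').1)) y :=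
    ContinuousAt.comp' (g := fun s => toL A (B s)) (f := fun y' => (A.ch i y').1) h1
      (continuous_fst.continuousAt.comp (continuousAt_ch hi))
  exact h2.congr (h.mono fun y' hy' => by simp [hy'])

/-- the plaque through a point, as a curve in the leaf space, near the point -/
theorem plq_coord {A : PFol n₁ n₂ X} {i : A.ι} {z : Leaf1 A} (hz : ofL z ∈ (A.ch i).source)
    {b : EV n₂} (hb : (A.ch i (ofL z)).2 = b) : toL A (plq A i b (A.ch i (ofL z)).1) = z := by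
  have : (A.ch i).symm ((A.ch i (ofL z)).1, b) = ofL z := by
    rw [← hb]
    exact (A.ch i).left_inv hz
  show toL A ((A.ch i).symm ((A.ch i (ofL z)).1, b)) = z
  rw [this]
  rfl

theorem ch_mem {A : PFol n₁ n₂ X} {i : A.ι} {y : X} (hy : y ∈ (A.ch i).source) :
    (A.ch i y).1 ∈ ball (0 : EV n₁) 1 ∧ (A.ch i y).2 ∈ ball (0 : EV n₂) 1 := by
  have := (A.ch i).map_source hy
  rw [A.target_eq i] at this
  exact this

theorem ch_symm {A : PFol n₁ n₂ X} {i : A.ι} {a : EV n₁} {b : EV n₂} (ha : a ∈ ball (0 : EV n₁) 1)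
    (hb : b ∈ ball (0 : EV n₂) 1) :
    (A.ch i).symm (a, b) ∈ (A.ch i).source ∧ A.ch i ((A.ch i).symm (a, b)) = (a, b) := by
  have h : (a, b) ∈ (A.ch i).target := by
    rw [A.target_eq i]
    exact ⟨ha, hb⟩
  exact ⟨(A.ch i).map_target h, (A.ch i).right_inv h⟩

/-- the section is the identity on the leaf through `o` -/
theorem sec_id [T2Space X] {A : PFol n₁ n₂ X} {p : X → X} (hp : Sec1 A univ p) {o : X}
    (ho : ∀ i, o ∈ (A.ch i).source → ∀ᶠ y in 𝓝 o, p y = plq A i (A.ch i o).2 (A.ch i y).1)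
    (z : Leaf1 A) (hz : z ∈ connectedComponent (toL A o)) : toL A (p (ofL z)) = z := by
  let C : Set (Leaf1 A) := {z | ∀ᶠ z' in 𝓝 z, toL A (p (ofL z')) = z'}
  have hCo : IsOpen C := isOpen_iff_eventually.2 fun z hz => eventually_eventually_nhds.2 hz
  have ho' : toL A o ∈ C := by
    obtain ⟨i, hi, -⟩ := A.cover o
    have h1 : ∀ᶠ z' : Leaf1 A in 𝓝 (toL A o), p (ofL z') = plq A i (A.ch i o).2 (A.ch i (ofL z')).1 :=
      (leaf_continuous A).continuousAt.eventually (ho i hi)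
    have h2 := (leaf_coord A i (toL A o) hi).2
    show ∀ᶠ z' in 𝓝 (toL A o), toL A (p (ofL z')) = z'
    filter_upwards [h1, h2] with z' e1 e2
    rw [e1]
    exact plq_coord e2.1 e2.2
  have hCc : IsClosed C := by
    rw [← closure_subset_iff_isClosed]
    intro z hz
    obtain ⟨i, hi, -⟩ := A.cover (ofL z)
    have hb := (ch_mem hi).2
    have h2 := (leaf_coord A i z hi).2
    have h2o : ∀ᶠ z' in 𝓝 z, ∀ᶠ z'' in 𝓝 z', ofL z'' ∈ (A.ch i).source ∧
        (A.ch i (ofL z'')).2 = (A.ch i (ofL z)).2 := eventually_eventually_nhds.2 h2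
    obtain ⟨z', hz'1, hz'2⟩ := mem_closure_iff_nhds.1 hz _ h2o
    set b := (A.ch i (ofL z)).2 with hbdef
    have hs' := hz'1.self_of_nhds
    have key : EqOn (p ∘ plq A i b) (plq A i b) (ball 0 1) := by
      have ht : (A.ch i (ofL z')).1 ∈ ball (0 : EV n₁) 1 := (ch_mem hs'.1).1
      refine isE1g_unique isOpen_ball (convex_ball _ _).isPreconnected
        (sec1_comp hp (isE1g_plq A i hb)) (isE1g_plq A i hb) ht ?_
      -- near `t`, `plq t` is near `z'` in the leaf topology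
      have hc : ContinuousAt (fun s => toL A (plq A i b s)) (A.ch i (ofL z')).1 :=
        leaf_continuousAt (isE1g_mono (isE1g_plq A i hb) (by simpa using ht))
      have he : toL A (plq A i b (A.ch i (ofL z')).1) = z' := plq_coord hs'.1 hs'.2
      have hev : ∀ᶠ s in 𝓝 (A.ch i (ofL z')).1,
          toL A (p (ofL (toL A (plq A i b s)))) = toL A (plq A i b s) := by
        have := hc.eventually (p := fun w => toL A (p (ofL w)) = w) (by
          show ∀ᶠ w in 𝓝 (toL A (plq A i b (A.ch i (ofL z')).1)), _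
          rw [he]; exact hz'2)
        exact this
      filter_upwards [hev] with s hs
      exact hs
    show ∀ᶠ z' in 𝓝 z, toL A (p (ofL z')) = z'
    filter_upwards [h2] with w hw
    have hw1 := key (ch_mem hw.1).1
    have hw2 : toL A (plq A i b (A.ch i (ofL w)).1) = w := plq_coord hw.1 hw.2
    have hw3 : plq A i b (A.ch i (ofL w)).1 = ofL w := hw2
    simp only [Function.comp_apply, hw3] at hw1
    rw [hw1]
    rfl
  have hcl : IsClopen C := ⟨hCc, hCo⟩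
  have : z ∈ C := hcl.connectedComponent_subset ho' hz
  exact this.self_of_nhds

theorem sec_mem {A : PFol n₁ n₂ X} [ConnectedSpace X] {p : X → X} (hp : Sec1 A univ p) {o : X}
    (hpo : p o = o) (y : X) : toL A (p y) ∈ connectedComponent (toL A o) := by
  have h1 : IsPreconnected (range fun y => toL A (p y)) :=
    isPreconnected_range (sec_continuous hp)
  have h2 : toL A o ∈ range fun y => toL A (p y) := ⟨o, by simp [hpo]⟩
  exact h1.subset_connectedComponent h2 ⟨y, rfl⟩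

/-- the projection to the leaf through `o` -/
noncomputable def prj (A : PFol n₁ n₂ X) [ConnectedSpace X] {p : X → X} (hp : Sec1 A univ p)
    {o : X} (hpo : p o = o) (y : X) : LY A o := ⟨toL A (p y), sec_mem hp hpo y⟩

section
variable {A : PFol n₁ n₂ X} [ConnectedSpace X] {p : X → X} (hp : Sec1 A univ p) {o : X}
  (hpo : p o = o)

theorem prj_continuous : Continuous (prj A hp hpo) :=
  (sec_continuous hp).subtype_mk _

theorem ofL_prj (y : X) : ofL (prj A hp hpo y : Leaf1 A) = p y := rfl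

/-- inclusion of the leaf in `X` -/
noncomputable def inc (A : PFol n₁ n₂ X) (o : X) (z : LY A o) : X := ofL (z : Leaf1 A)

theorem inc_continuous (A : PFol n₁ n₂ X) (o : X) : Continuous (inc A o) :=
  (leaf_continuous A).comp continuous_subtype_val

theorem prj_inc [T2Space X]
    (ho : ∀ i, o ∈ (A.ch i).source → ∀ᶠ y in 𝓝 o, p y = plq A i (A.ch i o).2 (A.ch i y).1)
    (z : LY A o) : prj A hp hpo (inc A o z) = z := by
  apply Subtype.ext
  exact sec_id hp ho z.1 z.2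

/-- local form of the projection with a left inverse in the first variable -/
theorem prj_loc (x : X) (i : A.ι) (hi : x ∈ (A.ch i).source) :
    ∃ (φ : EV n₁ → LY A o) (κ : LY A o → EV n₁),
      ContMDiffAt 𝓘(ℂ, EV n₁) 𝓘(ℂ, EV n₁) ω φ (A.ch i x).1 ∧
      ContMDiffAt 𝓘(ℂ, EV n₁) 𝓘(ℂ, EV n₁) ω κ (prj A hp hpo x) ∧
      (∀ᶠ y in 𝓝 x, prj A hp hpo y = φ (A.ch i y).1) ∧
      (∀ᶠ y in 𝓝 x, κ (prj A hp hpo y) = (A.ch i y).1) := by
  classical
  obtain ⟨B, δ, hδ, hB, h⟩ := sec_chart hp hi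
  obtain ⟨κ, hκ, hκ1, hκ2⟩ := leaf_inverse (t := (A.ch i x).1) (c := B)
    (fun t ht => hB t (by rw [mem_singleton_iff.1 ht]; exact mem_ball_self hδ))
  have hBx : B (A.ch i x).1 = p x := h.self_of_nhds.symm
  -- `φ`
  have hmem : toL A (B (A.ch i x).1) ∈ LY A o := by
    rw [hBx]
    exact sec_mem hp hpo x
  have hBc : ContinuousAt (fun s => toL A (B s)) (A.ch i x).1 := imm_cont hδ hB
  have hev : ∀ᶠ s in 𝓝 (A.ch i x).1, toL A (B s) ∈ LY A o :=
    hBc.eventually ((LY A o).isOpen.mem_nhds hmem)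
  let φ : EV n₁ → LY A o := fun s =>
    if hs : toL A (B s) ∈ LY A o then ⟨toL A (B s), hs⟩ else ⟨toL A (B (A.ch i x).1), hmem⟩
  have hφ : ∀ᶠ s in 𝓝 (A.ch i x).1, ((φ s : LY A o) : Leaf1 A) = toL A (B s) := by
    filter_upwards [hev] with s hs
    simp only [φ]
    rw [dif_pos hs]
  have hBm : ContMDiffAt 𝓘(ℂ, EV n₁) 𝓘(ℂ, EV n₁) ω (fun s => toL A (B s)) (A.ch i x).1 :=
    leaf_contMDiffAt (isE1g_mono (imm1_isE1g hB) (by simpa using hδ))
  have hφm : ContMDiffAt 𝓘(ℂ, EV n₁) 𝓘(ℂ, EV n₁) ω φ (A.ch i x).1 := by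
    rw [← contMDiffAt_val_iff]
    exact hBm.congr_of_eventuallyEq hφ
  refine ⟨φ, fun z => κ (z : Leaf1 A), hφm, ?_, ?_, ?_⟩
  · have h1 : ContMDiffAt 𝓘(ℂ, EV n₁) 𝓘(ℂ, EV n₁) ω (Subtype.val : LY A o → Leaf1 A)
        (prj A hp hpo x) := contMDiff_subtype_val.contMDiffAt
    have h2 : ContMDiffAt 𝓘(ℂ, EV n₁) 𝓘(ℂ, EV n₁) ω κ ((prj A hp hpo x : LY A o) : Leaf1 A) := by
      have : ((prj A hp hpo x : LY A o) : Leaf1 A) = toL A (B (A.ch i x).1) := by
        rw [hBx]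
        rfl
      rw [this]
      exact hκ
    exact ContMDiffAt.comp (prj A hp hpo x) h2 h1
  · have h3 : ∀ᶠ y in 𝓝 x, ((φ (A.ch i y).1 : LY A o) : Leaf1 A) = toL A (B (A.ch i y).1) :=
      (continuous_fst.continuousAt.comp (continuousAt_ch hi)).eventually hφ
    filter_upwards [h, h3] with y hy hy3
    apply Subtype.ext
    rw [hy3, ← hy]
    rfl
  · have h3 : ∀ᶠ y in 𝓝 x, κ (toL A (B (A.ch i y).1)) = (A.ch i y).1 :=
      (continuous_fst.continuousAt.comp (continuousAt_ch hi)).eventually hκ1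
    filter_upwards [h, h3] with y hy hy3
    have : ((prj A hp hpo y : LY A o) : Leaf1 A) = toL A (B (A.ch i y).1) := by
      rw [← hy]
      rfl
    show κ ((prj A hp hpo y : LY A o) : Leaf1 A) = _
    rw [this, hy3]

end

/-! ### plaque neighbourhoods in the leaf through `o` -/

/-- the plaque neighbourhood -/
def nb (A : PFol n₁ n₂ X) (o : X) (j : A.ι) (a₀ : EV n₁) (b : EV n₂) (r : ℝ) : Set (LY A o) :=
  {z | inc A o z ∈ (A.ch j).source ∧ (A.ch j (inc A o z)).2 = b ∧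
    (A.ch j (inc A o z)).1 ∈ ball a₀ r}

theorem nb_open (A : PFol n₁ n₂ X) (o : X) (j : A.ι) (a₀ : EV n₁) (b : EV n₂) (r : ℝ) :
    IsOpen (nb A o j a₀ b r) := by
  rw [isOpen_iff_mem_nhds]
  rintro z ⟨h1, h2, h3⟩
  have hc := leaf_coord A j (z : Leaf1 A) h1
  have e1 : ∀ᶠ w : Leaf1 A in 𝓝 (z : Leaf1 A), (A.ch j (ofL w)).1 ∈ ball a₀ r :=
    hc.1.continuousAt.eventually (isOpen_ball.mem_nhds h3)
  have e2 : ∀ᶠ w : Leaf1 A in 𝓝 (z : Leaf1 A), ofL w ∈ (A.ch j).source ∧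
      (A.ch j (ofL w)).2 = b ∧ (A.ch j (ofL w)).1 ∈ ball a₀ r := by
    filter_upwards [e1, hc.2] with w hw1 hw2
    exact ⟨hw2.1, hw2.2.trans h2, hw1⟩
  exact continuous_subtype_val.continuousAt.eventually e2

theorem nb_preconnected (A : PFol n₁ n₂ X) (o : X) (j : A.ι) {a₀ : EV n₁} {b : EV n₂} {r : ℝ}
    (hr : ball a₀ r ⊆ ball 0 1) (hb : b ∈ ball (0 : EV n₂) 1) :
    IsPreconnected (nb A o j a₀ b r) := by
  classical
  rcases (nb A o j a₀ b r).eq_empty_or_nonempty with he | ⟨z₀, hz₀⟩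
  · rw [he]; exact isPreconnected_empty
  -- the plaque map into the leaf space
  have hcont : ContinuousOn (fun a => toL A (plq A j b a)) (ball a₀ r) := by
    intro a ha
    exact (leaf_continuousAt (isE1g_mono (isE1g_plq A j hb)
      (by simpa using hr ha))).continuousWithinAt
  have himg : IsPreconnected ((fun a => toL A (plq A j b a)) '' ball a₀ r) :=
    (convex_ball a₀ r).isPreconnected.image _ hcont
  have himg' : (fun a => toL A (plq A j b a)) '' ball a₀ r = Subtype.val '' nb A o j a₀ b r := by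
    have hz₀' : (z₀ : Leaf1 A) ∈ (fun a => toL A (plq A j b a)) '' ball a₀ r :=
      ⟨_, hz₀.2.2, plq_coord hz₀.1 hz₀.2.1⟩
    have hsub : (fun a => toL A (plq A j b a)) '' ball a₀ r ⊆ connectedComponent (toL A o) := by
      have h1 := himg.subset_connectedComponent hz₀'
      have h2 : connectedComponent (z₀ : Leaf1 A) = connectedComponent (toL A o) :=
        (connectedComponent_eq z₀.2).symm
      rw [h2] at h1
      exact h1
    ext w
    constructor
    · rintro ⟨a, ha, rfl⟩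
      have hm : toL A (plq A j b a) ∈ connectedComponent (toL A o) := hsub ⟨a, ha, rfl⟩
      refine ⟨⟨toL A (plq A j b a), hm⟩, ?_, rfl⟩
      have := ch_symm (A := A) (i := j) (hr ha) hb
      refine ⟨this.1, ?_, ?_⟩
      · show (A.ch j ((A.ch j).symm (a, b))).2 = b
        rw [this.2]
      · show (A.ch j ((A.ch j).symm (a, b))).1 ∈ _
        rw [this.2]
        exact ha
    · rintro ⟨z, hz, rfl⟩
      exact ⟨_, hz.2.2, plq_coord hz.1 hz.2.1⟩
  rw [himg'] at himg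
  exact (Topology.IsInducing.subtypeVal.isPreconnected_image).1 himg

/-- the first half of the extension: chart data at a point of the leaf through `o` -/
theorem lift1 [T2Space X] [ConnectedSpace X] {A : PFol n₁ n₂ X} (hC : CompG A (EV n₁) ℂ)
    {p : X → X} (hp : Sec1 A univ p) {o : X} (hpo : p o = o) (y : LY A o) :
    ∃ (j : A.ι) (a₀ : EV n₁) (b : EV n₂), b ∈ ball (0 : EV n₂) 1 ∧ ball a₀ (1 / 8) ⊆ ball 0 1 ∧
      y ∈ nb A o j a₀ b (1 / 8) ∧
      ∀ x ∈ nb A o j a₀ b (1 / 8), ∀ q : X, prj A hp hpo q = x →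
        ∃ R : EV n₁ → X, IsE1g A (ball (A.ch j (inc A o x)).1 (1 / 4)) R ∧
          R (A.ch j (inc A o x)).1 = q ∧
          ball a₀ (1 / 8) ⊆ ball (A.ch j (inc A o x)).1 (1 / 4) ∧
          ∀ a ∈ ball (A.ch j (inc A o x)).1 (1 / 4), p (R a) = plq A j b a := by
  obtain ⟨j, hj, hj2⟩ := A.cover (inc A o y)
  refine ⟨j, (A.ch j (inc A o y)).1, (A.ch j (inc A o y)).2, (ch_mem hj).2, ?_, ?_, ?_⟩
  · intro a ha
    have h1 : dist a (A.ch j (inc A o y)).1 < 1 / 8 := ha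
    have h2 : dist (A.ch j (inc A o y)).1 0 < 1 / 2 := hj2.1
    have := dist_triangle a (A.ch j (inc A o y)).1 0
    show dist a 0 < 1
    linarith
  · exact ⟨hj, rfl, mem_ball_self (by norm_num)⟩
  · intro x hx q hq
    have hx1 : dist (A.ch j (inc A o x)).1 (A.ch j (inc A o y)).1 < 1 / 8 := hx.2.2
    have h2 : dist (A.ch j (inc A o y)).1 0 < 1 / 2 := hj2.1
    have hpq : p q = inc A o x := by
      rw [← hq]; rfl
    have hbb : ball (A.ch j (p q)).1 (1 / 4) ⊆ ball 0 1 := by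
      rw [hpq]
      intro a ha
      have h1 : dist a (A.ch j (inc A o x)).1 < 1 / 4 := ha
      have t1 := dist_triangle a (A.ch j (inc A o x)).1 0
      have t2 := dist_triangle (A.ch j (inc A o x)).1 (A.ch j (inc A o y)).1 0
      show dist a 0 < 1
      linarith
    obtain ⟨R, hR1, hR2, hR3⟩ := exists_leaf_lift hC hp q (j := j) (by rw [hpq]; exact hx.1)
      (r := 1 / 4) (by norm_num) hbb
    rw [hpq] at hR1 hR2 hR3
    refine ⟨R, hR1, hR2, ?_, ?_⟩
    · intro a ha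
      have h1 : dist a (A.ch j (inc A o y)).1 < 1 / 8 := ha
      have t1 := dist_triangle_right a (A.ch j (inc A o x)).1 (A.ch j (inc A o y)).1
      show dist a (A.ch j (inc A o x)).1 < 1 / 4
      linarith
    · rw [hx.2.1] at hR3
      exact hR3

end GA

section Main

variable {n₁ n₂ : ℕ} {X : Type} [TopologicalSpace X]

open GA

theorem global_product [T2Space X]
    [SimplyConnectedSpace X] [LocallyPathConnectedSpace X] (A : PFol n₁ n₂ X)
    (hC : Completeness A) :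
    ∃ (Y₁ : Type) (Y₂ : Type) (_ : TopologicalSpace Y₁) (_ : TopologicalSpace Y₂)
      (_ : ChartedSpace (EV n₁) Y₁) (_ : ChartedSpace (EV n₂) Y₂)
      (_ : IsManifold 𝓘(ℂ, EV n₁) ω Y₁) (_ : IsManifold 𝓘(ℂ, EV n₂) ω Y₂),
      ConnectedSpace Y₁ ∧ ConnectedSpace Y₂ ∧ SimplyConnectedSpace Y₁ ∧ SimplyConnectedSpace Y₂ ∧
      ∃ (Φ : X → Y₁ × Y₂) (Ψ : Y₁ × Y₂ → X), ProdStr A Y₁ Y₂ Φ Ψ := by
  classical
  have hC1 : CompG A (EV n₁) ℂ := compG_of_completeness hC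
  have hC2 : CompG A.swap (EV n₂) ℂ := compG_swap.2 (compG_of_completeness hC)
  have hC12 : CompG A (EV n₁) (EV n₂) := compG_of_completeness hC
  haveI : ConnectedSpace X := inferInstance
  obtain ⟨o⟩ : Nonempty X := inferInstance
  obtain ⟨p₁, hp₁, hpo₁, hg₁⟩ := exists_proj hC1 o
  obtain ⟨p₂, hp₂, hpo₂, hg₂⟩ := exists_proj (A := A.swap) hC2 o
  let Y₁ := LY A o
  let Y₂ := LY A.swap o
  let P₁ : X → Y₁ := prj A hp₁ hpo₁
  let P₂ : X → Y₂ := prj A.swap hp₂ hpo₂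
  let Φ : X → Y₁ × Y₂ := fun x => (P₁ x, P₂ x)
  have hΦ : Continuous Φ := (prj_continuous hp₁ hpo₁).prodMk (prj_continuous hp₂ hpo₂)
  haveI sc₁ : SimplyConnectedSpace Y₁ :=
    simplyConnected_of_retract (inc A o) P₁ (inc_continuous A o) (prj_continuous hp₁ hpo₁)
      (prj_inc hp₁ hpo₁ hg₁)
  haveI sc₂ : SimplyConnectedSpace Y₂ :=
    simplyConnected_of_retract (inc A.swap o) P₂ (inc_continuous A.swap o)
      (prj_continuous hp₂ hpo₂) (prj_inc hp₂ hpo₂ hg₂)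
  haveI scp : SimplyConnectedSpace (Y₁ × Y₂) := simplyConnected_prod
  haveI l1 : LocallyPathConnectedSpace Y₁ := ChartedSpace.locallyPathConnectedSpace (EV n₁) Y₁
  haveI l2 : LocallyPathConnectedSpace Y₂ := ChartedSpace.locallyPathConnectedSpace (EV n₂) Y₂
  haveI lm : LocallyPathConnectedSpace (ModelProd (EV n₁) (EV n₂)) :=
    inferInstanceAs (LocallyPathConnectedSpace (EV n₁ × EV n₂))
  haveI lp : LocallyPathConnectedSpace (Y₁ × Y₂) :=
    ChartedSpace.locallyPathConnectedSpace (ModelProd (EV n₁) (EV n₂)) (Y₁ × Y₂)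
  -- local injectivity of `Φ`
  have hinj : ∀ x, ∃ U ∈ 𝓝 x, InjOn Φ U := by
    intro x
    obtain ⟨i, hi, -⟩ := A.cover x
    obtain ⟨-, κ₁, -, -, -, hκ₁⟩ := prj_loc hp₁ hpo₁ x i hi
    obtain ⟨-, κ₂, -, -, -, hκ₂⟩ := prj_loc (A := A.swap) hp₂ hpo₂ x i (by simpa using hi)
    have hs : ∀ᶠ y in 𝓝 x, y ∈ (A.ch i).source := (A.ch i).open_source.mem_nhds hi
    refine ⟨{y | κ₁ (P₁ y) = (A.ch i y).1 ∧ κ₂ (P₂ y) = (A.swap.ch i y).1 ∧
      y ∈ (A.ch i).source}, by filter_upwards [hκ₁, hκ₂, hs] with y a b c using ⟨a, b, c⟩, ?_⟩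
    rintro y ⟨a, b, c⟩ y' ⟨a', b', c'⟩ he
    have he1 : P₁ y = P₁ y' := congrArg Prod.fst he
    have he2 : P₂ y = P₂ y' := congrArg Prod.snd he
    refine (A.ch i).injOn c c' (Prod.ext ?_ ?_)
    · rw [← a, ← a', he1]
    · have : (A.swap.ch i y).1 = (A.swap.ch i y').1 := by rw [← b, ← b', he2]
      exact this
  -- sections of `Φ`
  let Sec : Set (Y₁ × Y₂) → (Y₁ × Y₂ → X) → Prop := fun U f =>
    ContinuousOn f U ∧ ∀ u ∈ U, Φ (f u) = u
  have EX : ∀ y : Y₁ × Y₂, ∃ U, IsOpen U ∧ y ∈ U ∧ IsPreconnected U ∧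
      ∀ x ∈ U, ∀ q : X, Φ q = x → ∃ g, Sec U g ∧ g x = q := by
    rintro ⟨y₁, y₂⟩
    obtain ⟨j₁, a₁, b₁, hb₁, hr₁, hy₁, H₁⟩ := lift1 hC1 hp₁ hpo₁ y₁
    obtain ⟨j₂, a₂, b₂, hb₂, hr₂, hy₂, H₂⟩ := lift1 (A := A.swap) hC2 hp₂ hpo₂ y₂
    refine ⟨nb A o j₁ a₁ b₁ (1 / 8) ×ˢ nb A.swap o j₂ a₂ b₂ (1 / 8),
      (nb_open ..).prod (nb_open ..), ⟨hy₁, hy₂⟩,
      (nb_preconnected A o j₁ hr₁ hb₁).prod (nb_preconnected A.swap o j₂ hr₂ hb₂), ?_⟩
    rintro ⟨x₁, x₂⟩ ⟨hx₁, hx₂⟩ q hq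
    have hq1 : P₁ q = x₁ := congrArg Prod.fst hq
    have hq2 : P₂ q = x₂ := congrArg Prod.snd hq
    obtain ⟨R₁, hR₁, hR₁q, hs₁, hR₁p⟩ := H₁ x₁ hx₁ q hq1
    obtain ⟨R₂, hR₂, hR₂q, hs₂, hR₂p⟩ := H₂ x₂ hx₂ q hq2
    set c₁ := (A.ch j₁ (inc A o x₁)).1 with hc₁
    set c₂ := (A.swap.ch j₂ (inc A.swap o x₂)).1 with hc₂
    obtain ⟨G, hG, hG1, hG2⟩ := hC12 c₁ c₂ (1 / 4) (1 / 4) R₁ R₂ (by norm_num) (by norm_num)
      hR₁ (isE1g_swap.1 hR₂) (by rw [hR₁q, hR₂q])
    let k₁ : Y₁ → EV n₁ := fun z => (A.ch j₁ (inc A o z)).1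
    let k₂ : Y₂ → EV n₂ := fun z => (A.swap.ch j₂ (inc A.swap o z)).1
    have hk₁ : ContinuousOn k₁ (nb A o j₁ a₁ b₁ (1 / 8)) := by
      intro z hz
      refine ContinuousAt.continuousWithinAt ?_
      exact continuous_fst.continuousAt.comp
        ((continuousAt_ch hz.1).comp (inc_continuous A o).continuousAt)
    have hk₂ : ContinuousOn k₂ (nb A.swap o j₂ a₂ b₂ (1 / 8)) := by
      intro z hz
      refine ContinuousAt.continuousWithinAt ?_
      exact continuous_fst.continuousAt.comp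
        ((continuousAt_ch hz.1).comp (inc_continuous A.swap o).continuousAt)
    refine ⟨fun z => G (k₁ z.1, k₂ z.2), ⟨?_, ?_⟩, ?_⟩
    · rintro ⟨z₁, z₂⟩ ⟨hz₁, hz₂⟩
      have hGc : ContinuousAt G (k₁ z₁, k₂ z₂) :=
        isPCg_continuousAt hG ⟨hs₁ hz₁.2.2, hs₂ hz₂.2.2⟩
      have hkc : ContinuousWithinAt (fun z : Y₁ × Y₂ => (k₁ z.1, k₂ z.2))
          (nb A o j₁ a₁ b₁ (1 / 8) ×ˢ nb A.swap o j₂ a₂ b₂ (1 / 8)) (z₁, z₂) := by
        refine ContinuousWithinAt.prodMk ?_ ?_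
        · exact ContinuousWithinAt.comp (g := k₁) (f := Prod.fst)
            (t := nb A o j₁ a₁ b₁ (1 / 8)) (hk₁ z₁ hz₁) continuousWithinAt_fst (fun w hw => hw.1)
        · exact ContinuousWithinAt.comp (g := k₂) (f := Prod.snd)
            (t := nb A.swap o j₂ a₂ b₂ (1 / 8)) (hk₂ z₂ hz₂) continuousWithinAt_snd
            (fun w hw => hw.2)
      exact ContinuousAt.comp_continuousWithinAt (g := G)
        (f := fun z : Y₁ × Y₂ => (k₁ z.1, k₂ z.2)) (x := (z₁, z₂)) hGc hkc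
    · rintro ⟨z₁, z₂⟩ ⟨hz₁, hz₂⟩
      have hm1 : k₁ z₁ ∈ ball c₁ (1 / 4) := hs₁ hz₁.2.2
      have hm2 : k₂ z₂ ∈ ball c₂ (1 / 4) := hs₂ hz₂.2.2
      refine Prod.ext ?_ ?_
      · apply Subtype.ext
        show toL A (p₁ (G (k₁ z₁, k₂ z₂))) = z₁
        have e1 : p₁ (G (k₁ z₁, k₂ z₂)) = p₁ (G (k₁ z₁, c₂)) :=
          sec1_const hp₁ isOpen_ball (convex_ball _ _).isPreconnected (isPCg_slice2 hG hm1)
            hm2 (mem_ball_self (by norm_num))
        rw [e1, hG1 _ hm1, hR₁p _ hm1]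
        exact plq_coord (z := (z₁ : Leaf1 A)) hz₁.1 hz₁.2.1
      · apply Subtype.ext
        show toL A.swap (p₂ (G (k₁ z₁, k₂ z₂))) = z₂
        have hsl : IsE1g A (ball c₁ (1 / 4)) (fun a => G (a, k₂ z₂)) := isPCg_slice1 hG hm2
        have e1 : p₂ (G (k₁ z₁, k₂ z₂)) = p₂ (G (c₁, k₂ z₂)) :=
          sec1_const hp₂ isOpen_ball (convex_ball _ _).isPreconnected (isE2g_swap.2 hsl)
            hm1 (mem_ball_self (by norm_num))
        rw [e1, hG2 _ hm2, hR₂p _ hm2]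
        exact plq_coord (z := (z₂ : Leaf1 A.swap)) hz₂.1 hz₂.2.1
    · show G (c₁, c₂) = q
      rw [hG1 _ (mem_ball_self (by norm_num)), hR₁q]
  have sepΦ : IsSeparatedMap Φ := T2Space.isSeparatedMap Φ
  have linj : IsLocallyInjective Φ := by
    rw [isLocallyInjective_iff_nhds]
    exact hinj
  obtain ⟨Ψ, hΨ, hΨo⟩ : ∃ Ψ : Y₁ × Y₂ → X, (∀ y, ∃ U, IsOpen U ∧ y ∈ U ∧ Sec U Ψ) ∧
      Ψ (Φ o) = o := by
    obtain ⟨V₀, hV₀, hV₀m, -, hV₀e⟩ := EX (Φ o)
    obtain ⟨f₀, hf₀, hf₀o⟩ := hV₀e _ hV₀m o rfl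
    obtain ⟨g, hg, hg'⟩ := monodromy_sections Sec
      (fun U V f _ hVU hf => ⟨hf.1.mono hVU, fun u hu => hf.2 u (hVU hu)⟩)
      (fun U f g _ hf he => ⟨hf.1.congr he.symm, fun u hu => by rw [← he hu]; exact hf.2 u hu⟩)
      (by
        rintro U f g hU hU' hf hg ⟨x, hx, hfg⟩
        exact sepΦ.eqOn_of_comp_eqOn linj hU' hf.1 hg.1
          (fun u hu => (hf.2 u hu).trans (hg.2 u hu).symm) hx hfg.self_of_nhds)
      (by
        intro y
        obtain ⟨U, hU, hyU, hUp, hUe⟩ := EX y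
        refine ⟨U, hU, hyU, hUp, ?_⟩
        intro x hx V f hV hxV hf
        obtain ⟨g, hg, hgx⟩ := hUe x hx (f x) (hf.2 x hxV)
        refine ⟨g, hg, ?_⟩
        obtain ⟨W, hW, hWi⟩ := hinj (f x)
        have e1 : ∀ᶠ z in 𝓝 x, f z ∈ W :=
          (hf.1.continuousAt (hV.mem_nhds hxV)).eventually hW
        have e2 : ∀ᶠ z in 𝓝 x, g z ∈ W := by
          refine (hg.1.continuousAt (hU.mem_nhds hx)).eventually ?_
          rw [hgx]
          exact hW
        filter_upwards [e1, e2, hV.mem_nhds hxV, hU.mem_nhds hx] with z h1 h2 h3 h4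
        exact hWi h2 h1 ((hg.2 z h4).trans (hf.2 z h3).symm))
      (Φ o) V₀ f₀ hV₀ hV₀m hf₀
    exact ⟨g, hg, by rw [hg'.self_of_nhds]; exact hf₀o⟩
  have hΨc : Continuous Ψ := by
    rw [continuous_iff_continuousAt]
    intro y
    obtain ⟨U, hU, hy, hS⟩ := hΨ y
    exact hS.1.continuousAt (hU.mem_nhds hy)
  have hΦΨ : ∀ y, Φ (Ψ y) = y := by
    intro y
    obtain ⟨U, hU, hy, hS⟩ := hΨ y
    exact hS.2 y hy
  have hΨΦ : (fun x => Ψ (Φ x)) = (fun x => x) :=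
    lifts_eq hinj (hΨc.comp hΦ) continuous_id (fun x => hΦΨ (Φ x)) (y₀ := o) hΨo
  refine ⟨Y₁, Y₂, inferInstance, inferInstance, inferInstance, inferInstance, inferInstance,
    inferInstance, ly_connected A o, ly_connected A.swap o, sc₁, sc₂, Φ, Ψ, ?_, hΦΨ, ?_, ?_⟩
  · intro x
    exact congrFun hΨΦ x
  · intro x i hi
    obtain ⟨φ, -, hφ, -, h1, -⟩ := prj_loc hp₁ hpo₁ x i hi
    obtain ⟨ψ, -, hψ, -, h2, -⟩ := prj_loc (A := A.swap) hp₂ hpo₂ x i (by simpa using hi)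
    refine ⟨φ, ψ, hφ, hψ, ?_⟩
    filter_upwards [h1, h2] with y e1 e2
    exact Prod.ext e1 e2
  · intro q i hi
    obtain ⟨-, κ₁, -, h1', -, h1⟩ := prj_loc hp₁ hpo₁ (Ψ q) i hi
    obtain ⟨-, κ₂, -, h2', -, h2⟩ := prj_loc (A := A.swap) hp₂ hpo₂ (Ψ q) i (by simpa using hi)
    have hq1 : P₁ (Ψ q) = q.1 := congrArg Prod.fst (hΦΨ q)
    have hq2 : P₂ (Ψ q) = q.2 := congrArg Prod.snd (hΦΨ q)
    have hq1' : prj A hp₁ hpo₁ (Ψ q) = q.1 := hq1
    have hq2' : prj A.swap hp₂ hpo₂ (Ψ q) = q.2 := hq2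
    rw [hq1'] at h1'
    rw [hq2'] at h2'
    refine ⟨κ₁, κ₂, h1', h2', ?_⟩
    have hs : ∀ᶠ y in 𝓝 (Ψ q), y ∈ (A.ch i).source := (A.ch i).open_source.mem_nhds hi
    have e1 := hΨc.continuousAt.eventually (h1.and (h2.and hs))
    filter_upwards [e1] with q' hq'
    refine ⟨hq'.2.2, Prod.ext ?_ ?_⟩
    · have : P₁ (Ψ q') = q'.1 := congrArg Prod.fst (hΦΨ q')
      show (A.ch i (Ψ q')).1 = κ₁ q'.1
      rw [← hq'.1]
      exact congrArg κ₁ this
    · have : P₂ (Ψ q') = q'.2 := congrArg Prod.snd (hΦΨ q')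
      have h3 := hq'.2.1
      show (A.swap.ch i (Ψ q')).1 = κ₂ q'.2
      rw [← h3]
      exact congrArg κ₂ this

end Main

end Crest.Agent.R266
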