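import Mathlib
import Crest.Agent.R266.HolFlow
import Crest.Agent.R266.SCV
import Crest.Agent.R266.Defs

/-!
R266 / Frob: the holomorphic Frobenius theorem for a pair of complementary integrable
distributions given by an analytic family of projections, with product charts onto
`ball 0 1 ×ˢ ball 0 1`, and the product form of the transition maps.
-/

set_option autoImplicit false
set_option linter.unusedSectionVars false

open Set Filter Topology Metric
open scoped ContDiff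

noncomputable section

namespace Crest.Agent.R266

section Alg
variable {A : Type*} [Ring A] {p p₀ s : A}

theorem proj_alg (hp : p * p = p) (hp₀ : p₀ * p₀ = p₀)
    (hs : s = p₀ * p + (1 - p₀) * (1 - p)) (hu : IsUnit s) :
    (Ring.inverse s * p₀) * p₀ = Ring.inverse s * p₀ ∧
    p₀ * (Ring.inverse s * p₀) = p₀ ∧ p * (Ring.inverse s * p₀) = Ring.inverse s * p₀ ∧
    (Ring.inverse s * p₀) * p = p := by
  have e1 : p₀ * (1 - p₀) = 0 := by rw [mul_sub, mul_one, hp₀, sub_self]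
  have e2 : (1 - p) * p = 0 := by rw [sub_mul, one_mul, hp, sub_self]
  have h1 : p₀ * s = p₀ * p := by
    rw [hs, mul_add, ← mul_assoc, hp₀, ← mul_assoc, e1, zero_mul, add_zero]
  have h2 : s * p = p₀ * p := by
    rw [hs, add_mul, mul_assoc, hp, mul_assoc (1 - p₀), e2, mul_zero, add_zero]
  have hi1 : Ring.inverse s * s = 1 := Ring.inverse_mul_cancel _ hu
  have hi2 : s * Ring.inverse s = 1 := Ring.mul_inverse_cancel _ hu
  have h3 : Ring.inverse s * p₀ = p * Ring.inverse s := by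
    calc Ring.inverse s * p₀ = Ring.inverse s * (p₀ * s) * Ring.inverse s := by
          rw [mul_assoc, mul_assoc, hi2, mul_one]
      _ = Ring.inverse s * (s * p) * Ring.inverse s := by rw [h1, h2]
      _ = p * Ring.inverse s := by rw [← mul_assoc, hi1, one_mul]
  refine ⟨by rw [mul_assoc, hp₀], ?_, ?_, ?_⟩
  · rw [h3, ← mul_assoc, ← h1, mul_assoc, hi2, mul_one]
  · rw [← mul_assoc, ← h3, mul_assoc, hp₀]
  · rw [mul_assoc, ← h2, ← mul_assoc, hi1, one_mul]

end Alg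

section Comm
variable {E : Type*} [NormedAddCommGroup E] [NormedSpace ℂ E]
  {P W : E → E →L[ℂ] E} {P₀ : E →L[ℂ] E} {x : E}

theorem fderiv_mul_apply' {A B : E → E →L[ℂ] E} (hA : DifferentiableAt ℂ A x)
    (hB : DifferentiableAt ℂ B x) (a v : E) :
    fderiv ℂ (fun y => A y * B y) x a v = fderiv ℂ A x a (B x v) + A x (fderiv ℂ B x a v) := by
  have h := (hA.hasFDerivAt.mul' hB.hasFDerivAt).fderiv
  show fderiv ℂ (A * B) x a v = _
  rw [h]
  simp [add_comm]

theorem comm_W (hP : DifferentiableAt ℂ P x) (hW : DifferentiableAt ℂ W x)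
    (h1 : ∀ᶠ y in 𝓝 x, P₀ * W y = P₀) (h2 : ∀ᶠ y in 𝓝 x, P y * W y = W y)
    (h3 : W x * P x = P x) (h4 : W x * P₀ = W x)
    (hint : ∀ u v, P x u = u → P x v = v → fderiv ℂ P x u v = fderiv ℂ P x v u) (u v : E) :
    fderiv ℂ W x (W x u) v = fderiv ℂ W x (W x v) u := by
  have hPW : ∀ w, P x (W x w) = W x w := fun w => by
    have := congrArg (fun L : E →L[ℂ] E => L w) h2.self_of_nhds
    simpa using this
  have e2 : ∀ a w, fderiv ℂ P x a (W x w) + P x (fderiv ℂ W x a w) = fderiv ℂ W x a w := by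
    intro a w
    rw [← fderiv_mul_apply' hP hW, Filter.EventuallyEq.fderiv_eq (f := W) h2]
  have e1 : ∀ a w, P₀ (fderiv ℂ W x a w) = 0 := by
    intro a w
    have h5 := fderiv_mul_apply' (x := x) (A := fun _ => P₀) (B := W)
      (differentiableAt_const P₀) hW a w
    rw [Filter.EventuallyEq.fderiv_eq (f := fun _ => P₀) h1] at h5
    simpa using h5.symm
  have e3 : ∀ w, W x (P x w) = P x w := fun w => by
    have := congrArg (fun L : E →L[ℂ] E => L w) h3
    simpa using this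
  have e4 : ∀ w, W x (P₀ w) = W x w := fun w => by
    have := congrArg (fun L : E →L[ℂ] E => L w) h4
    simpa using this
  set Z := fderiv ℂ W x (W x u) v - fderiv ℂ W x (W x v) u with hZ
  have hi := hint (W x u) (W x v) (hPW u) (hPW v)
  have hPZ : P x Z = Z := by
    rw [hZ, map_sub]
    have a1 := e2 (W x u) v
    have a2 := e2 (W x v) u
    rw [hi] at a1
    rw [← a1, ← a2]
    simp only [map_add]
    rw [← sub_eq_zero]
    have b1 : P x (P x (fderiv ℂ W x (W x u) v)) = P x (fderiv ℂ W x (W x u) v) := by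
      rw [← e3 (fderiv ℂ W x (W x u) v), hPW]
    have b2 : P x (P x (fderiv ℂ W x (W x v) u)) = P x (fderiv ℂ W x (W x v) u) := by
      rw [← e3 (fderiv ℂ W x (W x v) u), hPW]
    rw [b1, b2]
    abel
  have hP0Z : P₀ Z = 0 := by rw [hZ, map_sub, e1, e1, sub_zero]
  have hZ0 : Z = 0 := by
    calc Z = P x Z := hPZ.symm
      _ = W x (P x Z) := (e3 Z).symm
      _ = W x Z := by rw [hPZ]
      _ = W x (P₀ Z) := (e4 Z).symm
      _ = 0 := by rw [hP0Z, map_zero]
  exact sub_eq_zero.1 hZ0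

end Comm

section Submersion
variable {E : Type*} [NormedAddCommGroup E] [NormedSpace ℂ E] [FiniteDimensional ℂ E]
  {P : E → E →L[ℂ] E} {U : Set E}

/-- The Frobenius theorem: an integrable distribution `ran P` is, near `x₀`, the kernel of the
derivative of a submersion `β` onto `ker (P x₀)`. -/
theorem frob_submersion (hU : IsOpen U) (hP : AnalyticOnNhd ℂ P U)
    (hid : ∀ x ∈ U, ∀ v, P x (P x v) = P x v)
    (hint : ∀ x ∈ U, ∀ u v, P x u = u → P x v = v → fderiv ℂ P x u v = fderiv ℂ P x v u)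
    {x₀ : E} (hx₀ : x₀ ∈ U) :
    ∃ β : E → E, AnalyticAt ℂ β x₀ ∧ β x₀ = 0 ∧ (∀ x, P x₀ (β x) = 0) ∧
      HasFDerivAt β (1 - P x₀) x₀ ∧ ∀ᶠ x in 𝓝 x₀, ∀ v, fderiv ℂ β x (P x v) = 0 := by
  have : CompleteSpace E := FiniteDimensional.complete ℂ E
  set P₀ := P x₀ with hP₀
  have hmul : ∀ x ∈ U, P x * P x = P x := fun x hx => ContinuousLinearMap.ext fun v => hid x hx v
  have hmul₀ : P₀ * P₀ = P₀ := hmul x₀ hx₀
  set S : E → E →L[ℂ] E := fun x => P₀ * P x + (1 - P₀) * (1 - P x) with hS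
  have hSan : AnalyticOnNhd ℂ S U := fun x hx => by
    have h1 := (hP x hx).contDiffAt (n := ω)
    have h2 : ContDiffAt ℂ ω S x :=
      (contDiffAt_const.mul h1).add (contDiffAt_const.mul (contDiffAt_const.sub h1))
    exact h2.analyticAt
  have hS₀ : S x₀ = 1 := by
    simp only [hS]
    rw [← hP₀, hmul₀, mul_sub, mul_one, sub_mul, one_mul, hmul₀, sub_self, sub_zero]
    abel
  set U' : Set E := U ∩ S ⁻¹' {s | IsUnit s} with hU'
  have hU'o : IsOpen U' := hSan.continuousOn.isOpen_inter_preimage hU Units.isOpen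
  have hx₀' : x₀ ∈ U' := ⟨hx₀, by simp [hS₀]⟩
  set W : E → E →L[ℂ] E := fun x => Ring.inverse (S x) * P₀ with hW
  have hWan : AnalyticOnNhd ℂ W U' := fun x hx => by
    have h1 : ContDiffAt ℂ ω (fun x => Ring.inverse (S x)) x := by
      obtain ⟨u, hu⟩ := hx.2
      have h2 : ContDiffAt ℂ ω Ring.inverse (S x) := by
        rw [← hu]
        exact contDiffAt_ringInverse ℂ u
      exact h2.comp x ((hSan x hx.1).contDiffAt (n := ω))
    exact (h1.mul contDiffAt_const).analyticAt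
  have hfacts : ∀ x ∈ U', W x * P₀ = W x ∧ P₀ * W x = P₀ ∧ P x * W x = W x ∧ W x * P x = P x :=
    fun x hx => proj_alg (hmul x hx.1) hmul₀ rfl hx.2
  have hcomm : ∀ x ∈ U', ∀ u v, fderiv ℂ W x (W x u) v = fderiv ℂ W x (W x v) u := by
    intro x hx u v
    have hnear : ∀ᶠ y in 𝓝 x, y ∈ U' := hU'o.mem_nhds hx
    refine comm_W (P₀ := P₀) (hP x hx.1).differentiableAt (hWan x hx).differentiableAt
      (hnear.mono fun y hy => (hfacts y hy).2.1) (hnear.mono fun y hy => (hfacts y hy).2.2.1)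
      (hfacts x hx).2.2.2 (hfacts x hx).1 (hint x hx.1) u v
  have hWx₀ : W x₀ = P₀ := by
    simp only [hW, hS₀, Ring.inverse_one, one_mul]
  -- the parametrisation
  have hdo : IsOpen (domW W U') := isOpen_domW hU'o hWan
  have hdiff : DifferentiableOn ℂ (PhiW W U') (domW W U') := differentiableOn_PhiW hU'o hWan
  set L : E → E × E := fun z => (P₀ z, x₀ + (1 - P₀) z) with hL
  have hLd : ∀ z, HasFDerivAt L (P₀.prod (1 - P₀)) z := fun z =>
    P₀.hasFDerivAt.prodMk ((1 - P₀ : E →L[ℂ] E).hasFDerivAt.const_add x₀)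
  set Ψ : E → E := fun z => PhiW W U' (L z) with hΨ
  have hV : IsOpen (L ⁻¹' domW W U') :=
    hdo.preimage (continuous_iff_continuousAt.2 fun z => (hLd z).continuousAt)
  have hL0 : L 0 = (0, x₀) := by simp [hL]
  have h0V : (0 : E) ∈ L ⁻¹' domW W U' := by
    rw [mem_preimage, hL0]
    exact (zero_mem_domW hU'o hWan hx₀').1
  have hΨd : DifferentiableOn ℂ Ψ (L ⁻¹' domW W U') := fun z hz =>
    ((hdiff.differentiableAt (hdo.mem_nhds hz)).comp z
      (hLd z).differentiableAt).differentiableWithinAt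
  have hΨan : AnalyticOnNhd ℂ Ψ (L ⁻¹' domW W U') :=
    SCV.analyticOnNhd_of_differentiableOn hV hΨd
  have hΨ0 : Ψ 0 = x₀ := by
    simp only [hΨ, hL0]
    exact (zero_mem_domW hU'o hWan hx₀').2
  -- derivative in the leaf directions
  have hΨs : ∀ z ∈ L ⁻¹' domW W U', ∀ σ, P₀ σ = σ → fderiv ℂ Ψ z σ = W (Ψ z) σ := by
    intro z hz σ hσ
    have h1 : HasFDerivAt (PhiW W U') (fderiv ℂ (PhiW W U') (L z)) (L z) :=
      (hdiff.differentiableAt (hdo.mem_nhds hz)).hasFDerivAt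
    have h2 : HasFDerivAt Ψ _ z := h1.comp z (hLd z)
    rw [h2.fderiv]
    have h3 := hasFDerivAt_PhiW hU'o hWan hcomm (s := (L z).1) (y := (L z).2) hz
    have h4 : HasFDerivAt (fun s => PhiW W U' (s, (L z).2))
        ((fderiv ℂ (PhiW W U') (L z)).comp (ContinuousLinearMap.inl ℂ E E)) (L z).1 :=
      HasFDerivAt.comp (L z).1 (f := fun s : E => ((s, (L z).2) : E × E)) (g := PhiW W U') h1
        (hasFDerivAt_prodMk_left (L z).1 (L z).2)
    have h5 := congrArg (fun T : E →L[ℂ] E => T σ) (h4.unique h3)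
    simp only [ContinuousLinearMap.comp_apply, ContinuousLinearMap.inl_apply] at h5
    simp only [ContinuousLinearMap.comp_apply, ContinuousLinearMap.prod_apply]
    rw [show ((1 - P₀ : E →L[ℂ] E) σ) = 0 by simp [hσ], hσ, h5]
  have hΨ0' : HasFDerivAt Ψ (1 : E →L[ℂ] E) 0 := by
    have h1 : HasFDerivAt (PhiW W U') (fderiv ℂ (PhiW W U') (0, x₀)) (0, x₀) := by
      rw [← hL0]
      exact (hdiff.differentiableAt (hdo.mem_nhds h0V)).hasFDerivAt
    have h1' : HasFDerivAt (PhiW W U') (fderiv ℂ (PhiW W U') (0, x₀)) (L 0) := by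
      rw [hL0]; exact h1
    have h2 : HasFDerivAt Ψ _ 0 := h1'.comp 0 (hLd 0)
    have h4 : HasFDerivAt (fun y => PhiW W U' (0, y))
        ((fderiv ℂ (PhiW W U') (0, x₀)).comp (ContinuousLinearMap.inr ℂ E E)) x₀ :=
      HasFDerivAt.comp x₀ (f := fun y : E => ((0, y) : E × E)) (g := PhiW W U') h1
        (hasFDerivAt_prodMk_right 0 x₀)
    have h5 : (fun y => PhiW W U' ((0 : E), y)) =ᶠ[𝓝 x₀] fun y => y := by
      filter_upwards [hU'o.mem_nhds hx₀'] with y hy
      exact (zero_mem_domW hU'o hWan hy).2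
    have h6 := (h4.congr_of_eventuallyEq h5.symm).unique (hasFDerivAt_id x₀)
    have h7 : ∀ ζ, fderiv ℂ Ψ 0 ζ = ζ := by
      intro ζ
      have h8 : ζ = P₀ ζ + (1 - P₀ : E →L[ℂ] E) ζ := by simp
      have h9 : fderiv ℂ Ψ 0 (P₀ ζ) = P₀ ζ := by
        rw [hΨs 0 h0V (P₀ ζ) (hid x₀ hx₀ ζ), hΨ0, hWx₀]
        exact hid x₀ hx₀ ζ
      have h10 : fderiv ℂ Ψ 0 ((1 - P₀ : E →L[ℂ] E) ζ) = (1 - P₀ : E →L[ℂ] E) ζ := by
        rw [h2.fderiv]
        have h11 := congrArg (fun T : E →L[ℂ] E => T ((1 - P₀ : E →L[ℂ] E) ζ)) h6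
        simp only [ContinuousLinearMap.comp_apply, ContinuousLinearMap.inr_apply] at h11
        simp only [ContinuousLinearMap.comp_apply, ContinuousLinearMap.prod_apply]
        have h12 : P₀ ((1 - P₀ : E →L[ℂ] E) ζ) = 0 := by
          simp only [sub_apply, one_apply_eq_self, map_sub]
          rw [hP₀, hid x₀ hx₀ ζ, sub_self]
        have h13 : (1 - P₀ : E →L[ℂ] E) ((1 - P₀ : E →L[ℂ] E) ζ) = (1 - P₀ : E →L[ℂ] E) ζ := by
          rw [sub_apply (1 : E →L[ℂ] E) P₀ ((1 - P₀ : E →L[ℂ] E) ζ), h12]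
          simp
        rw [h12, h13, h11]
        simp
      conv_lhs => rw [h8]
      rw [map_add, h9, h10, ← h8]
    have h14 : fderiv ℂ Ψ 0 = 1 := ContinuousLinearMap.ext h7
    rw [← h14]
    exact h2.differentiableAt.hasFDerivAt
  obtain ⟨e, he0, heV, heΨ, hean, hesan⟩ := SCV.exists_analytic_openPartialHomeomorph
    (hΨan 0 h0V) (ContinuousLinearEquiv.refl ℂ E) hΨ0' (hV.mem_nhds h0V)
  have hx₀t : x₀ ∈ e.target := by
    have := e.map_source he0
    rwa [heΨ, hΨ0] at this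
  have hsx₀ : e.symm x₀ = 0 := by
    have := e.left_inv he0
    rwa [heΨ, hΨ0] at this
  -- `β`
  have hβd : ∀ x ∈ e.target, HasFDerivAt (fun x => (1 - P₀ : E →L[ℂ] E) (e.symm x))
      ((1 - P₀ : E →L[ℂ] E).comp (fderiv ℂ e.symm x)) x := fun x hx =>
    (1 - P₀ : E →L[ℂ] E).hasFDerivAt.comp x (hesan x hx).differentiableAt.hasFDerivAt
  have hcomp : ∀ x ∈ e.target, ∀ w, fderiv ℂ e.symm x (fderiv ℂ Ψ (e.symm x) w) = w := by
    intro x hx w
    have hz : e.symm x ∈ e.source := e.map_target hx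
    have h1 : HasFDerivAt Ψ (fderiv ℂ Ψ (e.symm x)) (e.symm x) :=
      (hΨan _ (heV hz)).differentiableAt.hasFDerivAt
    have h2 : HasFDerivAt e.symm (fderiv ℂ e.symm x) (Ψ (e.symm x)) := by
      rw [← heΨ, e.right_inv hx]
      exact (hesan x hx).differentiableAt.hasFDerivAt
    have h3 := h2.comp (e.symm x) h1
    have h4 : (e.symm ∘ Ψ) =ᶠ[𝓝 (e.symm x)] id := by
      filter_upwards [e.open_source.mem_nhds hz] with y hy
      simp only [Function.comp_apply, id]
      rw [← heΨ, e.left_inv hy]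
    have h5 := (h3.congr_of_eventuallyEq h4.symm).unique (hasFDerivAt_id _)
    exact congrArg (fun T : E →L[ℂ] E => T w) h5
  refine ⟨fun x => (1 - P₀ : E →L[ℂ] E) (e.symm x), ?_, ?_, ?_, ?_, ?_⟩
  · exact ((1 - P₀ : E →L[ℂ] E).analyticAt _).comp (hesan x₀ hx₀t)
  · simp [hsx₀]
  · intro x
    simp only [sub_apply, one_apply_eq_self, map_sub]
    rw [hP₀, hid x₀ hx₀, sub_self]
  · have h1 := hβd x₀ hx₀t
    have h2 : fderiv ℂ e.symm x₀ = 1 := by
      ext w
      have := hcomp x₀ hx₀t w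
      rw [hsx₀, hΨ0'.fderiv] at this
      exact this
    rw [h2] at h1
    exact h1
  · filter_upwards [e.open_target.mem_nhds hx₀t] with x hx v
    rw [(hβd x hx).fderiv]
    have hz : e.symm x ∈ e.source := e.map_target hx
    have hzx : Ψ (e.symm x) = x := by rw [← heΨ, e.right_inv hx]
    have hxU : x ∈ U' := by
      have := PhiW_mem hU'o hWan (heV hz)
      rwa [show PhiW W U' (L (e.symm x)) = x from hzx] at this
    have h1 : P x v = fderiv ℂ Ψ (e.symm x) (P₀ (P x v)) := by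
      rw [hΨs _ (heV hz) _ (hid x₀ hx₀ _), hzx]
      have h2 := congrArg (fun T : E →L[ℂ] E => T v) (hfacts x hxU).2.2.2
      have h3 := congrArg (fun T : E →L[ℂ] E => T (P x v)) (hfacts x hxU).1
      simp only [mul_apply_eq_comp] at h2 h3
      rw [h3, h2]
    rw [ContinuousLinearMap.comp_apply, h1, hcomp x hx]
    simp only [sub_apply, one_apply_eq_self]
    rw [hP₀, hid x₀ hx₀, sub_self]

end Submersion

section Product
variable {E : Type*} [NormedAddCommGroup E] [NormedSpace ℂ E] [FiniteDimensional ℂ E]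

theorem analyticAt_const_smul' {F G : Type*} [NormedAddCommGroup F] [NormedSpace ℂ F]
    [NormedAddCommGroup G] [NormedSpace ℂ G] (c : ℂ) {f : F → G} {x : F}
    (hf : AnalyticAt ℂ f x) : AnalyticAt ℂ (fun y => c • f y) x :=
  ((c • ContinuousLinearMap.id ℂ G).analyticAt (f x)).comp hf

/-- the linear splitting `E ≃ EV n₁ × EV n₂` of a projection -/
theorem exists_linear_splitting {P₀ : E →L[ℂ] E} (hid : ∀ v, P₀ (P₀ v) = P₀ v) {n₁ n₂ : ℕ}
    (h₁ : Module.finrank ℂ (LinearMap.range (P₀ : E →ₗ[ℂ] E)) = n₁)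
    (h₂ : Module.finrank ℂ (LinearMap.ker (P₀ : E →ₗ[ℂ] E)) = n₂) :
    ∃ L : E ≃L[ℂ] EV n₁ × EV n₂, (∀ v, (L v).2 = 0 ↔ P₀ v = v) ∧ (∀ v, (L v).1 = 0 ↔ P₀ v = 0) := by
  have e₁ : LinearMap.range (P₀ : E →ₗ[ℂ] E) ≃ₗ[ℂ] EV n₁ :=
    LinearEquiv.ofFinrankEq _ _ (by rw [h₁, finrank_euclideanSpace_fin])
  have e₂ : LinearMap.ker (P₀ : E →ₗ[ℂ] E) ≃ₗ[ℂ] EV n₂ :=
    LinearEquiv.ofFinrankEq _ _ (by rw [h₂, finrank_euclideanSpace_fin])
  have hk : ∀ v, v - P₀ v ∈ LinearMap.ker (P₀ : E →ₗ[ℂ] E) := fun v => by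
    rw [LinearMap.mem_ker]
    show P₀ (v - P₀ v) = 0
    rw [map_sub, hid, sub_self]
  have hr : ∀ v, P₀ v ∈ LinearMap.range (P₀ : E →ₗ[ℂ] E) := fun v => ⟨v, rfl⟩
  have hfix : ∀ w ∈ LinearMap.range (P₀ : E →ₗ[ℂ] E), P₀ w = w := by
    rintro _ ⟨v, rfl⟩
    exact hid v
  let L₀ : E ≃ₗ[ℂ] EV n₁ × EV n₂ :=
    { toFun := fun v => (e₁ ⟨P₀ v, hr v⟩, e₂ ⟨v - P₀ v, hk v⟩)
      map_add' := fun v w => by
        rw [Prod.mk_add_mk, ← map_add, ← map_add]
        refine Prod.ext (congrArg e₁ (Subtype.ext (map_add P₀ v w))) (congrArg e₂ (Subtype.ext ?_))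
        show v + w - P₀ (v + w) = (v - P₀ v) + (w - P₀ w)
        rw [map_add]
        abel
      map_smul' := fun c v => by
        simp only [RingHom.id_apply, Prod.smul_mk, ← map_smul]
        refine Prod.ext (congrArg e₁ (Subtype.ext (map_smul P₀ c v)))
          (congrArg e₂ (Subtype.ext ?_))
        show c • v - P₀ (c • v) = c • (v - P₀ v)
        rw [map_smul, smul_sub]
      invFun := fun p => ((e₁.symm p.1 : LinearMap.range (P₀ : E →ₗ[ℂ] E)) : E)
        + ((e₂.symm p.2 : LinearMap.ker (P₀ : E →ₗ[ℂ] E)) : E)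
      left_inv := fun v => by simp
      right_inv := fun p => by
        have h1 : P₀ ((e₁.symm p.1 : LinearMap.range (P₀ : E →ₗ[ℂ] E)) : E) =
            ((e₁.symm p.1 : LinearMap.range (P₀ : E →ₗ[ℂ] E)) : E) := hfix _ (Subtype.mem _)
        have h2 : P₀ ((e₂.symm p.2 : LinearMap.ker (P₀ : E →ₗ[ℂ] E)) : E) = 0 :=
          LinearMap.mem_ker.1 (Subtype.mem (e₂.symm p.2))
        ext1
        · show e₁ ⟨P₀ (_ + _), _⟩ = p.1
          rw [← e₁.eq_symm_apply]
          apply Subtype.ext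
          show P₀ (_ + _) = _
          rw [map_add, h1, h2, add_zero]
        · show e₂ ⟨(_ + _) - P₀ (_ + _), _⟩ = p.2
          rw [← e₂.eq_symm_apply]
          apply Subtype.ext
          show (_ + _) - P₀ (_ + _) = _
          rw [map_add, h1, h2, add_zero, add_sub_cancel_left] }
  refine ⟨L₀.toContinuousLinearEquiv, fun v => ?_, fun v => ?_⟩
  · show e₂ ⟨v - P₀ v, hk v⟩ = 0 ↔ P₀ v = v
    rw [LinearEquiv.map_eq_zero_iff, Submodule.mk_eq_zero, sub_eq_zero, eq_comm]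
  · show e₁ ⟨P₀ v, hr v⟩ = 0 ↔ P₀ v = 0
    rw [LinearEquiv.map_eq_zero_iff, Submodule.mk_eq_zero]

theorem fderiv_one_sub {P : E → E →L[ℂ] E} (x u : E) :
    fderiv ℂ (fun y => 1 - P y) x u = - fderiv ℂ P x u := by
  rw [fderiv_const_sub]
  rfl

/-- The Frobenius theorem for a pair of complementary integrable distributions: product charts. -/
theorem frob_product {P : E → E →L[ℂ] E} {U : Set E} (hU : IsOpen U) (hP : AnalyticOnNhd ℂ P U)
    (hid : ∀ x ∈ U, ∀ v, P x (P x v) = P x v)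
    (hint₁ : ∀ x ∈ U, ∀ u v, P x u = u → P x v = v → fderiv ℂ P x u v = fderiv ℂ P x v u)
    (hint₂ : ∀ x ∈ U, ∀ u v, P x u = 0 → P x v = 0 → fderiv ℂ P x u v = fderiv ℂ P x v u)
    {x₀ : E} (hx₀ : x₀ ∈ U) {n₁ n₂ : ℕ}
    (h₁ : Module.finrank ℂ (LinearMap.range (P x₀ : E →ₗ[ℂ] E)) = n₁)
    (h₂ : Module.finrank ℂ (LinearMap.ker (P x₀ : E →ₗ[ℂ] E)) = n₂) :
    ∃ e : OpenPartialHomeomorph E (EV n₁ × EV n₂), x₀ ∈ e.source ∧ e.source ⊆ U ∧ e x₀ = 0 ∧
      e.target = ball (0 : EV n₁) 1 ×ˢ ball (0 : EV n₂) 1 ∧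
      AnalyticOnNhd ℂ e e.source ∧ AnalyticOnNhd ℂ e.symm e.target ∧
      ∀ x ∈ e.source, ∀ v, ((fderiv ℂ e x v).2 = 0 ↔ P x v = v) ∧
        ((fderiv ℂ e x v).1 = 0 ↔ P x v = 0) := by
  have : CompleteSpace E := FiniteDimensional.complete ℂ E
  obtain ⟨β, hβan, hβ0, hβP, hβd, hβk⟩ := frob_submersion hU hP hid hint₁ hx₀
  have hQan : AnalyticOnNhd ℂ (fun y => 1 - P y) U := fun x hx => analyticAt_const.sub (hP x hx)
  obtain ⟨α, hαan, hα0, hαP, hαd, hαk⟩ := frob_submersion (P := fun y => 1 - P y) hU hQan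
    (fun x hx v => by
      simp only [sub_apply, one_apply_eq_self, map_sub]
      rw [hid x hx]
      abel)
    (fun x hx u v hu hv => by
      rw [fderiv_one_sub, fderiv_one_sub, neg_apply, neg_apply,
        hint₂ x hx u v (by simpa [sub_eq_self] using hu) (by simpa [sub_eq_self] using hv)]) hx₀
  have hαP' : ∀ x, P x₀ (α x) = α x := fun x => by
    have := hαP x
    simp only [sub_apply, one_apply_eq_self] at this
    exact (sub_eq_zero.1 this).symm
  have hα' : HasFDerivAt α (P x₀) x₀ := by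
    have : (1 : E →L[ℂ] E) - (1 - P x₀) = P x₀ := by abel
    rwa [this] at hαd
  obtain ⟨L, hL2, hL1⟩ := exists_linear_splitting (hid x₀ hx₀) h₁ h₂
  have hLα : ∀ x, (L (α x)).2 = 0 := fun x => (hL2 _).2 (hαP' x)
  have hLβ : ∀ x, (L (β x)).1 = 0 := fun x => (hL1 _).2 (hβP x)
  set χ : E → EV n₁ × EV n₂ := fun x => L (α x + β x) with hχ
  have hχan : AnalyticAt ℂ χ x₀ :=
    ((L : E →L[ℂ] EV n₁ × EV n₂).analyticAt _).comp (hαan.add hβan)
  have hχd : HasFDerivAt χ (L : E →L[ℂ] EV n₁ × EV n₂) x₀ := by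
    have h1 : HasFDerivAt (fun x => α x + β x) (P x₀ + (1 - P x₀)) x₀ := hα'.add hβd
    have h2 : HasFDerivAt χ ((L : E →L[ℂ] EV n₁ × EV n₂).comp (P x₀ + (1 - P x₀))) x₀ :=
      (L : E →L[ℂ] EV n₁ × EV n₂).hasFDerivAt.comp x₀ h1
    have h3 : (P x₀ + (1 - P x₀)) = (1 : E →L[ℂ] E) := by abel
    rw [h3] at h2
    exact h2
  have hgood : ∀ᶠ x in 𝓝 x₀, x ∈ U ∧ DifferentiableAt ℂ α x ∧ DifferentiableAt ℂ β x ∧
      (∀ v, fderiv ℂ β x (P x v) = 0) ∧ (∀ v, fderiv ℂ α x (v - P x v) = 0) := by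
    filter_upwards [hU.mem_nhds hx₀, hαan.eventually_analyticAt, hβan.eventually_analyticAt,
      hβk, hαk] with x a b c d f
    exact ⟨a, b.differentiableAt, c.differentiableAt, d, fun v => by simpa using f v⟩
  obtain ⟨e, hxe, heU, hee, hean, hesan⟩ := SCV.exists_analytic_openPartialHomeomorph
    hχan L hχd hgood
  have heχ : (e : E → EV n₁ × EV n₂) = χ := funext hee
  have he0 : e x₀ = 0 := by
    rw [hee]
    simp [hχ, hα0, hβ0]
  -- shrinking
  have h0t : (0 : EV n₁ × EV n₂) ∈ e.target := by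
    rw [← he0]
    exact e.map_source hxe
  obtain ⟨r, hr, hrt⟩ := Metric.isOpen_iff.1 e.open_target 0 h0t
  have hbox : ball (0 : EV n₁) r ×ˢ ball (0 : EV n₂) r ⊆ e.target := by
    intro p hp
    apply hrt
    rw [mem_prod, mem_ball_zero_iff, mem_ball_zero_iff] at hp
    rw [mem_ball_zero_iff, Prod.norm_def]
    exact max_lt hp.1 hp.2
  have hboxo : IsOpen (ball (0 : EV n₁) r ×ˢ ball (0 : EV n₂) r) := isOpen_ball.prod isOpen_ball
  set e' : OpenPartialHomeomorph E (EV n₁ × EV n₂) := (e.symm.restrOpen _ hboxo).symm with he'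
  have he's : e'.source ⊆ e.source := by
    intro x hx
    exact ((e.symm.restrOpen _ hboxo).symm.map_source hx |> fun h => by
      have h2 := (e.symm.restrOpen _ hboxo).symm.left_inv hx
      have h3 : e.symm ((e.symm.restrOpen _ hboxo).symm x) = x := h2
      rw [← h3]
      exact e.map_target h.1)
  have he't : e'.target = ball (0 : EV n₁) r ×ˢ ball (0 : EV n₂) r := by
    show e.target ∩ _ = _
    exact inter_eq_right.2 hbox
  have he'f : ∀ x, e' x = e x := fun x => rfl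
  have he'x : x₀ ∈ e'.source := by
    have h1 : e x₀ ∈ ball (0 : EV n₁) r ×ˢ ball (0 : EV n₂) r := by
      rw [he0]
      exact ⟨mem_ball_self hr, mem_ball_self hr⟩
    have h2 : e x₀ ∈ e'.target := by rw [he't]; exact h1
    have h3 := e'.map_target h2
    have h4 : e'.symm (e x₀) = x₀ := e.left_inv hxe
    rwa [h4] at h3
  have hrne : r⁻¹ ≠ 0 := inv_ne_zero hr.ne'
  have hrc : ((r⁻¹ : ℝ) : ℂ) ≠ 0 := by exact_mod_cast hrne
  set hs : (EV n₁ × EV n₂) ≃ₜ (EV n₁ × EV n₂) := Homeomorph.smulOfNeZero ((r⁻¹ : ℝ) : ℂ) hrc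
    with hhs
  have hsapp : ∀ p, hs p = ((r⁻¹ : ℝ) : ℂ) • p := fun p => rfl
  have hssymm : ∀ p, hs.symm p = (((r⁻¹ : ℝ) : ℂ))⁻¹ • p := fun p => rfl
  set f := e'.transHomeomorph hs with hf
  have hfs : f.source = e'.source := rfl
  have hfapp : ∀ x, f x = ((r⁻¹ : ℝ) : ℂ) • χ x := fun x => by
    show ((r⁻¹ : ℝ) : ℂ) • e x = _
    rw [heχ]
  have hfapp' : (f : E → EV n₁ × EV n₂) = fun x => ((r⁻¹ : ℝ) : ℂ) • χ x := funext hfapp
  refine ⟨f, he'x, fun x hx => (heU (he's hx)).1, ?_, ?_, ?_, ?_, ?_⟩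
  · rw [hfapp, ← heχ, he0, smul_zero]
  · show hs.symm ⁻¹' e'.target = _
    rw [he't]
    ext p
    rw [mem_preimage, hssymm, mem_prod, mem_prod, mem_ball_zero_iff, mem_ball_zero_iff,
      mem_ball_zero_iff, mem_ball_zero_iff, Prod.smul_fst, Prod.smul_snd, norm_smul, norm_smul]
    have h1 : ‖(((r⁻¹ : ℝ) : ℂ))⁻¹‖ = r := by
      rw [norm_inv, Complex.norm_real, Real.norm_of_nonneg (inv_nonneg.2 hr.le), inv_inv]
    rw [h1]
    constructor
    · rintro ⟨a, b⟩
      exact ⟨by nlinarith, by nlinarith⟩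
    · rintro ⟨a, b⟩
      exact ⟨by nlinarith, by nlinarith⟩
  · intro x hx
    rw [hfapp', ← heχ]
    exact analyticAt_const_smul' _ (hean x (he's hx))
  · intro p hp
    have h1 : (f.symm : EV n₁ × EV n₂ → E) = fun p => e.symm ((((r⁻¹ : ℝ) : ℂ))⁻¹ • p) := rfl
    rw [h1]
    have h2 : (((r⁻¹ : ℝ) : ℂ))⁻¹ • p ∈ e.target := by
      have h3 : hs.symm p ∈ e'.target := hp
      rw [he't] at h3
      exact hbox h3
    have h3 : AnalyticAt ℂ (fun q : EV n₁ × EV n₂ => (((r⁻¹ : ℝ) : ℂ))⁻¹ • q) p :=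
      analyticAt_const_smul' _ analyticAt_id
    exact AnalyticAt.comp (g := e.symm) (f := fun q : EV n₁ × EV n₂ => (((r⁻¹ : ℝ) : ℂ))⁻¹ • q)
      (hesan _ h2) h3
  · intro x hx v
    obtain ⟨hxU, hαx, hβx, hβk', hαk'⟩ := heU (he's hx)
    have hxs : x ∈ e.source := he's hx
    have hχx : HasFDerivAt χ ((L : E →L[ℂ] EV n₁ × EV n₂).comp
        (fderiv ℂ α x + fderiv ℂ β x)) x :=
      (L : E →L[ℂ] EV n₁ × EV n₂).hasFDerivAt.comp x (hαx.hasFDerivAt.add hβx.hasFDerivAt)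
    have hfx : HasFDerivAt f (((r⁻¹ : ℝ) : ℂ) • (L : E →L[ℂ] EV n₁ × EV n₂).comp
        (fderiv ℂ α x + fderiv ℂ β x)) x := by
      rw [hfapp']
      exact hχx.const_smul ((r⁻¹ : ℝ) : ℂ)
    -- values in the right directions
    have hαv : ∀ w, (L (fderiv ℂ α x w)).2 = 0 := by
      intro w
      have h1 : HasFDerivAt (fun x => (L (α x)).2) ((ContinuousLinearMap.snd ℂ (EV n₁) (EV n₂)).comp
        ((L : E →L[ℂ] EV n₁ × EV n₂).comp (fderiv ℂ α x))) x :=
        (ContinuousLinearMap.snd ℂ (EV n₁) (EV n₂)).hasFDerivAt.comp x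
          ((L : E →L[ℂ] EV n₁ × EV n₂).hasFDerivAt.comp x hαx.hasFDerivAt)
      have h2 : HasFDerivAt (fun x => (L (α x)).2) (0 : E →L[ℂ] EV n₂) x := by
        have : (fun x => (L (α x)).2) = fun _ => 0 := funext hLα
        rw [this]
        exact hasFDerivAt_const _ _
      exact congrArg (fun T : E →L[ℂ] EV n₂ => T w) (h1.unique h2)
    have hβv : ∀ w, (L (fderiv ℂ β x w)).1 = 0 := by
      intro w
      have h1 : HasFDerivAt (fun x => (L (β x)).1) ((ContinuousLinearMap.fst ℂ (EV n₁) (EV n₂)).comp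
        ((L : E →L[ℂ] EV n₁ × EV n₂).comp (fderiv ℂ β x))) x :=
        (ContinuousLinearMap.fst ℂ (EV n₁) (EV n₂)).hasFDerivAt.comp x
          ((L : E →L[ℂ] EV n₁ × EV n₂).hasFDerivAt.comp x hβx.hasFDerivAt)
      have h2 : HasFDerivAt (fun x => (L (β x)).1) (0 : E →L[ℂ] EV n₁) x := by
        have : (fun x => (L (β x)).1) = fun _ => 0 := funext hLβ
        rw [this]
        exact hasFDerivAt_const _ _
      exact congrArg (fun T : E →L[ℂ] EV n₁ => T w) (h1.unique h2)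
    have hval : ∀ w, fderiv ℂ f x w = ((r⁻¹ : ℝ) : ℂ) • (L (fderiv ℂ α x w) +
        L (fderiv ℂ β x w)) := by
      intro w
      rw [hfx.fderiv]
      simp
    have hfst : ∀ w, (fderiv ℂ f x w).1 = ((r⁻¹ : ℝ) : ℂ) • (L (fderiv ℂ α x w)).1 := by
      intro w
      rw [hval, Prod.smul_fst, Prod.fst_add, hβv, add_zero]
    have hsnd : ∀ w, (fderiv ℂ f x w).2 = ((r⁻¹ : ℝ) : ℂ) • (L (fderiv ℂ β x w)).2 := by
      intro w
      rw [hval, Prod.smul_snd, Prod.snd_add, hαv, zero_add]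
    -- injectivity of the derivative
    have hinj : ∀ w, fderiv ℂ f x w = 0 → w = 0 := by
      intro w hw
      have h1 : HasFDerivAt e.symm (fderiv ℂ e.symm (e x)) (e x) :=
        (hesan _ (e.map_source hxs)).differentiableAt.hasFDerivAt
      have h2 : HasFDerivAt e (fderiv ℂ e x) x := (hean x hxs).differentiableAt.hasFDerivAt
      have h3 := h1.comp x h2
      have h4 : (e.symm ∘ e) =ᶠ[𝓝 x] id := by
        filter_upwards [e.open_source.mem_nhds hxs] with y hy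
        exact e.left_inv hy
      have h5 := congrArg (fun T : E →L[ℂ] E => T w)
        ((h3.congr_of_eventuallyEq h4.symm).unique (hasFDerivAt_id _))
      have h6 : fderiv ℂ f x = ((r⁻¹ : ℝ) : ℂ) • fderiv ℂ e x := by
        rw [hfx.fderiv, heχ, hχx.fderiv]
      rw [h6, smul_apply, smul_eq_zero] at hw
      have hw' := hw.resolve_left hrc
      simp only [ContinuousLinearMap.comp_apply, hw', map_zero] at h5
      exact h5.symm
    have hdec : v = P x v + (v - P x v) := by abel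
    have hPv2 : (fderiv ℂ f x (P x v)).2 = 0 := by rw [hsnd, hβk']; simp
    have hQv1 : (fderiv ℂ f x (v - P x v)).1 = 0 := by rw [hfst, hαk']; simp
    have hsum : fderiv ℂ f x v = fderiv ℂ f x (P x v) + fderiv ℂ f x (v - P x v) := by
      rw [← map_add, ← hdec]
    refine ⟨⟨fun h => ?_, fun h => ?_⟩, ⟨fun h => ?_, fun h => ?_⟩⟩
    · rw [hsum, Prod.snd_add, hPv2, zero_add] at h
      have := hinj _ (Prod.ext hQv1 h)
      exact (sub_eq_zero.1 this).symm
    · rw [← h, hPv2]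
    · rw [hsum, Prod.fst_add, hQv1, add_zero] at h
      exact hinj _ (Prod.ext h hPv2)
    · have h1 := hQv1
      rwa [h, sub_zero] at h1

/-- Transition maps between product charts are locally products. -/
theorem frob_transition {P : E → E →L[ℂ] E} {n₁ n₂ : ℕ}
    {e e' : OpenPartialHomeomorph E (EV n₁ × EV n₂)}
    (hs : AnalyticOnNhd ℂ e e.source) (hs' : AnalyticOnNhd ℂ e' e'.source)
    (ht : AnalyticOnNhd ℂ e.symm e.target)
    (h : ∀ x ∈ e.source, ∀ v, ((fderiv ℂ e x v).2 = 0 ↔ P x v = v) ∧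
        ((fderiv ℂ e x v).1 = 0 ↔ P x v = 0))
    (h' : ∀ x ∈ e'.source, ∀ v, ((fderiv ℂ e' x v).2 = 0 ↔ P x v = v) ∧
        ((fderiv ℂ e' x v).1 = 0 ↔ P x v = 0))
    {x : E} (hx : x ∈ e.source) (hx' : x ∈ e'.source) :
    ∃ (φ : EV n₁ → EV n₁) (ψ : EV n₂ → EV n₂), AnalyticAt ℂ φ (e x).1 ∧
      AnalyticAt ℂ ψ (e x).2 ∧ ∀ᶠ p in 𝓝 (e x), e' (e.symm p) = (φ p.1, ψ p.2) := by
  have : CompleteSpace E := FiniteDimensional.complete ℂ E
  set V : Set (EV n₁ × EV n₂) := e.target ∩ e.symm ⁻¹' e'.source with hV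
  have hVo : IsOpen V := e.symm.isOpen_inter_preimage e'.open_source
  have hpV : e x ∈ V := ⟨e.map_source hx, by rw [mem_preimage, e.left_inv hx]; exact hx'⟩
  set T : EV n₁ × EV n₂ → EV n₁ × EV n₂ := fun p => e' (e.symm p) with hT
  have hTan : AnalyticOnNhd ℂ T V := fun p hp =>
    AnalyticAt.comp (g := e') (f := e.symm) (hs' _ hp.2) (ht p hp.1)
  have hTd : ∀ p ∈ V, ∀ w, fderiv ℂ T p w = fderiv ℂ e' (e.symm p) (fderiv ℂ e.symm p w) := by
    intro p hp w
    have h1 : HasFDerivAt T _ p := HasFDerivAt.comp p (g := e') (f := e.symm)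
      (hs' _ hp.2).differentiableAt.hasFDerivAt (ht p hp.1).differentiableAt.hasFDerivAt
    rw [h1.fderiv]
    rfl
  have hinv : ∀ p ∈ V, ∀ w, fderiv ℂ e (e.symm p) (fderiv ℂ e.symm p w) = w := by
    intro p hp w
    have h1 : HasFDerivAt (e ∘ e.symm) _ p := HasFDerivAt.comp p (g := e) (f := e.symm)
      (hs _ (e.map_target hp.1)).differentiableAt.hasFDerivAt
      (ht p hp.1).differentiableAt.hasFDerivAt
    have h2 : (e ∘ e.symm) =ᶠ[𝓝 p] id := by
      filter_upwards [e.open_target.mem_nhds hp.1] with y hy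
      exact e.right_inv hy
    exact congrArg (fun L : (EV n₁ × EV n₂) →L[ℂ] (EV n₁ × EV n₂) => L w)
      ((h1.congr_of_eventuallyEq h2.symm).unique (hasFDerivAt_id _))
  have hT2 : ∀ p ∈ V, ∀ a : EV n₁, (fderiv ℂ T p (a, 0)).2 = 0 := by
    intro p hp a
    rw [hTd p hp]
    have h1 := hinv p hp (a, 0)
    have h2 := ((h _ (e.map_target hp.1) (fderiv ℂ e.symm p (a, 0))).1).1 (by rw [h1])
    exact ((h' _ hp.2 _).1).2 h2
  have hT1 : ∀ p ∈ V, ∀ b : EV n₂, (fderiv ℂ T p (0, b)).1 = 0 := by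
    intro p hp b
    rw [hTd p hp]
    have h1 := hinv p hp (0, b)
    have h2 := ((h _ (e.map_target hp.1) (fderiv ℂ e.symm p (0, b))).2).1 (by rw [h1])
    exact ((h' _ hp.2 _).2).2 h2
  obtain ⟨r, hr, hrV⟩ := Metric.isOpen_iff.1 hVo _ hpV
  have hbox : ∀ p : EV n₁ × EV n₂, p.1 ∈ ball (e x).1 r → p.2 ∈ ball (e x).2 r → p ∈ V := by
    intro p h1 h2
    apply hrV
    rw [mem_ball, Prod.dist_eq]
    exact max_lt h1 h2
  have hc1 : (e x).1 ∈ ball (e x).1 r := mem_ball_self hr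
  have hc2 : (e x).2 ∈ ball (e x).2 r := mem_ball_self hr
  refine ⟨fun a => (T (a, (e x).2)).1, fun b => (T ((e x).1, b)).2, ?_, ?_, ?_⟩
  · have h1 : AnalyticAt ℂ (fun a : EV n₁ => ((a, (e x).2) : EV n₁ × EV n₂)) (e x).1 :=
      analyticAt_id.prod analyticAt_const
    have h2 : AnalyticAt ℂ (fun a : EV n₁ => T (a, (e x).2)) (e x).1 :=
      AnalyticAt.comp (g := T) (f := fun a : EV n₁ => ((a, (e x).2) : EV n₁ × EV n₂))
        (hTan _ hpV) h1
    exact ((ContinuousLinearMap.fst ℂ (EV n₁) (EV n₂)).analyticAt _).comp h2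
  · have h1 : AnalyticAt ℂ (fun b : EV n₂ => (((e x).1, b) : EV n₁ × EV n₂)) (e x).2 :=
      analyticAt_const.prod analyticAt_id
    have h2 : AnalyticAt ℂ (fun b : EV n₂ => T ((e x).1, b)) (e x).2 :=
      AnalyticAt.comp (g := T) (f := fun b : EV n₂ => (((e x).1, b) : EV n₁ × EV n₂))
        (hTan _ hpV) h1
    exact ((ContinuousLinearMap.snd ℂ (EV n₁) (EV n₂)).analyticAt _).comp h2
  · have hbn : ball (e x).1 r ×ˢ ball (e x).2 r ∈ 𝓝 (e x) :=
      prod_mem_nhds (ball_mem_nhds _ hr) (ball_mem_nhds _ hr)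
    filter_upwards [hbn] with p hp
    refine Prod.ext ?_ ?_
    · -- first component does not depend on `p.2`
      have hd : ∀ b ∈ ball (e x).2 r, HasFDerivAt (fun b => (T (p.1, b)).1)
          (0 : EV n₂ →L[ℂ] EV n₁) b := by
        intro b hb
        have hm := hbox (p.1, b) hp.1 hb
        have h1 : HasFDerivAt T (fderiv ℂ T (p.1, b)) (p.1, b) :=
          (hTan _ hm).differentiableAt.hasFDerivAt
        have h2 : HasFDerivAt (fun b => T (p.1, b)) _ b :=
          HasFDerivAt.comp b (f := fun b : EV n₂ => ((p.1, b) : EV n₁ × EV n₂)) (g := T) h1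
            (hasFDerivAt_prodMk_right p.1 b)
        have h3 := h2.fst
        refine h3.congr_fderiv ?_
        ext1 v
        exact hT1 _ hm v
      exact isOpen_ball.is_const_of_fderiv_eq_zero (convex_ball _ _).isPreconnected
        (fun b hb => (hd b hb).differentiableAt.differentiableWithinAt)
        (fun b hb => (hd b hb).fderiv) hp.2 hc2
    · have hd : ∀ a ∈ ball (e x).1 r, HasFDerivAt (fun a => (T (a, p.2)).2)
          (0 : EV n₁ →L[ℂ] EV n₂) a := by
        intro a ha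
        have hm := hbox (a, p.2) ha hp.2
        have h1 : HasFDerivAt T (fderiv ℂ T (a, p.2)) (a, p.2) :=
          (hTan _ hm).differentiableAt.hasFDerivAt
        have h2 : HasFDerivAt (fun a => T (a, p.2)) _ a :=
          HasFDerivAt.comp a (f := fun a : EV n₁ => ((a, p.2) : EV n₁ × EV n₂)) (g := T) h1
            (hasFDerivAt_prodMk_left a p.2)
        have h3 := h2.snd
        refine h3.congr_fderiv ?_
        ext1 v
        exact hT2 _ hm v
      exact isOpen_ball.is_const_of_fderiv_eq_zero (convex_ball _ _).isPreconnected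
        (fun a ha => (hd a ha).differentiableAt.differentiableWithinAt)
        (fun a ha => (hd a ha).fderiv) hp.1 hc1

end Product

end Crest.Agent.R266
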