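import Crest.Agent.R266.GlueCharts
import Crest.Agent.R266.Chart4
import Crest.Agent.R266.Frob

/-!
Row 266, S0405 glue, nodes G4/G5 (helper260), part 2: existence of adapted product charts from the
local Frobenius theorem, and the (finite) product-foliated atlas of a compact manifold.
-/

set_option autoImplicit false

open Set Function Filter Metric
open scoped Manifold ContDiff Topology
open Crest.AlgGeometry.HolSplit

namespace Crest.Agent.R266

noncomputable section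

/-- FROBENIUS (product form) in `ℂⁿ`, node G3. -/
def St_frob (n : ℕ) : Prop :=
  ∀ (U : Set (Model n)) (P : Model n → Model n →L[ℂ] Model n) (x₀ : Model n), IsOpen U →
    AnalyticOnNhd ℂ P U → (∀ x ∈ U, ∀ v, P x (P x v) = P x v) → (∀ x ∈ U, T1 P x) →
    (∀ x ∈ U, T2 P x) → x₀ ∈ U →
    ∃ (n₁ n₂ : ℕ) (χ : OpenPartialHomeomorph (Model n) (EV n₁ × EV n₂)), x₀ ∈ χ.source ∧
      χ x₀ = 0 ∧ χ.target = ball (0 : EV n₁) 1 ×ˢ ball (0 : EV n₂) 1 ∧ χ.source ⊆ U ∧
      AnalyticOnNhd ℂ χ χ.source ∧ AnalyticOnNhd ℂ χ.symm χ.target ∧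
      ∀ x ∈ χ.source, ∀ v, ((fderiv ℂ χ x v).2 = 0 ↔ P x v = v) ∧
        ((fderiv ℂ χ x v).1 = 0 ↔ P x v = 0)

theorem st_frob (n : ℕ) : St_frob n := by
  intro U P x₀ hU hP hid h1 h2 hx₀
  obtain ⟨e, k1, k2, k3, k4, k5, k6, k7⟩ := frob_product (n₁ := _) (n₂ := _) hU hP hid
    (fun x hx => h1 x hx) (fun x hx => h2 x hx) hx₀ rfl rfl
  exact ⟨_, _, e, k1, k3, k4, k2, k5, k6, k7⟩

variable {n n₁ n₂ : ℕ} {X : Type} [TopologicalSpace X] [ChartedSpace (Model n) X]
  [IsManifold (mI n) ω X]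

/-- composition of a preferred chart and a local product chart in `ℂⁿ` -/
lemma rchart_of_local (S : Splitting n X) (x₀ : X)
    (χ : OpenPartialHomeomorph (Model n) (EV n₁ × EV n₂))
    (hU : χ.source ⊆ (chartAt (Model n) x₀).target)
    (ha : AnalyticOnNhd ℂ χ χ.source) (hs : AnalyticOnNhd ℂ χ.symm χ.target)
    (ht : ∀ x ∈ χ.source, ∀ v, (Pc S x₀ x v = v → (fderiv ℂ χ x v).2 = 0) ∧
        (Pc S x₀ x v = 0 → (fderiv ℂ χ x v).1 = 0)) :
    RChart (pr S) ((chartAt (Model n) x₀).trans χ) := by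
  have hsrc : ((chartAt (Model n) x₀).trans χ).source =
      (chartAt (Model n) x₀).source ∩ (chartAt (Model n) x₀) ⁻¹' χ.source := rfl
  have htgt : ((chartAt (Model n) x₀).trans χ).target ⊆ χ.target := by
    rw [OpenPartialHomeomorph.trans_target]; exact inter_subset_left
  have hdf : ∀ x ∈ ((chartAt (Model n) x₀).trans χ).source, ∀ v : Model n,
      dch ((chartAt (Model n) x₀).trans χ) x v =
        fderiv ℂ χ (chartAt (Model n) x₀ x) (tcc x x₀ x v) := by
    intro x hx v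
    have h1 := mfderiv_comp (I := mI n) (I' := 𝓘(ℂ, Model n)) (I'' := 𝓘(ℂ, EV n₁ × EV n₂)) x
      (g := χ) (f := chartAt (Model n) x₀)
      ((ha _ hx.2).differentiableAt.mdifferentiableAt) (mdifferentiableAt_chart hx.1)
    have h2 : dch ((chartAt (Model n) x₀).trans χ) x v =
        mfderiv 𝓘(ℂ, Model n) 𝓘(ℂ, EV n₁ × EV n₂) χ (chartAt (Model n) x₀ x)
          (mfderiv (mI n) 𝓘(ℂ, Model n) (chartAt (Model n) x₀) x v) :=
      congrArg (fun L : Model n →L[ℂ] (EV n₁ × EV n₂) => L v) h1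
    rw [h2]
    have h3 : (mfderiv (mI n) 𝓘(ℂ, Model n) (chartAt (Model n) x₀) x v : Model n) =
        tcc x x₀ x v := congrArg (fun L : Model n →L[ℂ] Model n => L v) (mfderiv_chart hx.1)
    have h4 : (mfderiv 𝓘(ℂ, Model n) 𝓘(ℂ, EV n₁ × EV n₂) χ (chartAt (Model n) x₀ x)
        : Model n →L[ℂ] (EV n₁ × EV n₂)) = fderiv ℂ χ (chartAt (Model n) x₀ x) := mfderiv_eq_fderiv
    refine (congrArg (mfderiv 𝓘(ℂ, Model n) 𝓘(ℂ, EV n₁ × EV n₂) χ (chartAt (Model n) x₀ x)
        : Model n →L[ℂ] (EV n₁ × EV n₂)) h3).trans ?_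
    exact congrArg (fun L : Model n →L[ℂ] (EV n₁ × EV n₂) => L (tcc x x₀ x v)) h4
  refine ⟨?_, ?_, ?_, ?_⟩
  · have h1 : ContMDiffOn 𝓘(ℂ, Model n) 𝓘(ℂ, EV n₁ × EV n₂) ω χ χ.source :=
      contMDiffOn_iff_contDiffOn.2 (fun x hx => (ha x hx).contDiffAt.contDiffWithinAt)
    exact h1.comp ((contMDiffOn_chart (I := mI n) (n := ω) (x := x₀)).mono inter_subset_left)
      (fun x hx => hx.2)
  · have h1 : ContMDiffOn 𝓘(ℂ, EV n₁ × EV n₂) 𝓘(ℂ, Model n) ω χ.symm
        ((chartAt (Model n) x₀).trans χ).target :=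
      contMDiffOn_iff_contDiffOn.2 (fun x hx => (hs x (htgt hx)).contDiffAt.contDiffWithinAt)
    exact (contMDiffOn_chart_symm (I := mI n) (n := ω) (x := x₀)).comp h1
      (fun p hp => hU (χ.map_target (htgt hp)))
  · intro x hx v hv
    rw [hdf x hx]
    refine (ht _ hx.2 _).1 ?_
    exact (proj_eq_iff S hx.1 v).2 hv
  · intro x hx v hv
    rw [hdf x hx]
    refine (ht _ hx.2 _).2 ?_
    exact (proj_zero_iff S hx.1 v).2 hv

lemma ball_sub_iso {χ : OpenPartialHomeomorph (Model n) (EV n₁ × EV n₂)} {x : Model n}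
    (hx : x ∈ χ.source) (ha : AnalyticOnNhd ℂ χ χ.source) (hs : AnalyticOnNhd ℂ χ.symm χ.target) :
    (∀ v, fderiv ℂ χ.symm (χ x) (fderiv ℂ χ x v) = v) ∧
      (∀ w, fderiv ℂ χ x (fderiv ℂ χ.symm (χ x) w) = w) := by
  have h1 : HasFDerivAt χ (fderiv ℂ χ x) x := (ha x hx).differentiableAt.hasFDerivAt
  have h2 : HasFDerivAt χ.symm (fderiv ℂ χ.symm (χ x)) (χ x) :=
    (hs _ (χ.map_source hx)).differentiableAt.hasFDerivAt
  constructor
  · intro v
    have h3 := h2.comp x h1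
    have h4 : HasFDerivAt (χ.symm ∘ χ) (ContinuousLinearMap.id ℂ (Model n)) x :=
      (hasFDerivAt_id x).congr_of_eventuallyEq (by
        filter_upwards [χ.open_source.mem_nhds hx] with y hy using χ.left_inv hy)
    exact congrArg (fun L : Model n →L[ℂ] Model n => L v) (h3.unique h4)
  · intro w
    have h1' : HasFDerivAt χ (fderiv ℂ χ x) (χ.symm (χ x)) := by rwa [χ.left_inv hx]
    have h3 := h1'.comp (χ x) h2
    have h4 : HasFDerivAt (χ ∘ χ.symm) (ContinuousLinearMap.id ℂ (EV n₁ × EV n₂)) (χ x) :=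
      (hasFDerivAt_id (χ x)).congr_of_eventuallyEq (by
        filter_upwards [χ.open_target.mem_nhds (χ.map_source hx)] with y hy using χ.right_inv hy)
    exact congrArg (fun L : (EV n₁ × EV n₂) →L[ℂ] (EV n₁ × EV n₂) => L w) (h3.unique h4)

/-- G4a: adapted product charts exist around every point -/
theorem exists_rchart (S : Splitting n X) (h₁ : S.FirstIntegrable)
    (h₂ : S.SecondIntegrable) (x₀ : X) :
    ∃ c : OpenPartialHomeomorph X (EV (rk S x₀) × EV (n - rk S x₀)), x₀ ∈ c.source ∧ c x₀ = 0 ∧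
      c.target = ball (0 : EV (rk S x₀)) 1 ×ˢ ball (0 : EV (n - rk S x₀)) 1 ∧
      RChart (pr S) c := by
  set κ := chartAt (Model n) x₀ with hκ
  have hx₀ : x₀ ∈ κ.source := mem_chart_source _ x₀
  obtain ⟨m₁, m₂, χ, hx, h0, htg, hsub, ha, hs, ht⟩ := st_frob n κ.target (Pc S x₀) (κ x₀)
    κ.open_target (Pc_analyticOnNhd S x₀) (fun x hx v => Pc_idem S hx v)
    (fun x hx => (firstIntegrable_iff S).1 h₁ x₀ x hx)
    (fun x hx => (secondIntegrable_iff S).1 h₂ x₀ x hx) (κ.map_source hx₀)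
  have hR := rchart_of_local S x₀ χ hsub ha hs
    (fun _ hx v => ⟨((ht _ hx v).1).2, ((ht _ hx v).2).2⟩)
  -- the ranks
  obtain ⟨i1, i2⟩ := ball_sub_iso hx ha hs
  set D := fderiv ℂ χ (κ x₀) with hD
  let e : Model n ≃ₗ[ℂ] EV m₁ × EV m₂ := LinearEquiv.ofLinearMap D.toLinearMap
    (fderiv ℂ χ.symm (χ (κ x₀))).toLinearMap (LinearMap.ext fun w => i2 w)
    (LinearMap.ext fun v => i1 v)
  have he : ∀ v, e v = D v := fun v => rfl
  have hn : m₁ + m₂ = n := by
    have := e.finrank_eq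
    rw [Module.finrank_prod, finrank_euclideanSpace_fin, finrank_euclideanSpace_fin,
      finrank_euclideanSpace_fin] at this
    exact this.symm
  have hr : rk S x₀ = m₁ := by
    rw [← finrank_range_Pc S hx₀]
    have hP := Pc_idem S (κ.map_source hx₀)
    have h3 : LinearMap.range (Pc S x₀ (κ x₀)).toLinearMap =
        Submodule.comap e.toLinearMap (LinearMap.ker (LinearMap.snd ℂ (EV m₁) (EV m₂))) := by
      ext v
      simp only [Submodule.mem_comap, LinearMap.mem_ker, LinearMap.snd_apply, LinearMap.mem_range]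
      constructor
      · rintro ⟨w, rfl⟩
        exact ((ht _ hx _).1).2 (hP w)
      · intro hv
        exact ⟨v, ((ht _ hx _).1).1 hv⟩
    rw [h3]
    have h4 : Submodule.comap e.toLinearMap (LinearMap.ker (LinearMap.snd ℂ (EV m₁) (EV m₂))) =
        Submodule.map e.symm.toLinearMap (LinearMap.ker (LinearMap.snd ℂ (EV m₁) (EV m₂))) :=
      Submodule.comap_equiv_eq_map_symm _ _
    rw [h4, LinearEquiv.finrank_map_eq, LinearMap.ker_snd,
      LinearMap.finrank_range_of_inj LinearMap.inl_injective, finrank_euclideanSpace_fin]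
  subst hr
  have hm₂ : n - rk S x₀ = m₂ := by omega
  subst hm₂
  refine ⟨κ.trans χ, ⟨hx₀, hx⟩, h0, ?_, hR⟩
  rw [OpenPartialHomeomorph.trans_target, htg]
  refine inter_eq_left.2 ?_
  intro p hp
  rw [← htg] at hp
  exact hsub (χ.map_target hp)

/-- G4b: a family of adapted product charts is a product-foliated atlas -/
def PFol.ofCharts {q : X → Model n →L[ℂ] Model n} (hq : ∀ x v, q x (q x v) = q x v) {J : Type}
    (c : J → OpenPartialHomeomorph X (EV n₁ × EV n₂)) (hc : ∀ j, RChart q (c j))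
    (htg : ∀ j, (c j).target = ball (0 : EV n₁) 1 ×ˢ ball (0 : EV n₂) 1)
    (hcov : ∀ x, ∃ j, x ∈ (c j).source ∧
      c j x ∈ ball (0 : EV n₁) (1 / 2) ×ˢ ball (0 : EV n₂) (1 / 2)) : PFol n₁ n₂ X where
  ι := J
  ch := c
  target_eq := htg
  cover := hcov
  compat i j x hx := (hc i).compat (hc j) hq hx.1 hx.2

/-- the charts of `A` are adapted to the field of projectors `q` and holomorphic -/
def AdaptedTo (q : X → Model n →L[ℂ] Model n) (A : PFol n₁ n₂ X) : Prop :=
  ∀ i, RChart q (A.ch i)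

/-- G4 + G5: on a compact connected manifold with an integrable splitting there is a finite
product-foliated atlas of adapted charts. -/
theorem exists_pfol [CompactSpace X] [ConnectedSpace X] (S : Splitting n X)
    (h₁ : S.FirstIntegrable) (h₂ : S.SecondIntegrable) :
    ∃ (n₁ n₂ : ℕ) (A : PFol n₁ n₂ X), 0 < n₁ ∧ 0 < n₂ ∧ n₁ + n₂ = n ∧ Finite A.ι ∧
      AdaptedTo (pr S) A := by
  obtain ⟨o⟩ := (inferInstance : Nonempty X)
  have key : ∀ x : X, ∃ c : OpenPartialHomeomorph X (EV (rk S o) × EV (n - rk S o)),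
      x ∈ c.source ∧ c x = 0 ∧
      c.target = ball (0 : EV (rk S o)) 1 ×ˢ ball (0 : EV (n - rk S o)) 1 ∧ RChart (pr S) c := by
    intro x
    have := exists_rchart S h₁ h₂ x
    rw [rk_const S x o] at this
    exact this
  choose c hc using key
  have hopen : ∀ x, IsOpen ((c x).source ∩ (c x) ⁻¹'
      (ball (0 : EV (rk S o)) (1 / 2) ×ˢ ball (0 : EV (n - rk S o)) (1 / 2))) :=
    fun x => (c x).isOpen_inter_preimage (isOpen_ball.prod isOpen_ball)
  obtain ⟨t, ht⟩ := isCompact_univ.elim_finite_subcover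
    (fun x => (c x).source ∩ (c x) ⁻¹'
      (ball (0 : EV (rk S o)) (1 / 2) ×ˢ ball (0 : EV (n - rk S o)) (1 / 2))) hopen (by
      intro x _
      refine mem_iUnion.2 ⟨x, (hc x).1, ?_⟩
      rw [mem_preimage, (hc x).2.1]
      exact ⟨mem_ball_self (by norm_num), mem_ball_self (by norm_num)⟩)
  refine ⟨rk S o, n - rk S o, PFol.ofCharts (pr_idem S) (J := t) (fun j => c j)
    (fun j => (hc j).2.2.2) (fun j => (hc j).2.2.1) ?_, rk_pos S o, ?_, ?_, ?_, ?_⟩
  · intro x
    have := ht (mem_univ x)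
    simp only [mem_iUnion] at this
    obtain ⟨y, hy, hxy⟩ := this
    exact ⟨⟨y, hy⟩, hxy.1, hxy.2⟩
  · have := rk_lt S o; omega
  · have := rk_lt S o; omega
  · exact (inferInstance : Finite t)
  · exact fun j : t => (hc j).2.2.2

end

end Crest.Agent.R266
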