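import Crest.Agent.R266.Stmts
import Crest.Agent.R266.ClosedPull
import Crest.Prelude.Def_TangentSplitting

/-!
R266 / KahlerToKMet (node G6): a Kähler metric in the sense of the prelude gives a `KMet` on every
product-foliated atlas whose charts are biholomorphic.
-/

set_option autoImplicit false

open scoped Manifold ContDiff Topology
open Set Metric Filter
open Crest.AlgGeometry.HolSplit

namespace Crest.Agent.R266

namespace G6

section
variable {n n₁ n₂ : ℕ} {X : Type} [TopologicalSpace X] [ChartedSpace (Model n) X]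
  [IsManifold (mI n) ω X]

/-- pullback of a real bilinear form by a complex linear map -/
noncomputable def pb {E F : Type*} [NormedAddCommGroup E] [NormedSpace ℂ E]
    [NormedAddCommGroup F] [NormedSpace ℂ F] (B : F →L[ℝ] F →L[ℝ] ℝ) (D : E →L[ℂ] F) :
    E →L[ℝ] E →L[ℝ] ℝ :=
  ((B.comp (D.restrictScalars ℝ)).flip.comp (D.restrictScalars ℝ)).flip

@[simp] lemma pb_apply {E F : Type*} [NormedAddCommGroup E] [NormedSpace ℂ E]
    [NormedAddCommGroup F] [NormedSpace ℂ F] (B : F →L[ℝ] F →L[ℝ] ℝ) (D : E →L[ℂ] F) (u v : E) :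
    pb B D u v = B (D u) (D v) := rfl

/-- the differential of the inverse of a chart -/
noncomputable def dsy (e : OpenPartialHomeomorph X (EV n₁ × EV n₂)) (p : EV n₁ × EV n₂) :
    (EV n₁ × EV n₂) →L[ℂ] Model n :=
  mfderiv 𝓘(ℂ, EV n₁ × EV n₂) (mI n) e.symm p

/-- the coefficients of the metric in an arbitrary chart -/
noncomputable def kform (K : KahlerMetric n X) (e : OpenPartialHomeomorph X (EV n₁ × EV n₂))
    (p : EV n₁ × EV n₂) : (EV n₁ × EV n₂) →L[ℝ] (EV n₁ × EV n₂) →L[ℝ] ℝ :=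
  pb (K.g (e.symm p)) (dsy e p)

/-- coefficients in a preferred chart -/
noncomputable def coeff (K : KahlerMetric n X) (x : X) (y : Model n) :
    Model n →L[ℝ] Model n →L[ℝ] ℝ :=
  pullbackForm (K.g ((chartAt (Model n) x).symm y))
      ((mfderiv 𝓘(ℂ, Model n) (mI n) (chartAt (Model n) x).symm y :
        Model n →L[ℂ] Model n).restrictScalars ℝ)

lemma coeff_apply (K : KahlerMetric n X) (x : X) (y : Model n) (u v : Model n) :
    coeff K x y u v = K.g ((chartAt (Model n) x).symm y)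
      ((mfderiv 𝓘(ℂ, Model n) (mI n) (chartAt (Model n) x).symm y : Model n →L[ℂ] Model n) u)
      ((mfderiv 𝓘(ℂ, Model n) (mI n) (chartAt (Model n) x).symm y : Model n →L[ℂ] Model n) v) := rfl

/-- the chart change from `e` to the preferred chart at `e.symm p₀` is analytic and the coefficient
form in `e` is the pullback of the coefficient form in the preferred chart -/
lemma kform_local (K : KahlerMetric n X) (e : OpenPartialHomeomorph X (EV n₁ × EV n₂))
    (he : ContMDiffOn 𝓘(ℂ, EV n₁ × EV n₂) (mI n) ω e.symm e.target) (p₀ : EV n₁ × EV n₂)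
    (hp₀ : p₀ ∈ e.target) :
    AnalyticAt ℂ (fun p => chartAt (Model n) (e.symm p₀) (e.symm p)) p₀ ∧
    ∀ᶠ p in 𝓝 p₀, kform K e p =
      pb (coeff K (e.symm p₀) (chartAt (Model n) (e.symm p₀) (e.symm p)))
        (fderiv ℂ (fun p => chartAt (Model n) (e.symm p₀) (e.symm p)) p) := by
  set x₀ := e.symm p₀ with hx₀
  set c := chartAt (Model n) x₀ with hc
  have hs : ∀ p ∈ e.target, ContMDiffAt 𝓘(ℂ, EV n₁ × EV n₂) (mI n) ω e.symm p := fun p hp =>
    (he p hp).contMDiffAt (e.open_target.mem_nhds hp)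
  -- the good neighbourhood
  have hU : ∀ᶠ p in 𝓝 p₀, p ∈ e.target ∧ e.symm p ∈ c.source := by
    have h1 : ∀ᶠ p in 𝓝 p₀, p ∈ e.target := e.open_target.mem_nhds hp₀
    have h2 : ∀ᶠ p in 𝓝 p₀, e.symm p ∈ c.source :=
      (hs p₀ hp₀).continuousAt (c.open_source.mem_nhds (mem_chart_source _ x₀))
    exact h1.and h2
  have hf : ∀ p, p ∈ e.target → e.symm p ∈ c.source →
      ContMDiffAt 𝓘(ℂ, EV n₁ × EV n₂) (mI n) ω (fun p => c (e.symm p)) p := by
    intro p hp hp'
    have h1 : ContMDiffAt (mI n) (mI n) ω c (e.symm p) :=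
      (contMDiffOn_chart (I := mI n) (n := ω) (x := x₀) _ hp').contMDiffAt
        (c.open_source.mem_nhds hp')
    exact h1.comp p (hs p hp)
  have han : AnalyticAt ℂ (fun p => c (e.symm p)) p₀ := by
    have h1 := hf p₀ hp₀ (mem_chart_source _ x₀)
    have h2 : ContDiffAt ℂ ω (fun p => c (e.symm p)) p₀ := h1.contDiffAt
    exact h2.analyticAt
  refine ⟨han, ?_⟩
  filter_upwards [hU.eventually_nhds] with p hp
  have hpp := hp.self_of_nhds
  -- chain rule
  have hcs : ContMDiffAt 𝓘(ℂ, Model n) (mI n) ω c.symm (c (e.symm p)) :=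
    (contMDiffOn_chart_symm (I := mI n) (n := ω) (x := x₀) _ (c.map_source hpp.2)).contMDiffAt
        (c.open_target.mem_nhds (c.map_source hpp.2))
  have hfp := hf p hpp.1 hpp.2
  have hcomp : mfderiv 𝓘(ℂ, EV n₁ × EV n₂) (mI n) (c.symm ∘ (fun p => c (e.symm p))) p =
      (mfderiv 𝓘(ℂ, Model n) (mI n) c.symm (c (e.symm p))).comp
        (mfderiv 𝓘(ℂ, EV n₁ × EV n₂) 𝓘(ℂ, Model n) (fun p => c (e.symm p)) p) :=
    mfderiv_comp p (hcs.mdifferentiableAt (by simp)) (hfp.mdifferentiableAt (by simp))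
  have heq : e.symm =ᶠ[𝓝 p] (c.symm ∘ (fun p => c (e.symm p))) := by
    filter_upwards [hp] with q hq
    simp only [Function.comp]
    rw [c.left_inv hq.2]
  have hd : dsy (n := n) e p = ((mfderiv 𝓘(ℂ, Model n) (mI n) c.symm (c (e.symm p)) :
      Model n →L[ℂ] Model n)).comp (fderiv ℂ (fun p => c (e.symm p)) p) := by
    have h3 : (mfderiv 𝓘(ℂ, EV n₁ × EV n₂) 𝓘(ℂ, Model n) (fun p => c (e.symm p)) p) =
      fderiv ℂ (fun p => c (e.symm p)) p := mfderiv_eq_fderiv
    rw [h3] at hcomp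
    unfold dsy
    rw [heq.mfderiv_eq]
    exact hcomp
  refine ContinuousLinearMap.ext fun u => ContinuousLinearMap.ext fun v => ?_
  rw [kform, pb_apply, hd, pb_apply, coeff_apply]
  rw [c.left_inv hpp.2]
  rfl

lemma coeff_herm (K : KahlerMetric n X) (x : X) (y a b : Model n) :
    coeff K x y (Complex.I • a) (Complex.I • b) = coeff K x y a b := by
  have h : ∀ D : Model n →L[ℂ] Model n, K.g ((chartAt (Model n) x).symm y) (D (Complex.I • a))
      (D (Complex.I • b)) = K.g ((chartAt (Model n) x).symm y) (D a) (D b) := by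
    intro D
    rw [show D (Complex.I • a) = Complex.I • D a from D.map_smul _ _,
      show D (Complex.I • b) = Complex.I • D b from D.map_smul _ _]
    exact K.herm _ _ _
  exact h _

lemma coeff_smooth (K : KahlerMetric n X) (x : X) {y : Model n}
    (hy : y ∈ (chartAt (Model n) x).target) : ContDiffAt ℝ ∞ (coeff K x) y :=
  (K.smooth x).contDiffAt ((chartAt (Model n) x).open_target.mem_nhds hy)

omit [IsManifold (mI n) ω X] in
/-- the differential of the inverse chart is injective -/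
lemma dsy_injective (e : OpenPartialHomeomorph X (EV n₁ × EV n₂))
    (he' : ContMDiffOn (mI n) 𝓘(ℂ, EV n₁ × EV n₂) ω e e.source)
    (he : ContMDiffOn 𝓘(ℂ, EV n₁ × EV n₂) (mI n) ω e.symm e.target) (p : EV n₁ × EV n₂)
    (hp : p ∈ e.target) (u : EV n₁ × EV n₂) (hu : dsy (n := n) e p u = 0) : u = 0 := by
  have hs : ContMDiffAt 𝓘(ℂ, EV n₁ × EV n₂) (mI n) ω e.symm p :=
    (he p hp).contMDiffAt (e.open_target.mem_nhds hp)
  have hs' : ContMDiffAt (mI n) 𝓘(ℂ, EV n₁ × EV n₂) ω e (e.symm p) :=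
    (he' _ (e.map_target hp)).contMDiffAt (e.open_source.mem_nhds (e.map_target hp))
  have hcomp : mfderiv 𝓘(ℂ, EV n₁ × EV n₂) 𝓘(ℂ, EV n₁ × EV n₂) (e ∘ e.symm) p =
      (mfderiv (mI n) 𝓘(ℂ, EV n₁ × EV n₂) e (e.symm p)).comp
        (mfderiv 𝓘(ℂ, EV n₁ × EV n₂) (mI n) e.symm p) :=
    mfderiv_comp p (hs'.mdifferentiableAt (by simp)) (hs.mdifferentiableAt (by simp))
  have heq : (e ∘ e.symm) =ᶠ[𝓝 p] id := by
    filter_upwards [e.open_target.mem_nhds hp] with q hq
    simp [e.right_inv hq]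
  rw [heq.mfderiv_eq, mfderiv_id] at hcomp
  have h4 : u = (mfderiv (mI n) 𝓘(ℂ, EV n₁ × EV n₂) e (e.symm p)) (dsy (n := n) e p u) :=
    DFunLike.congr_fun hcomp u
  rw [h4, hu]
  exact map_zero _

omit [IsManifold (mI n) ω X] in
/-- change of charts -/
lemma dsy_change (e e' : OpenPartialHomeomorph X (EV n₁ × EV n₂))
    (he' : ContMDiffOn (mI n) 𝓘(ℂ, EV n₁ × EV n₂) ω e' e'.source)
    (he : ContMDiffOn 𝓘(ℂ, EV n₁ × EV n₂) (mI n) ω e.symm e.target)
    (hes : ContMDiffOn 𝓘(ℂ, EV n₁ × EV n₂) (mI n) ω e'.symm e'.target) (x : X)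
    (hx : x ∈ e.source) (hx' : x ∈ e'.source) (u : EV n₁ × EV n₂) :
    dsy (n := n) e' (e' x) (fderiv ℂ (fun p => e' (e.symm p)) (e x) u) = dsy (n := n) e (e x) u := by
  have hp : e x ∈ e.target := e.map_source hx
  have hxe : e.symm (e x) = x := e.left_inv hx
  have hs : ContMDiffAt 𝓘(ℂ, EV n₁ × EV n₂) (mI n) ω e.symm (e x) :=
    (he _ hp).contMDiffAt (e.open_target.mem_nhds hp)
  have hs' : ContMDiffAt (mI n) 𝓘(ℂ, EV n₁ × EV n₂) ω e' (e.symm (e x)) := by
    rw [hxe]
    exact (he' _ hx').contMDiffAt (e'.open_source.mem_nhds hx')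
  have hT : ContMDiffAt 𝓘(ℂ, EV n₁ × EV n₂) 𝓘(ℂ, EV n₁ × EV n₂) ω (fun p => e' (e.symm p)) (e x) :=
    hs'.comp (e x) hs
  have hs'' : ContMDiffAt 𝓘(ℂ, EV n₁ × EV n₂) (mI n) ω e'.symm (e' (e.symm (e x))) := by
    rw [hxe]
    exact (hes _ (e'.map_source hx')).contMDiffAt (e'.open_target.mem_nhds (e'.map_source hx'))
  have hcomp : mfderiv 𝓘(ℂ, EV n₁ × EV n₂) (mI n) (e'.symm ∘ (fun p => e' (e.symm p))) (e x) =
      (mfderiv 𝓘(ℂ, EV n₁ × EV n₂) (mI n) e'.symm (e' (e.symm (e x)))).comp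
        (mfderiv 𝓘(ℂ, EV n₁ × EV n₂) 𝓘(ℂ, EV n₁ × EV n₂) (fun p => e' (e.symm p)) (e x)) :=
    mfderiv_comp (e x) (hs''.mdifferentiableAt (by simp)) (hT.mdifferentiableAt (by simp))
  have hev : ∀ᶠ q in 𝓝 (e x), e.symm q ∈ e'.source := by
    have h1 := hs.continuousAt
    exact h1 (e'.open_source.mem_nhds (by rw [hxe]; exact hx'))
  have heq : e.symm =ᶠ[𝓝 (e x)] (e'.symm ∘ (fun p => e' (e.symm p))) := by
    filter_upwards [hev] with q hq
    simp only [Function.comp]
    rw [e'.left_inv hq]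
  have h3 : (mfderiv 𝓘(ℂ, EV n₁ × EV n₂) 𝓘(ℂ, EV n₁ × EV n₂) (fun p => e' (e.symm p)) (e x)) =
      fderiv ℂ (fun p => e' (e.symm p)) (e x) := mfderiv_eq_fderiv
  rw [h3] at hcomp
  have hd : dsy (n := n) e (e x) = (dsy (n := n) e' (e' (e.symm (e x)))).comp
      (fderiv ℂ (fun p => e' (e.symm p)) (e x)) := by
    unfold dsy
    rw [heq.mfderiv_eq]
    exact hcomp
  rw [hd, hxe]
  rfl

/-- **G6**: the `KMet` of a Kähler metric on a product-foliated atlas with biholomorphic charts -/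
noncomputable def toKMet (K : KahlerMetric n X) (A : PFol n₁ n₂ X)
    (h1 : ∀ i, ContMDiffOn (mI n) 𝓘(ℂ, EV n₁ × EV n₂) ω (A.ch i) (A.ch i).source)
    (h2 : ∀ i, ContMDiffOn 𝓘(ℂ, EV n₁ × EV n₂) (mI n) ω (A.ch i).symm (A.ch i).target) :
    KMet A where
  g i p := kform K (A.ch i) p
  smooth i := by
    intro p hp
    have hp' : p ∈ (A.ch i).target := by rw [A.target_eq]; exact hp
    obtain ⟨hf, hev⟩ := kform_local K (A.ch i) (h2 i) p hp'
    have h3 : ContDiffAt ℝ ∞ (coeff K ((A.ch i).symm p))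
        (chartAt (Model n) ((A.ch i).symm p) ((A.ch i).symm p)) :=
      coeff_smooth K _ (mem_chart_target _ _)
    have h4 := contDiffAt_pull_clm (coeff K ((A.ch i).symm p)) _ p hf h3
    exact (h4.congr_of_eventuallyEq hev).contDiffWithinAt
  symm i p _ u v := K.symm _ _ _
  pos i p hp u hu := by
    have hp' : p ∈ (A.ch i).target := by rw [A.target_eq]; exact hp
    refine K.pos _ _ fun h0 => hu ?_
    exact dsy_injective (A.ch i) (h1 i) (h2 i) p hp' u h0
  herm i p _ u v := by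
    simp only [kform, pb_apply, map_smul]
    exact K.herm _ _ _
  closed i p hp u v w := by
    have hp' : p ∈ (A.ch i).target := by rw [A.target_eq]; exact hp
    obtain ⟨hf, hev⟩ := kform_local K (A.ch i) (h2 i) p hp'
    have h3 : ContDiffAt ℝ ∞ (coeff K ((A.ch i).symm p))
        (chartAt (Model n) ((A.ch i).symm p) ((A.ch i).symm p)) :=
      coeff_smooth K _ (mem_chart_target _ _)
    have h5 : ∀ a b : EV n₁ × EV n₂, (fun q => kform K (A.ch i) q a b) =ᶠ[𝓝 p]
        (fun q => coeff K ((A.ch i).symm p)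
          (chartAt (Model n) ((A.ch i).symm p) ((A.ch i).symm q))
          (fderiv ℂ (fun r => chartAt (Model n) ((A.ch i).symm p) ((A.ch i).symm r)) q a)
          (fderiv ℂ (fun r => chartAt (Model n) ((A.ch i).symm p) ((A.ch i).symm r)) q b)) := by
      intro a b
      filter_upwards [hev] with q hq
      rw [hq, pb_apply]
    rw [(h5 _ _).fderiv_eq, (h5 _ _).fderiv_eq, (h5 _ _).fderiv_eq]
    refine closed_pull (coeff K ((A.ch i).symm p)) _ p hf (h3.differentiableAt (by simp)) ?_ ?_ u v w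
    · intro a b
      refine herm_alt ?_ ?_ a b
      · intro a b; exact K.symm _ _ _
      · intro a b
        exact coeff_herm K _ _ a b
    · intro a b c
      exact K.closed ((A.ch i).symm p) _ (mem_chart_target _ _) a b c
  compat i j x hx u v := by
    simp only [kform, pb_apply]
    rw [dsy_change (A.ch i) (A.ch j) (h1 j) (h2 i) (h2 j) x hx.1 hx.2,
      dsy_change (A.ch i) (A.ch j) (h1 j) (h2 i) (h2 j) x hx.1 hx.2,
      (A.ch i).left_inv hx.1, (A.ch j).left_inv hx.2]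

end
end G6

end Crest.Agent.R266
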