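import Crest.Agent.R266.CovAdapt
import Crest.Agent.R266.GlueAtlas
import Crest.Agent.R266.KahlerToKMet
import Crest.Agent.R266.Core405B
import Crest.Agent.R266.GAsm
import Crest.Agent.R266.GFinal

/-!
R266 / Final405 (helper926): S0405 from the analytic core (`hcore`) and the global theorem (`hglob`).
-/

set_option autoImplicit false

open scoped Manifold ContDiff Topology
open Set Metric Filter
open Crest.AlgGeometry.HolSplit

namespace Crest.Agent.R266

/-- the statement of `global_product` -/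
def GlobalStmt : Prop :=
  ∀ {n₁ n₂ : ℕ} {X : Type} [TopologicalSpace X] [T2Space X]
    [SimplyConnectedSpace X] [LocallyPathConnectedSpace X] (A : PFol n₁ n₂ X)
    (_ : Completeness A),
    ∃ (Y₁ : Type) (Y₂ : Type) (_ : TopologicalSpace Y₁) (_ : TopologicalSpace Y₂)
      (_ : ChartedSpace (EV n₁) Y₁) (_ : ChartedSpace (EV n₂) Y₂)
      (_ : IsManifold 𝓘(ℂ, EV n₁) ω Y₁) (_ : IsManifold 𝓘(ℂ, EV n₂) ω Y₂),
      ConnectedSpace Y₁ ∧ ConnectedSpace Y₂ ∧ SimplyConnectedSpace Y₁ ∧ SimplyConnectedSpace Y₂ ∧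
      ∃ (Φ : X → Y₁ × Y₂) (Ψ : Y₁ × Y₂ → X), ProdStr A Y₁ Y₂ Φ Ψ

theorem final405_of
    (hcore : ∀ {n₁ n₂ : ℕ} {X : Type} [TopologicalSpace X] [T2Space X] [CompactSpace X]
      {A : PFol n₁ n₂ X} [Finite A.ι] (_ : KMet A), Completeness A)
    (hglob : GlobalStmt)
    (n : ℕ) (X : Type) [TopologicalSpace X] [T2Space X]
    [CompactSpace X] [ConnectedSpace X] [ChartedSpace (Model n) X] [IsManifold (mI n) ω X]
    (hK : Nonempty (KahlerMetric n X)) (S : Splitting n X)
    (h₁ : S.FirstIntegrable) (h₂ : S.SecondIntegrable)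
    (X' : Type) [TopologicalSpace X'] [T2Space X']
    [SimplyConnectedSpace X'] [ChartedSpace (Model n) X']
    [IsManifold (mI n) ω X'] (π : X' → X) (hcov : IsCoveringMap π)
    (hπ : ContMDiff (mI n) (mI n) ω π)
    (hdπ : ∀ p : X', Function.Bijective (mfderiv (mI n) (mI n) π p)) :
    HasCompatibleProductCover S X' π := by
  obtain ⟨n₁, n₂, A, -, -, -, hfin, hA⟩ := exists_pfol S h₁ h₂
  obtain ⟨K⟩ := hK
  have hHol : HolAtl n A := ⟨fun i => (hA i).hol, fun i => (hA i).hol_symm⟩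
  have hTan : ∀ i, ∀ x ∈ (A.ch i).source, ∀ v : TangentSpace (mI n) x,
      (S.proj x v = v → (mfderiv (mI n) 𝓘(ℂ, EV n₁ × EV n₂) (A.ch i) x v).2 = 0) ∧
      (S.proj x v = 0 → (mfderiv (mI n) 𝓘(ℂ, EV n₁ × EV n₂) (A.ch i) x v).1 = 0) :=
    fun i x hx v => ⟨(hA i).tan₁ x hx v, (hA i).tan₂ x hx v⟩
  have hComp : Completeness A := hcore (G6.toKMet K A hHol.hol hHol.hol_symm)
  obtain ⟨A', hC⟩ := exists_cover_pfol A π hcov.isLocalHomeomorph
  have hComp' : Completeness A' := completeness_cover hcov (chart_holds A) hC hComp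
  have : LocallyPathConnectedSpace X' :=
    ChartedSpace.locallyPathConnectedSpace (Model n) X'
  obtain ⟨Y₁, Y₂, _, _, _, _, _, _, hc₁, hc₂, hs₁, hs₂, Φ, Ψ, hP⟩ := hglob A' hComp'
  exact compatible_of_prodStr S X' π A' (compatAtlas_cover S hHol hTan hπ hdπ hC) Y₁ Y₂ hc₁ hc₂
    hs₁ hs₂ Φ Ψ hP

/-- S0405 -/
theorem final405_alt (n : ℕ) (X : Type) [TopologicalSpace X] [T2Space X]
    [CompactSpace X] [ConnectedSpace X] [ChartedSpace (Model n) X] [IsManifold (mI n) ω X]
    (hK : Nonempty (KahlerMetric n X)) (S : Splitting n X)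
    (h₁ : S.FirstIntegrable) (h₂ : S.SecondIntegrable)
    (X' : Type) [TopologicalSpace X'] [T2Space X']
    [SimplyConnectedSpace X'] [ChartedSpace (Model n) X']
    [IsManifold (mI n) ω X'] (π : X' → X) (hcov : IsCoveringMap π)
    (hπ : ContMDiff (mI n) (mI n) ω π)
    (hdπ : ∀ p : X', Function.Bijective (mfderiv (mI n) (mI n) π p)) :
    HasCompatibleProductCover S X' π :=
  final405_of (fun K => completeness_core K) (fun A hA => global_product A hA) n X hK S h₁ h₂ X' π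
    hcov hπ hdπ

end Crest.Agent.R266
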