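import Crest.Agent.R266.GFinal
import Crest.Agent.R266.Cover

/-!
R266 / GCompat: the lifted atlas of a holomorphic covering is compatible with the lifted splitting.
-/

set_option autoImplicit false

open scoped Manifold ContDiff Topology
open Set Metric Filter
open Crest.AlgGeometry.HolSplit

namespace Crest.Agent.R266

/-- `c` is a holomorphic chart of `X` adapted to the splitting `S` -/
structure ChartGood {n n₁ n₂ : ℕ} {X : Type} [TopologicalSpace X] [ChartedSpace (Model n) X]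
    [IsManifold (mI n) ω X] (S : Splitting n X) (c : OpenPartialHomeomorph X (EV n₁ × EV n₂)) :
    Prop where
  hol : ContMDiffOn (mI n) 𝓘(ℂ, EV n₁ × EV n₂) ω c c.source
  symm : ContMDiffOn 𝓘(ℂ, EV n₁ × EV n₂) (mI n) ω c.symm c.target
  tan1 : ∀ x ∈ c.source, ∀ v : TangentSpace (mI n) x, S.proj x v = v →
    (mfderiv (mI n) 𝓘(ℂ, EV n₁ × EV n₂) c x v : EV n₁ × EV n₂).2 = 0
  tan2 : ∀ x ∈ c.source, ∀ v : TangentSpace (mI n) x, S.proj x v = 0 →
    (mfderiv (mI n) 𝓘(ℂ, EV n₁ × EV n₂) c x v : EV n₁ × EV n₂).1 = 0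

namespace GCp

variable {n : ℕ} {X : Type} [TopologicalSpace X] [ChartedSpace (Model n) X]
  [IsManifold (mI n) ω X]
variable {E : Type} [NormedAddCommGroup E] [NormedSpace ℂ E] [FiniteDimensional ℂ E]

/-- a holomorphic homeomorphism (in charts) with bijective differential has a holomorphic inverse -/
theorem symm_contMDiffOn (c : OpenPartialHomeomorph X E)
    (hol : ContMDiffOn (mI n) 𝓘(ℂ, E) ω c c.source)
    (hbij : ∀ x ∈ c.source, Function.Bijective (mfderiv (mI n) 𝓘(ℂ, E) c x)) :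
    ContMDiffOn 𝓘(ℂ, E) (mI n) ω c.symm c.target := by
  have : CompleteSpace E := FiniteDimensional.complete ℂ E
  intro p hp
  refine ContMDiffAt.contMDiffWithinAt ?_
  set x := c.symm p with hx
  have hxs : x ∈ c.source := c.map_target hp
  have hcx : c x = p := c.right_inv hp
  set k := chartAt (Model n) x with hk
  have hkx : x ∈ k.source := mem_chart_source (Model n) x
  have hkt : k x ∈ k.target := k.map_source hkx
  have hkk : k.symm (k x) = x := k.left_inv hkx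
  set h : OpenPartialHomeomorph (Model n) E := k.symm.trans c with hh
  have hhs : k x ∈ h.source := by
    rw [hh, OpenPartialHomeomorph.trans_source]
    refine ⟨hkt, ?_⟩
    simp only [mem_preimage]
    rw [hkk]; exact hxs
  have hhx : h (k x) = p := by
    show c (k.symm (k x)) = p
    rw [hkk, hcx]
  have hht : p ∈ h.target := hhx ▸ h.map_source hhs
  have hhsy : h.symm p = k x := by rw [← hhx, h.left_inv hhs]
  have hksymm : ContMDiffAt 𝓘(ℂ, Model n) (mI n) ω k.symm (k x) :=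
    contMDiffOn_chart_symm.contMDiffAt (k.open_target.mem_nhds hkt)
  have hkch : ContMDiffAt (mI n) 𝓘(ℂ, Model n) ω k x :=
    contMDiffOn_chart.contMDiffAt (k.open_source.mem_nhds hkx)
  have hcx' : ContMDiffAt (mI n) 𝓘(ℂ, E) ω c (k.symm (k x)) := by
    rw [hkk]; exact hol.contMDiffAt (c.open_source.mem_nhds hxs)
  have hhd : ContMDiffAt 𝓘(ℂ, Model n) 𝓘(ℂ, E) ω h (k x) :=
    ContMDiffAt.comp (g := c) (f := k.symm) (k x) hcx' hksymm
  have hhd' : ContDiffAt ℂ ω h (k x) := contMDiffAt_iff_contDiffAt.mp hhd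
  -- derivative of `k.symm` is bijective
  have hcomp1 : (mfderiv (mI n) 𝓘(ℂ, Model n) k x).comp
      (mfderiv 𝓘(ℂ, Model n) (mI n) k.symm (k x)) = ContinuousLinearMap.id ℂ (Model n) := by
    have h1 : MDifferentiableAt (mI n) 𝓘(ℂ, Model n) k (k.symm (k x)) := by
      rw [hkk]; exact hkch.mdifferentiableAt (by simp)
    have h2 := mfderiv_comp (k x) h1 (hksymm.mdifferentiableAt (by simp))
    rw [hkk] at h2
    rw [← h2]
    have h3 : (k ∘ k.symm) =ᶠ[𝓝 (k x)] id := by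
      filter_upwards [k.open_target.mem_nhds hkt] with y hy
      exact k.right_inv hy
    rw [h3.mfderiv_eq, mfderiv_id]
    rfl
  have hcomp2 : (mfderiv 𝓘(ℂ, Model n) (mI n) k.symm (k x)).comp
      (mfderiv (mI n) 𝓘(ℂ, Model n) k x) = ContinuousLinearMap.id ℂ (TangentSpace (mI n) x) := by
    have h2 := mfderiv_comp x (hksymm.mdifferentiableAt (by simp))
      (hkch.mdifferentiableAt (by simp))
    have h3 : (k.symm ∘ k) =ᶠ[𝓝 x] id := by
      filter_upwards [k.open_source.mem_nhds hkx] with y hy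
      exact k.left_inv hy
    have h4 : mfderiv (mI n) (mI n) (k.symm ∘ k) x =
      (mfderiv 𝓘(ℂ, Model n) (mI n) k.symm (k x)).comp (mfderiv (mI n) 𝓘(ℂ, Model n) k x) := h2
    rw [← h4, h3.mfderiv_eq, mfderiv_id]
  have hbk : Function.Bijective (mfderiv 𝓘(ℂ, Model n) (mI n) k.symm (k x)) := by
    constructor
    · intro u v huv
      have h1 := congrArg (fun L => L u) hcomp1
      have h2 := congrArg (fun L => L v) hcomp1
      have h3 : (mfderiv (mI n) 𝓘(ℂ, Model n) k x) (mfderiv 𝓘(ℂ, Model n) (mI n) k.symm (k x) u) = u := h1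
      have h4 : (mfderiv (mI n) 𝓘(ℂ, Model n) k x) (mfderiv 𝓘(ℂ, Model n) (mI n) k.symm (k x) v) = v := h2
      rw [← h3, ← h4, huv]
    · intro w
      exact ⟨mfderiv (mI n) 𝓘(ℂ, Model n) k x w, congrArg (fun L => L w) hcomp2⟩
  have hder : HasFDerivAt h (fderiv ℂ h (k x)) (k x) :=
    (hhd'.differentiableAt (by simp)).hasFDerivAt
  have hfd : ∀ v : Model n, fderiv ℂ h (k x) v =
      mfderiv (mI n) 𝓘(ℂ, E) c x (mfderiv 𝓘(ℂ, Model n) (mI n) k.symm (k x) v) := by
    intro v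
    rw [← mfderiv_eq_fderiv]
    have h2 := mfderiv_comp (k x) (hcx'.mdifferentiableAt (by simp))
      (hksymm.mdifferentiableAt (by simp))
    rw [hkk] at h2
    exact congrArg (fun L => L v) h2
  have hbh : Function.Bijective (fderiv ℂ h (k x)) := by
    have : (fderiv ℂ h (k x) : Model n → E) =
      (mfderiv (mI n) 𝓘(ℂ, E) c x) ∘ (mfderiv 𝓘(ℂ, Model n) (mI n) k.symm (k x)) := by
      funext v; exact hfd v
    rw [this]
    exact (hbij x hxs).comp hbk
  set L : Model n ≃L[ℂ] E :=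
    (LinearEquiv.ofBijective (fderiv ℂ h (k x) : Model n →ₗ[ℂ] E) hbh).toContinuousLinearEquiv
    with hL
  have hLe : (L : Model n →L[ℂ] E) = fderiv ℂ h (k x) := by
    ext v; rfl
  have hinv : ContDiffAt ℂ ω h.symm p := by
    refine h.contDiffAt_symm (f₀' := L) hht ?_ ?_
    · rw [hhsy, hLe]; exact hder
    · rw [hhsy]; exact hhd'
  have hk2 : ContMDiffAt 𝓘(ℂ, Model n) (mI n) ω k.symm (h.symm p) := by
    rw [hhsy]; exact hksymm
  have hcomp := ContMDiffAt.comp p hk2 (contMDiffAt_iff_contDiffAt.mpr hinv)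
  refine hcomp.congr_of_eventuallyEq ?_
  filter_upwards [h.open_target.mem_nhds hht] with q hq
  have : q ∈ c.target ∩ c.symm ⁻¹' k.source := by
    have := hq
    rw [hh, OpenPartialHomeomorph.trans_target] at this
    exact this
  show c.symm q = k.symm (k (c.symm q))
  rw [k.left_inv this.2]

omit [IsManifold (mI n) ω X] [FiniteDimensional ℂ E] in
/-- a holomorphic chart has bijective differential -/
theorem bijective_mfderiv (c : OpenPartialHomeomorph X E)
    (hol : ContMDiffOn (mI n) 𝓘(ℂ, E) ω c c.source)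
    (symm : ContMDiffOn 𝓘(ℂ, E) (mI n) ω c.symm c.target) {x : X} (hx : x ∈ c.source) :
    Function.Bijective (mfderiv (mI n) 𝓘(ℂ, E) c x) := by
  have hct : c x ∈ c.target := c.map_source hx
  have hcc : c.symm (c x) = x := c.left_inv hx
  have h1 : ContMDiffAt (mI n) 𝓘(ℂ, E) ω c x := hol.contMDiffAt (c.open_source.mem_nhds hx)
  have h2 : ContMDiffAt 𝓘(ℂ, E) (mI n) ω c.symm (c x) :=
    symm.contMDiffAt (c.open_target.mem_nhds hct)
  have hcomp1 : (mfderiv (mI n) 𝓘(ℂ, E) c x).comp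
      (mfderiv 𝓘(ℂ, E) (mI n) c.symm (c x)) = ContinuousLinearMap.id ℂ E := by
    have h3 : MDifferentiableAt (mI n) 𝓘(ℂ, E) c (c.symm (c x)) := by
      rw [hcc]; exact h1.mdifferentiableAt (by simp)
    have h4 := mfderiv_comp (c x) h3 (h2.mdifferentiableAt (by simp))
    rw [hcc] at h4
    rw [← h4]
    have h5 : (c ∘ c.symm) =ᶠ[𝓝 (c x)] id := by
      filter_upwards [c.open_target.mem_nhds hct] with y hy
      exact c.right_inv hy
    rw [h5.mfderiv_eq, mfderiv_id]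
    rfl
  have hcomp2 : (mfderiv 𝓘(ℂ, E) (mI n) c.symm (c x)).comp
      (mfderiv (mI n) 𝓘(ℂ, E) c x) = ContinuousLinearMap.id ℂ (TangentSpace (mI n) x) := by
    have h4 := mfderiv_comp x (h2.mdifferentiableAt (by simp)) (h1.mdifferentiableAt (by simp))
    have h5 : (c.symm ∘ c) =ᶠ[𝓝 x] id := by
      filter_upwards [c.open_source.mem_nhds hx] with y hy
      exact c.left_inv hy
    have h6 : mfderiv (mI n) (mI n) (c.symm ∘ c) x =
      (mfderiv 𝓘(ℂ, E) (mI n) c.symm (c x)).comp (mfderiv (mI n) 𝓘(ℂ, E) c x) := h4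
    rw [← h6, h5.mfderiv_eq, mfderiv_id]
  constructor
  · intro u v huv
    have e1 : (mfderiv 𝓘(ℂ, E) (mI n) c.symm (c x)) (mfderiv (mI n) 𝓘(ℂ, E) c x u) = u :=
      congrArg (fun L => L u) hcomp2
    have e2 : (mfderiv 𝓘(ℂ, E) (mI n) c.symm (c x)) (mfderiv (mI n) 𝓘(ℂ, E) c x v) = v :=
      congrArg (fun L => L v) hcomp2
    rw [← e1, ← e2, huv]
  · intro w
    exact ⟨mfderiv 𝓘(ℂ, E) (mI n) c.symm (c x) w, congrArg (fun L => L w) hcomp1⟩

end GCp

/-- the lifted atlas along a holomorphic covering (local biholomorphism) is compatible with the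
lifted splitting -/
theorem compatAtlas_of_cover {n n₁ n₂ : ℕ} {X : Type} [TopologicalSpace X]
    [ChartedSpace (Model n) X] [IsManifold (mI n) ω X] (S : Splitting n X) {X' : Type}
    [TopologicalSpace X'] [ChartedSpace (Model n) X'] [IsManifold (mI n) ω X'] (π : X' → X)
    (hπ : ContMDiff (mI n) (mI n) ω π)
    (hdπ : ∀ p : X', Function.Bijective (mfderiv (mI n) (mI n) π p))
    (A : PFol n₁ n₂ X) (A' : PFol n₁ n₂ X') (hA : ∀ i, ChartGood S (A.ch i))
    (hC : CoverChart A A' π) : CompatAtlas S π A' := by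
  have key : ∀ i', ∃ (i : A.ι) (c : EV n₁ × EV n₂) (r : ℝ), 0 < r ∧
      ∀ x' ∈ (A'.ch i').source, π x' ∈ (A.ch i).source ∧
        (A'.ch i' =ᶠ[𝓝 x'] fun y => (r : ℂ)⁻¹ • (A.ch i (π y) - c)) ∧
        ContMDiffAt (mI n) 𝓘(ℂ, EV n₁ × EV n₂) ω (A'.ch i') x' ∧
        ∀ v : TangentSpace (mI n) x',
          (mfderiv (mI n) 𝓘(ℂ, EV n₁ × EV n₂) (A'.ch i') x' v : EV n₁ × EV n₂) =
          (r : ℂ)⁻¹ • (mfderiv (mI n) 𝓘(ℂ, EV n₁ × EV n₂) (A.ch i) (π x')
            (mfderiv (mI n) (mI n) π x' v) : EV n₁ × EV n₂) := by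
    intro i'
    obtain ⟨i, c, r, hr, hi⟩ := hC i'
    refine ⟨i, c, r, hr, fun x' hx' => ?_⟩
    have hr0 : (r : ℂ) ≠ 0 := by exact_mod_cast hr.ne'
    have hev : A'.ch i' =ᶠ[𝓝 x'] fun y => (r : ℂ)⁻¹ • (A.ch i (π y) - c) := by
      filter_upwards [(A'.ch i').open_source.mem_nhds hx'] with y hy
      rw [(hi y hy).2, add_sub_cancel_left, inv_smul_smul₀ hr0]
    have hs := (hi x' hx').1
    have h1 : ContMDiffAt (mI n) 𝓘(ℂ, EV n₁ × EV n₂) ω (A.ch i) (π x') :=
      (hA i).hol.contMDiffAt ((A.ch i).open_source.mem_nhds hs)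
    have h2 : ContMDiffAt (mI n) 𝓘(ℂ, EV n₁ × EV n₂) ω (fun y => A.ch i (π y)) x' :=
      ContMDiffAt.comp x' h1 hπ.contMDiffAt
    have haff : ContDiff ℂ ω (fun w : EV n₁ × EV n₂ => (r : ℂ)⁻¹ • (w - c)) :=
      (contDiff_id.sub contDiff_const).const_smul _
    have h3 : ContMDiffAt (mI n) 𝓘(ℂ, EV n₁ × EV n₂) ω
        (fun y => (r : ℂ)⁻¹ • (A.ch i (π y) - c)) x' :=
      ContMDiffAt.comp (g := fun w : EV n₁ × EV n₂ => (r : ℂ)⁻¹ • (w - c))
        (f := fun y => A.ch i (π y)) x' (haff.contMDiff.contMDiffAt (x := A.ch i (π x'))) h2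
    refine ⟨hs, hev, h3.congr_of_eventuallyEq hev, fun v => ?_⟩
    rw [hev.mfderiv_eq]
    have d1 := (h1.mdifferentiableAt (by simp)).hasMFDerivAt
    have d2 := ((hπ.contMDiffAt (x := x')).mdifferentiableAt (by simp)).hasMFDerivAt
    have d3 := HasMFDerivAt.comp x' d1 d2
    have d4 : HasFDerivAt (fun w : EV n₁ × EV n₂ => (r : ℂ)⁻¹ • (w - c))
        ((r : ℂ)⁻¹ • ContinuousLinearMap.id ℂ (EV n₁ × EV n₂)) (A.ch i (π x')) :=
      ((hasFDerivAt_id (𝕜 := ℂ) (A.ch i (π x'))).sub_const c).fun_const_smul ((r : ℂ)⁻¹)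
    have d5 := HasMFDerivAt.comp x' d4.hasMFDerivAt d3
    have := congrArg (fun L => L v) d5.mfderiv
    exact this
  choose i c r hr hk using key
  have hbij : ∀ i', ∀ x' ∈ (A'.ch i').source,
      Function.Bijective (mfderiv (mI n) 𝓘(ℂ, EV n₁ × EV n₂) (A'.ch i') x') := by
    intro i' x' hx'
    obtain ⟨hs, hev, hd, hm⟩ := hk i' x' hx'
    have hr0 : (r i' : ℂ) ≠ 0 := by exact_mod_cast (hr i').ne'
    have hb := GCp.bijective_mfderiv (A.ch (i i')) (hA (i i')).hol (hA (i i')).symm hs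
    constructor
    · intro u v huv
      have h1 := (hm u).symm.trans (huv.trans (hm v))
      have h2 := (smul_right_injective (EV n₁ × EV n₂) (inv_ne_zero hr0)) h1
      exact (hdπ x').1 (hb.1 h2)
    · intro w
      obtain ⟨w₁, hw₁⟩ := hb.2 ((r i' : ℂ) • w)
      obtain ⟨v, hv⟩ := (hdπ x').2 w₁
      refine ⟨v, (hm v).trans ?_⟩
      rw [hv]
      have h1 : (mfderiv (mI n) 𝓘(ℂ, EV n₁ × EV n₂) (A.ch (i i')) (π x') w₁ : EV n₁ × EV n₂) =
        (r i' : ℂ) • (w : EV n₁ × EV n₂) := hw₁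
      have h2 : (r i' : ℂ)⁻¹ • (mfderiv (mI n) 𝓘(ℂ, EV n₁ × EV n₂) (A.ch (i i')) (π x') w₁ :
          EV n₁ × EV n₂) = (w : EV n₁ × EV n₂) := by
        rw [h1]
        exact inv_smul_smul₀ (α := ℂ) (β := EV n₁ × EV n₂) hr0 w
      exact h2
  have hhol : ∀ i', ContMDiffOn (mI n) 𝓘(ℂ, EV n₁ × EV n₂) ω (A'.ch i') (A'.ch i').source :=
    fun i' x' hx' => (hk i' x' hx').2.2.1.contMDiffWithinAt
  refine ⟨hhol, fun i' => GCp.symm_contMDiffOn (A'.ch i') (hhol i') (hbij i'), ?_, ?_⟩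
  · intro i' x' hx' v hv
    obtain ⟨hs, hev, hd, hm⟩ := hk i' x' hx'
    rw [hm v]
    have := (hA (i i')).tan1 (π x') hs _ hv
    show (r i' : ℂ)⁻¹ • (mfderiv (mI n) 𝓘(ℂ, EV n₁ × EV n₂) (A.ch (i i')) (π x')
            (mfderiv (mI n) (mI n) π x' v) : EV n₁ × EV n₂).2 = 0
    rw [this, smul_zero]
  · intro i' x' hx' v hv
    obtain ⟨hs, hev, hd, hm⟩ := hk i' x' hx'
    rw [hm v]
    have := (hA (i i')).tan2 (π x') hs _ hv
    show (r i' : ℂ)⁻¹ • (mfderiv (mI n) 𝓘(ℂ, EV n₁ × EV n₂) (A.ch (i i')) (π x')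
            (mfderiv (mI n) (mI n) π x' v) : EV n₁ × EV n₂).1 = 0
    rw [this, smul_zero]

end Crest.Agent.R266
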