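import Crest.Agent.R266.GlueAtlas
import Crest.Agent.R266.GFinal

/-!
Row 266, S0405 glue (helper260): the finite adapted atlas in the form used by `GFinal`.
-/

set_option autoImplicit false

open Set Function Filter Metric
open scoped Manifold ContDiff Topology
open Crest.AlgGeometry.HolSplit

namespace Crest.Agent.R266

variable {n n₁ n₂ : ℕ} {X : Type} [TopologicalSpace X] [ChartedSpace (Model n) X]
  [IsManifold (mI n) ω X]

theorem compatAtlas_id {S : Splitting n X} {A : PFol n₁ n₂ X} (h : AdaptedTo (pr S) A) :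
    CompatAtlas S (id : X → X) A where
  hol i := (h i).hol
  symm i := (h i).hol_symm
  tan1 i x hx v hv := by
    rw [mfderiv_id] at hv
    exact (h i).tan₁ x hx v hv
  tan2 i x hx v hv := by
    rw [mfderiv_id] at hv
    exact (h i).tan₂ x hx v hv

/-- G4 + G5 in the form of `GFinal` -/
theorem exists_pfol_compat [CompactSpace X] [ConnectedSpace X] (S : Splitting n X)
    (h₁ : S.FirstIntegrable) (h₂ : S.SecondIntegrable) :
    ∃ (n₁ n₂ : ℕ) (A : PFol n₁ n₂ X), 0 < n₁ ∧ 0 < n₂ ∧ n₁ + n₂ = n ∧ Finite A.ι ∧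
      AdaptedTo (pr S) A ∧ CompatAtlas S (id : X → X) A := by
  obtain ⟨n₁, n₂, A, h1, h2, h3, h4, h5⟩ := exists_pfol S h₁ h₂
  exact ⟨n₁, n₂, A, h1, h2, h3, h4, h5, compatAtlas_id h5⟩

end Crest.Agent.R266
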