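import Crest.Agent.R266.Core405B
import Crest.Agent.R266.GlueCompat
import Crest.Agent.R266.KahlerToKMet
import Crest.Agent.R266.Cover
import Crest.Agent.R266.GAsm
import Crest.Agent.R266.GCompat
import Crest.Agent.R266.GFinal

/-!
R266 / Final405M (helper266): S0405 from the modules.
-/

set_option autoImplicit false

open scoped Manifold ContDiff Topology
open Crest.AlgGeometry.HolSplit

namespace Crest.Agent.R266

theorem final405 {n : ℕ} {X : Type} [TopologicalSpace X] [T2Space X] [CompactSpace X]
    [ConnectedSpace X] [ChartedSpace (Model n) X] [IsManifold (mI n) ω X]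
    (hK : Nonempty (KahlerMetric n X)) (S : Splitting n X)
    (h₁ : S.FirstIntegrable) (h₂ : S.SecondIntegrable)
    (X' : Type) [TopologicalSpace X'] [T2Space X']
    [SimplyConnectedSpace X'] [ChartedSpace (Model n) X']
    [IsManifold (mI n) ω X'] (π : X' → X) (hcov : IsCoveringMap π)
    (hπ : ContMDiff (mI n) (mI n) ω π)
    (hdπ : ∀ p : X', Function.Bijective (mfderiv (mI n) (mI n) π p)) :
    HasCompatibleProductCover S X' π := by
  obtain ⟨K⟩ := hK
  obtain ⟨n₁, n₂, A, -, -, -, hfin, hA, hcompat⟩ := exists_pfol_compat S h₁ h₂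
  haveI := hfin
  have hcomp : Completeness A := completeness_core
    (G6.toKMet K A (fun i => (hA i).hol) (fun i => (hA i).hol_symm))
  have hgood : ∀ i, ChartGood S (A.ch i) := fun i =>
    ⟨(hA i).hol, (hA i).hol_symm, fun x hx v hv => (hA i).tan₁ x hx v hv,
      fun x hx v hv => (hA i).tan₂ x hx v hv⟩
  obtain ⟨A', hA'⟩ := exists_cover_pfol A π hcov.isLocalHomeomorph
  have hcomp' : Completeness A' := completeness_cover hcov (chart_holds A) hA' hcomp
  haveI : LocallyPathConnectedSpace X' := ChartedSpace.locallyPathConnectedSpace (Model n) X'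
  obtain ⟨Y₁, Y₂, i1, i2, i3, i4, i5, i6, hc1, hc2, hs1, hs2, Φ, Ψ, hP⟩ :=
    global_product A' hcomp'
  exact compatible_of_prodStr S X' π A' (compatAtlas_of_cover S π hπ hdπ A A' hgood hA')
    Y₁ Y₂ hc1 hc2 hs1 hs2 Φ Ψ hP

end Crest.Agent.R266
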