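import Crest.Agent.R266.GBasic

/-!
R266 / GCompUniq (helper660): identity theorems for `IsPCg` (private copies used by GComp).
-/

set_option autoImplicit false
set_option linter.unusedSectionVars false

open scoped Manifold ContDiff Topology
open Set Metric Filter

namespace Crest.Agent.R266

section
variable {n₁ n₂ : ℕ} {X : Type} [TopologicalSpace X]
variable {V₁ V₂ : Type} [NormedAddCommGroup V₁] [NormedSpace ℂ V₁] [NormedAddCommGroup V₂]
  [NormedSpace ℂ V₂]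

namespace GComp

theorem ball_preconn (b : V₂) (δ : ℝ) : IsPreconnected (ball b δ) := by
  let _ : NormedSpace ℝ V₂ := NormedSpace.restrictScalars ℝ ℂ V₂
  exact (convex_ball b δ).isPreconnected

/-- local form on a common product of balls -/
theorem exists_biball {A : PFol n₁ n₂ X} {U : Set (V₁ × V₂)} {G : V₁ × V₂ → X}
    (h : IsPCg A U G) {z : V₁ × V₂} (hz : z ∈ U) {j : A.ι} (hj : G z ∈ (A.ch j).source) :
    ∃ ρ > 0, ∃ (a : V₁ → EV n₁) (b : V₂ → EV n₂), AnalyticOnNhd ℂ a (ball z.1 ρ) ∧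
      AnalyticOnNhd ℂ b (ball z.2 ρ) ∧ ∀ w ∈ ball z.1 ρ ×ˢ ball z.2 ρ,
        G w ∈ (A.ch j).source ∧ A.ch j (G w) = (a w.1, b w.2) := by
  obtain ⟨a, b, ha, hb, hw⟩ := isPCg_chart h hz hj
  obtain ⟨r1, hr1, h1⟩ := Metric.eventually_nhds_iff_ball.1 ha.eventually_analyticAt
  obtain ⟨r2, hr2, h2⟩ := Metric.eventually_nhds_iff_ball.1 hb.eventually_analyticAt
  obtain ⟨r3, hr3, h3⟩ := Metric.eventually_nhds_iff_ball.1 hw
  refine ⟨min r1 (min r2 r3), by positivity, a, b, fun x hx => h1 x ?_, fun y hy => h2 y ?_,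
    fun w hw' => h3 w ?_⟩
  · exact ball_subset_ball (min_le_left _ _) hx
  · exact ball_subset_ball ((min_le_right _ _).trans (min_le_left _ _)) hy
  · have : w ∈ ball z (min r1 (min r2 r3)) := by
      rw [← ball_prod_same]; exact hw'
    exact ball_subset_ball ((min_le_right _ _).trans (min_le_right _ _)) this

theorem eventuallyEq_of_frequently {A : PFol n₁ n₂ X} {U : Set (V₁ × V₂)} {G G' : V₁ × V₂ → X}
    (h : IsPCg A U G) (h' : IsPCg A U G') {z : V₁ × V₂} (hzU : z ∈ U) (hz : G z = G' z)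
    (hf : ∃ᶠ w in 𝓝 z, G =ᶠ[𝓝 w] G') : G =ᶠ[𝓝 z] G' := by
  obtain ⟨i, _, _, _, _, hi⟩ := h z hzU
  have hi1 : G z ∈ (A.ch i).source := hi.self_of_nhds.1
  have hi2 : G' z ∈ (A.ch i).source := hz ▸ hi1
  obtain ⟨ρ, hρ, a, b, ha, hb, hab⟩ := exists_biball h hzU hi1
  obtain ⟨ρ', hρ', a', b', ha', hb', hab'⟩ := exists_biball h' hzU hi2
  set r := min ρ ρ' with hr
  have hr0 : 0 < r := lt_min hρ hρ'
  have hsub : ball z.1 r ×ˢ ball z.2 r ∈ 𝓝 z := by
    rw [ball_prod_same]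
    exact ball_mem_nhds _ hr0
  obtain ⟨w, hw1, hw2⟩ := (hf.and_eventually hsub).exists
  have hwopen : IsOpen (ball z.1 r ×ˢ ball z.2 r) := isOpen_ball.prod isOpen_ball
  have key : ∀ᶠ v in 𝓝 w, (a v.1, b v.2) = (a' v.1, b' v.2) := by
    filter_upwards [hw1, hwopen.mem_nhds hw2] with v h1 h2
    have h3 := hab v ⟨ball_subset_ball (min_le_left _ _) h2.1,
      ball_subset_ball (min_le_left _ _) h2.2⟩
    have h4 := hab' v ⟨ball_subset_ball (min_le_right _ _) h2.1,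
      ball_subset_ball (min_le_right _ _) h2.2⟩
    rw [← h3.2, ← h4.2, h1]
  have k1 : a =ᶠ[𝓝 w.1] a' := by
    have hc : ContinuousAt (fun x : V₁ => (x, w.2)) w.1 := by fun_prop
    have := hc.eventually (p := fun v : V₁ × V₂ => (a v.1, b v.2) = (a' v.1, b' v.2)) key
    filter_upwards [this] with x hx
    exact (Prod.mk.inj hx).1
  have k2 : b =ᶠ[𝓝 w.2] b' := by
    have hc : ContinuousAt (fun y : V₂ => (w.1, y)) w.2 := by fun_prop
    have := hc.eventually (p := fun v : V₁ × V₂ => (a v.1, b v.2) = (a' v.1, b' v.2)) key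
    filter_upwards [this] with x hx
    exact (Prod.mk.inj hx).2
  have e1 : EqOn a a' (ball z.1 r) :=
    (ha.mono (ball_subset_ball (min_le_left _ _))).eqOn_of_preconnected_of_eventuallyEq
      (ha'.mono (ball_subset_ball (min_le_right _ _))) (ball_preconn _ _) hw2.1 k1
  have e2 : EqOn b b' (ball z.2 r) :=
    (hb.mono (ball_subset_ball (min_le_left _ _))).eqOn_of_preconnected_of_eventuallyEq
      (hb'.mono (ball_subset_ball (min_le_right _ _))) (ball_preconn _ _) hw2.2 k2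
  filter_upwards [hsub] with v hv
  have h3 := hab v ⟨ball_subset_ball (min_le_left _ _) hv.1,
    ball_subset_ball (min_le_left _ _) hv.2⟩
  have h4 := hab' v ⟨ball_subset_ball (min_le_right _ _) hv.1,
    ball_subset_ball (min_le_right _ _) hv.2⟩
  apply (A.ch i).injOn h3.1 h4.1
  rw [h3.2, h4.2, e1 hv.1, e2 hv.2]

/-- identity theorem -/
theorem unique_pc [T2Space X] {A : PFol n₁ n₂ X} {U : Set (V₁ × V₂)}
    (hU' : IsPreconnected U) {G G' : V₁ × V₂ → X} (h : IsPCg A U G) (h' : IsPCg A U G')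
    {t : V₁ × V₂} (ht : t ∈ U) (hc : G =ᶠ[𝓝 t] G') : EqOn G G' U := by
  have hu : IsOpen {z | G =ᶠ[𝓝 z] G'} := isOpen_setOfPred_eventually_nhds
  have := hU'.subset_of_closure_inter_subset hu ⟨t, ht, hc⟩ ?_
  · intro z hz
    have h3 : G =ᶠ[𝓝 z] G' := this hz
    exact h3.self_of_nhds
  rintro z ⟨hz1, hz2⟩
  have hf : ∃ᶠ w in 𝓝 z, G =ᶠ[𝓝 w] G' := mem_closure_iff_frequently.1 hz1
  have hval : G z = G' z :=
    tendsto_nhds_unique_of_frequently_eq (isPCg_continuousAt h hz2) (isPCg_continuousAt h' hz2)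
      (hf.mono fun w hw => hw.self_of_nhds)
  exact eventuallyEq_of_frequently h h' hz2 hval hf

/-- p.c. maps on a connected product are determined by the two axes through a point -/
theorem unique_axes [T2Space X] {A : PFol n₁ n₂ X} {W₁ : Set V₁} {W₂ : Set V₂}
    (h₁' : IsPreconnected W₁) (h₂' : IsPreconnected W₂)
    {G G' : V₁ × V₂ → X} (h : IsPCg A (W₁ ×ˢ W₂) G) (h' : IsPCg A (W₁ ×ˢ W₂) G')
    {a₀ : V₁} {b₀ : V₂} (ha : a₀ ∈ W₁) (hb : b₀ ∈ W₂)
    (e₁ : ∀ᶠ a in 𝓝 a₀, G (a, b₀) = G' (a, b₀)) (e₂ : ∀ᶠ b in 𝓝 b₀, G (a₀, b) = G' (a₀, b)) :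
    EqOn G G' (W₁ ×ˢ W₂) := by
  refine unique_pc (h₁'.prod h₂') h h' (t := (a₀, b₀)) ⟨ha, hb⟩ ?_
  have hz : G (a₀, b₀) = G' (a₀, b₀) := e₁.self_of_nhds
  obtain ⟨i, hi, -⟩ := A.cover (G (a₀, b₀))
  have hi' : G' (a₀, b₀) ∈ (A.ch i).source := hz ▸ hi
  obtain ⟨a, b, -, -, hab⟩ := isPCg_chart h (z := (a₀, b₀)) ⟨ha, hb⟩ hi
  obtain ⟨a', b', -, -, hab'⟩ := isPCg_chart h' (z := (a₀, b₀)) ⟨ha, hb⟩ hi'
  have c1 : Tendsto (fun x : V₁ => (x, b₀)) (𝓝 a₀) (𝓝 (a₀, b₀)) :=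
    (continuous_id.prodMk continuous_const).continuousAt
  have c2 : Tendsto (fun y : V₂ => (a₀, y)) (𝓝 b₀) (𝓝 (a₀, b₀)) :=
    (continuous_const.prodMk continuous_id).continuousAt
  have k1 : ∀ᶠ x in 𝓝 a₀, a x = a' x := by
    filter_upwards [c1.eventually hab, c1.eventually hab', e₁] with x h1 h2 h3
    have := h1.2.symm.trans ((congrArg (A.ch i) h3).trans h2.2)
    exact (Prod.mk.inj this).1
  have k2 : ∀ᶠ y in 𝓝 b₀, b y = b' y := by
    filter_upwards [c2.eventually hab, c2.eventually hab', e₂] with y h1 h2 h3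
    have := h1.2.symm.trans ((congrArg (A.ch i) h3).trans h2.2)
    exact (Prod.mk.inj this).2
  have k1' : ∀ᶠ w : V₁ × V₂ in 𝓝 (a₀, b₀), a w.1 = a' w.1 :=
    (continuousAt_fst (p := (a₀, b₀)) : Tendsto Prod.fst (𝓝 (a₀, b₀)) (𝓝 a₀)).eventually k1
  have k2' : ∀ᶠ w : V₁ × V₂ in 𝓝 (a₀, b₀), b w.2 = b' w.2 :=
    (continuousAt_snd (p := (a₀, b₀)) : Tendsto Prod.snd (𝓝 (a₀, b₀)) (𝓝 b₀)).eventually k2
  filter_upwards [hab, hab', k1', k2'] with w h1 h2 h3 h4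
  apply (A.ch i).injOn h1.1 h2.1
  rw [h1.2, h2.2, h3, h4]

end GComp

end

end Crest.Agent.R266
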