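import Mathlib

/-!
R266 / GMon: the monodromy principle for "locally constant sheaves of maps" on a simply connected,
locally path connected space: if every admissible germ extends over every member `O i` of an open
cover and the extension is unique, then every admissible germ extends to a global map.
-/

set_option autoImplicit false

open Set Filter Topology

namespace Crest.Agent.R266.GMon

universe u v w

variable {X : Type u} {Z : Type v} [TopologicalSpace X]

/-- total space of germs of arbitrary maps `X → Z` -/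
def Et (X : Type u) (Z : Type v) [TopologicalSpace X] : Type (max u v) :=
  Σ x : X, Germ (𝓝 x) Z

/-- the germ of `f` at `x` as a point of the total space -/
def pt (f : X → Z) (x : X) : Et X Z := ⟨x, (f : Germ (𝓝 x) Z)⟩

theorem pt_eq_of_eventuallyEq {f g : X → Z} {x : X} (h : f =ᶠ[𝓝 x] g) : pt f x = pt g x := by
  unfold pt
  congr 1
  exact Germ.coe_eq.2 h

theorem eventuallyEq_of_pt_eq {f g : X → Z} {x : X} (h : pt f x = pt g x) : f =ᶠ[𝓝 x] g := by
  unfold pt at h
  have h2 := (Sigma.mk.inj h).2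
  exact Germ.coe_eq.1 (eq_of_heq h2)

theorem exists_pt (p : Et X Z) : ∃ f : X → Z, p = pt f p.1 := by
  obtain ⟨x, γ⟩ := p
  induction γ using Germ.inductionOn with
  | _ f => exact ⟨f, rfl⟩

instance : TopologicalSpace (Et X Z) where
  IsOpen U := ∀ (f : X → Z) (x : X), pt f x ∈ U → ∀ᶠ x' in 𝓝 x, pt f x' ∈ U
  isOpen_univ := fun f x _ => by simp
  isOpen_inter := fun U V hU hV f x hx => (hU f x hx.1).and (hV f x hx.2)
  isOpen_sUnion := fun 𝒰 h𝒰 f x hx => by
    obtain ⟨U, hU, hxU⟩ := hx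
    filter_upwards [h𝒰 U hU f x hxU] with x' hx'
    exact ⟨U, hU, hx'⟩

theorem isOpen_et_iff {U : Set (Et X Z)} :
    IsOpen U ↔ ∀ (f : X → Z) (x : X), pt f x ∈ U → ∀ᶠ x' in 𝓝 x, pt f x' ∈ U := Iff.rfl

theorem continuous_pt (f : X → Z) : Continuous (pt f) := by
  refine ⟨fun U hU => ?_⟩
  rw [isOpen_iff_mem_nhds]
  intro x hx
  exact hU f x hx

theorem continuous_fst : Continuous (fun p : Et X Z => p.1) := by
  refine ⟨fun U hU => ?_⟩
  rw [isOpen_et_iff]
  intro f x hx
  exact hU.mem_nhds hx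

theorem isOpen_image_pt (f : X → Z) {V : Set X} (hV : IsOpen V) : IsOpen (pt f '' V) := by
  rw [isOpen_et_iff]
  rintro g x ⟨y, hy, hyx⟩
  have hxy : y = x := congrArg Sigma.fst hyx
  subst hxy
  have h := eventuallyEq_of_pt_eq hyx
  filter_upwards [h.eventuallyEq_nhds, hV.mem_nhds hy] with x' hx' hx'V
  exact ⟨x', hx'V, pt_eq_of_eventuallyEq hx'⟩

/-- data of a locally constant sheaf of maps -/
structure Data (X : Type u) (Z : Type v) [TopologicalSpace X] (ι : Type w) where
  O : ι → Set X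
  G : ι → Set (X → Z)
  isOpen : ∀ i, IsOpen (O i)
  cover : ∀ x, ∃ i, x ∈ O i
  ext : ∀ i j x f, x ∈ O i → x ∈ O j → f ∈ G i → ∃ g ∈ G j, g =ᶠ[𝓝 x] f
  uniq : ∀ i f g x, f ∈ G i → g ∈ G i → x ∈ O i → f =ᶠ[𝓝 x] g → EqOn f g (O i)

variable {ι : Type w} (D : Data X Z ι)

namespace Data

/-- the admissible germs -/
def E : Type (max u v) := {p : Et X Z // ∃ i, p.1 ∈ D.O i ∧ ∃ f ∈ D.G i, p = pt f p.1}

instance : TopologicalSpace D.E :=
  inferInstanceAs (TopologicalSpace
    {p : Et X Z // ∃ i, p.1 ∈ D.O i ∧ ∃ f ∈ D.G i, p = pt f p.1})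

/-- projection -/
def proj (e : D.E) : X := e.1.1

theorem continuous_proj : Continuous D.proj := continuous_fst.comp continuous_subtype_val

/-- equality of sections on `O i` -/
def setoid (i : ι) : Setoid (D.G i) where
  r f g := EqOn f.1 g.1 (D.O i)
  iseqv := ⟨fun f => eqOn_refl _ _, fun h => h.symm, fun h h' => h.trans h'⟩

/-- sections over `O i` -/
def Γ (i : ι) : Type (max u v) := Quotient (D.setoid i)

instance (i : ι) : TopologicalSpace (D.Γ i) := ⊥

instance (i : ι) : DiscreteTopology (D.Γ i) := ⟨rfl⟩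

theorem exists_rep (i : ι) (e : D.E) (he : D.proj e ∈ D.O i) :
    ∃ g : D.G i, e.1 = pt g.1 e.1.1 := by
  obtain ⟨j, hj, f, hf, hp⟩ := e.2
  obtain ⟨g, hg, hgf⟩ := D.ext j i e.1.1 f hj he hf
  refine ⟨⟨g, hg⟩, ?_⟩
  rw [hp]
  exact (pt_eq_of_eventuallyEq hgf).symm

/-- the local section through points -/
def sec (i : ι) (x : D.O i) (g : D.G i) : D.E := ⟨pt g.1 x.1, i, x.2, g.1, g.2, rfl⟩

theorem proj_sec (i : ι) (x : D.O i) (g : D.G i) : D.proj (D.sec i x g) = x.1 := rfl

/-- inverse trivialisation -/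
def triv (i : ι) (q : D.O i × D.Γ i) : D.proj ⁻¹' (D.O i) :=
  ⟨Quotient.liftOn q.2 (fun g => D.sec i q.1 g) (by
    intro _ _ hfg
    apply Subtype.ext
    apply pt_eq_of_eventuallyEq
    filter_upwards [(D.isOpen i).mem_nhds q.1.2] with x hx
    exact hfg hx), by
    obtain ⟨x, g⟩ := q
    induction g using Quotient.inductionOn with
    | _ g => exact x.2⟩

theorem triv_mk (i : ι) (x : D.O i) (g : D.G i) :
    (D.triv i (x, Quotient.mk _ g)).1 = D.sec i x g := rfl

theorem triv_injective (i : ι) : Function.Injective (D.triv i) := by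
  rintro ⟨x, f⟩ ⟨y, g⟩ h
  induction f using Quotient.inductionOn with
  | _ f =>
  induction g using Quotient.inductionOn with
  | _ g =>
  have h1 : D.sec i x f = D.sec i y g := congrArg Subtype.val h
  have h2 : pt f.1 x.1 = pt g.1 y.1 := congrArg Subtype.val h1
  have hxy : x = y := Subtype.ext (congrArg Sigma.fst h2)
  subst hxy
  have h3 := eventuallyEq_of_pt_eq h2
  refine Prod.ext rfl (Quotient.sound ?_)
  exact D.uniq i f.1 g.1 x.1 f.2 g.2 x.2 h3

theorem triv_surjective (i : ι) : Function.Surjective (D.triv i) := by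
  rintro ⟨e, he⟩
  obtain ⟨g, hg⟩ := D.exists_rep i e he
  refine ⟨(⟨D.proj e, he⟩, Quotient.mk _ g), ?_⟩
  apply Subtype.ext
  apply Subtype.ext
  exact hg.symm

theorem continuous_triv (i : ι) : Continuous (D.triv i) := by
  apply Continuous.subtype_mk
  apply continuous_induced_rng.2
  rw [continuous_iff_continuousAt]
  rintro ⟨x, g⟩
  have h1 : ∀ᶠ q : D.O i × D.Γ i in 𝓝 (x, g), q.2 = g := by
    have : {q : D.O i × D.Γ i | q.2 = g} = Prod.snd ⁻¹' {g} := rfl
    have h2 : IsOpen {q : D.O i × D.Γ i | q.2 = g} :=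
      (isOpen_discrete ({g} : Set (D.Γ i))).preimage _root_.continuous_snd
    exact h2.mem_nhds rfl
  induction g using Quotient.inductionOn with
  | _ g =>
  have h2 : ContinuousAt (fun q : D.O i × D.Γ i => (pt g.1 q.1.1 : Et X Z))
      (x, Quotient.mk _ g) :=
    ((continuous_pt g.1).comp (continuous_subtype_val.comp _root_.continuous_fst)).continuousAt
  refine h2.congr ?_
  filter_upwards [h1] with q hq
  obtain ⟨y, k⟩ := q
  simp only at hq
  subst hq
  rfl

/-- underlying germ -/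
def emb (i : ι) (e : D.proj ⁻¹' (D.O i)) : Et X Z := e.1.1

theorem continuous_emb (i : ι) : Continuous (D.emb i) :=
  continuous_subtype_val.comp continuous_subtype_val

theorem isOpenMap_triv (i : ι) : IsOpenMap (D.triv i) := by
  intro U hU
  rw [isOpen_iff_mem_nhds]
  rintro e ⟨⟨x, g⟩, hxg, rfl⟩
  induction g using Quotient.inductionOn with
  | _ g =>
  -- neighbourhood of `x` on which the slice lies in `U`
  have h1 : ∀ᶠ y in 𝓝 x, ((y, (Quotient.mk _ g : D.Γ i)) : D.O i × D.Γ i) ∈ U := by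
    have hc : Continuous (fun y : D.O i => ((y, (Quotient.mk _ g : D.Γ i)) : D.O i × D.Γ i)) :=
      continuous_id.prodMk continuous_const
    exact hc.continuousAt.eventually (hU.mem_nhds hxg)
  obtain ⟨V, hV, hVo, hxV⟩ := eventually_nhds_iff.1 h1
  obtain ⟨W, hW, rfl⟩ := isOpen_induced_iff.1 hVo
  have h2 : IsOpen (pt g.1 '' (W ∩ D.O i)) := isOpen_image_pt g.1 (hW.inter (D.isOpen i))
  have h3 : IsOpen (D.emb i ⁻¹' (pt g.1 '' (W ∩ D.O i))) := h2.preimage (D.continuous_emb i)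
  refine mem_nhds_iff.2 ⟨_, ?_, h3, ?_⟩
  · rintro ⟨e, he⟩ ⟨y, ⟨hyW, hyO⟩, hye⟩
    refine ⟨(⟨y, hyO⟩, Quotient.mk _ g), hV ⟨y, hyO⟩ hyW, ?_⟩
    apply Subtype.ext
    apply Subtype.ext
    exact hye
  · exact ⟨x.1, ⟨hxV, x.2⟩, rfl⟩

/-- the trivialising homeomorphism -/
noncomputable def homeo (i : ι) : D.O i × D.Γ i ≃ₜ D.proj ⁻¹' (D.O i) :=
  (Equiv.ofBijective (D.triv i) ⟨D.triv_injective i, D.triv_surjective i⟩).toHomeomorphOfContinuousOpen
    (D.continuous_triv i) (D.isOpenMap_triv i)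

theorem isCoveringMap : IsCoveringMap D.proj := by
  intro x
  obtain ⟨i, hi⟩ := D.cover x
  have : IsEvenlyCovered D.proj x (D.Γ i) := by
    refine ⟨inferInstance, D.O i, hi, D.isOpen i, (D.isOpen i).preimage D.continuous_proj,
      (D.homeo i).symm, ?_⟩
    intro e
    obtain ⟨q, rfl⟩ := (D.homeo i).surjective e
    rw [Homeomorph.symm_apply_apply]
    obtain ⟨y, g⟩ := q
    induction g using Quotient.inductionOn with
    | _ g => rfl
  exact this.to_isEvenlyCovered_preimage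

/-- **Monodromy principle.** -/
theorem exists_global [SimplyConnectedSpace X] [LocallyPathConnectedSpace X] (i₀ : ι) (x₀ : X)
    (hx₀ : x₀ ∈ D.O i₀) (f₀ : X → Z) (hf₀ : f₀ ∈ D.G i₀) :
    ∃ F : X → Z, F =ᶠ[𝓝 x₀] f₀ ∧ ∀ i, ∀ x ∈ D.O i, ∃ g ∈ D.G i, F =ᶠ[𝓝 x] g := by
  obtain ⟨s, ⟨hs0, hs⟩, -⟩ := D.isCoveringMap.existsUnique_continuousMap_lifts
    (ContinuousMap.id X) x₀ (D.sec i₀ ⟨x₀, hx₀⟩ ⟨f₀, hf₀⟩) rfl
  have hs' : ∀ x, (s x).1.1 = x := fun x => congrFun hs x
  choose F hF using fun x => exists_pt (s x).1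
  have key : ∀ x (f : X → Z), (s x).1 = pt f x → (fun x => F x x) =ᶠ[𝓝 x] f := by
    intro x f hf
    have h1 : IsOpen {y : X | (s y).1 ∈ pt f '' univ} := by
      have h2 : IsOpen (pt f '' (univ : Set X)) := isOpen_image_pt f isOpen_univ
      exact h2.preimage (continuous_subtype_val.comp s.continuous)
    have h3 : x ∈ {y : X | (s y).1 ∈ pt f '' univ} := ⟨x, mem_univ _, hf.symm⟩
    filter_upwards [h1.mem_nhds h3] with y hy
    obtain ⟨z, -, hz⟩ := hy
    have hzy : z = y := by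
      have := congrArg Sigma.fst hz
      rw [hs' y] at this
      exact this
    subst hzy
    have h4 := hF z
    rw [hs' z, ← hz] at h4
    exact (eventuallyEq_of_pt_eq h4).self_of_nhds.symm
  refine ⟨fun x => F x x, key x₀ f₀ ?_, ?_⟩
  · rw [hs0]; rfl
  · intro i x hx
    obtain ⟨g, hg⟩ := D.exists_rep i (s x) (by rw [proj, hs' x]; exact hx)
    rw [hs' x] at hg
    exact ⟨g.1, g.2, key x g.1 hg⟩

end Data

end Crest.Agent.R266.GMon
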