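import Mathlib

/-!
R266 / GTop: topology lemmas for the GLOBAL part (G7 of GlobIface).
-/

set_option autoImplicit false

open Set Filter Topology

namespace Crest.Agent.R266

theorem simplyConnected_of_retract {Y Z : Type} [TopologicalSpace Y] [TopologicalSpace Z]
    [SimplyConnectedSpace Y] (i : Z → Y) (p : Y → Z) (hi : Continuous i) (hp : Continuous p)
    (h : ∀ z, p (i z) = z) : SimplyConnectedSpace Z := by
  rw [simply_connected_iff_paths_homotopic']
  have hne : Nonempty Y := PathConnectedSpace.nonempty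
  refine ⟨⟨⟨p hne.some⟩, fun x y => ?_⟩, ?_⟩
  · obtain ⟨γ⟩ := PathConnectedSpace.joined (i x) (i y)
    exact ⟨(γ.map hp).cast (h x).symm (h y).symm⟩
  · intro x y γ γ'
    have h1 : Path.Homotopic (γ.map hi) (γ'.map hi) := SimplyConnectedSpace.paths_homotopic _ _
    have h2 := h1.map ⟨p, hp⟩
    have h3 := h2.pathCast (h x).symm (h y).symm
    have e : ∀ δ : Path x y, ((δ.map hi).map hp).cast (h x).symm (h y).symm = δ := by
      intro δ
      ext t
      simp [h]
    have e1 := e γ
    have e2 := e γ'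
    exact e1 ▸ e2 ▸ h3

theorem simplyConnected_prod {Y Z : Type} [TopologicalSpace Y] [TopologicalSpace Z]
    [SimplyConnectedSpace Y] [SimplyConnectedSpace Z] : SimplyConnectedSpace (Y × Z) := by
  rw [simply_connected_iff_paths_homotopic']
  refine ⟨⟨⟨(PathConnectedSpace.nonempty (X := Y)).some, (PathConnectedSpace.nonempty (X := Z)).some⟩,
    fun x y => ?_⟩, ?_⟩
  · obtain ⟨γ⟩ := PathConnectedSpace.joined x.1 y.1
    obtain ⟨δ⟩ := PathConnectedSpace.joined x.2 y.2
    exact ⟨γ.prod δ⟩
  · rintro ⟨x₁, x₂⟩ ⟨y₁, y₂⟩ γ γ'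
    obtain ⟨H₁⟩ := SimplyConnectedSpace.paths_homotopic (γ.map continuous_fst)
      (γ'.map continuous_fst)
    obtain ⟨H₂⟩ := SimplyConnectedSpace.paths_homotopic (γ.map continuous_snd)
      (γ'.map continuous_snd)
    have H := Path.Homotopic.prodHomotopy H₁ H₂
    have e : ∀ δ : Path ((x₁, x₂) : Y × Z) (y₁, y₂),
        (δ.map continuous_fst).prod (δ.map continuous_snd) = δ := by
      intro δ
      ext t <;> simp
    have e1 := e γ
    have e2 := e γ'
    have hH : Path.Homotopic ((γ.map continuous_fst).prod (γ.map continuous_snd))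
      ((γ'.map continuous_fst).prod (γ'.map continuous_snd)) := ⟨H⟩
    exact e1 ▸ e2 ▸ hH

/-- two continuous lifts through a locally injective map that agree at one point agree -/
theorem lifts_eq {Y Z T : Type} [TopologicalSpace Y] [TopologicalSpace Z] [TopologicalSpace T]
    [T2Space Z] [PreconnectedSpace Y] {Φ : Z → T} (hΦ : ∀ z, ∃ U ∈ 𝓝 z, InjOn Φ U)
    {f g : Y → Z} (hf : Continuous f) (hg : Continuous g) (h : ∀ y, Φ (f y) = Φ (g y)) {y₀ : Y}
    (h₀ : f y₀ = g y₀) : f = g :=
  IsSeparatedMap.eq_of_comp_eq (T2Space.isSeparatedMap Φ) (isLocallyInjective_iff_nhds.2 hΦ) hf hg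
    (funext h) y₀ h₀

end Crest.Agent.R266
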