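import Crest.Agent.R266.Defs

/-!
R266 / GlobDefs (helper926): definitions for the GLOBAL part of S0405 (step 6): from the rectangle
property `Completeness` on a simply connected space with a product-foliated atlas to a global
product.  `IsPCg`, `IsE1g`, `IsE2g` are the versions of `IsPC`, `IsE1`, `IsE2` with arbitrary normed
parameter spaces (definitionally equal to them for `V = ℂ`).
-/

set_option autoImplicit false

open scoped Manifold ContDiff Topology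
open Set Metric Filter

namespace Crest.Agent.R266

section Swap
variable {n₁ n₂ : ℕ} {X : Type} [TopologicalSpace X]

/-- the swap homeomorphism -/
noncomputable abbrev swH (n₁ n₂ : ℕ) : (EV n₁ × EV n₂) ≃ₜ (EV n₂ × EV n₁) := Homeomorph.prodComm _ _

/-- the swapped atlas: the rôles of the two foliations are exchanged. -/
noncomputable def PFol.swap (A : PFol n₁ n₂ X) : PFol n₂ n₁ X where
  ι := A.ι
  ch i := (A.ch i).trans (swH n₁ n₂).toOpenPartialHomeomorph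
  target_eq i := by
    ext ⟨a, b⟩
    simp [A.target_eq i, and_comm]
  cover x := by
    obtain ⟨i, hi, hi'⟩ := A.cover x
    refine ⟨i, by simpa using hi, ?_⟩
    simp only [OpenPartialHomeomorph.coe_trans, Function.comp_apply,
      Homeomorph.toOpenPartialHomeomorph_apply, Homeomorph.coe_prodComm, mem_prod,
      Prod.fst_swap, Prod.snd_swap] at hi' ⊢
    exact ⟨hi'.2, hi'.1⟩
  compat i j x hx := by
    obtain ⟨φ, ψ, hφ, hψ, h⟩ := A.compat i j x (by simpa using hx)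
    refine ⟨ψ, φ, hψ, hφ, ?_⟩
    have hc : Tendsto (Prod.swap : EV n₂ × EV n₁ → EV n₁ × EV n₂)
        (𝓝 (Prod.swap (A.ch i x))) (𝓝 (A.ch i x)) := by
      have := (continuous_swap (X := EV n₂) (Y := EV n₁)).tendsto (Prod.swap (A.ch i x))
      simpa using this
    have h2 := hc.eventually h
    simp only [OpenPartialHomeomorph.coe_trans, Function.comp_apply,
      Homeomorph.toOpenPartialHomeomorph_apply, Homeomorph.coe_prodComm]
    filter_upwards [h2] with p hp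
    have : ((A.ch i).trans (swH n₁ n₂).toOpenPartialHomeomorph).symm p
        = (A.ch i).symm p.swap := by
      simp
    rw [this, hp]
    rfl

@[simp] theorem PFol.swap_source (A : PFol n₁ n₂ X) (i : A.ι) :
    (A.swap.ch i).source = (A.ch i).source := by
  simp [PFol.swap]

@[simp] theorem PFol.swap_ch (A : PFol n₁ n₂ X) (i : A.ι) (x : X) :
    A.swap.ch i x = (A.ch i x).swap := rfl

@[simp] theorem PFol.swap_symm (A : PFol n₁ n₂ X) (i : A.ι) (p : EV n₂ × EV n₁) :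
    (A.swap.ch i).symm p = (A.ch i).symm p.swap := by
  simp [PFol.swap]

end Swap

section Gen
variable {n₁ n₂ : ℕ} {X : Type} [TopologicalSpace X]
variable {V V₁ V₂ : Type} [NormedAddCommGroup V] [NormedSpace ℂ V] [NormedAddCommGroup V₁]
  [NormedSpace ℂ V₁] [NormedAddCommGroup V₂] [NormedSpace ℂ V₂]

/-- p.c. maps with general parameter spaces (for `V₁ = V₂ = ℂ` this is `IsPC`) -/
def IsPCg (A : PFol n₁ n₂ X) (Ω : Set (V₁ × V₂)) (G : V₁ × V₂ → X) : Prop :=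
  ∀ z ∈ Ω, ∃ (i : A.ι) (a : V₁ → EV n₁) (b : V₂ → EV n₂), AnalyticAt ℂ a z.1 ∧ AnalyticAt ℂ b z.2 ∧
    ∀ᶠ w in 𝓝 z, G w ∈ (A.ch i).source ∧ A.ch i (G w) = (a w.1, b w.2)

/-- holomorphic maps tangent to the first foliation (for `V = ℂ` this is `IsE1`) -/
def IsE1g (A : PFol n₁ n₂ X) (U : Set V) (c : V → X) : Prop :=
  ∀ t ∈ U, ∃ (i : A.ι) (a : V → EV n₁) (b : EV n₂), AnalyticAt ℂ a t ∧
    ∀ᶠ s in 𝓝 t, c s ∈ (A.ch i).source ∧ A.ch i (c s) = (a s, b)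

/-- holomorphic maps tangent to the second foliation (for `V = ℂ` this is `IsE2`) -/
def IsE2g (A : PFol n₁ n₂ X) (U : Set V) (c : V → X) : Prop :=
  ∀ t ∈ U, ∃ (i : A.ι) (a : EV n₁) (b : V → EV n₂), AnalyticAt ℂ b t ∧
    ∀ᶠ s in 𝓝 t, c s ∈ (A.ch i).source ∧ A.ch i (c s) = (a, b s)

theorem isPC_iff_isPCg (A : PFol n₁ n₂ X) (Ω : Set (ℂ × ℂ)) (G : ℂ × ℂ → X) :
    IsPC A Ω G ↔ IsPCg A Ω G := Iff.rfl
theorem isE1_iff_isE1g (A : PFol n₁ n₂ X) (U : Set ℂ) (c : ℂ → X) : IsE1 A U c ↔ IsE1g A U c := Iff.rfl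
theorem isE2_iff_isE2g (A : PFol n₁ n₂ X) (U : Set ℂ) (c : ℂ → X) : IsE2 A U c ↔ IsE2g A U c := Iff.rfl

/-- first-leaf immersions `EV n₁ → X` (local biholomorphisms to the leaf) -/
def Imm1 (A : PFol n₁ n₂ X) (U : Set (EV n₁)) (c : EV n₁ → X) : Prop :=
  ∀ t ∈ U, ∃ (i : A.ι) (a : EV n₁ → EV n₁) (b : EV n₂), AnalyticAt ℂ a t ∧
    (fderiv ℂ a t).IsInvertible ∧
    ∀ᶠ s in 𝓝 t, c s ∈ (A.ch i).source ∧ A.ch i (c s) = (a s, b)

/-- rectangles over (ball in `V₁`) × (ball in `V₂`), based at the centres -/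
def CompG (A : PFol n₁ n₂ X) (V₁ V₂ : Type) [NormedAddCommGroup V₁] [NormedSpace ℂ V₁]
    [NormedAddCommGroup V₂] [NormedSpace ℂ V₂] : Prop :=
  ∀ (a₀ : V₁) (b₀ : V₂) (r₁ r₂ : ℝ) (c₁ : V₁ → X) (c₂ : V₂ → X), 0 < r₁ → 0 < r₂ →
    IsE1g A (ball a₀ r₁) c₁ → IsE2g A (ball b₀ r₂) c₂ → c₁ a₀ = c₂ b₀ →
    ∃ G : V₁ × V₂ → X, IsPCg A (ball a₀ r₁ ×ˢ ball b₀ r₂) G ∧
      (∀ a ∈ ball a₀ r₁, G (a, b₀) = c₁ a) ∧ (∀ b ∈ ball b₀ r₂, G (a₀, b) = c₂ b)

/-- the plaque of the first foliation at height `b` in chart `i` -/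
noncomputable def plq (A : PFol n₁ n₂ X) (i : A.ι) (b : EV n₂) : EV n₁ → X :=
  fun a => (A.ch i).symm (a, b)

/-- one step transport of a first-leaf map over `W` along second leaves -/
def Tr (A : PFol n₁ n₂ X) (W : Set V) (B B' : V → X) : Prop :=
  ∃ (R : ℝ) (G : V × ℂ → X) (s : ℂ), 0 < R ∧ s ∈ ball (0 : ℂ) R ∧ IsPCg A (W ×ˢ ball (0 : ℂ) R) G ∧
    (∀ a ∈ W, G (a, 0) = B a) ∧ (∀ a ∈ W, G (a, s) = B' a)

/-- transport of first-leaf maps over `W` along chains of second-leaf discs -/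
def TrS (A : PFol n₁ n₂ X) (W : Set V) : (V → X) → (V → X) → Prop :=
  Relation.ReflTransGen (Tr A W)

/-- `f` is, near every point of `U`, a projection along the second foliation to a first leaf,
obtained by transport of the plaque through the point. -/
def Sec1 (A : PFol n₁ n₂ X) (U : Set X) (f : X → X) : Prop :=
  ∀ y ∈ U, ∃ (i : A.ι) (B : EV n₁ → X) (δ : ℝ), 0 < δ ∧ y ∈ (A.ch i).source ∧
    ball (A.ch i y).1 δ ⊆ ball 0 1 ∧ TrS A (ball (A.ch i y).1 δ) (plq A i (A.ch i y).2) B ∧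
    ∀ᶠ y' in 𝓝 y, f y' = B (A.ch i y').1

/-- the conclusion of the global theorem -/
structure ProdStr (A : PFol n₁ n₂ X) (Y₁ Y₂ : Type) [TopologicalSpace Y₁]
    [ChartedSpace (EV n₁) Y₁] [TopologicalSpace Y₂] [ChartedSpace (EV n₂) Y₂]
    (Φ : X → Y₁ × Y₂) (Ψ : Y₁ × Y₂ → X) : Prop where
  left : ∀ p, Ψ (Φ p) = p
  right : ∀ q, Φ (Ψ q) = q
  loc : ∀ x, ∀ i, x ∈ (A.ch i).source → ∃ (φ : EV n₁ → Y₁) (ψ : EV n₂ → Y₂),
    ContMDiffAt 𝓘(ℂ, EV n₁) 𝓘(ℂ, EV n₁) ω φ (A.ch i x).1 ∧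
    ContMDiffAt 𝓘(ℂ, EV n₂) 𝓘(ℂ, EV n₂) ω ψ (A.ch i x).2 ∧
    ∀ᶠ p in 𝓝 x, Φ p = (φ (A.ch i p).1, ψ (A.ch i p).2)
  loc' : ∀ q : Y₁ × Y₂, ∀ i, Ψ q ∈ (A.ch i).source → ∃ (φ : Y₁ → EV n₁) (ψ : Y₂ → EV n₂),
    ContMDiffAt 𝓘(ℂ, EV n₁) 𝓘(ℂ, EV n₁) ω φ q.1 ∧ ContMDiffAt 𝓘(ℂ, EV n₂) 𝓘(ℂ, EV n₂) ω ψ q.2 ∧
    ∀ᶠ q' in 𝓝 q, Ψ q' ∈ (A.ch i).source ∧ A.ch i (Ψ q') = (φ q'.1, ψ q'.2)

end Gen

/-- a type with the leaf topology of the first foliation (all leaves at once) -/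
def Leaf1 {n₁ n₂ : ℕ} {X : Type} [TopologicalSpace X] (_A : PFol n₁ n₂ X) : Type := X

/-- the identity map to the leaf space -/
def toL {n₁ n₂ : ℕ} {X : Type} [TopologicalSpace X] (A : PFol n₁ n₂ X) (x : X) : Leaf1 A := x

/-- the identity map from the leaf space -/
def ofL {n₁ n₂ : ℕ} {X : Type} [TopologicalSpace X] {A : PFol n₁ n₂ X} (y : Leaf1 A) : X := y

@[simp] theorem ofL_toL {n₁ n₂ : ℕ} {X : Type} [TopologicalSpace X] (A : PFol n₁ n₂ X) (x : X) :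
    ofL (toL A x) = x := rfl

@[simp] theorem toL_ofL {n₁ n₂ : ℕ} {X : Type} [TopologicalSpace X] {A : PFol n₁ n₂ X}
    (y : Leaf1 A) : toL A (ofL y) = y := rfl

end Crest.Agent.R266
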