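import Crest.Agent.R266.Defs
import Crest.Agent.R266.Chart

/-!
Row 266, S0405 glue, nodes G4/G5 (helper260): product charts of a manifold adapted to a field `q` of
projectors, their transition maps, the product-foliated atlas `PFol`.
-/

set_option autoImplicit false

open Set Function Filter Metric
open scoped Manifold ContDiff Topology
open Crest.AlgGeometry.HolSplit

namespace Crest.Agent.R266

noncomputable section

variable {n n₁ n₂ : ℕ} {X : Type} [TopologicalSpace X] [ChartedSpace (Model n) X]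

/-- differential of a map to `EV n₁ × EV n₂` -/
def dch (c : X → EV n₁ × EV n₂) (x : X) : Model n →L[ℂ] EV n₁ × EV n₂ :=
  mfderiv (mI n) 𝓘(ℂ, EV n₁ × EV n₂) c x

/-- differential of a map from `EV n₁ × EV n₂` -/
def dsy (s : EV n₁ × EV n₂ → X) (p : EV n₁ × EV n₂) : EV n₁ × EV n₂ →L[ℂ] Model n :=
  mfderiv 𝓘(ℂ, EV n₁ × EV n₂) (mI n) s p

/-- `c` is a holomorphic product chart adapted to the field of projectors `q`. -/
structure RChart (q : X → Model n →L[ℂ] Model n)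
    (c : OpenPartialHomeomorph X (EV n₁ × EV n₂)) : Prop where
  hol : ContMDiffOn (mI n) 𝓘(ℂ, EV n₁ × EV n₂) ω c c.source
  hol_symm : ContMDiffOn 𝓘(ℂ, EV n₁ × EV n₂) (mI n) ω c.symm c.target
  tan₁ : ∀ x ∈ c.source, ∀ v : Model n, q x v = v → (dch c x v).2 = 0
  tan₂ : ∀ x ∈ c.source, ∀ v : Model n, q x v = 0 → (dch c x v).1 = 0

namespace RChart

variable {q : X → Model n →L[ℂ] Model n} {c : OpenPartialHomeomorph X (EV n₁ × EV n₂)}

lemma mdiff (h : RChart q c) {x : X} (hx : x ∈ c.source) :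
    MDifferentiableAt (mI n) 𝓘(ℂ, EV n₁ × EV n₂) c x :=
  (h.hol.contMDiffAt (c.open_source.mem_nhds hx)).mdifferentiableAt (by simp)

lemma mdiff_symm (h : RChart q c) {p : EV n₁ × EV n₂} (hp : p ∈ c.target) :
    MDifferentiableAt 𝓘(ℂ, EV n₁ × EV n₂) (mI n) c.symm p :=
  (h.hol_symm.contMDiffAt (c.open_target.mem_nhds hp)).mdifferentiableAt (by simp)

lemma dch_dsy (h : RChart q c) {p : EV n₁ × EV n₂} (hp : p ∈ c.target) (w : EV n₁ × EV n₂) :
    dch c (c.symm p) (dsy (n := n) c.symm p w) = w := by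
  have h1 := mfderiv_comp (I := 𝓘(ℂ, EV n₁ × EV n₂)) (I' := mI n) (I'' := 𝓘(ℂ, EV n₁ × EV n₂)) p
    (h.mdiff (c.map_target hp)) (h.mdiff_symm hp)
  have h2 : mfderiv 𝓘(ℂ, EV n₁ × EV n₂) 𝓘(ℂ, EV n₁ × EV n₂) (c ∘ c.symm) p =
      mfderiv 𝓘(ℂ, EV n₁ × EV n₂) 𝓘(ℂ, EV n₁ × EV n₂) (id : EV n₁ × EV n₂ → EV n₁ × EV n₂) p := by
    refine Filter.EventuallyEq.mfderiv_eq ?_
    filter_upwards [c.open_target.mem_nhds hp] with y hy
    simp [c.right_inv hy]
  rw [h2, mfderiv_id] at h1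
  exact (congrArg (fun L : (EV n₁ × EV n₂) →L[ℂ] (EV n₁ × EV n₂) => L w) h1).symm

lemma dsy_dch (h : RChart q c) {x : X} (hx : x ∈ c.source) (v : Model n) :
    dsy (n := n) c.symm (c x) (dch c x v) = v := by
  have hx' : c.symm (c x) = x := c.left_inv hx
  have h1 := mfderiv_comp (I := mI n) (I' := 𝓘(ℂ, EV n₁ × EV n₂)) (I'' := mI n) x
    (h.mdiff_symm (c.map_source hx)) (h.mdiff hx)
  have h2 : mfderiv (mI n) (mI n) (c.symm ∘ c) x = mfderiv (mI n) (mI n) (id : X → X) x := by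
    refine Filter.EventuallyEq.mfderiv_eq ?_
    filter_upwards [c.open_source.mem_nhds hx] with y hy
    simp [c.left_inv hy]
  rw [h2, mfderiv_id] at h1
  exact (congrArg (fun L : Model n →L[ℂ] Model n => L v) h1).symm

/-- if `dch c x ξ` has vanishing first component, then `q x ξ = 0` -/
lemma q_of_fst (h : RChart q c) (hq : ∀ x v, q x (q x v) = q x v) {x : X} (hx : x ∈ c.source)
    {ξ : Model n} (h1 : (dch c x ξ).1 = 0) : q x ξ = 0 := by
  have e1 := h.tan₁ x hx (q x ξ) (hq x ξ)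
  have e2 := h.tan₂ x hx (ξ - q x ξ) (by rw [map_sub, hq, sub_self])
  have e3 : (dch c x (q x ξ)).1 = 0 := by
    have : (dch c x ξ).1 = (dch c x (q x ξ)).1 + (dch c x (ξ - q x ξ)).1 := by
      rw [← Prod.fst_add, ← map_add]; congr 2; abel
    rw [h1, e2, add_zero] at this
    exact this.symm
  have e4 : dch c x (q x ξ) = 0 := Prod.ext e3 e1
  have e5 := h.dsy_dch hx (q x ξ)
  rw [e4, map_zero] at e5
  exact e5.symm

/-- if `dch c x ξ` has vanishing second component, then `q x ξ = ξ` -/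
lemma q_of_snd (h : RChart q c) (hq : ∀ x v, q x (q x v) = q x v) {x : X} (hx : x ∈ c.source)
    {ξ : Model n} (h1 : (dch c x ξ).2 = 0) : q x ξ = ξ := by
  have e1 := h.tan₁ x hx (q x ξ) (hq x ξ)
  have e2 := h.tan₂ x hx (ξ - q x ξ) (by rw [map_sub, hq, sub_self])
  have e3 : (dch c x (ξ - q x ξ)).2 = 0 := by
    have : (dch c x ξ).2 = (dch c x (q x ξ)).2 + (dch c x (ξ - q x ξ)).2 := by
      rw [← Prod.snd_add, ← map_add]; congr 2; abel
    rw [h1, e1, zero_add] at this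
    exact this.symm
  have e4 : dch c x (ξ - q x ξ) = 0 := Prod.ext e2 e3
  have e5 := h.dsy_dch hx (ξ - q x ξ)
  rw [e4, map_zero] at e5
  exact (sub_eq_zero.1 e5.symm).symm

variable {c' : OpenPartialHomeomorph X (EV n₁ × EV n₂)}

lemma trans_contDiffOn (h : RChart q c) (h' : RChart q c') :
    ContDiffOn ℂ ω (c' ∘ c.symm) (c.target ∩ c.symm ⁻¹' c'.source) := by
  have h1 := h'.hol.comp (h.hol_symm.mono inter_subset_left)
    (s := c.target ∩ c.symm ⁻¹' c'.source) (fun y hy => hy.2)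
  rwa [contMDiffOn_iff_contDiffOn] at h1

lemma trans_isOpen : IsOpen (c.target ∩ c.symm ⁻¹' c'.source) :=
  c.symm.isOpen_inter_preimage c'.open_source

lemma trans_analyticAt (h : RChart q c) (h' : RChart q c') {p : EV n₁ × EV n₂}
    (hp : p ∈ c.target) (hp' : c.symm p ∈ c'.source) : AnalyticAt ℂ (c' ∘ c.symm) p :=
  ((h.trans_contDiffOn h').contDiffAt (trans_isOpen.mem_nhds ⟨hp, hp'⟩)).analyticAt

lemma fderiv_trans (h : RChart q c) (h' : RChart q c') {p : EV n₁ × EV n₂}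
    (hp : p ∈ c.target) (hp' : c.symm p ∈ c'.source) (w : EV n₁ × EV n₂) :
    fderiv ℂ (c' ∘ c.symm) p w = dch c' (c.symm p) (dsy (n := n) c.symm p w) := by
  have h1 := mfderiv_comp (I := 𝓘(ℂ, EV n₁ × EV n₂)) (I' := mI n) (I'' := 𝓘(ℂ, EV n₁ × EV n₂)) p
    (h'.mdiff hp') (h.mdiff_symm hp)
  rw [mfderiv_eq_fderiv] at h1
  exact (congrArg (fun L : (EV n₁ × EV n₂) →L[ℂ] (EV n₁ × EV n₂) => L w) h1)

lemma fderiv_trans_fst (h : RChart q c) (h' : RChart q c') (hq : ∀ x v, q x (q x v) = q x v)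
    {p : EV n₁ × EV n₂} (hp : p ∈ c.target) (hp' : c.symm p ∈ c'.source) (v : EV n₂) :
    (fderiv ℂ (c' ∘ c.symm) p (0, v)).1 = 0 := by
  rw [h.fderiv_trans h' hp hp']
  refine h'.tan₂ _ hp' _ (h.q_of_fst hq (c.map_target hp) ?_)
  rw [h.dch_dsy hp]

lemma fderiv_trans_snd (h : RChart q c) (h' : RChart q c') (hq : ∀ x v, q x (q x v) = q x v)
    {p : EV n₁ × EV n₂} (hp : p ∈ c.target) (hp' : c.symm p ∈ c'.source) (u : EV n₁) :
    (fderiv ℂ (c' ∘ c.symm) p (u, 0)).2 = 0 := by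
  rw [h.fderiv_trans h' hp hp']
  refine h'.tan₁ _ hp' _ (h.q_of_snd hq (c.map_target hp) ?_)
  rw [h.dch_dsy hp]

end RChart

/-- a map of product type near a point, from the vanishing of the mixed derivatives -/
lemma locally_product {E₁ E₂ F₁ F₂ : Type*} [NormedAddCommGroup E₁] [NormedSpace ℂ E₁]
    [NormedAddCommGroup E₂] [NormedSpace ℂ E₂] [NormedAddCommGroup F₁] [NormedSpace ℂ F₁]
    [NormedAddCommGroup F₂] [NormedSpace ℂ F₂]
    {T : E₁ × E₂ → F₁ × F₂} {p : E₁ × E₂} (hT : ∀ᶠ z in 𝓝 p, AnalyticAt ℂ T z)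
    (h1 : ∀ᶠ z in 𝓝 p, ∀ v, (fderiv ℂ T z (0, v)).1 = 0)
    (h2 : ∀ᶠ z in 𝓝 p, ∀ u, (fderiv ℂ T z (u, 0)).2 = 0) :
    ∃ (φ : E₁ → F₁) (ψ : E₂ → F₂), AnalyticAt ℂ φ p.1 ∧ AnalyticAt ℂ ψ p.2 ∧
      ∀ᶠ z in 𝓝 p, T z = (φ z.1, ψ z.2) := by
  obtain ⟨r, hr, hball⟩ := Metric.eventually_nhds_iff_ball.1 (hT.and (h1.and h2))
  have hTp : AnalyticAt ℂ T (p.1, p.2) := hT.self_of_nhds
  refine ⟨fun u => (T (u, p.2)).1, fun v => (T (p.1, v)).2, ?_, ?_, ?_⟩
  · exact (analyticAt_fst).comp (hTp.comp (f := fun u : E₁ => (u, p.2))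
      (analyticAt_id.prod analyticAt_const))
  · exact (analyticAt_snd).comp (hTp.comp (f := fun v : E₂ => (p.1, v))
      (analyticAt_const.prod analyticAt_id))
  · filter_upwards [Metric.ball_mem_nhds p hr] with z hz
    have hz1 : z.1 ∈ ball p.1 r := by
      rw [mem_ball, Prod.dist_eq] at hz
      exact (le_max_left _ _).trans_lt hz
    have hz2 : z.2 ∈ ball p.2 r := by
      rw [mem_ball, Prod.dist_eq] at hz
      exact (le_max_right _ _).trans_lt hz
    have hmem : ∀ (u : E₁) (v : E₂), u ∈ ball p.1 r → v ∈ ball p.2 r → (u, v) ∈ ball p r := by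
      intro u v hu hv
      rw [← ball_prod_same]
      exact ⟨hu, hv⟩
    have hd : ∀ (u : E₁) (v : E₂), u ∈ ball p.1 r → v ∈ ball p.2 r → DifferentiableAt ℂ T (u, v) :=
      fun u v hu hv => (hball _ (hmem u v hu hv)).1.differentiableAt
    refine Prod.ext ?_ ?_
    · have hc : ∀ v ∈ ball p.2 r, HasFDerivAt (fun v => (T (z.1, v)).1) (0 : E₂ →L[ℂ] F₁) v := by
        intro v hv
        have e1 := (hd z.1 v hz1 hv).hasFDerivAt
        have e2 : HasFDerivAt (fun v : E₂ => (z.1, v)) (ContinuousLinearMap.inr ℂ E₁ E₂) v :=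
          hasFDerivAt_prodMk_right z.1 v
        have e3 := (hasFDerivAt_fst (𝕜 := ℂ) (p := T (z.1, v))).comp v (e1.comp v e2)
        refine e3.congr_fderiv ?_
        ext w
        exact (hball _ (hmem z.1 v hz1 hv)).2.1 w
      have := (convex_ball p.2 r).is_const_of_fderivWithin_eq_zero (𝕜 := ℂ)
        (f := fun v => (T (z.1, v)).1)
        (fun v hv => (hc v hv).differentiableAt.differentiableWithinAt)
        (fun v hv => ((hc v hv).hasFDerivWithinAt (s := ball p.2 r)).fderivWithin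
          (isOpen_ball.uniqueDiffWithinAt hv)) hz2 (mem_ball_self hr)
      exact this
    · have hc : ∀ u ∈ ball p.1 r, HasFDerivAt (fun u => (T (u, z.2)).2) (0 : E₁ →L[ℂ] F₂) u := by
        intro u hu
        have e1 := (hd u z.2 hu hz2).hasFDerivAt
        have e2 : HasFDerivAt (fun u : E₁ => (u, z.2)) (ContinuousLinearMap.inl ℂ E₁ E₂) u :=
          hasFDerivAt_prodMk_left u z.2
        have e3 := (hasFDerivAt_snd (𝕜 := ℂ) (p := T (u, z.2))).comp u (e1.comp u e2)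
        refine e3.congr_fderiv ?_
        ext w
        exact (hball _ (hmem u z.2 hu hz2)).2.2 w
      have := (convex_ball p.1 r).is_const_of_fderivWithin_eq_zero (𝕜 := ℂ)
        (f := fun u => (T (u, z.2)).2)
        (fun v hv => (hc v hv).differentiableAt.differentiableWithinAt)
        (fun v hv => ((hc v hv).hasFDerivWithinAt (s := ball p.1 r)).fderivWithin
          (isOpen_ball.uniqueDiffWithinAt hv)) hz1 (mem_ball_self hr)
      exact this

/-- transition maps of adapted charts are locally products -/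
lemma RChart.compat {q : X → Model n →L[ℂ] Model n}
    {c c' : OpenPartialHomeomorph X (EV n₁ × EV n₂)} (h : RChart q c) (h' : RChart q c')
    (hq : ∀ x v, q x (q x v) = q x v) {x : X} (hx : x ∈ c.source) (hx' : x ∈ c'.source) :
    ∃ (φ : EV n₁ → EV n₁) (ψ : EV n₂ → EV n₂), AnalyticAt ℂ φ (c x).1 ∧
      AnalyticAt ℂ ψ (c x).2 ∧ ∀ᶠ p in 𝓝 (c x), c' (c.symm p) = (φ p.1, ψ p.2) := by
  have hmem : c x ∈ c.target ∩ c.symm ⁻¹' c'.source :=
    ⟨c.map_source hx, by simpa [c.left_inv hx] using hx'⟩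
  have hn : ∀ᶠ p in 𝓝 (c x), p ∈ c.target ∩ c.symm ⁻¹' c'.source :=
    RChart.trans_isOpen.mem_nhds hmem
  exact locally_product (T := c' ∘ c.symm)
    (hn.mono fun p hp => h.trans_analyticAt h' hp.1 hp.2)
    (hn.mono fun p hp v => h.fderiv_trans_fst h' hq hp.1 hp.2 v)
    (hn.mono fun p hp u => h.fderiv_trans_snd h' hq hp.1 hp.2 u)

end

end Crest.Agent.R266
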