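import Mathlib

/-! Row 266, S0404 Step 2 (Goursat problem), part A: holomorphic function tools in several
variables (Cauchy estimate, uniform limits, segment integrals). -/

set_option autoImplicit false
open Set Filter Topology Metric MeasureTheory
open scoped ContDiff Interval

noncomputable section
namespace Crest.Agent.R266.Goursat

section SCV
variable {W V : Type*} [NormedAddCommGroup W] [NormedSpace ℂ W]
  [NormedAddCommGroup V] [NormedSpace ℂ V]

/-- Cauchy estimate for the derivative of a holomorphic map. -/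
lemma norm_fderiv_le {u : W → V} {p : W} {ρ M : ℝ} (hρ : 0 < ρ)
    (hu : DifferentiableOn ℂ u (ball p ρ)) (hM : ∀ q ∈ ball p ρ, ‖u q‖ ≤ M) :
    ‖fderiv ℂ u p‖ ≤ 2 * M / ρ := by
  have hM0 : 0 ≤ M := (norm_nonneg _).trans (hM p (mem_ball_self hρ))
  refine ContinuousLinearMap.opNorm_le_bound _ (by positivity) fun v => ?_
  rcases eq_or_ne v 0 with rfl | hv
  · simp
  have hv' : 0 < ‖v‖ := norm_pos_iff.2 hv
  set R : ℝ := ρ / 2 / ‖v‖ with hR
  have hRpos : 0 < R := by positivity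
  have hmem : ∀ t ∈ closedBall (0 : ℂ) R, p + t • v ∈ ball p ρ := by
    intro t ht
    rw [mem_closedBall_zero_iff] at ht
    rw [mem_ball, dist_eq_norm, add_sub_cancel_left, norm_smul]
    calc ‖t‖ * ‖v‖ ≤ R * ‖v‖ := by gcongr
      _ = ρ / 2 := by rw [hR]; field_simp
      _ < ρ := by linarith
  have hd : ∀ t ∈ closedBall (0 : ℂ) R,
      HasDerivAt (fun t : ℂ => u (p + t • v)) (fderiv ℂ u (p + t • v) v) t := by
    intro t ht
    have h1 : HasFDerivAt u (fderiv ℂ u (p + t • v)) (p + t • v) :=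
      ((hu _ (hmem t ht)).differentiableAt (isOpen_ball.mem_nhds (hmem t ht))).hasFDerivAt
    have h2 : HasDerivAt (fun t : ℂ => p + t • v) v t := by
      simpa using ((hasDerivAt_id t).smul_const v).const_add p
    exact h1.comp_hasDerivAt t h2
  have key := Complex.norm_deriv_le_of_forall_mem_sphere_norm_le (c := (0 : ℂ)) (R := R) (C := M)
    (f := fun t : ℂ => u (p + t • v)) hRpos ?_ ?_
  · have h0 : deriv (fun t : ℂ => u (p + t • v)) 0 = fderiv ℂ u p v := by
      have := (hd 0 (mem_closedBall_self hRpos.le)).deriv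
      simpa using this
    rw [h0] at key
    calc ‖fderiv ℂ u p v‖ ≤ M / R := key
      _ = 2 * M / ρ * ‖v‖ := by rw [hR]; field_simp
  · refine ⟨fun t ht => (hd t (ball_subset_closedBall ht)).differentiableAt.differentiableWithinAt,
      ?_⟩
    rw [closure_ball _ hRpos.ne']
    exact fun t ht => (hd t ht).continuousAt.continuousWithinAt
  · intro t ht
    exact hM _ (hmem t (sphere_subset_closedBall ht))

/-- Uniform limits of holomorphic maps are holomorphic. -/
lemma differentiableOn_of_uniform_limit [CompleteSpace V] {D : Set W} (hD : IsOpen D)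
    {U : ℕ → W → V} {u : W → V} (hU : ∀ k, DifferentiableOn ℂ (U k) D)
    {ε : ℕ → ℝ} (hε : Tendsto ε atTop (𝓝 0)) (h : ∀ k, ∀ p ∈ D, ‖U k p - u p‖ ≤ ε k) :
    DifferentiableOn ℂ u D := by
  intro p0 hp0
  obtain ⟨δ, hδ, hsub⟩ := Metric.isOpen_iff.1 hD p0 hp0
  set ρ := δ / 2 with hρdef
  have hρ : 0 < ρ := by positivity
  have hsub2 : ∀ p ∈ ball p0 ρ, ball p ρ ⊆ D := by
    intro p hp q hq
    apply hsub
    rw [mem_ball] at *
    calc dist q p0 ≤ dist q p + dist p p0 := dist_triangle _ _ _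
      _ < ρ + ρ := add_lt_add hq hp
      _ = δ := by rw [hρdef]; ring
  have hdat : ∀ k, ∀ p ∈ ball p0 ρ, HasFDerivAt (U k) (fderiv ℂ (U k) p) p := by
    intro k p hp
    have hpD : p ∈ D := hsub2 p hp (mem_ball_self hρ)
    exact ((hU k p hpD).differentiableAt (hD.mem_nhds hpD)).hasFDerivAt
  have hcauchy : ∀ k m, ∀ p ∈ ball p0 ρ,
      ‖fderiv ℂ (U k) p - fderiv ℂ (U m) p‖ ≤ 2 * (ε k + ε m) / ρ := by
    intro k m p hp
    have e1 : fderiv ℂ (U k) p - fderiv ℂ (U m) p = fderiv ℂ (fun q => U k q - U m q) p :=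
      ((hdat k p hp).sub (hdat m p hp)).fderiv.symm
    rw [e1]
    apply norm_fderiv_le hρ
    · exact ((hU k).sub (hU m)).mono (hsub2 p hp)
    · intro q hq
      have hq' := hsub2 p hp hq
      calc ‖U k q - U m q‖ = ‖(U k q - u q) - (U m q - u q)‖ := by congr 1; abel
        _ ≤ ‖U k q - u q‖ + ‖U m q - u q‖ := norm_sub_le _ _
        _ ≤ ε k + ε m := add_le_add (h k q hq') (h m q hq')
  have hUC : UniformCauchySeqOn (fun k p => fderiv ℂ (U k) p) atTop (ball p0 ρ) := by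
    rw [Metric.uniformCauchySeqOn_iff]
    intro e he
    have : ∀ᶠ k in atTop, |ε k| < e * ρ / 8 := by
      have h2 := (Metric.tendsto_nhds.1 hε) (e * ρ / 8) (by positivity)
      simpa [Real.dist_eq] using h2
    obtain ⟨N, hN⟩ := eventually_atTop.1 this
    refine ⟨N, fun m hm n hn x hx => ?_⟩
    rw [dist_eq_norm]
    calc ‖fderiv ℂ (U m) x - fderiv ℂ (U n) x‖ ≤ 2 * (ε m + ε n) / ρ := hcauchy m n x hx
      _ ≤ 2 * (e * ρ / 8 + e * ρ / 8) / ρ := by
          have a1 := (le_abs_self (ε m)).trans (hN m hm).le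
          have a2 := (le_abs_self (ε n)).trans (hN n hn).le
          gcongr
      _ = e / 2 := by field_simp; ring
      _ < e := by linarith
  have hlim : ∀ p ∈ ball p0 ρ, ∃ L, Tendsto (fun k => fderiv ℂ (U k) p) atTop (𝓝 L) := by
    intro p hp
    exact cauchySeq_tendsto_of_complete (hUC.cauchySeq hp)
  choose! g' hg' using hlim
  have hTU : TendstoUniformlyOn (fun k p => fderiv ℂ (U k) p) g' atTop (ball p0 ρ) :=
    hUC.tendstoUniformlyOn_of_tendsto (fun p hp => hg' p hp)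
  have hpt : ∀ p ∈ ball p0 ρ, Tendsto (fun k => U k p) atTop (𝓝 (u p)) := by
    intro p hp
    have hpD : p ∈ D := hsub2 p hp (mem_ball_self hρ)
    rw [tendsto_iff_norm_sub_tendsto_zero]
    exact squeeze_zero (fun _ => norm_nonneg _) (fun k => h k p hpD) hε
  have hfin : HasFDerivAt u (g' p0) p0 :=
    hasFDerivAt_of_tendstoUniformlyOn isOpen_ball hTU hdat hpt (mem_ball_self hρ)
  exact hfin.differentiableAt.differentiableWithinAt

/-- Segment integrals of bounded `C¹` holomorphic maps are holomorphic. -/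
lemma differentiableOn_segment_integral [CompleteSpace V] {c : W} {r : ℝ}
    {L : ℝ → W →L[ℂ] W} (hL : Continuous L) (hL1 : ∀ θ ∈ Icc (0:ℝ) 1, ‖L θ‖ ≤ 1)
    (hLc : ∀ θ ∈ Icc (0:ℝ) 1, L θ c = c)
    {u : W → V} (hu : ContDiffOn ℂ 1 u (ball c r)) {M : ℝ} (hM : ∀ p ∈ ball c r, ‖u p‖ ≤ M) :
    DifferentiableOn ℂ (fun p => ∫ θ in (0:ℝ)..1, u (L θ p)) (ball c r) := by
  intro p0 hp0
  set ρ := (r - dist p0 c) / 2 with hρdef
  have hρ : 0 < ρ := by rw [mem_ball] at hp0; simp only [hρdef]; linarith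
  have hmap : ∀ θ ∈ Icc (0:ℝ) 1, ∀ p, dist (L θ p) c ≤ dist p c := by
    intro θ hθ p
    rw [dist_eq_norm, dist_eq_norm]
    nth_rewrite 1 [← hLc θ hθ]
    rw [← map_sub]
    calc ‖L θ (p - c)‖ ≤ ‖L θ‖ * ‖p - c‖ := ContinuousLinearMap.le_opNorm _ _
      _ ≤ 1 * ‖p - c‖ := by gcongr; exact hL1 θ hθ
      _ = ‖p - c‖ := one_mul _
  have hin : ∀ p ∈ ball p0 ρ, ∀ θ ∈ Icc (0:ℝ) 1, ball (L θ p) ρ ⊆ ball c r := by
    intro p hp θ hθ q hq
    rw [mem_ball] at *
    have := hmap θ hθ p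
    calc dist q c ≤ dist q (L θ p) + dist (L θ p) c := dist_triangle _ _ _
      _ ≤ dist q (L θ p) + (dist p p0 + dist p0 c) := by
          gcongr
          exact this.trans (dist_triangle _ _ _)
      _ < ρ + (ρ + dist p0 c) := by gcongr
      _ = r := by rw [hρdef]; ring
  have hmem : ∀ p ∈ ball p0 ρ, ∀ θ ∈ Icc (0:ℝ) 1, L θ p ∈ ball c r := fun p hp θ hθ =>
    hin p hp θ hθ (mem_ball_self hρ)
  have hIcc : ∀ θ ∈ Ι (0:ℝ) 1, θ ∈ Icc (0:ℝ) 1 := by
    intro θ hθ; rw [uIoc_of_le zero_le_one] at hθ; exact Ioc_subset_Icc_self hθ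
  have hcontfd : ContinuousOn (fderiv ℂ u) (ball c r) :=
    hu.continuousOn_fderiv_of_isOpen isOpen_ball le_rfl
  have hdu : ∀ q ∈ ball c r, HasFDerivAt u (fderiv ℂ u q) q := fun q hq =>
    ((hu.differentiableOn one_ne_zero q hq).differentiableAt (isOpen_ball.mem_nhds hq)).hasFDerivAt
  have hcont : ∀ p ∈ ball p0 ρ, ContinuousOn (fun θ => u (L θ p)) (Icc (0:ℝ) 1) := by
    intro p hp
    refine hu.continuousOn.comp ?_ (fun θ hθ => hmem p hp θ hθ)
    exact (hL.clm_apply continuous_const).continuousOn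
  have hmeas : ∀ p ∈ ball p0 ρ, AEStronglyMeasurable (fun θ => u (L θ p))
      (volume.restrict (Ι (0:ℝ) 1)) := by
    intro p hp
    rw [uIoc_of_le zero_le_one]
    exact ((hcont p hp).mono Ioc_subset_Icc_self).aestronglyMeasurable measurableSet_Ioc
  have hfin := intervalIntegral.hasFDerivAt_integral_of_dominated_of_fderiv_le
    (𝕜 := ℂ) (μ := volume) (a := (0:ℝ)) (b := 1) (F := fun p θ => u (L θ p))
    (F' := fun p θ => (fderiv ℂ u (L θ p)).comp (L θ)) (x₀ := p0) (s := ball p0 ρ)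
    (bound := fun _ => 2 * M / ρ) (ball_mem_nhds _ hρ)
    (eventually_of_mem (ball_mem_nhds _ hρ) hmeas) ?_ ?_ ?_ ?_ ?_
  · exact hfin.differentiableAt.differentiableWithinAt
  · exact (hcont p0 (mem_ball_self hρ)).intervalIntegrable_of_Icc zero_le_one
  · rw [uIoc_of_le zero_le_one]
    refine ContinuousOn.aestronglyMeasurable ?_ measurableSet_Ioc
    have h1 : ContinuousOn (fun θ => fderiv ℂ u (L θ p0)) (Icc (0:ℝ) 1) :=
      hcontfd.comp (hL.clm_apply continuous_const).continuousOn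
        (fun θ hθ => hmem p0 (mem_ball_self hρ) θ hθ)
    exact (h1.clm_comp hL.continuousOn).mono Ioc_subset_Icc_self
  · refine Eventually.of_forall fun θ hθ p hp => ?_
    have hθ' := hIcc θ hθ
    have h1 := norm_fderiv_le (u := u) (p := L θ p) hρ
      ((hu.differentiableOn one_ne_zero).mono (hin p hp θ hθ'))
      (fun q hq => hM q (hin p hp θ hθ' hq))
    calc ‖(fderiv ℂ u (L θ p)).comp (L θ)‖ ≤ ‖fderiv ℂ u (L θ p)‖ * ‖L θ‖ :=
          ContinuousLinearMap.opNorm_comp_le _ _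
      _ ≤ 2 * M / ρ * 1 := by
          have h0 := norm_nonneg (fderiv ℂ u (L θ p))
          exact mul_le_mul h1 (hL1 θ hθ') (norm_nonneg _) (h0.trans h1)
      _ = 2 * M / ρ := mul_one _
  · simp
  · refine Eventually.of_forall fun θ hθ p hp => ?_
    have hθ' := hIcc θ hθ
    exact (hdu _ (hmem p hp θ hθ')).comp p (L θ).hasFDerivAt

/-- Segment primitive of a holomorphic function of one variable on a disc. -/
lemma hasDerivAt_segment_primitive [CompleteSpace V] {g : ℂ → V} {z0 : ℂ} {r : ℝ}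
    (hg : DifferentiableOn ℂ g (ball z0 r)) {w z : ℂ} (hw : w ∈ ball z0 r) (hz : z ∈ ball z0 r) :
    HasDerivAt (fun z => (z - w) • ∫ θ in (0:ℝ)..1, g (w + (θ:ℂ) * (z - w))) (g z) z := by
  obtain ⟨G, hG⟩ := hg.isExactOn_ball
  have hseg : ∀ z ∈ ball z0 r, ∀ θ ∈ Icc (0:ℝ) 1, w + (θ:ℂ) * (z - w) ∈ ball z0 r := by
    intro z hz θ hθ
    have := (convex_ball z0 r).add_smul_sub_mem hw hz hθ
    simpa using this
  have key : ∀ z ∈ ball z0 r, (z - w) • ∫ θ in (0:ℝ)..1, g (w + (θ:ℂ) * (z - w)) = G z - G w := by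
    intro z hz
    have h1 : ∀ θ ∈ uIcc (0:ℝ) 1,
        HasDerivAt (fun θ : ℝ => G (w + (θ:ℂ) * (z - w))) ((z - w) • g (w + (θ:ℂ) * (z - w))) θ := by
      intro θ hθ
      rw [uIcc_of_le zero_le_one] at hθ
      have h2 : HasDerivAt (fun θ : ℝ => w + (θ:ℂ) * (z - w)) (z - w) θ := by
        have := ((Complex.ofRealCLM.hasDerivAt (x := θ)).mul_const (z - w)).const_add w
        simpa using this
      exact (hG _ (hseg z hz θ hθ)).scomp θ h2
    have hgc : ContinuousOn (fun θ : ℝ => g (w + (θ:ℂ) * (z - w))) (uIcc (0:ℝ) 1) := by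
      rw [uIcc_of_le zero_le_one]
      refine hg.continuousOn.comp (Continuous.continuousOn (by fun_prop)) (fun θ hθ => hseg z hz θ hθ)
    have h3 := intervalIntegral.integral_eq_sub_of_hasDerivAt h1
      ((hgc.const_smul (z - w)).intervalIntegrable)
    rw [intervalIntegral.integral_smul] at h3
    simpa using h3
  have : (fun z => (z - w) • ∫ θ in (0:ℝ)..1, g (w + (θ:ℂ) * (z - w))) =ᶠ[𝓝 z]
      fun z => G z - G w :=
    eventually_of_mem (isOpen_ball.mem_nhds hz) key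
  exact ((hG z hz).sub_const (G w)).congr_of_eventuallyEq this

/-- Fundamental theorem of calculus along a complex segment. -/
lemma segment_integral_eq {g g' : ℂ → V} [CompleteSpace V] {z0 : ℂ} {r : ℝ}
    (hg : ∀ z ∈ ball z0 r, HasDerivAt g (g' z) z) (hg' : ContinuousOn g' (ball z0 r))
    {w z : ℂ} (hw : w ∈ ball z0 r) (hz : z ∈ ball z0 r) :
    g z = g w + (z - w) • ∫ θ in (0:ℝ)..1, g' (w + (θ:ℂ) * (z - w)) := by
  have hseg : ∀ θ ∈ Icc (0:ℝ) 1, w + (θ:ℂ) * (z - w) ∈ ball z0 r := by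
    intro θ hθ
    have := (convex_ball z0 r).add_smul_sub_mem hw hz hθ
    simpa using this
  have h1 : ∀ θ ∈ uIcc (0:ℝ) 1,
      HasDerivAt (fun θ : ℝ => g (w + (θ:ℂ) * (z - w))) ((z - w) • g' (w + (θ:ℂ) * (z - w))) θ := by
    intro θ hθ
    rw [uIcc_of_le zero_le_one] at hθ
    have h2 : HasDerivAt (fun θ : ℝ => w + (θ:ℂ) * (z - w)) (z - w) θ := by
      have := ((Complex.ofRealCLM.hasDerivAt (x := θ)).mul_const (z - w)).const_add w
      simpa using this
    exact (hg _ (hseg θ hθ)).scomp θ h2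
  have hgc : ContinuousOn (fun θ : ℝ => g' (w + (θ:ℂ) * (z - w))) (uIcc (0:ℝ) 1) := by
    rw [uIcc_of_le zero_le_one]
    exact hg'.comp (Continuous.continuousOn (by fun_prop)) (fun θ hθ => hseg θ hθ)
  have h3 := intervalIntegral.integral_eq_sub_of_hasDerivAt h1
    ((hgc.const_smul (z - w)).intervalIntegrable)
  rw [intervalIntegral.integral_smul] at h3
  rw [h3]
  simp

end SCV

end Crest.Agent.R266.Goursat
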