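import Crest.Agent.R266.GouA

/-! Row 266, S0404 Step 2 (Goursat problem), part B: the integral operator, contraction,
existence and uniqueness of its fixed point. -/

set_option autoImplicit false
set_option linter.unusedSectionVars false
set_option linter.unusedVariables false
open Set Filter Topology Metric MeasureTheory
open scoped ContDiff Interval

noncomputable section
namespace Crest.Agent.R266.Goursat

variable {S E : Type*} [NormedAddCommGroup S] [NormedSpace ℂ S]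
  [NormedAddCommGroup E] [NormedSpace ℂ E]

/-- projections of `S × ℂ × ℂ` -/
def pi1 : (S × ℂ × ℂ) →L[ℂ] ℂ :=
  (ContinuousLinearMap.fst ℂ ℂ ℂ).comp (ContinuousLinearMap.snd ℂ S (ℂ × ℂ))
def pi2 : (S × ℂ × ℂ) →L[ℂ] ℂ :=
  (ContinuousLinearMap.snd ℂ ℂ ℂ).comp (ContinuousLinearMap.snd ℂ S (ℂ × ℂ))
def piS : (S × ℂ × ℂ) →L[ℂ] S := ContinuousLinearMap.fst ℂ S (ℂ × ℂ)

@[simp] lemma pi1_apply (p : S × ℂ × ℂ) : pi1 p = p.2.1 := rfl
@[simp] lemma pi2_apply (p : S × ℂ × ℂ) : pi2 p = p.2.2 := rfl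
@[simp] lemma piS_apply (p : S × ℂ × ℂ) : piS p = p.1 := rfl

/-- segment from the diagonal in the direction of the first variable -/
def L1 (θ : ℝ) : (S × ℂ × ℂ) →L[ℂ] (S × ℂ × ℂ) :=
  piS.prod ((pi2 + (θ : ℂ) • (pi1 - pi2)).prod pi2)

/-- segment from the diagonal in the direction of the second variable -/
def L2 (θ : ℝ) : (S × ℂ × ℂ) →L[ℂ] (S × ℂ × ℂ) :=
  piS.prod (pi1.prod (pi1 + (θ : ℂ) • (pi2 - pi1)))

@[simp] lemma L1_apply (θ : ℝ) (p : S × ℂ × ℂ) :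
    L1 θ p = (p.1, p.2.2 + (θ : ℂ) * (p.2.1 - p.2.2), p.2.2) := by simp [L1]

@[simp] lemma L2_apply (θ : ℝ) (p : S × ℂ × ℂ) :
    L2 θ p = (p.1, p.2.1, p.2.1 + (θ : ℂ) * (p.2.2 - p.2.1)) := by simp [L2]

lemma continuous_L1 : Continuous (L1 (S := S)) := by
  have h : (fun θ : ℝ => L1 (S := S) θ) = fun θ : ℝ => L1 0 + (θ : ℂ) • (L1 1 - L1 0) := by
    ext θ p <;> simp
  show Continuous (fun θ : ℝ => L1 (S := S) θ)
  rw [h]
  fun_prop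

lemma continuous_L2 : Continuous (L2 (S := S)) := by
  have h : (fun θ : ℝ => L2 (S := S) θ) = fun θ : ℝ => L2 0 + (θ : ℂ) • (L2 1 - L2 0) := by
    ext θ p <;> simp
  show Continuous (fun θ : ℝ => L2 (S := S) θ)
  rw [h]
  fun_prop

lemma norm_seg_le {a b : ℂ} {θ : ℝ} (hθ : θ ∈ Icc (0:ℝ) 1) :
    ‖b + (θ : ℂ) * (a - b)‖ ≤ max ‖a‖ ‖b‖ := by
  have e : b + (θ : ℂ) * (a - b) = ((1 - θ : ℝ) : ℂ) * b + (θ : ℂ) * a := by push_cast; ring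
  rw [e]
  calc ‖((1 - θ : ℝ) : ℂ) * b + (θ : ℂ) * a‖ ≤ ‖((1 - θ : ℝ) : ℂ) * b‖ + ‖(θ : ℂ) * a‖ :=
        norm_add_le _ _
    _ = (1 - θ) * ‖b‖ + θ * ‖a‖ := by
        rw [norm_mul, norm_mul, Complex.norm_real, Complex.norm_real, Real.norm_of_nonneg,
          Real.norm_of_nonneg hθ.1]
        linarith [hθ.2]
    _ ≤ (1 - θ) * max ‖a‖ ‖b‖ + θ * max ‖a‖ ‖b‖ := by
        have h1 := hθ.1
        have h2 : 0 ≤ 1 - θ := by linarith [hθ.2]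
        gcongr
        · exact le_max_right _ _
        · exact le_max_left _ _
    _ = max ‖a‖ ‖b‖ := by ring

lemma norm_L1_le {θ : ℝ} (hθ : θ ∈ Icc (0:ℝ) 1) : ‖L1 (S := S) θ‖ ≤ 1 := by
  refine ContinuousLinearMap.opNorm_le_bound _ zero_le_one fun p => ?_
  rw [one_mul, L1_apply]
  simp only [Prod.norm_def]
  refine max_le (le_max_left _ _) (max_le ?_ ?_)
  · exact (norm_seg_le hθ).trans (le_max_right _ _)
  · exact (le_max_right _ _).trans (le_max_right _ _)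

lemma norm_L2_le {θ : ℝ} (hθ : θ ∈ Icc (0:ℝ) 1) : ‖L2 (S := S) θ‖ ≤ 1 := by
  refine ContinuousLinearMap.opNorm_le_bound _ zero_le_one fun p => ?_
  rw [one_mul, L2_apply]
  simp only [Prod.norm_def]
  refine max_le (le_max_left _ _) (max_le ?_ ?_)
  · exact (le_max_left _ _).trans (le_max_right _ _)
  · refine (norm_seg_le hθ).trans ?_
    rw [max_comm]
    exact le_max_right _ _

lemma L1_center (s0 : S) (z0 : ℂ) (θ : ℝ) : L1 θ (s0, z0, z0) = (s0, z0, z0) := by simp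
lemma L2_center (s0 : S) (z0 : ℂ) (θ : ℝ) : L2 θ (s0, z0, z0) = (s0, z0, z0) := by simp

lemma map_ball {c : S × ℂ × ℂ} {r : ℝ} {L : (S × ℂ × ℂ) →L[ℂ] (S × ℂ × ℂ)} (h1 : ‖L‖ ≤ 1)
    (hc : L c = c) {p : S × ℂ × ℂ} (hp : p ∈ ball c r) : L p ∈ ball c r := by
  rw [mem_ball, dist_eq_norm] at *
  nth_rewrite 1 [← hc]
  rw [← map_sub]
  calc ‖L (p - c)‖ ≤ ‖L‖ * ‖p - c‖ := ContinuousLinearMap.le_opNorm _ _
    _ ≤ 1 * ‖p - c‖ := by gcongr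
    _ < r := by rw [one_mul]; exact hp

/-- The data of the Goursat problem. -/
structure Data (S E : Type*) where
  f : S × ℂ → E
  α : S × ℂ → E
  β : S × ℂ → E
  N : E × E × E → E

/-- The integral operator. -/
def T (d : Data S E) (u : S × ℂ × ℂ → E × E × E) (p : S × ℂ × ℂ) : E × E × E :=
  (d.f (p.1, p.2.2) + (p.2.1 - p.2.2) • ∫ θ in (0:ℝ)..1, (u (L1 θ p)).2.1,
   d.α (p.1, p.2.1) + (p.2.2 - p.2.1) • ∫ θ in (0:ℝ)..1, d.N (u (L2 θ p)),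
   d.β (p.1, p.2.2) + (p.2.1 - p.2.2) • ∫ θ in (0:ℝ)..1, d.N (u (L1 θ p)))

/-- Smallness conditions. -/
structure Small (d : Data S E) (s0 : S) (z0 : ℂ) (r : ℝ) (u0 : E × E × E) (ρ K M : ℝ) : Prop where
  hr : 0 < r
  hρ : 0 < ρ
  hK : 0 ≤ K
  hM : 0 ≤ M
  lip : ∀ v ∈ closedBall u0 ρ, ∀ w ∈ closedBall u0 ρ, ‖d.N v - d.N w‖ ≤ K * ‖v - w‖
  bd : ∀ v ∈ closedBall u0 ρ, ‖d.N v‖ ≤ M
  data : ∀ p ∈ ball (s0, z0, z0) r,
    ‖((d.f (p.1, p.2.2), d.α (p.1, p.2.1), d.β (p.1, p.2.2)) : E × E × E) - u0‖ ≤ ρ / 2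
  small1 : 2 * r * M ≤ ρ / 2
  small2 : 2 * r * (‖u0‖ + ρ) ≤ ρ / 2
  small3 : 2 * r * K ≤ 1 / 2
  small4 : 2 * r ≤ 1 / 2

section est
variable {d : Data S E} {s0 : S} {z0 : ℂ} {r : ℝ} {u0 : E × E × E} {ρ K M : ℝ}

lemma sub_le_of_mem {p : S × ℂ × ℂ} (hp : p ∈ ball (s0, z0, z0) r) :
    ‖p.2.1 - p.2.2‖ ≤ 2 * r := by
  rw [mem_ball, Prod.dist_eq, max_lt_iff, Prod.dist_eq, max_lt_iff] at hp
  have h1 := hp.2.1
  have h2 := hp.2.2
  simp only [dist_eq_norm] at h1 h2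
  calc ‖p.2.1 - p.2.2‖ = ‖(p.2.1 - z0) - (p.2.2 - z0)‖ := by congr 1; ring
    _ ≤ ‖p.2.1 - z0‖ + ‖p.2.2 - z0‖ := norm_sub_le _ _
    _ ≤ r + r := by linarith
    _ = 2 * r := by ring

lemma norm_int_le {V : Type*} [NormedAddCommGroup V] [NormedSpace ℝ V] {g : ℝ → V} {C : ℝ}
    (h : ∀ θ ∈ Icc (0:ℝ) 1, ‖g θ‖ ≤ C) : ‖∫ θ in (0:ℝ)..1, g θ‖ ≤ C := by
  have := intervalIntegral.norm_integral_le_of_norm_le_const (a := (0:ℝ)) (b := 1) (f := g) (C := C)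
    (fun θ hθ => h θ (by rw [uIoc_of_le zero_le_one] at hθ; exact Ioc_subset_Icc_self hθ))
  simpa using this

lemma T_mem (H : Small d s0 z0 r u0 ρ K M) {u : S × ℂ × ℂ → E × E × E}
    (hu : ∀ p ∈ ball (s0, z0, z0) r, u p ∈ closedBall u0 ρ) :
    ∀ p ∈ ball (s0, z0, z0) r, T d u p ∈ closedBall u0 ρ := by
  intro p hp
  have hsub := sub_le_of_mem hp
  have hsub' : ‖p.2.2 - p.2.1‖ ≤ 2 * r := by rw [norm_sub_rev]; exact hsub
  have hr := H.hr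
  have hin1 : ∀ θ ∈ Icc (0:ℝ) 1, u (L1 θ p) ∈ closedBall u0 ρ := fun θ hθ =>
    hu _ (map_ball (norm_L1_le hθ) (L1_center s0 z0 θ) hp)
  have hin2 : ∀ θ ∈ Icc (0:ℝ) 1, u (L2 θ p) ∈ closedBall u0 ρ := fun θ hθ =>
    hu _ (map_ball (norm_L2_le hθ) (L2_center s0 z0 θ) hp)
  have hbd : ∀ v ∈ closedBall u0 ρ, ‖v‖ ≤ ‖u0‖ + ρ := by
    intro v hv
    rw [mem_closedBall, dist_eq_norm] at hv
    calc ‖v‖ = ‖u0 + (v - u0)‖ := by congr 1; abel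
      _ ≤ ‖u0‖ + ‖v - u0‖ := norm_add_le _ _
      _ ≤ ‖u0‖ + ρ := by gcongr
  have h1 : ‖(p.2.1 - p.2.2) • ∫ θ in (0:ℝ)..1, (u (L1 θ p)).2.1‖ ≤ ρ / 2 := by
    rw [norm_smul]
    have : ‖∫ θ in (0:ℝ)..1, (u (L1 θ p)).2.1‖ ≤ ‖u0‖ + ρ := by
      apply norm_int_le
      intro θ hθ
      exact ((norm_fst_le _).trans (norm_snd_le _)).trans (hbd _ (hin1 θ hθ))
    calc _ ≤ (2 * r) * (‖u0‖ + ρ) := by gcongr
      _ ≤ ρ / 2 := H.small2
  have h2 : ‖(p.2.2 - p.2.1) • ∫ θ in (0:ℝ)..1, d.N (u (L2 θ p))‖ ≤ ρ / 2 := by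
    rw [norm_smul]
    have : ‖∫ θ in (0:ℝ)..1, d.N (u (L2 θ p))‖ ≤ M :=
      norm_int_le fun θ hθ => H.bd _ (hin2 θ hθ)
    calc _ ≤ (2 * r) * M := by gcongr
      _ ≤ ρ / 2 := H.small1
  have h3 : ‖(p.2.1 - p.2.2) • ∫ θ in (0:ℝ)..1, d.N (u (L1 θ p))‖ ≤ ρ / 2 := by
    rw [norm_smul]
    have : ‖∫ θ in (0:ℝ)..1, d.N (u (L1 θ p))‖ ≤ M :=
      norm_int_le fun θ hθ => H.bd _ (hin1 θ hθ)
    calc _ ≤ (2 * r) * M := by gcongr
      _ ≤ ρ / 2 := H.small1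
  rw [mem_closedBall, dist_eq_norm]
  have e : T d u p - u0 =
      (((d.f (p.1, p.2.2), d.α (p.1, p.2.1), d.β (p.1, p.2.2)) : E × E × E) - u0) +
      ((p.2.1 - p.2.2) • ∫ θ in (0:ℝ)..1, (u (L1 θ p)).2.1,
       (p.2.2 - p.2.1) • ∫ θ in (0:ℝ)..1, d.N (u (L2 θ p)),
       (p.2.1 - p.2.2) • ∫ θ in (0:ℝ)..1, d.N (u (L1 θ p))) := by
    rw [T]
    ext <;> simp <;> abel
  rw [e]
  calc _ ≤ _ := norm_add_le _ _
    _ ≤ ρ / 2 + ρ / 2 := by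
        gcongr
        · exact H.data p hp
        · simp only [Prod.norm_def]
          exact max_le h1 (max_le h2 h3)
    _ = ρ := by ring

lemma T_contr (H : Small d s0 z0 r u0 ρ K M) {u u' : S × ℂ × ℂ → E × E × E}
    (hN : ContinuousOn d.N (closedBall u0 ρ))
    (hu : ∀ p ∈ ball (s0, z0, z0) r, u p ∈ closedBall u0 ρ)
    (hu' : ∀ p ∈ ball (s0, z0, z0) r, u' p ∈ closedBall u0 ρ)
    (hc : ContinuousOn u (ball (s0, z0, z0) r)) (hc' : ContinuousOn u' (ball (s0, z0, z0) r))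
    {δ : ℝ} (hδ : ∀ p ∈ ball (s0, z0, z0) r, ‖u p - u' p‖ ≤ δ) :
    ∀ p ∈ ball (s0, z0, z0) r, ‖T d u p - T d u' p‖ ≤ δ / 2 := by
  intro p hp
  have hδ0 : 0 ≤ δ := (norm_nonneg _).trans (hδ p hp)
  have hsub := sub_le_of_mem hp
  have hsub' : ‖p.2.2 - p.2.1‖ ≤ 2 * r := by rw [norm_sub_rev]; exact hsub
  have hr := H.hr
  have hK := H.hK
  have hm1 : ∀ θ ∈ Icc (0:ℝ) 1, L1 θ p ∈ ball (s0, z0, z0) r := fun θ hθ =>
    map_ball (norm_L1_le hθ) (L1_center s0 z0 θ) hp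
  have hm2 : ∀ θ ∈ Icc (0:ℝ) 1, L2 θ p ∈ ball (s0, z0, z0) r := fun θ hθ =>
    map_ball (norm_L2_le hθ) (L2_center s0 z0 θ) hp
  have cL1 : ContinuousOn (fun θ : ℝ => L1 θ p) (Icc (0:ℝ) 1) :=
    (continuous_L1.clm_apply continuous_const).continuousOn
  have cL2 : ContinuousOn (fun θ : ℝ => L2 θ p) (Icc (0:ℝ) 1) :=
    (continuous_L2.clm_apply continuous_const).continuousOn
  have I1 : ∀ v : S × ℂ × ℂ → E × E × E, (∀ p ∈ ball (s0, z0, z0) r, v p ∈ closedBall u0 ρ) →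
      ContinuousOn v (ball (s0, z0, z0) r) →
      IntervalIntegrable (fun θ : ℝ => (v (L1 θ p)).2.1) volume 0 1 ∧
      IntervalIntegrable (fun θ : ℝ => d.N (v (L2 θ p))) volume 0 1 ∧
      IntervalIntegrable (fun θ : ℝ => d.N (v (L1 θ p))) volume 0 1 := by
    intro v hv hvc
    have a1 : ContinuousOn (fun θ : ℝ => v (L1 θ p)) (Icc (0:ℝ) 1) := hvc.comp cL1 hm1
    have a2 : ContinuousOn (fun θ : ℝ => v (L2 θ p)) (Icc (0:ℝ) 1) := hvc.comp cL2 hm2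
    refine ⟨?_, ?_, ?_⟩
    · exact (a1.snd.fst).intervalIntegrable_of_Icc zero_le_one
    · exact (hN.comp a2 (fun θ hθ => hv _ (hm2 θ hθ))).intervalIntegrable_of_Icc zero_le_one
    · exact (hN.comp a1 (fun θ hθ => hv _ (hm1 θ hθ))).intervalIntegrable_of_Icc zero_le_one
  obtain ⟨i1, i2, i3⟩ := I1 u hu hc
  obtain ⟨j1, j2, j3⟩ := I1 u' hu' hc'
  have e : T d u p - T d u' p =
      ((p.2.1 - p.2.2) • ∫ θ in (0:ℝ)..1, ((u (L1 θ p)).2.1 - (u' (L1 θ p)).2.1),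
       (p.2.2 - p.2.1) • ∫ θ in (0:ℝ)..1, (d.N (u (L2 θ p)) - d.N (u' (L2 θ p))),
       (p.2.1 - p.2.2) • ∫ θ in (0:ℝ)..1, (d.N (u (L1 θ p)) - d.N (u' (L1 θ p)))) := by
    rw [intervalIntegral.integral_sub i1 j1, intervalIntegral.integral_sub i2 j2,
      intervalIntegral.integral_sub i3 j3]
    simp only [T, smul_sub]
    ext <;> simp
  rw [e]
  simp only [Prod.norm_def]
  refine max_le ?_ (max_le ?_ ?_)
  · rw [norm_smul]
    have : ‖∫ θ in (0:ℝ)..1, ((u (L1 θ p)).2.1 - (u' (L1 θ p)).2.1)‖ ≤ δ := by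
      apply norm_int_le
      intro θ hθ
      have h := hδ _ (hm1 θ hθ)
      exact ((norm_fst_le (u (L1 θ p) - u' (L1 θ p)).2).trans (norm_snd_le _)).trans h
    calc _ ≤ (2 * r) * δ := by gcongr
      _ ≤ (1 / 2) * δ := by gcongr; exact H.small4
      _ = δ / 2 := by ring
  · rw [norm_smul]
    have : ‖∫ θ in (0:ℝ)..1, (d.N (u (L2 θ p)) - d.N (u' (L2 θ p)))‖ ≤ K * δ := by
      apply norm_int_le
      intro θ hθ
      exact (H.lip _ (hu _ (hm2 θ hθ)) _ (hu' _ (hm2 θ hθ))).trans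
        (by gcongr; exact hδ _ (hm2 θ hθ))
    calc _ ≤ (2 * r) * (K * δ) := by gcongr
      _ = (2 * r * K) * δ := by ring
      _ ≤ (1 / 2) * δ := by gcongr; exact H.small3
      _ = δ / 2 := by ring
  · rw [norm_smul]
    have : ‖∫ θ in (0:ℝ)..1, (d.N (u (L1 θ p)) - d.N (u' (L1 θ p)))‖ ≤ K * δ := by
      apply norm_int_le
      intro θ hθ
      exact (H.lip _ (hu _ (hm1 θ hθ)) _ (hu' _ (hm1 θ hθ))).trans
        (by gcongr; exact hδ _ (hm1 θ hθ))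
    calc _ ≤ (2 * r) * (K * δ) := by gcongr
      _ = (2 * r * K) * δ := by ring
      _ ≤ (1 / 2) * δ := by gcongr; exact H.small3
      _ = δ / 2 := by ring

/-- Uniqueness of the fixed point. -/
lemma fix_unique (H : Small d s0 z0 r u0 ρ K M) {u u' : S × ℂ × ℂ → E × E × E}
    (hN : ContinuousOn d.N (closedBall u0 ρ))
    (hu : ∀ p ∈ ball (s0, z0, z0) r, u p ∈ closedBall u0 ρ)
    (hu' : ∀ p ∈ ball (s0, z0, z0) r, u' p ∈ closedBall u0 ρ)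
    (hc : ContinuousOn u (ball (s0, z0, z0) r)) (hc' : ContinuousOn u' (ball (s0, z0, z0) r))
    (hf : ∀ p ∈ ball (s0, z0, z0) r, T d u p = u p)
    (hf' : ∀ p ∈ ball (s0, z0, z0) r, T d u' p = u' p) :
    ∀ p ∈ ball (s0, z0, z0) r, u p = u' p := by
  have key : ∀ n : ℕ, ∀ p ∈ ball (s0, z0, z0) r, ‖u p - u' p‖ ≤ (2 * ρ) / 2 ^ n := by
    intro n
    induction n with
    | zero =>
      intro p hp
      have h1 := hu p hp
      have h2 := hu' p hp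
      rw [mem_closedBall, dist_eq_norm] at h1 h2
      calc ‖u p - u' p‖ = ‖(u p - u0) - (u' p - u0)‖ := by congr 1; abel
        _ ≤ ‖u p - u0‖ + ‖u' p - u0‖ := norm_sub_le _ _
        _ ≤ ρ + ρ := by linarith
        _ = 2 * ρ / 2 ^ 0 := by ring
    | succ n ih =>
      intro p hp
      have := T_contr H hN hu hu' hc hc' ih p hp
      rw [hf p hp, hf' p hp] at this
      calc _ ≤ _ := this
        _ = 2 * ρ / 2 ^ (n + 1) := by rw [pow_succ]; field_simp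
  intro p hp
  have h0 : Tendsto (fun n : ℕ => (2 * ρ) / 2 ^ n) atTop (𝓝 0) := by
    have := (tendsto_pow_atTop_nhds_zero_of_lt_one (r := (1/2:ℝ)) (by norm_num) (by norm_num)).const_mul (2 * ρ)
    simp only [mul_zero] at this
    refine this.congr fun n => ?_
    rw [one_div, inv_pow, div_eq_mul_inv]
  have : ‖u p - u' p‖ ≤ 0 := ge_of_tendsto' h0 (fun n => key n p hp)
  exact sub_eq_zero.1 (norm_le_zero_iff.1 this)

end est

end Crest.Agent.R266.Goursat
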