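import Crest.Agent.R266.GouB
import Crest.Agent.R266.Osgood

/-! Row 266, S0404 Step 2 (Goursat problem), part C: existence of a holomorphic fixed point. -/

set_option autoImplicit false
set_option linter.unusedSectionVars false
set_option linter.unusedVariables false
open Set Filter Topology Metric MeasureTheory
open scoped ContDiff Interval

noncomputable section
namespace Crest.Agent.R266.Goursat

/-- Osgood -/
theorem osgood {E F : Type*} [NormedAddCommGroup E] [NormedSpace ℂ E] [FiniteDimensional ℂ E]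
    [NormedAddCommGroup F] [NormedSpace ℂ F] [CompleteSpace F] {f : E → F} {U : Set E}
    (hU : IsOpen U) (hf : DifferentiableOn ℂ f U) : AnalyticOnNhd ℂ f U :=
  SCV.analyticOnNhd_of_differentiableOn hU hf

variable {S E : Type*} [NormedAddCommGroup S] [NormedSpace ℂ S] [FiniteDimensional ℂ S]
  [NormedAddCommGroup E] [NormedSpace ℂ E] [CompleteSpace E]
variable {d : Data S E} {s0 : S} {z0 : ℂ} {r : ℝ} {u0 : E × E × E} {ρ K M : ℝ}

lemma norm_bd_of_mem {u0 v : E × E × E} {ρ : ℝ} (hv : v ∈ closedBall u0 ρ) : ‖v‖ ≤ ‖u0‖ + ρ := by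
  rw [mem_closedBall, dist_eq_norm] at hv
  calc ‖v‖ = ‖u0 + (v - u0)‖ := by congr 1; abel
    _ ≤ ‖u0‖ + ‖v - u0‖ := norm_add_le _ _
    _ ≤ ‖u0‖ + ρ := by gcongr

lemma T_diff (H : Small d s0 z0 r u0 ρ K M)
    (hf : DifferentiableOn ℂ d.f (ball (s0, z0) r)) (hα : DifferentiableOn ℂ d.α (ball (s0, z0) r))
    (hβ : DifferentiableOn ℂ d.β (ball (s0, z0) r))
    {O : Set (E × E × E)} (hO : IsOpen O) (hsub : closedBall u0 ρ ⊆ O)
    (hN : DifferentiableOn ℂ d.N O) {u : S × ℂ × ℂ → E × E × E}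
    (hu : ∀ p ∈ ball (s0, z0, z0) r, u p ∈ closedBall u0 ρ)
    (hud : DifferentiableOn ℂ u (ball (s0, z0, z0) r)) :
    DifferentiableOn ℂ (T d u) (ball (s0, z0, z0) r) := by
  have hNu : DifferentiableOn ℂ (fun p => d.N (u p)) (ball (s0, z0, z0) r) :=
    hN.comp hud (fun p hp => hsub (hu p hp))
  have c1 : ContDiffOn ℂ 1 (fun p => d.N (u p)) (ball (s0, z0, z0) r) :=
    ((osgood isOpen_ball hNu).contDiffOn isOpen_ball.uniqueDiffOn)
  have c2 : ContDiffOn ℂ 1 (fun p => (u p).2.1) (ball (s0, z0, z0) r) :=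
    ((osgood isOpen_ball hud.snd.fst).contDiffOn isOpen_ball.uniqueDiffOn)
  have i1 := differentiableOn_segment_integral (c := (s0, z0, z0)) (r := r) continuous_L1
    (fun θ hθ => norm_L1_le hθ) (fun θ _ => L1_center s0 z0 θ) c2
    (M := ‖u0‖ + ρ) (fun p hp => ((norm_fst_le _).trans (norm_snd_le _)).trans
      (norm_bd_of_mem (hu p hp)))
  have i2 := differentiableOn_segment_integral (c := (s0, z0, z0)) (r := r) continuous_L2
    (fun θ hθ => norm_L2_le hθ) (fun θ _ => L2_center s0 z0 θ) c1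
    (M := M) (fun p hp => H.bd _ (hu p hp))
  have i3 := differentiableOn_segment_integral (c := (s0, z0, z0)) (r := r) continuous_L1
    (fun θ hθ => norm_L1_le hθ) (fun θ _ => L1_center s0 z0 θ) c1
    (M := M) (fun p hp => H.bd _ (hu p hp))
  have m1 : MapsTo (fun p : S × ℂ × ℂ => (p.1, p.2.1)) (ball (s0, z0, z0) r) (ball (s0, z0) r) := by
    intro p hp
    rw [mem_ball, Prod.dist_eq, max_lt_iff, Prod.dist_eq, max_lt_iff] at hp
    rw [mem_ball, Prod.dist_eq, max_lt_iff]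
    exact ⟨hp.1, hp.2.1⟩
  have m2 : MapsTo (fun p : S × ℂ × ℂ => (p.1, p.2.2)) (ball (s0, z0, z0) r) (ball (s0, z0) r) := by
    intro p hp
    rw [mem_ball, Prod.dist_eq, max_lt_iff, Prod.dist_eq, max_lt_iff] at hp
    rw [mem_ball, Prod.dist_eq, max_lt_iff]
    exact ⟨hp.1, hp.2.2⟩
  have d1 : DifferentiableOn ℂ (fun p : S × ℂ × ℂ => (p.1, p.2.1)) (ball (s0, z0, z0) r) := by
    fun_prop
  have d2 : DifferentiableOn ℂ (fun p : S × ℂ × ℂ => (p.1, p.2.2)) (ball (s0, z0, z0) r) := by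
    fun_prop
  have d3 : DifferentiableOn ℂ (fun p : S × ℂ × ℂ => p.2.1 - p.2.2) (ball (s0, z0, z0) r) := by
    fun_prop
  have d4 : DifferentiableOn ℂ (fun p : S × ℂ × ℂ => p.2.2 - p.2.1) (ball (s0, z0, z0) r) := by
    fun_prop
  unfold T
  refine DifferentiableOn.prodMk ?_ (DifferentiableOn.prodMk ?_ ?_)
  · exact (hf.comp d2 m2).add (d3.smul i1)
  · exact (hα.comp d1 m1).add (d4.smul i2)
  · exact (hβ.comp d2 m2).add (d3.smul i3)

theorem exists_fix (H : Small d s0 z0 r u0 ρ K M)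
    (hf : DifferentiableOn ℂ d.f (ball (s0, z0) r)) (hα : DifferentiableOn ℂ d.α (ball (s0, z0) r))
    (hβ : DifferentiableOn ℂ d.β (ball (s0, z0) r))
    {O : Set (E × E × E)} (hO : IsOpen O) (hsub : closedBall u0 ρ ⊆ O)
    (hN : DifferentiableOn ℂ d.N O) :
    ∃ u : S × ℂ × ℂ → E × E × E, (∀ p ∈ ball (s0, z0, z0) r, u p ∈ closedBall u0 ρ) ∧
      DifferentiableOn ℂ u (ball (s0, z0, z0) r) ∧
      ∀ p ∈ ball (s0, z0, z0) r, T d u p = u p := by
  have hNc : ContinuousOn d.N (closedBall u0 ρ) := hN.continuousOn.mono hsub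
  set D := ball (s0, z0, z0) r with hD
  let U : ℕ → S × ℂ × ℂ → E × E × E := fun n => (T d)^[n] (fun _ => u0)
  have hUs : ∀ n, U (n + 1) = T d (U n) := fun n => Function.iterate_succ_apply' _ _ _
  have hmem : ∀ n, ∀ p ∈ D, U n p ∈ closedBall u0 ρ := by
    intro n
    induction n with
    | zero => intro p _; exact mem_closedBall_self H.hρ.le
    | succ n ih => rw [hUs]; exact T_mem H ih
  have hdiff : ∀ n, DifferentiableOn ℂ (U n) D := by
    intro n
    induction n with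
    | zero => exact differentiableOn_const _
    | succ n ih => rw [hUs]; exact T_diff H hf hα hβ hO hsub hN (hmem n) ih
  have hstep : ∀ n, ∀ p ∈ D, ‖U (n + 1) p - U n p‖ ≤ (2 * ρ) / 2 ^ n := by
    intro n
    induction n with
    | zero =>
      intro p hp
      have h1 := hmem 1 p hp
      have h2 := hmem 0 p hp
      rw [mem_closedBall, dist_eq_norm] at h1 h2
      calc ‖U (0 + 1) p - U 0 p‖ = ‖(U 1 p - u0) - (U 0 p - u0)‖ := by congr 1; abel
        _ ≤ ‖U 1 p - u0‖ + ‖U 0 p - u0‖ := norm_sub_le _ _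
        _ ≤ ρ + ρ := by linarith
        _ = 2 * ρ / 2 ^ 0 := by ring
    | succ n ih =>
      intro p hp
      have := T_contr H hNc (hmem (n+1)) (hmem n) (hdiff (n+1)).continuousOn (hdiff n).continuousOn
        ih p hp
      rw [← hUs, ← hUs] at this
      calc _ ≤ _ := this
        _ = 2 * ρ / 2 ^ (n + 1) := by rw [pow_succ]; field_simp
  have hstep' : ∀ p ∈ D, ∀ n, dist (U n p) (U (n + 1) p) ≤ (4 * ρ) / 2 / 2 ^ n := by
    intro p hp n
    rw [dist_comm, dist_eq_norm]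
    calc _ ≤ _ := hstep n p hp
      _ = (4 * ρ) / 2 / 2 ^ n := by ring
  have hlim : ∀ p ∈ D, ∃ l, Tendsto (fun n => U n p) atTop (𝓝 l) := fun p hp =>
    cauchySeq_tendsto_of_complete (cauchySeq_of_le_geometric_two (hstep' p hp))
  choose! u hu using hlim
  have hbd : ∀ n, ∀ p ∈ D, ‖U n p - u p‖ ≤ (4 * ρ) / 2 ^ n := by
    intro n p hp
    rw [← dist_eq_norm]
    exact dist_le_of_le_geometric_two_of_tendsto (hstep' p hp) (hu p hp) n
  have h0 : Tendsto (fun n : ℕ => (4 * ρ) / 2 ^ n) atTop (𝓝 0) := by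
    have := (tendsto_pow_atTop_nhds_zero_of_lt_one (r := (1/2:ℝ)) (by norm_num)
      (by norm_num)).const_mul (4 * ρ)
    simp only [mul_zero] at this
    refine this.congr fun n => ?_
    rw [one_div, inv_pow, div_eq_mul_inv]
  have humem : ∀ p ∈ D, u p ∈ closedBall u0 ρ := fun p hp =>
    isClosed_closedBall.mem_of_tendsto (hu p hp) (Eventually.of_forall fun n => hmem n p hp)
  have hudiff : DifferentiableOn ℂ u D :=
    differentiableOn_of_uniform_limit isOpen_ball hdiff h0 hbd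
  refine ⟨u, humem, hudiff, fun p hp => ?_⟩
  have hle : ∀ n, ‖T d u p - u p‖ ≤ (4 * ρ) / 2 ^ n := by
    intro n
    have h1 := T_contr H hNc humem (hmem n) hudiff.continuousOn (hdiff n).continuousOn
      (δ := (4 * ρ) / 2 ^ n) (fun p hp => by rw [norm_sub_rev]; exact hbd n p hp) p hp
    rw [← hUs] at h1
    have h2 := hbd (n + 1) p hp
    calc ‖T d u p - u p‖ = ‖(T d u p - U (n + 1) p) + (U (n + 1) p - u p)‖ := by congr 1; abel
      _ ≤ ‖T d u p - U (n + 1) p‖ + ‖U (n + 1) p - u p‖ := norm_add_le _ _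
      _ ≤ (4 * ρ) / 2 ^ n / 2 + (4 * ρ) / 2 ^ (n + 1) := add_le_add h1 h2
      _ = (4 * ρ) / 2 ^ n := by rw [pow_succ]; field_simp; ring
  have : ‖T d u p - u p‖ ≤ 0 := ge_of_tendsto' h0 hle
  exact sub_eq_zero.1 (norm_le_zero_iff.1 this)

end Crest.Agent.R266.Goursat
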