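import Crest.Agent.R266.GouC

/-! Row 266, S0404 Step 2 (Goursat problem), part D: the equations. -/

set_option autoImplicit false
set_option linter.unusedSectionVars false
set_option linter.unusedVariables false
open Set Filter Topology Metric MeasureTheory
open scoped ContDiff Interval

noncomputable section
namespace Crest.Agent.R266.Goursat

variable {S E : Type*} [NormedAddCommGroup S] [NormedSpace ℂ S]
  [NormedAddCommGroup E] [NormedSpace ℂ E]

/-- The Goursat data attached to the projection field `P` and the diagonal values `f`. -/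
def gd (P : E → E →L[ℂ] E) (f : S × ℂ → E) : Data S E where
  f := f
  α := fun q => P (f q) (fderiv ℂ f q (0, 1))
  β := fun q => fderiv ℂ f q (0, 1) - P (f q) (fderiv ℂ f q (0, 1))
  N := fun v => fderiv ℂ P v.1 v.2.2 v.2.1 - fderiv ℂ P v.1 v.2.1 v.2.2

/-- the initial value -/
def uc (P : E → E →L[ℂ] E) (f : S × ℂ → E) (q : S × ℂ) : E × E × E :=
  (f q, (gd P f).α q, (gd P f).β q)

lemma hasDerivAt_slice1 {V : Type*} [NormedAddCommGroup V] [NormedSpace ℂ V]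
    {G : S × ℂ × ℂ → V} {p : S × ℂ × ℂ} (h : DifferentiableAt ℂ G p) :
    HasDerivAt (fun z => G (p.1, z, p.2.2)) (fderiv ℂ G p (0, 1, 0)) p.2.1 := by
  have h1 : HasDerivAt (fun z : ℂ => ((p.1, z, p.2.2) : S × ℂ × ℂ)) (0, 1, 0) p.2.1 :=
    (hasDerivAt_const _ _).prodMk ((hasDerivAt_id _).prodMk (hasDerivAt_const _ _))
  have h2 : HasFDerivAt G (fderiv ℂ G p) (p.1, p.2.1, p.2.2) := h.hasFDerivAt
  exact h2.comp_hasDerivAt _ h1

lemma hasDerivAt_slice2 {V : Type*} [NormedAddCommGroup V] [NormedSpace ℂ V]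
    {G : S × ℂ × ℂ → V} {p : S × ℂ × ℂ} (h : DifferentiableAt ℂ G p) :
    HasDerivAt (fun z => G (p.1, p.2.1, z)) (fderiv ℂ G p (0, 0, 1)) p.2.2 := by
  have h1 : HasDerivAt (fun z : ℂ => ((p.1, p.2.1, z) : S × ℂ × ℂ)) (0, 0, 1) p.2.2 :=
    (hasDerivAt_const _ _).prodMk ((hasDerivAt_const _ _).prodMk (hasDerivAt_id _))
  have h2 : HasFDerivAt G (fderiv ℂ G p) (p.1, p.2.1, p.2.2) := h.hasFDerivAt
  exact h2.comp_hasDerivAt _ h1

lemma hasDerivAt_diag {V : Type*} [NormedAddCommGroup V] [NormedSpace ℂ V]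
    {G : S × ℂ × ℂ → V} {s : S} {z : ℂ} (h : DifferentiableAt ℂ G (s, z, z)) :
    HasDerivAt (fun z => G (s, z, z))
      (fderiv ℂ G (s, z, z) (0, 1, 0) + fderiv ℂ G (s, z, z) (0, 0, 1)) z := by
  have h1 : HasDerivAt (fun z : ℂ => ((s, z, z) : S × ℂ × ℂ)) (0, 1, 1) z :=
    (hasDerivAt_const _ _).prodMk ((hasDerivAt_id _).prodMk (hasDerivAt_id _))
  have h2 := h.hasFDerivAt.comp_hasDerivAt _ h1
  have e : ((0, 1, 1) : S × ℂ × ℂ) = (0, 1, 0) + (0, 0, 1) := by simp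
  rw [e, map_add] at h2
  exact h2

lemma mem_D {s0 : S} {z0 : ℂ} {r : ℝ} {s : S} {z1 z2 : ℂ} :
    (s, z1, z2) ∈ ball (s0, z0, z0) r ↔ s ∈ ball s0 r ∧ z1 ∈ ball z0 r ∧ z2 ∈ ball z0 r := by
  rw [mem_ball, Prod.dist_eq, max_lt_iff, Prod.dist_eq, max_lt_iff]
  rfl

lemma mem_B {s0 : S} {z0 : ℂ} {r : ℝ} {s : S} {z : ℂ} :
    (s, z) ∈ ball (s0, z0) r ↔ s ∈ ball s0 r ∧ z ∈ ball z0 r := by
  rw [mem_ball, Prod.dist_eq, max_lt_iff]
  rfl

/-- symmetric second derivatives -/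
lemma mixed_symm {V : Type*} [NormedAddCommGroup V] [NormedSpace ℂ V] [CompleteSpace V]
    {G : S × ℂ × ℂ → V} {p : S × ℂ × ℂ} (h : AnalyticAt ℂ G p) :
    fderiv ℂ (fun q => fderiv ℂ G q (0, 0, 1)) p (0, 1, 0) =
      fderiv ℂ (fun q => fderiv ℂ G q (0, 1, 0)) p (0, 0, 1) := by
  have hd : DifferentiableAt ℂ (fderiv ℂ G) p := h.fderiv.differentiableAt
  have e1 : ∀ v w : S × ℂ × ℂ, fderiv ℂ (fun q => fderiv ℂ G q v) p w
      = fderiv ℂ (fderiv ℂ G) p w v := by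
    intro v w
    have := (hd.hasFDerivAt.clm_apply (hasFDerivAt_const v p)).fderiv
    rw [this]
    simp
  rw [e1, e1]
  have hs : IsSymmSndFDerivAt ℂ G p := by
    apply ContDiffAt.isSymmSndFDerivAt (n := ω)
    · exact h.contDiffAt
    · simp
  exact hs (0, 1, 0) (0, 0, 1)

section fix
variable [FiniteDimensional ℂ S] [CompleteSpace E]
variable {P : E → E →L[ℂ] E} {f : S × ℂ → E} {s0 : S} {z0 : ℂ} {r : ℝ} {U : Set E}
  {u : S × ℂ × ℂ → E × E × E}

/-- Package of what a holomorphic fixed point satisfies. -/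
structure Sol (P : E → E →L[ℂ] E) (f : S × ℂ → E) (s0 : S) (z0 : ℂ) (r : ℝ)
    (u : S × ℂ × ℂ → E × E × E) : Prop where
  d1F : ∀ p ∈ ball (s0, z0, z0) r, fderiv ℂ (fun q => (u q).1) p (0, 1, 0) = (u p).2.1
  d2a : ∀ p ∈ ball (s0, z0, z0) r, fderiv ℂ (fun q => (u q).2.1) p (0, 0, 1) = (gd P f).N (u p)
  d1b : ∀ p ∈ ball (s0, z0, z0) r, fderiv ℂ (fun q => (u q).2.2) p (0, 1, 0) = (gd P f).N (u p)
  diagF : ∀ s z, (s, z) ∈ ball (s0, z0) r → (u (s, z, z)).1 = f (s, z)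
  diaga : ∀ s z, (s, z) ∈ ball (s0, z0) r → (u (s, z, z)).2.1 = (gd P f).α (s, z)
  diagb : ∀ s z, (s, z) ∈ ball (s0, z0) r → (u (s, z, z)).2.2 = (gd P f).β (s, z)

omit [FiniteDimensional ℂ S] in
lemma sol_of_fix (hud : DifferentiableOn ℂ u (ball (s0, z0, z0) r))
    (hNu : DifferentiableOn ℂ (fun p => (gd P f).N (u p)) (ball (s0, z0, z0) r))
    (hfix : ∀ p ∈ ball (s0, z0, z0) r, T (gd P f) u p = u p) : Sol P f s0 z0 r u := by
  have hdat : ∀ p ∈ ball (s0, z0, z0) r, DifferentiableAt ℂ u p := fun p hp =>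
    (hud p hp).differentiableAt (isOpen_ball.mem_nhds hp)
  have hNat : ∀ p ∈ ball (s0, z0, z0) r, DifferentiableAt ℂ (fun p => (gd P f).N (u p)) p :=
    fun p hp => (hNu p hp).differentiableAt (isOpen_ball.mem_nhds hp)
  -- slices
  have sl1 : ∀ {V : Type _} [NormedAddCommGroup V] [NormedSpace ℂ V] (G : S × ℂ × ℂ → V)
      (hG : ∀ p ∈ ball (s0, z0, z0) r, DifferentiableAt ℂ G p) (s : S) (z2 : ℂ),
      s ∈ ball s0 r → z2 ∈ ball z0 r → DifferentiableOn ℂ (fun z => G (s, z, z2)) (ball z0 r) := by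
    intro V _ _ G hG s z2 hs hz2 z hz
    have := hasDerivAt_slice1 (hG (s, z, z2) (mem_D.2 ⟨hs, hz, hz2⟩))
    exact this.differentiableAt.differentiableWithinAt
  have sl2 : ∀ {V : Type _} [NormedAddCommGroup V] [NormedSpace ℂ V] (G : S × ℂ × ℂ → V)
      (hG : ∀ p ∈ ball (s0, z0, z0) r, DifferentiableAt ℂ G p) (s : S) (z1 : ℂ),
      s ∈ ball s0 r → z1 ∈ ball z0 r → DifferentiableOn ℂ (fun z => G (s, z1, z)) (ball z0 r) := by
    intro V _ _ G hG s z1 hs hz1 z hz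
    have := hasDerivAt_slice2 (hG (s, z1, z) (mem_D.2 ⟨hs, hz1, hz⟩))
    exact this.differentiableAt.differentiableWithinAt
  refine ⟨?_, ?_, ?_, ?_, ?_, ?_⟩
  · rintro ⟨s, z1, z2⟩ hp
    obtain ⟨hs, hz1, hz2⟩ := mem_D.1 hp
    have h1 := hasDerivAt_segment_primitive
      (sl1 (fun p => (u p).2.1) (fun p hp => (hdat p hp).snd.fst) s z2 hs hz2) hz2 hz1
    have h2 := h1.const_add (f (s, z2))
    have h3 : (fun z => f (s, z2) + (z - z2) • ∫ θ in (0:ℝ)..1,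
        (u (s, z2 + (θ:ℂ) * (z - z2), z2)).2.1) =ᶠ[𝓝 z1] fun z => (u (s, z, z2)).1 := by
      filter_upwards [isOpen_ball.mem_nhds hz1] with z hz
      have := congrArg Prod.fst (hfix (s, z, z2) (mem_D.2 ⟨hs, hz, hz2⟩))
      rw [← this]
      simp [T, gd]
    have h4 := h2.congr_of_eventuallyEq h3.symm
    have h5 := hasDerivAt_slice1 (G := fun q => (u q).1) (hdat _ hp).fst
    exact h5.unique h4
  · rintro ⟨s, z1, z2⟩ hp
    obtain ⟨hs, hz1, hz2⟩ := mem_D.1 hp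
    have h1 := hasDerivAt_segment_primitive
      (sl2 (fun p => (gd P f).N (u p)) hNat s z1 hs hz1) hz1 hz2
    have h2 := h1.const_add ((gd P f).α (s, z1))
    have h3 : (fun z => (gd P f).α (s, z1) + (z - z1) • ∫ θ in (0:ℝ)..1,
        (gd P f).N (u (s, z1, z1 + (θ:ℂ) * (z - z1)))) =ᶠ[𝓝 z2] fun z => (u (s, z1, z)).2.1 := by
      filter_upwards [isOpen_ball.mem_nhds hz2] with z hz
      have : _ = _ := congrArg (fun v : E × E × E => v.2.1) (hfix (s, z1, z) (mem_D.2 ⟨hs, hz1, hz⟩))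
      rw [← this]
      simp [T]
    have h4 := h2.congr_of_eventuallyEq h3.symm
    have h5 := hasDerivAt_slice2 (G := fun q => (u q).2.1) (hdat _ hp).snd.fst
    exact h5.unique h4
  · rintro ⟨s, z1, z2⟩ hp
    obtain ⟨hs, hz1, hz2⟩ := mem_D.1 hp
    have h1 := hasDerivAt_segment_primitive
      (sl1 (fun p => (gd P f).N (u p)) hNat s z2 hs hz2) hz2 hz1
    have h2 := h1.const_add ((gd P f).β (s, z2))
    have h3 : (fun z => (gd P f).β (s, z2) + (z - z2) • ∫ θ in (0:ℝ)..1,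
        (gd P f).N (u (s, z2 + (θ:ℂ) * (z - z2), z2))) =ᶠ[𝓝 z1] fun z => (u (s, z, z2)).2.2 := by
      filter_upwards [isOpen_ball.mem_nhds hz1] with z hz
      have : _ = _ := congrArg (fun v : E × E × E => v.2.2) (hfix (s, z, z2) (mem_D.2 ⟨hs, hz, hz2⟩))
      rw [← this]
      simp [T]
    have h4 := h2.congr_of_eventuallyEq h3.symm
    have h5 := hasDerivAt_slice1 (G := fun q => (u q).2.2) (hdat _ hp).snd.snd
    exact h5.unique h4
  · intro s z hsz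
    obtain ⟨hs, hz⟩ := mem_B.1 hsz
    have := congrArg Prod.fst (hfix (s, z, z) (mem_D.2 ⟨hs, hz, hz⟩))
    rw [← this]; simp [T, gd]
  · intro s z hsz
    obtain ⟨hs, hz⟩ := mem_B.1 hsz
    have : _ = _ := congrArg (fun v : E × E × E => v.2.1) (hfix (s, z, z) (mem_D.2 ⟨hs, hz, hz⟩))
    rw [← this]; simp [T]
  · intro s z hsz
    obtain ⟨hs, hz⟩ := mem_B.1 hsz
    have : _ = _ := congrArg (fun v : E × E × E => v.2.2) (hfix (s, z, z) (mem_D.2 ⟨hs, hz, hz⟩))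
    rw [← this]; simp [T]

/-- `∂₂F = b`. -/
lemma Sol.d2F (H : Sol P f s0 z0 r u) (hud : DifferentiableOn ℂ u (ball (s0, z0, z0) r))
    (hf : DifferentiableOn ℂ f (ball (s0, z0) r)) :
    ∀ p ∈ ball (s0, z0, z0) r, fderiv ℂ (fun q => (u q).1) p (0, 0, 1) = (u p).2.2 := by
  have hua : AnalyticOnNhd ℂ u (ball (s0, z0, z0) r) := osgood isOpen_ball hud
  have hFa : ∀ p ∈ ball (s0, z0, z0) r, AnalyticAt ℂ (fun q => (u q).1) p := fun p hp =>
    ((ContinuousLinearMap.fst ℂ E (E × E)).analyticAt _).comp (hua p hp)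
  have hdat : ∀ p ∈ ball (s0, z0, z0) r, DifferentiableAt ℂ u p := fun p hp =>
    (hua p hp).differentiableAt
  -- e has zero derivative in the first variable
  set e : S × ℂ × ℂ → E := fun q => fderiv ℂ (fun q => (u q).1) q (0, 0, 1) - (u q).2.2 with he
  have hG2 : ∀ p ∈ ball (s0, z0, z0) r,
      DifferentiableAt ℂ (fun q => fderiv ℂ (fun q => (u q).1) q (0, 0, 1)) p := by
    intro p hp
    have := (hFa p hp).fderiv.differentiableAt
    exact this.clm_apply (differentiableAt_const _)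
  have hed : ∀ p ∈ ball (s0, z0, z0) r, DifferentiableAt ℂ e p := fun p hp =>
    (hG2 p hp).sub (hdat p hp).snd.snd
  have he1 : ∀ p ∈ ball (s0, z0, z0) r, fderiv ℂ e p (0, 1, 0) = 0 := by
    intro p hp
    have h1 : fderiv ℂ e p = fderiv ℂ (fun q => fderiv ℂ (fun q => (u q).1) q (0, 0, 1)) p
        - fderiv ℂ (fun q => (u q).2.2) p := by
      rw [he]
      exact fderiv_sub (hG2 p hp) (hdat p hp).snd.snd
    rw [h1, _root_.sub_apply, mixed_symm (hFa p hp), H.d1b p hp]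
    have h2 : (fun q => fderiv ℂ (fun q => (u q).1) q (0, 1, 0)) =ᶠ[𝓝 p] fun q => (u q).2.1 :=
      eventually_of_mem (isOpen_ball.mem_nhds hp) (fun q hq => H.d1F q hq)
    rw [h2.fderiv_eq, H.d2a p hp, sub_self]
  rintro ⟨s, z1, z2⟩ hp
  obtain ⟨hs, hz1, hz2⟩ := mem_D.1 hp
  have hconst : e (s, z1, z2) = e (s, z2, z2) := by
    have := segment_integral_eq (g := fun z => e (s, z, z2)) (g' := fun _ => 0) (z0 := z0) (r := r)
      (fun z hz => by
        have h1 := hasDerivAt_slice1 (hed (s, z, z2) (mem_D.2 ⟨hs, hz, hz2⟩))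
        rw [he1 (s, z, z2) (mem_D.2 ⟨hs, hz, hz2⟩)] at h1
        exact h1) continuousOn_const hz2 hz1
    simpa using this
  have hdiag : e (s, z2, z2) = 0 := by
    have hp2 : (s, z2, z2) ∈ ball (s0, z0, z0) r := mem_D.2 ⟨hs, hz2, hz2⟩
    have h1 := hasDerivAt_diag (G := fun q => (u q).1) (hdat _ hp2).fst
    have h2 : (fun z => (u (s, z, z)).1) =ᶠ[𝓝 z2] fun z => f (s, z) := by
      filter_upwards [isOpen_ball.mem_nhds hz2] with z hz
      exact H.diagF s z (mem_B.2 ⟨hs, hz⟩)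
    have h3 := h1.congr_of_eventuallyEq h2.symm
    have hfd : HasFDerivAt f (fderiv ℂ f (s, z2)) (s, z2) :=
      ((hf (s, z2) (mem_B.2 ⟨hs, hz2⟩)).differentiableAt
        (isOpen_ball.mem_nhds (mem_B.2 ⟨hs, hz2⟩))).hasFDerivAt
    have h4 : HasDerivAt (fun z => f (s, z)) (fderiv ℂ f (s, z2) (0, 1)) z2 := by
      have h5 : HasDerivAt (fun z : ℂ => ((s, z) : S × ℂ)) (0, 1) z2 :=
        (hasDerivAt_const _ _).prodMk (hasDerivAt_id _)
      exact hfd.comp_hasDerivAt _ h5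
    have h6 := h3.unique h4
    rw [H.d1F _ hp2, H.diaga s z2 (mem_B.2 ⟨hs, hz2⟩)] at h6
    simp only [he]
    rw [H.diagb s z2 (mem_B.2 ⟨hs, hz2⟩)]
    simp only [gd] at h6 ⊢
    rw [eq_sub_of_add_eq' h6]
    exact sub_self _
  rw [hdiag] at hconst
  exact sub_eq_zero.1 hconst

end fix

end Crest.Agent.R266.Goursat
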