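import Crest.Agent.R266.GouD

/-! Row 266, S0404 Step 2 (Goursat problem), part E: propagation of the constraints, smallness. -/

set_option autoImplicit false
set_option linter.unusedSectionVars false
set_option linter.unusedVariables false
open Set Filter Topology Metric MeasureTheory
open scoped ContDiff Interval

noncomputable section
namespace Crest.Agent.R266.Goursat

variable {S E : Type*} [NormedAddCommGroup S] [NormedSpace ℂ S] [FiniteDimensional ℂ S]
  [NormedAddCommGroup E] [NormedSpace ℂ E] [CompleteSpace E]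
variable {P : E → E →L[ℂ] E} {f : S × ℂ → E} {s0 : S} {z0 : ℂ} {r : ℝ} {U : Set E}
  {u : S × ℂ × ℂ → E × E × E}

/-- derivative of the idempotency -/
lemma fderiv_idem (hU : IsOpen U) (hP : AnalyticOnNhd ℂ P U)
    (hid : ∀ x ∈ U, ∀ v, P x (P x v) = P x v) {x : E} (hx : x ∈ U) (v w : E) :
    fderiv ℂ P x v (P x w) + P x (fderiv ℂ P x v w) = fderiv ℂ P x v w := by
  have hd : HasFDerivAt P (fderiv ℂ P x) x := (hP x hx).differentiableAt.hasFDerivAt
  have h1 : HasFDerivAt (fun y => P y w) ((fderiv ℂ P x).flip w) x := by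
    have := hd.clm_apply (hasFDerivAt_const w x)
    simpa using this
  have h2 := hd.clm_apply h1
  have h3 : (fun y => P y (P y w)) =ᶠ[𝓝 x] fun y => P y w :=
    eventually_of_mem (hU.mem_nhds hx) (fun y hy => hid y hy w)
  have h4 := (h2.congr_of_eventuallyEq h3.symm).unique h1
  have h5 := congrArg (fun L => L v) h4
  simp only [_root_.add_apply, ContinuousLinearMap.comp_apply, ContinuousLinearMap.flip_apply] at h5
  rw [add_comm]
  exact h5

lemma propagate (hU : IsOpen U) (hP : AnalyticOnNhd ℂ P U)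
    (hid : ∀ x ∈ U, ∀ v, P x (P x v) = P x v)
    (H : Sol P f s0 z0 r u) (hud : DifferentiableOn ℂ u (ball (s0, z0, z0) r))
    (hf : DifferentiableOn ℂ f (ball (s0, z0) r))
    (huU : ∀ p ∈ ball (s0, z0, z0) r, (u p).1 ∈ U)
    {B C : ℝ} (hB : 0 ≤ B) (hC : 0 ≤ C) (hr : 0 < r)
    (hbu : ∀ p ∈ ball (s0, z0, z0) r, ‖u p‖ ≤ B)
    (hbP : ∀ p ∈ ball (s0, z0, z0) r, ‖P (u p).1‖ ≤ C)
    (hbD : ∀ p ∈ ball (s0, z0, z0) r, ‖fderiv ℂ P (u p).1‖ ≤ C)
    (hsmall : 2 * r * (2 * (C * B)) ≤ 1 / 2) :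
    ∀ p ∈ ball (s0, z0, z0) r, P (u p).1 (u p).2.1 = (u p).2.1 ∧ P (u p).1 (u p).2.2 = 0 := by
  set D := ball (s0, z0, z0) r with hD
  have hd2F := H.d2F hud hf
  have hdat : ∀ p ∈ D, DifferentiableAt ℂ u p := fun p hp =>
    (hud p hp).differentiableAt (isOpen_ball.mem_nhds hp)
  set A : S × ℂ × ℂ → E := fun p => (u p).2.1 - P (u p).1 (u p).2.1 with hA
  set Bq : S × ℂ × ℂ → E := fun p => P (u p).1 (u p).2.2 with hBq
  set R : S × ℂ × ℂ → E := fun p =>
    fderiv ℂ P (u p).1 (u p).2.2 (A p) + fderiv ℂ P (u p).1 (u p).2.1 (Bq p) with hR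
  -- derivative computations
  have hPu : ∀ p ∈ D, HasFDerivAt (fun q => P (u q).1)
      ((fderiv ℂ P (u p).1).comp (fderiv ℂ (fun q => (u q).1) p)) p := by
    intro p hp
    exact ((hP _ (huU p hp)).differentiableAt.hasFDerivAt).comp p ((hdat p hp).fst.hasFDerivAt)
  have hAd : ∀ p ∈ D, DifferentiableAt ℂ A p := by
    intro p hp
    exact (hdat p hp).snd.fst.sub ((hPu p hp).differentiableAt.clm_apply (hdat p hp).snd.fst)
  have hBd : ∀ p ∈ D, DifferentiableAt ℂ Bq p := by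
    intro p hp
    exact (hPu p hp).differentiableAt.clm_apply (hdat p hp).snd.snd
  have hA2 : ∀ p ∈ D, fderiv ℂ A p (0, 0, 1) = - R p := by
    intro p hp
    have h1 := (hdat p hp).snd.fst.hasFDerivAt
    have h2a : HasFDerivAt A _ p := h1.sub ((hPu p hp).clm_apply h1)
    have h2 := h2a.fderiv
    have h3 : fderiv ℂ A p (0, 0, 1) = fderiv ℂ (fun q => (u q).2.1) p (0, 0, 1)
        - (P (u p).1 (fderiv ℂ (fun q => (u q).2.1) p (0, 0, 1))
          + fderiv ℂ P (u p).1 (fderiv ℂ (fun q => (u q).1) p (0, 0, 1)) (u p).2.1) := by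
      have := congrArg (fun L => L (0, 0, 1)) h2
      simpa using this
    rw [h3, hd2F p hp, H.d2a p hp]
    simp only [gd, hR, hA, hBq]
    have e1 := fderiv_idem hU hP hid (huU p hp) (u p).2.2 (u p).2.1
    have e2 := fderiv_idem hU hP hid (huU p hp) (u p).2.1 (u p).2.2
    rw [map_sub, map_sub]
    set Q1 := fderiv ℂ P (u p).1 (u p).2.2
    set Q2 := fderiv ℂ P (u p).1 (u p).2.1
    have e1' : Q1 (P (u p).1 (u p).2.1) = Q1 (u p).2.1 - P (u p).1 (Q1 (u p).2.1) :=
      eq_sub_of_add_eq e1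
    have e2' : Q2 (P (u p).1 (u p).2.2) = Q2 (u p).2.2 - P (u p).1 (Q2 (u p).2.2) :=
      eq_sub_of_add_eq e2
    rw [e1', e2']
    abel
  have hB1 : ∀ p ∈ D, fderiv ℂ Bq p (0, 1, 0) = R p := by
    intro p hp
    have h1 := (hdat p hp).snd.snd.hasFDerivAt
    have h2 := ((hPu p hp).clm_apply h1).fderiv
    have h3 : fderiv ℂ Bq p (0, 1, 0) = 
        (P (u p).1 (fderiv ℂ (fun q => (u q).2.2) p (0, 1, 0))
          + fderiv ℂ P (u p).1 (fderiv ℂ (fun q => (u q).1) p (0, 1, 0)) (u p).2.2) := by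
      have := congrArg (fun L => L (0, 1, 0)) h2
      simpa using this
    rw [h3, H.d1F p hp, H.d1b p hp]
    simp only [gd, hR, hA, hBq]
    have e1 := fderiv_idem hU hP hid (huU p hp) (u p).2.2 (u p).2.1
    have e2 := fderiv_idem hU hP hid (huU p hp) (u p).2.1 (u p).2.2
    rw [map_sub, map_sub]
    set Q1 := fderiv ℂ P (u p).1 (u p).2.2
    set Q2 := fderiv ℂ P (u p).1 (u p).2.1
    have e1' : Q1 (P (u p).1 (u p).2.1) = Q1 (u p).2.1 - P (u p).1 (Q1 (u p).2.1) :=
      eq_sub_of_add_eq e1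
    have e2' : Q2 (P (u p).1 (u p).2.2) = Q2 (u p).2.2 - P (u p).1 (Q2 (u p).2.2) :=
      eq_sub_of_add_eq e2
    rw [e1', e2']
    abel
  have hRc : ContinuousOn R D := by
    have c1 : ContinuousOn (fun p => fderiv ℂ P (u p).1) D := by
      have : ContinuousOn (fderiv ℂ P) U := fun x hx => (hP.fderiv x hx).continuousAt.continuousWithinAt
      exact this.comp hud.continuousOn.fst huU
    have cA : ContinuousOn A D := fun p hp => (hAd p hp).continuousAt.continuousWithinAt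
    have cB : ContinuousOn Bq D := fun p hp => (hBd p hp).continuousAt.continuousWithinAt
    exact ((c1.clm_apply hud.continuousOn.snd.snd).clm_apply cA).add
      ((c1.clm_apply hud.continuousOn.snd.fst).clm_apply cB)
  have hRb : ∀ p ∈ D, ∀ m, ‖A p‖ ≤ m → ‖Bq p‖ ≤ m → ‖R p‖ ≤ 2 * (C * B) * m := by
    intro p hp m h1 h2
    have hm : 0 ≤ m := (norm_nonneg _).trans h1
    have hu1 : ‖(u p).2.1‖ ≤ B := ((norm_fst_le _).trans (norm_snd_le _)).trans (hbu p hp)
    have hu2 : ‖(u p).2.2‖ ≤ B := ((norm_snd_le _).trans (norm_snd_le _)).trans (hbu p hp)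
    calc ‖R p‖ ≤ ‖fderiv ℂ P (u p).1 (u p).2.2 (A p)‖ + ‖fderiv ℂ P (u p).1 (u p).2.1 (Bq p)‖ :=
          norm_add_le _ _
      _ ≤ ‖fderiv ℂ P (u p).1‖ * ‖(u p).2.2‖ * ‖A p‖ + ‖fderiv ℂ P (u p).1‖ * ‖(u p).2.1‖ * ‖Bq p‖ := by
          gcongr
          · exact ContinuousLinearMap.le_opNorm₂ _ _ _
          · exact ContinuousLinearMap.le_opNorm₂ _ _ _
      _ ≤ C * B * m + C * B * m := by
          gcongr
          · exact hbD p hp
          · exact hbD p hp
      _ = 2 * (C * B) * m := by ring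
  -- zero on the diagonal
  have hAdiag : ∀ s z, (s, z) ∈ ball (s0, z0) r → A (s, z, z) = 0 := by
    intro s z hsz
    obtain ⟨hs, hz⟩ := mem_B.1 hsz
    have hp : (s, z, z) ∈ D := mem_D.2 ⟨hs, hz, hz⟩
    have hUf : f (s, z) ∈ U := by rw [← H.diagF s z hsz]; exact huU _ hp
    simp only [hA, H.diaga s z hsz, H.diagF s z hsz, gd]
    rw [hid _ hUf, sub_self]
  have hBdiag : ∀ s z, (s, z) ∈ ball (s0, z0) r → Bq (s, z, z) = 0 := by
    intro s z hsz
    obtain ⟨hs, hz⟩ := mem_B.1 hsz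
    have hp : (s, z, z) ∈ D := mem_D.2 ⟨hs, hz, hz⟩
    have hUf : f (s, z) ∈ U := by rw [← H.diagF s z hsz]; exact huU _ hp
    simp only [hBq, H.diagb s z hsz, H.diagF s z hsz, gd]
    rw [map_sub, hid _ hUf, sub_self]
  -- iteration
  have hA0 : ∀ p ∈ D, ‖A p‖ ≤ B + C * B := by
    intro p hp
    have hu1 : ‖(u p).2.1‖ ≤ B := ((norm_fst_le _).trans (norm_snd_le _)).trans (hbu p hp)
    calc ‖A p‖ ≤ ‖(u p).2.1‖ + ‖P (u p).1 (u p).2.1‖ := norm_sub_le _ _
      _ ≤ ‖(u p).2.1‖ + ‖P (u p).1‖ * ‖(u p).2.1‖ := by gcongr; exact ContinuousLinearMap.le_opNorm _ _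
      _ ≤ B + C * B := by gcongr; exact hbP p hp
  have hB0 : ∀ p ∈ D, ‖Bq p‖ ≤ B + C * B := by
    intro p hp
    have hu2 : ‖(u p).2.2‖ ≤ B := ((norm_snd_le _).trans (norm_snd_le _)).trans (hbu p hp)
    calc ‖Bq p‖ ≤ ‖P (u p).1‖ * ‖(u p).2.2‖ := ContinuousLinearMap.le_opNorm _ _
      _ ≤ C * B := by gcongr; exact hbP p hp
      _ ≤ B + C * B := by linarith
  have key : ∀ n : ℕ, ∀ p ∈ D, ‖A p‖ ≤ (B + C * B) / 2 ^ n ∧ ‖Bq p‖ ≤ (B + C * B) / 2 ^ n := by
    intro n
    induction n with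
    | zero => intro p hp; simpa using ⟨hA0 p hp, hB0 p hp⟩
    | succ n ih =>
      have hm0 : 0 ≤ (B + C * B) / 2 ^ n := by positivity
      have hRn : ∀ q ∈ D, ‖R q‖ ≤ 2 * (C * B) * ((B + C * B) / 2 ^ n) := fun q hq =>
        hRb q hq _ (ih q hq).1 (ih q hq).2
      rintro ⟨s, z1, z2⟩ hp
      obtain ⟨hs, hz1, hz2⟩ := mem_D.1 hp
      have hsub : ‖z1 - z2‖ ≤ 2 * r := sub_le_of_mem hp
      have hsub' : ‖z2 - z1‖ ≤ 2 * r := by rw [norm_sub_rev]; exact hsub
      have fin : (2 * r) * (2 * (C * B) * ((B + C * B) / 2 ^ n)) ≤ (B + C * B) / 2 ^ (n + 1) := by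
        calc (2 * r) * (2 * (C * B) * ((B + C * B) / 2 ^ n))
            = (2 * r * (2 * (C * B))) * ((B + C * B) / 2 ^ n) := by ring
          _ ≤ (1 / 2) * ((B + C * B) / 2 ^ n) := by gcongr
          _ = (B + C * B) / 2 ^ (n + 1) := by rw [pow_succ]; field_simp
      constructor
      · have h1 := segment_integral_eq (g := fun z => A (s, z1, z)) (g' := fun z => - R (s, z1, z))
          (z0 := z0) (r := r) (fun z hz => by
            have hq : (s, z1, z) ∈ D := mem_D.2 ⟨hs, hz1, hz⟩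
            have h1 := hasDerivAt_slice2 (hAd _ hq)
            rw [hA2 _ hq] at h1
            exact h1)
          ((hRc.comp (by fun_prop) (fun z hz => mem_D.2 ⟨hs, hz1, hz⟩)).neg) hz1 hz2
        rw [hAdiag s z1 (mem_B.2 ⟨hs, hz1⟩), zero_add] at h1
        rw [h1, norm_smul]
        refine le_trans ?_ fin
        gcongr
        apply norm_int_le
        intro θ hθ
        rw [norm_neg]
        apply hRn
        have := (convex_ball z0 r).add_smul_sub_mem hz1 hz2 hθ
        exact mem_D.2 ⟨hs, hz1, by simpa using this⟩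
      · have h1 := segment_integral_eq (g := fun z => Bq (s, z, z2)) (g' := fun z => R (s, z, z2))
          (z0 := z0) (r := r) (fun z hz => by
            have hq : (s, z, z2) ∈ D := mem_D.2 ⟨hs, hz, hz2⟩
            have h1 := hasDerivAt_slice1 (hBd _ hq)
            rw [hB1 _ hq] at h1
            exact h1)
          (hRc.comp (by fun_prop) (fun z hz => mem_D.2 ⟨hs, hz, hz2⟩)) hz2 hz1
        rw [hBdiag s z2 (mem_B.2 ⟨hs, hz2⟩), zero_add] at h1
        rw [h1, norm_smul]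
        refine le_trans ?_ fin
        gcongr
        apply norm_int_le
        intro θ hθ
        apply hRn
        have := (convex_ball z0 r).add_smul_sub_mem hz2 hz1 hθ
        exact mem_D.2 ⟨hs, by simpa using this, hz2⟩
  intro p hp
  have h0 : Tendsto (fun n : ℕ => (B + C * B) / 2 ^ n) atTop (𝓝 0) := by
    have := (tendsto_pow_atTop_nhds_zero_of_lt_one (r := (1/2:ℝ)) (by norm_num)
      (by norm_num)).const_mul (B + C * B)
    simp only [mul_zero] at this
    refine this.congr fun n => ?_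
    rw [one_div, inv_pow, div_eq_mul_inv]
  have hA' : ‖A p‖ ≤ 0 := ge_of_tendsto' h0 (fun n => (key n p hp).1)
  have hB' : ‖Bq p‖ ≤ 0 := ge_of_tendsto' h0 (fun n => (key n p hp).2)
  exact ⟨(sub_eq_zero.1 (norm_le_zero_iff.1 hA')).symm, norm_le_zero_iff.1 hB'⟩

/-- Converse: an analytic solution of the Goursat problem is a fixed point. -/
lemma fix_of_solution (hU : IsOpen U) (hP : AnalyticOnNhd ℂ P U)
    {F : S × ℂ × ℂ → E} (hF : AnalyticOnNhd ℂ F (ball (s0, z0, z0) r))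
    (hFU : ∀ p ∈ ball (s0, z0, z0) r, F p ∈ U)
    (h1 : ∀ p ∈ ball (s0, z0, z0) r, P (F p) (fderiv ℂ F p (0, 1, 0)) = fderiv ℂ F p (0, 1, 0))
    (h2 : ∀ p ∈ ball (s0, z0, z0) r, P (F p) (fderiv ℂ F p (0, 0, 1)) = 0)
    (hf : ∀ s z, (s, z) ∈ ball (s0, z0) r → F (s, z, z) = f (s, z))
    (hfd : DifferentiableOn ℂ f (ball (s0, z0) r)) :
    ∀ p ∈ ball (s0, z0, z0) r,
      T (gd P f) (fun p => (F p, fderiv ℂ F p (0, 1, 0), fderiv ℂ F p (0, 0, 1))) p
        = (F p, fderiv ℂ F p (0, 1, 0), fderiv ℂ F p (0, 0, 1)) := by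
  set D := ball (s0, z0, z0) r with hD
  set a : S × ℂ × ℂ → E := fun p => fderiv ℂ F p (0, 1, 0) with ha
  set b : S × ℂ × ℂ → E := fun p => fderiv ℂ F p (0, 0, 1) with hb
  have haa : AnalyticOnNhd ℂ a D := fun p hp => by
    have := (hF.fderiv p hp)
    exact ((ContinuousLinearMap.apply ℂ E ((0, 1, 0) : S × ℂ × ℂ)).analyticAt _).comp this
  have hba : AnalyticOnNhd ℂ b D := fun p hp => by
    have := (hF.fderiv p hp)
    exact ((ContinuousLinearMap.apply ℂ E ((0, 0, 1) : S × ℂ × ℂ)).analyticAt _).comp this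
  have hmix : ∀ p ∈ D, fderiv ℂ b p (0, 1, 0) = fderiv ℂ a p (0, 0, 1) := fun p hp =>
    mixed_symm (hF p hp)
  have hFd : ∀ p ∈ D, HasFDerivAt F (fderiv ℂ F p) p := fun p hp =>
    (hF p hp).differentiableAt.hasFDerivAt
  have hPu : ∀ p ∈ D, HasFDerivAt (fun q => P (F q))
      ((fderiv ℂ P (F p)).comp (fderiv ℂ F p)) p := by
    intro p hp
    exact ((hP _ (hFU p hp)).differentiableAt.hasFDerivAt).comp p (hFd p hp)
  have hN : ∀ p ∈ D, fderiv ℂ a p (0, 0, 1)
      = fderiv ℂ P (F p) (b p) (a p) - fderiv ℂ P (F p) (a p) (b p) := by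
    intro p hp
    -- differentiate P a = a in direction 2
    have e1 := ((hPu p hp).clm_apply (haa p hp).differentiableAt.hasFDerivAt).fderiv
    have g1 : (fun q => P (F q) (a q)) =ᶠ[𝓝 p] a :=
      eventually_of_mem (isOpen_ball.mem_nhds hp) (fun q hq => h1 q hq)
    have e1' : fderiv ℂ a p (0, 0, 1) = P (F p) (fderiv ℂ a p (0, 0, 1))
        + fderiv ℂ P (F p) (b p) (a p) := by
      have := congrArg (fun L => L (0, 0, 1)) (g1.fderiv_eq.symm.trans e1)
      simpa using this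
    -- differentiate P b = 0 in direction 1
    have e2 := ((hPu p hp).clm_apply (hba p hp).differentiableAt.hasFDerivAt).fderiv
    have g2 : (fun q => P (F q) (b q)) =ᶠ[𝓝 p] fun _ => 0 :=
      eventually_of_mem (isOpen_ball.mem_nhds hp) (fun q hq => h2 q hq)
    have e2' : 0 = P (F p) (fderiv ℂ b p (0, 1, 0))
        + fderiv ℂ P (F p) (a p) (b p) := by
      have := congrArg (fun L => L (0, 1, 0)) (g2.fderiv_eq.symm.trans e2)
      simpa using this
    rw [hmix p hp] at e2'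
    have e3 : P (F p) (fderiv ℂ a p (0, 0, 1)) = - fderiv ℂ P (F p) (a p) (b p) :=
      eq_neg_of_add_eq_zero_left e2'.symm
    rw [e3] at e1'
    rw [e1']
    abel
  -- diagonal values
  have hdiag : ∀ s z, (s, z) ∈ ball (s0, z0) r →
      fderiv ℂ f (s, z) (0, 1) = a (s, z, z) + b (s, z, z) := by
    intro s z hsz
    obtain ⟨hs, hz⟩ := mem_B.1 hsz
    have hp2 : (s, z, z) ∈ D := mem_D.2 ⟨hs, hz, hz⟩
    have h1 := hasDerivAt_diag (G := F) (hF _ hp2).differentiableAt
    have h2 : (fun z => F (s, z, z)) =ᶠ[𝓝 z] fun z => f (s, z) := by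
      filter_upwards [isOpen_ball.mem_nhds hz] with w hw
      exact hf s w (mem_B.2 ⟨hs, hw⟩)
    have h3 := h1.congr_of_eventuallyEq h2.symm
    have hfd' : HasFDerivAt f (fderiv ℂ f (s, z)) (s, z) :=
      ((hfd (s, z) hsz).differentiableAt (isOpen_ball.mem_nhds hsz)).hasFDerivAt
    have h4 : HasDerivAt (fun z => f (s, z)) (fderiv ℂ f (s, z) (0, 1)) z := by
      have h5 : HasDerivAt (fun z : ℂ => ((s, z) : S × ℂ)) (0, 1) z :=
        (hasDerivAt_const _ _).prodMk (hasDerivAt_id _)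
      exact hfd'.comp_hasDerivAt _ h5
    exact h4.unique h3
  have hαd : ∀ s z, (s, z) ∈ ball (s0, z0) r → (gd P f).α (s, z) = a (s, z, z) := by
    intro s z hsz
    obtain ⟨hs, hz⟩ := mem_B.1 hsz
    have hp2 : (s, z, z) ∈ D := mem_D.2 ⟨hs, hz, hz⟩
    simp only [gd]
    rw [hdiag s z hsz, ← hf s z hsz, map_add]
    have e1 : P (F (s, z, z)) (a (s, z, z)) = a (s, z, z) := h1 _ hp2
    have e2 : P (F (s, z, z)) (b (s, z, z)) = 0 := h2 _ hp2
    rw [e1, e2, add_zero]
  have hβd : ∀ s z, (s, z) ∈ ball (s0, z0) r → (gd P f).β (s, z) = b (s, z, z) := by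
    intro s z hsz
    have h := hαd s z hsz
    simp only [gd] at h ⊢
    rw [h, hdiag s z hsz]
    abel
  rintro ⟨s, z1, z2⟩ hp
  obtain ⟨hs, hz1, hz2⟩ := mem_D.1 hp
  have m1 : ∀ z ∈ ball z0 r, (s, z, z2) ∈ D := fun z hz => mem_D.2 ⟨hs, hz, hz2⟩
  have m2 : ∀ z ∈ ball z0 r, (s, z1, z) ∈ D := fun z hz => mem_D.2 ⟨hs, hz1, hz⟩
  have f1 := segment_integral_eq (g := fun z => F (s, z, z2)) (g' := fun z => a (s, z, z2))
    (z0 := z0) (r := r) (fun z hz => hasDerivAt_slice1 (hF _ (m1 z hz)).differentiableAt)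
    (haa.continuousOn.comp (by fun_prop) m1) hz2 hz1
  have f2 := segment_integral_eq (g := fun z => a (s, z1, z))
    (g' := fun z => (gd P f).N (F (s, z1, z), a (s, z1, z), b (s, z1, z)))
    (z0 := z0) (r := r) (fun z hz => by
      have h := hasDerivAt_slice2 (haa _ (m2 z hz)).differentiableAt
      rw [hN _ (m2 z hz)] at h
      exact h)
    (by
      have c0 : ContinuousOn (fun z => fderiv ℂ P (F (s, z1, z))) (ball z0 r) := by
        have : ContinuousOn (fderiv ℂ P) U := fun x hx =>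
          (hP.fderiv x hx).continuousAt.continuousWithinAt
        exact this.comp (hF.continuousOn.comp (by fun_prop) m2) (fun z hz => hFU _ (m2 z hz))
      have ca : ContinuousOn (fun z => a (s, z1, z)) (ball z0 r) :=
        haa.continuousOn.comp (by fun_prop) m2
      have cb : ContinuousOn (fun z => b (s, z1, z)) (ball z0 r) :=
        hba.continuousOn.comp (by fun_prop) m2
      exact ((c0.clm_apply cb).clm_apply ca).sub ((c0.clm_apply ca).clm_apply cb)) hz1 hz2
  have f3 := segment_integral_eq (g := fun z => b (s, z, z2))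
    (g' := fun z => (gd P f).N (F (s, z, z2), a (s, z, z2), b (s, z, z2)))
    (z0 := z0) (r := r) (fun z hz => by
      have h := hasDerivAt_slice1 (hba _ (m1 z hz)).differentiableAt
      rw [hmix _ (m1 z hz), hN _ (m1 z hz)] at h
      exact h)
    (by
      have c0 : ContinuousOn (fun z => fderiv ℂ P (F (s, z, z2))) (ball z0 r) := by
        have : ContinuousOn (fderiv ℂ P) U := fun x hx =>
          (hP.fderiv x hx).continuousAt.continuousWithinAt
        exact this.comp (hF.continuousOn.comp (by fun_prop) m1) (fun z hz => hFU _ (m1 z hz))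
      have ca : ContinuousOn (fun z => a (s, z, z2)) (ball z0 r) :=
        haa.continuousOn.comp (by fun_prop) m1
      have cb : ContinuousOn (fun z => b (s, z, z2)) (ball z0 r) :=
        hba.continuousOn.comp (by fun_prop) m1
      exact ((c0.clm_apply cb).clm_apply ca).sub ((c0.clm_apply ca).clm_apply cb)) hz2 hz1
  rw [T]
  simp only [L1_apply, L2_apply]
  rw [hαd s z1 (mem_B.2 ⟨hs, hz1⟩), hβd s z2 (mem_B.2 ⟨hs, hz2⟩)]
  rw [hf s z2 (mem_B.2 ⟨hs, hz2⟩)] at f1
  exact Prod.ext f1.symm (Prod.ext f2.symm f3.symm)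

end Crest.Agent.R266.Goursat
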