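import Crest.Agent.R266.GouE

/-! Row 266, S0404 Step 2 (Goursat problem): final local existence and uniqueness theorems. -/

set_option autoImplicit false
set_option linter.unusedSectionVars false
set_option linter.unusedVariables false
open Set Filter Topology Metric MeasureTheory
open scoped ContDiff Interval

noncomputable section
namespace Crest.Agent.R266.Goursat

variable {S E : Type*} [NormedAddCommGroup S] [NormedSpace ℂ S] [FiniteDimensional ℂ S]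
  [NormedAddCommGroup E] [NormedSpace ℂ E] [CompleteSpace E]

/-- everything needed on a small ball -/
structure Pack (P : E → E →L[ℂ] E) (U : Set E) (f : S × ℂ → E) (s0 : S) (z0 : ℂ)
    (ρ K M C r : ℝ) : Prop where
  small : Small (gd P f) s0 z0 r (uc P f (s0, z0)) ρ K M
  fan : AnalyticOnNhd ℂ f (ball (s0, z0) r)
  αd : DifferentiableOn ℂ (gd P f).α (ball (s0, z0) r)
  βd : DifferentiableOn ℂ (gd P f).β (ball (s0, z0) r)
  sub : closedBall (uc P f (s0, z0)) ρ ⊆ U ×ˢ univ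
  bP : ∀ v ∈ closedBall (uc P f (s0, z0)) ρ, ‖P v.1‖ ≤ C
  bD : ∀ v ∈ closedBall (uc P f (s0, z0)) ρ, ‖fderiv ℂ P v.1‖ ≤ C
  hC : 0 ≤ C
  small5 : 2 * r * (2 * (C * (‖uc P f (s0, z0)‖ + ρ))) ≤ 1 / 2

lemma ev_small (a b : ℝ) (hb : 0 < b) : ∀ᶠ r in 𝓝[>] (0:ℝ), 2 * r * a ≤ b := by
  have h : Tendsto (fun r : ℝ => 2 * r * a) (𝓝[>] (0:ℝ)) (𝓝 (2 * 0 * a)) :=
    ((Continuous.tendsto (by fun_prop) 0)).mono_left nhdsWithin_le_nhds
  simp only [mul_zero, zero_mul] at h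
  exact (h.eventually (gt_mem_nhds hb)).mono fun r hr => le_of_lt hr

lemma ev_ball {W : Type*} [PseudoMetricSpace W] {c : W} {t : Set W} (ht : t ∈ 𝓝 c) :
    ∀ᶠ r in 𝓝[>] (0:ℝ), ball c r ⊆ t := by
  obtain ⟨δ, hδ, h⟩ := Metric.mem_nhds_iff.1 ht
  filter_upwards [Ioo_mem_nhdsGT hδ] with r hr
  exact (ball_subset_ball hr.2.le).trans h

lemma differentiableOn_N {P : E → E →L[ℂ] E} {U : Set E} (hU : IsOpen U)
    (hP : AnalyticOnNhd ℂ P U) (f : S × ℂ → E) :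
    ∀ v ∈ U ×ˢ (univ : Set (E × E)), ContDiffAt ℂ 1 (gd P f).N v := by
  intro v hv
  have h0 : ContDiffAt ℂ 1 (fderiv ℂ P) v.1 := (hP.fderiv v.1 hv.1).contDiffAt
  have h1 : ContDiffAt ℂ 1 (fun w : E × E × E => fderiv ℂ P w.1) v :=
    h0.comp v contDiffAt_fst
  have h2 : ContDiffAt ℂ 1 (fun w : E × E × E => w.2.1) v :=
    contDiffAt_fst.comp v contDiffAt_snd
  have h3 : ContDiffAt ℂ 1 (fun w : E × E × E => w.2.2) v :=
    contDiffAt_snd.comp v contDiffAt_snd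
  exact ((h1.clm_apply h3).clm_apply h2).sub ((h1.clm_apply h2).clm_apply h3)

lemma exists_pack {P : E → E →L[ℂ] E} {U : Set E} (hU : IsOpen U) (hP : AnalyticOnNhd ℂ P U)
    {f : S × ℂ → E} {s0 : S} {z0 : ℂ} (hf : AnalyticAt ℂ f (s0, z0)) (hfU : f (s0, z0) ∈ U) :
    ∃ ρ K M C : ℝ, 0 < ρ ∧ ∀ᶠ r in 𝓝[>] (0:ℝ), Pack P U f s0 z0 ρ K M C r := by
  set u0 : E × E × E := uc P f (s0, z0) with hu0
  have hu0U : u0 ∈ U ×ˢ (univ : Set (E × E)) := ⟨hfU, mem_univ _⟩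
  have hN := differentiableOn_N hU hP f u0 hu0U
  obtain ⟨K, t, ht, hK⟩ := hN.exists_lipschitzOnWith
  have hNc : ContinuousAt (gd P f).N u0 := hN.continuousAt
  set M : ℝ := ‖(gd P f).N u0‖ + 1 with hM
  have e1 : ∀ᶠ v in 𝓝 u0, ‖(gd P f).N v‖ ≤ M :=
    (hNc.norm.eventually (gt_mem_nhds (lt_add_one _))).mono fun v hv => le_of_lt hv
  set C : ℝ := max (‖P (f (s0, z0))‖ + 1) (‖fderiv ℂ P (f (s0, z0))‖ + 1) with hC
  have cP : ContinuousAt (fun v : E × E × E => P v.1) u0 :=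
    ContinuousAt.comp (f := Prod.fst) (hP _ hfU).continuousAt continuousAt_fst
  have cD : ContinuousAt (fun v : E × E × E => ‖fderiv ℂ P v.1‖) u0 :=
    ContinuousAt.comp (g := fun x => ‖fderiv ℂ P x‖) (f := Prod.fst)
      (hP.fderiv _ hfU).continuousAt.norm continuousAt_fst
  have e2 : ∀ᶠ v in 𝓝 u0, ‖P v.1‖ ≤ C := by
    filter_upwards [cP.norm.eventually (gt_mem_nhds (lt_add_one _))] with v hv
    exact (le_of_lt hv).trans (le_max_left (‖P (f (s0, z0))‖ + 1) _)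
  have e3 : ∀ᶠ v in 𝓝 u0, ‖fderiv ℂ P v.1‖ ≤ C := by
    filter_upwards [cD.eventually (gt_mem_nhds (lt_add_one _))] with v hv
    exact (le_of_lt hv).trans (le_max_right _ (‖fderiv ℂ P (f (s0, z0))‖ + 1))
  have e4 : ∀ᶠ v in 𝓝 u0, v ∈ U ×ˢ (univ : Set (E × E)) :=
    (hU.prod isOpen_univ).mem_nhds hu0U
  obtain ⟨ρ, hρ, hsub⟩ := Metric.nhds_basis_closedBall.mem_iff.1
    (Filter.inter_mem ht (Filter.inter_mem e1 (Filter.inter_mem e2 (Filter.inter_mem e3 e4))))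
  refine ⟨ρ, K, M, C, hρ, ?_⟩
  have hC0 : 0 ≤ C := (by positivity : (0:ℝ) ≤ ‖P (f (s0, z0))‖ + 1).trans (le_max_left _ _)
  -- regularity of the data
  have hfan : ∀ᶠ q in 𝓝 (s0, z0), AnalyticAt ℂ f q := hf.eventually_analyticAt
  have hfU' : ∀ᶠ q in 𝓝 (s0, z0), f q ∈ U := hf.continuousAt.eventually (hU.mem_nhds hfU)
  have hα : ∀ q, AnalyticAt ℂ f q → f q ∈ U → DifferentiableAt ℂ (gd P f).α q := by
    intro q h1 h2
    have d1 : DifferentiableAt ℂ (fun q => P (f q)) q :=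
      (hP _ h2).differentiableAt.comp q h1.differentiableAt
    have d2 : DifferentiableAt ℂ (fun q => fderiv ℂ f q (0, 1)) q :=
      h1.fderiv.differentiableAt.clm_apply (differentiableAt_const _)
    exact d1.clm_apply d2
  have hβ : ∀ q, AnalyticAt ℂ f q → f q ∈ U → DifferentiableAt ℂ (gd P f).β q := by
    intro q h1 h2
    have d1 : DifferentiableAt ℂ (fun q => P (f q)) q :=
      (hP _ h2).differentiableAt.comp q h1.differentiableAt
    have d2 : DifferentiableAt ℂ (fun q => fderiv ℂ f q (0, 1)) q :=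
      h1.fderiv.differentiableAt.clm_apply (differentiableAt_const _)
    exact d2.sub (d1.clm_apply d2)
  have hball : ∀ᶠ r in 𝓝[>] (0:ℝ), ball (s0, z0) r ⊆ {q | AnalyticAt ℂ f q ∧ f q ∈ U} :=
    ev_ball (hfan.and hfU')
  -- data closeness
  have hcont : ContinuousAt (fun p : S × ℂ × ℂ =>
      ((f (p.1, p.2.2), (gd P f).α (p.1, p.2.1), (gd P f).β (p.1, p.2.2)) : E × E × E))
      (s0, z0, z0) := by
    have c1 : ContinuousAt (fun p : S × ℂ × ℂ => (p.1, p.2.1)) (s0, z0, z0) := by fun_prop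
    have c2 : ContinuousAt (fun p : S × ℂ × ℂ => (p.1, p.2.2)) (s0, z0, z0) := by fun_prop
    refine ContinuousAt.prodMk ?_ (ContinuousAt.prodMk ?_ ?_)
    · exact ContinuousAt.comp (f := fun p : S × ℂ × ℂ => (p.1, p.2.2)) hf.continuousAt c2
    · exact ContinuousAt.comp (f := fun p : S × ℂ × ℂ => (p.1, p.2.1)) (hα _ hf hfU).continuousAt c1
    · exact ContinuousAt.comp (f := fun p : S × ℂ × ℂ => (p.1, p.2.2)) (hβ _ hf hfU).continuousAt c2
  have hdata : ∀ᶠ p in 𝓝 (s0, z0, z0),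
      ‖((f (p.1, p.2.2), (gd P f).α (p.1, p.2.1), (gd P f).β (p.1, p.2.2)) : E × E × E) - u0‖
        ≤ ρ / 2 := by
    have h := Metric.tendsto_nhds.1 hcont (ρ / 2) (by positivity)
    filter_upwards [h] with p hp
    rw [dist_eq_norm] at hp
    exact le_of_lt hp
  filter_upwards [ev_ball hdata, hball, ev_small M (ρ / 2) (by positivity),
    ev_small (‖u0‖ + ρ) (ρ / 2) (by positivity), ev_small K (1 / 2) (by norm_num),
    ev_small 1 (1 / 2) (by norm_num),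
    ev_small (2 * (C * (‖u0‖ + ρ))) (1 / 2) (by norm_num), self_mem_nhdsWithin]
    with r h1 h2 h3 h4 h5 h6 h7 h8
  refine ⟨⟨h8, hρ, K.2, by positivity, ?_, ?_, ?_, h3, h4, h5, by simpa using h6⟩, ?_, ?_, ?_, ?_,
    ?_, ?_, hC0, h7⟩
  · intro v hv w hw
    have := hK.dist_le_mul v (hsub hv).1 w (hsub hw).1
    rwa [dist_eq_norm, dist_eq_norm] at this
  · exact fun v hv => (hsub hv).2.1
  · exact fun p hp => h1 hp
  · exact fun q hq => (h2 hq).1
  · exact fun q hq => (hα q (h2 hq).1 (h2 hq).2).differentiableWithinAt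
  · exact fun q hq => (hβ q (h2 hq).1 (h2 hq).2).differentiableWithinAt
  · exact fun v hv => (hsub hv).2.2.2.2
  · exact fun v hv => (hsub hv).2.2.1
  · exact fun v hv => (hsub hv).2.2.2.1

/-- **Local existence for the Goursat problem** (holomorphic with parameters). -/
theorem goursat_exists {P : E → E →L[ℂ] E} {U : Set E} (hU : IsOpen U) (hP : AnalyticOnNhd ℂ P U)
    (hid : ∀ x ∈ U, ∀ v, P x (P x v) = P x v)
    {f : S × ℂ → E} {s0 : S} {z0 : ℂ} (hf : AnalyticAt ℂ f (s0, z0)) (hfU : f (s0, z0) ∈ U) :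
    ∃ r > 0, ∃ F : S × ℂ × ℂ → E, AnalyticOnNhd ℂ F (ball (s0, z0, z0) r) ∧
      (∀ p ∈ ball (s0, z0, z0) r, F p ∈ U) ∧
      (∀ s z, s ∈ ball s0 r → z ∈ ball z0 r → F (s, z, z) = f (s, z)) ∧
      (∀ p ∈ ball (s0, z0, z0) r, P (F p) (fderiv ℂ F p (0, 1, 0)) = fderiv ℂ F p (0, 1, 0)) ∧
      (∀ p ∈ ball (s0, z0, z0) r, P (F p) (fderiv ℂ F p (0, 0, 1)) = 0) := by
  obtain ⟨ρ, K, M, C, hρ, hev⟩ := exists_pack hU hP hf hfU
  obtain ⟨r, hpk⟩ := hev.exists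
  have hr := hpk.small.hr
  have hNd : DifferentiableOn ℂ (gd P f).N (U ×ˢ (univ : Set (E × E))) := fun v hv =>
    ((differentiableOn_N hU hP f v hv).differentiableAt one_ne_zero).differentiableWithinAt
  obtain ⟨u, hmem, hud, hfix⟩ := exists_fix hpk.small
    (hpk.fan.differentiableOn) hpk.αd hpk.βd (hU.prod isOpen_univ) hpk.sub hNd
  have hNu : DifferentiableOn ℂ (fun p => (gd P f).N (u p)) (ball (s0, z0, z0) r) :=
    hNd.comp hud (fun p hp => hpk.sub (hmem p hp))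
  have hsol : Sol P f s0 z0 r u := sol_of_fix hud hNu hfix
  have huU : ∀ p ∈ ball (s0, z0, z0) r, (u p).1 ∈ U := fun p hp => (hpk.sub (hmem p hp)).1
  have hd2 := hsol.d2F hud hpk.fan.differentiableOn
  have hprop := propagate hU hP hid hsol hud hpk.fan.differentiableOn huU
    (B := ‖uc P f (s0, z0)‖ + ρ) (by positivity) hpk.hC hr
    (fun p hp => norm_bd_of_mem (hmem p hp)) (fun p hp => hpk.bP _ (hmem p hp))
    (fun p hp => hpk.bD _ (hmem p hp)) hpk.small5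
  refine ⟨r, hr, fun p => (u p).1, ?_, huU, ?_, ?_, ?_⟩
  · exact osgood isOpen_ball hud.fst
  · intro s z hs hz
    exact hsol.diagF s z (mem_B.2 ⟨hs, hz⟩)
  · intro p hp
    rw [hsol.d1F p hp]
    exact (hprop p hp).1
  · intro p hp
    rw [hd2 p hp]
    exact (hprop p hp).2

/-- **Local uniqueness for the Goursat problem**. -/
theorem goursat_unique {P : E → E →L[ℂ] E} {U : Set E} (hU : IsOpen U) (hP : AnalyticOnNhd ℂ P U)
    {F F' : S × ℂ × ℂ → E} {s0 : S} {z0 : ℂ} (hF : AnalyticAt ℂ F (s0, z0, z0))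
    (hF' : AnalyticAt ℂ F' (s0, z0, z0)) (hFU : F (s0, z0, z0) ∈ U)
    (h1 : ∀ᶠ p in 𝓝 (s0, z0, z0), P (F p) (fderiv ℂ F p (0, 1, 0)) = fderiv ℂ F p (0, 1, 0))
    (h2 : ∀ᶠ p in 𝓝 (s0, z0, z0), P (F p) (fderiv ℂ F p (0, 0, 1)) = 0)
    (h1' : ∀ᶠ p in 𝓝 (s0, z0, z0), P (F' p) (fderiv ℂ F' p (0, 1, 0)) = fderiv ℂ F' p (0, 1, 0))
    (h2' : ∀ᶠ p in 𝓝 (s0, z0, z0), P (F' p) (fderiv ℂ F' p (0, 0, 1)) = 0)
    (heq : ∀ᶠ q : S × ℂ in 𝓝 (s0, z0), F (q.1, q.2, q.2) = F' (q.1, q.2, q.2)) :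
    F =ᶠ[𝓝 (s0, z0, z0)] F' := by
  set f : S × ℂ → E := fun q => F (q.1, q.2, q.2) with hfdef
  have hdiagL : AnalyticAt ℂ (fun q : S × ℂ => ((q.1, q.2, q.2) : S × ℂ × ℂ)) (s0, z0) := by
    exact ((ContinuousLinearMap.fst ℂ S ℂ).prod ((ContinuousLinearMap.snd ℂ S ℂ).prod
      (ContinuousLinearMap.snd ℂ S ℂ))).analyticAt _
  have hf : AnalyticAt ℂ f (s0, z0) :=
    AnalyticAt.comp (g := F) (f := fun q : S × ℂ => ((q.1, q.2, q.2) : S × ℂ × ℂ)) hF hdiagL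
  have hF'0 : F' (s0, z0, z0) = F (s0, z0, z0) := (heq.self_of_nhds).symm
  obtain ⟨ρ, K, M, C, hρ, hev⟩ := exists_pack hU hP hf hFU
  -- the two candidate fixed points
  set u : S × ℂ × ℂ → E × E × E := fun p => (F p, fderiv ℂ F p (0, 1, 0), fderiv ℂ F p (0, 0, 1))
    with hu
  set u' : S × ℂ × ℂ → E × E × E :=
    fun p => (F' p, fderiv ℂ F' p (0, 1, 0), fderiv ℂ F' p (0, 0, 1)) with hu'
  have hucont : ∀ G : S × ℂ × ℂ → E, ∀ p, AnalyticAt ℂ G p → ContinuousAt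
      (fun p => ((G p, fderiv ℂ G p (0, 1, 0), fderiv ℂ G p (0, 0, 1)) : E × E × E)) p := by
    intro G p hG
    have h := hG.fderiv.continuousAt
    exact hG.continuousAt.prodMk ((h.clm_apply continuousAt_const).prodMk
      (h.clm_apply continuousAt_const))
  have evF : ∀ᶠ p in 𝓝 (s0, z0, z0), AnalyticAt ℂ F p := hF.eventually_analyticAt
  have evF' : ∀ᶠ p in 𝓝 (s0, z0, z0), AnalyticAt ℂ F' p := hF'.eventually_analyticAt
  have evU : ∀ᶠ p in 𝓝 (s0, z0, z0), F p ∈ U := hF.continuousAt.eventually (hU.mem_nhds hFU)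
  have evU' : ∀ᶠ p in 𝓝 (s0, z0, z0), F' p ∈ U :=
    hF'.continuousAt.eventually (hU.mem_nhds (by rw [hF'0]; exact hFU))
  have big : ∀ᶠ p in 𝓝 (s0, z0, z0), AnalyticAt ℂ F p ∧ AnalyticAt ℂ F' p ∧ F p ∈ U ∧ F' p ∈ U ∧
      (P (F p) (fderiv ℂ F p (0, 1, 0)) = fderiv ℂ F p (0, 1, 0)) ∧
      (P (F p) (fderiv ℂ F p (0, 0, 1)) = 0) ∧
      (P (F' p) (fderiv ℂ F' p (0, 1, 0)) = fderiv ℂ F' p (0, 1, 0)) ∧
      (P (F' p) (fderiv ℂ F' p (0, 0, 1)) = 0) := by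
    filter_upwards [evF, evF', evU, evU', h1, h2, h1', h2'] with p a b c d e g h i
    exact ⟨a, b, c, d, e, g, h, i⟩
  have heq' : ∀ᶠ q : S × ℂ in 𝓝 (s0, z0), AnalyticAt ℂ f q ∧
      F (q.1, q.2, q.2) = F' (q.1, q.2, q.2) := hf.eventually_analyticAt.and heq
  -- fixed point property on small balls
  have hfix : ∀ᶠ r in 𝓝[>] (0:ℝ), (∀ p ∈ ball (s0, z0, z0) r, T (gd P f) u p = u p) ∧
      (∀ p ∈ ball (s0, z0, z0) r, T (gd P f) u' p = u' p) ∧
      ContinuousOn u (ball (s0, z0, z0) r) ∧ ContinuousOn u' (ball (s0, z0, z0) r) := by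
    filter_upwards [ev_ball big, ev_ball heq'] with r hb hq
    refine ⟨?_, ?_, ?_, ?_⟩
    · exact fix_of_solution hU hP (fun p hp => (hb hp).1) (fun p hp => (hb hp).2.2.1)
        (fun p hp => (hb hp).2.2.2.2.1) (fun p hp => (hb hp).2.2.2.2.2.1)
        (fun s z hsz => rfl) (fun q hq' => (hq hq').1.differentiableAt.differentiableWithinAt)
    · exact fix_of_solution hU hP (fun p hp => (hb hp).2.1) (fun p hp => (hb hp).2.2.2.1)
        (fun p hp => (hb hp).2.2.2.2.2.2.1) (fun p hp => (hb hp).2.2.2.2.2.2.2)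
        (fun s z hsz => ((hq hsz).2).symm)
        (fun q hq' => (hq hq').1.differentiableAt.differentiableWithinAt)
    · exact fun p hp => (hucont F p (hb hp).1).continuousWithinAt
    · exact fun p hp => (hucont F' p (hb hp).2.1).continuousWithinAt
  -- values at the centre
  have hpos : ∀ᶠ r in 𝓝[>] (0:ℝ), r ∈ Ioi (0:ℝ) := self_mem_nhdsWithin
  obtain ⟨r1, hr1, hfix1⟩ := (hpos.and hfix).exists
  have hc : ∀ v : S × ℂ × ℂ → E × E × E, T (gd P f) v (s0, z0, z0) = uc P f (s0, z0) := by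
    intro v
    simp [T, uc, gd]
  have hr1' : (0:ℝ) < r1 := hr1
  have hu0 : u (s0, z0, z0) = uc P f (s0, z0) := by
    rw [← hfix1.1 _ (mem_ball_self hr1'), hc]
  have hu0' : u' (s0, z0, z0) = uc P f (s0, z0) := by
    rw [← hfix1.2.1 _ (mem_ball_self hr1'), hc]
  have hcl : ∀ᶠ p in 𝓝 (s0, z0, z0), u p ∈ closedBall (uc P f (s0, z0)) ρ := by
    have := (hucont F _ hF)
    rw [ContinuousAt] at this
    have h3 : Tendsto u (𝓝 (s0, z0, z0)) (𝓝 (uc P f (s0, z0))) := by rw [← hu0]; exact this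
    exact h3.eventually (closedBall_mem_nhds _ hρ)
  have hcl' : ∀ᶠ p in 𝓝 (s0, z0, z0), u' p ∈ closedBall (uc P f (s0, z0)) ρ := by
    have := (hucont F' _ hF')
    rw [ContinuousAt] at this
    have h3 : Tendsto u' (𝓝 (s0, z0, z0)) (𝓝 (uc P f (s0, z0))) := by rw [← hu0']; exact this
    exact h3.eventually (closedBall_mem_nhds _ hρ)
  obtain ⟨r, hpk, hfx, hb, hb'⟩ := (hev.and (hfix.and ((ev_ball hcl).and (ev_ball hcl')))).exists
  have hr := hpk.small.hr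
  have hNc : ContinuousOn (gd P f).N (closedBall (uc P f (s0, z0)) ρ) := fun v hv =>
    (differentiableOn_N hU hP f v (hpk.sub hv)).continuousAt.continuousWithinAt
  have := fix_unique hpk.small hNc hb hb' hfx.2.2.1 hfx.2.2.2 hfx.1 hfx.2.1
  filter_upwards [ball_mem_nhds _ hr] with p hp
  exact congrArg Prod.fst (this p hp)

end Crest.Agent.R266.Goursat
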