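import Crest.Agent.R266.E0Defs
import Crest.Agent.R266.Slack

/-!
R266 / HolC: holomorphic curves in a product-foliated manifold: chart independence, continuity of
the density, comparison constants.
-/

set_option autoImplicit false

open scoped Manifold ContDiff Topology ENNReal
open Set Metric Filter MeasureTheory

namespace Crest.Agent.R266

variable {n₁ n₂ : ℕ} {X : Type} [TopologicalSpace X]

namespace HC

/-- transition maps are analytic -/
lemma trans_analytic (A : PFol n₁ n₂ X) (i j : A.ι) {x : X} (hi : x ∈ (A.ch i).source)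
    (hj : x ∈ (A.ch j).source) :
    AnalyticAt ℂ (fun p => A.ch j ((A.ch i).symm p)) (A.ch i x) := by
  obtain ⟨φ, ψ, hφ, hψ, h⟩ := A.compat i j x ⟨hi, hj⟩
  have h1 : AnalyticAt ℂ (fun p : EV n₁ × EV n₂ => φ p.1) (A.ch i x) :=
    AnalyticAt.comp (g := φ) (f := fun p : EV n₁ × EV n₂ => p.1) hφ analyticAt_fst
  have h2 : AnalyticAt ℂ (fun p : EV n₁ × EV n₂ => ψ p.2) (A.ch i x) :=
    AnalyticAt.comp (g := ψ) (f := fun p : EV n₁ × EV n₂ => p.2) hψ analyticAt_snd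
  exact (h1.prod h2).congr (h.mono fun p hp => hp.symm)

/-- a holomorphic curve is continuous -/
lemma continuousAt {A : PFol n₁ n₂ X} {U : Set ℂ} {f : ℂ → X} (hf : IsHolC A U f) {t : ℂ}
    (ht : t ∈ U) : ContinuousAt f t := by
  obtain ⟨i, g, hg, h⟩ := hf t ht
  have hft := h.self_of_nhds
  have h1 : ContinuousAt (fun s => (A.ch i).symm (g s)) t := by
    apply ContinuousAt.comp
    · rw [← hft.2]
      exact (A.ch i).continuousAt_symm ((A.ch i).map_source hft.1)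
    · exact hg.continuousAt
  refine h1.congr ?_
  filter_upwards [h] with s hs
  rw [← hs.2, (A.ch i).left_inv hs.1]

/-- the curve is analytic in every chart -/
lemma chart {A : PFol n₁ n₂ X} {U : Set ℂ} {f : ℂ → X} (hf : IsHolC A U f) {t : ℂ}
    (ht : t ∈ U) (j : A.ι) (hj : f t ∈ (A.ch j).source) :
    AnalyticAt ℂ (fun s => A.ch j (f s)) t := by
  obtain ⟨i, g, hg, h⟩ := hf t ht
  have hft := h.self_of_nhds
  have h1 := trans_analytic A i j hft.1 hj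
  rw [hft.2] at h1
  have h2 : AnalyticAt ℂ (fun s => A.ch j ((A.ch i).symm (g s))) t :=
    AnalyticAt.comp (g := fun p => A.ch j ((A.ch i).symm p)) (f := g) h1 hg
  refine h2.congr ?_
  filter_upwards [h] with s hs
  rw [← hs.2, (A.ch i).left_inv hs.1]

/-- eventually in the source -/
lemma eventually_source {A : PFol n₁ n₂ X} {U : Set ℂ} {f : ℂ → X} (hf : IsHolC A U f) {t : ℂ}
    (ht : t ∈ U) (j : A.ι) (hj : f t ∈ (A.ch j).source) : ∀ᶠ s in 𝓝 t, f s ∈ (A.ch j).source :=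
  (continuousAt hf ht).eventually_mem ((A.ch j).open_source.mem_nhds hj)

/-- chart change for the derivative -/
lemma deriv_chart {A : PFol n₁ n₂ X} {U : Set ℂ} {f : ℂ → X} (hf : IsHolC A U f) {t : ℂ}
    (ht : t ∈ U) (i j : A.ι) (hi : f t ∈ (A.ch i).source) (hj : f t ∈ (A.ch j).source) :
    deriv (fun s => A.ch j (f s)) t =
      fderiv ℂ (fun p => A.ch j ((A.ch i).symm p)) (A.ch i (f t)) (deriv (fun s => A.ch i (f s)) t) := by
  have h1 : HasDerivAt (fun s => A.ch i (f s)) (deriv (fun s => A.ch i (f s)) t) t :=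
    (chart hf ht i hi).differentiableAt.hasDerivAt
  have h2 : HasFDerivAt (fun p => A.ch j ((A.ch i).symm p))
      (fderiv ℂ (fun p => A.ch j ((A.ch i).symm p)) (A.ch i (f t))) (A.ch i (f t)) :=
    (trans_analytic A i j hi hj).differentiableAt.hasFDerivAt
  have h3 := h2.comp_hasDerivAt t h1
  have h4 : (fun s => A.ch j (f s)) =ᶠ[𝓝 t]
      ((fun p => A.ch j ((A.ch i).symm p)) ∘ fun s => A.ch i (f s)) := by
    filter_upwards [eventually_source hf ht i hi] with s hs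
    simp only [Function.comp]
    rw [(A.ch i).left_inv hs]
  rw [h4.deriv_eq]
  exact h3.deriv

/-- the density in any chart -/
lemma densM_eq {A : PFol n₁ n₂ X} (K : KMet A) {U : Set ℂ} {f : ℂ → X} (hf : IsHolC A U f) {t : ℂ}
    (ht : t ∈ U) (i : A.ι) (hi : f t ∈ (A.ch i).source) :
    densM K f t = K.g i (A.ch i (f t)) (deriv (fun s => A.ch i (f s)) t)
      (deriv (fun s => A.ch i (f s)) t) := by
  have hj := Slk.idx_source A (f t)
  unfold densM
  rw [deriv_chart hf ht i (A.idx (f t)) hi hj]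
  exact K.compat i (A.idx (f t)) (f t) ⟨hi, hj⟩ _ _

lemma mem_target_iff {A : PFol n₁ n₂ X} (i : A.ι) (p : EV n₁ × EV n₂) :
    p ∈ (A.ch i).target ↔ p ∈ ball (0 : EV n₁) 1 ×ˢ ball (0 : EV n₂) 1 := by
  rw [A.target_eq i]

/-- the density is continuous -/
lemma continuousAt_densM {A : PFol n₁ n₂ X} (K : KMet A) {U : Set ℂ} (hU : IsOpen U) {f : ℂ → X}
    (hf : IsHolC A U f) {t : ℂ} (ht : t ∈ U) : ContinuousAt (densM K f) t := by
  set i := A.idx (f t) with hi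
  have his := Slk.idx_source A (f t)
  have hev : densM K f =ᶠ[𝓝 t] fun s => K.g i (A.ch i (f s)) (deriv (fun s => A.ch i (f s)) s)
      (deriv (fun s => A.ch i (f s)) s) := by
    filter_upwards [eventually_source hf ht i his, hU.mem_nhds ht] with s hs hsU
    exact densM_eq K hf hsU i hs
  refine ContinuousAt.congr ?_ hev.symm
  have hc : AnalyticAt ℂ (fun s => A.ch i (f s)) t := chart hf ht i his
  have h1 : ContinuousAt (fun s => A.ch i (f s)) t := hc.continuousAt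
  have h2 : ContinuousAt (deriv (fun s => A.ch i (f s))) t := hc.deriv.continuousAt
  have h3 : ContinuousAt (K.g i) (A.ch i (f t)) := by
    have h4 := (K.smooth i).continuousOn
    refine h4.continuousAt ?_
    exact (isOpen_ball.prod isOpen_ball).mem_nhds
      ((mem_target_iff i _).1 ((A.ch i).map_source his))
  have h5 : ContinuousAt (fun s => K.g i (A.ch i (f s))) t :=
    ContinuousAt.comp (g := K.g i) (f := fun s => A.ch i (f s)) h3 h1
  exact (h5.clm_apply h2).clm_apply h2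

lemma continuousOn_densM {A : PFol n₁ n₂ X} (K : KMet A) {U : Set ℂ} (hU : IsOpen U) {f : ℂ → X}
    (hf : IsHolC A U f) : ContinuousOn (densM K f) U :=
  fun _ ht => (continuousAt_densM K hU hf ht).continuousWithinAt

lemma densM_nonneg {A : PFol n₁ n₂ X} (K : KMet A) (f : ℂ → X) (t : ℂ) : 0 ≤ densM K f t := by
  unfold densM
  set i := A.idx (f t)
  set v := deriv (fun s => A.ch i (f s)) t
  have hp : A.ch i (f t) ∈ ball (0 : EV n₁) 1 ×ˢ ball (0 : EV n₂) 1 :=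
    (mem_target_iff i _).1 ((A.ch i).map_source (Slk.idx_source A (f t)))
  by_cases hv : v = 0
  · rw [hv]; simp
  · exact (K.pos i _ hp v hv).le

lemma mono {A : PFol n₁ n₂ X} {U V : Set ℂ} {f : ℂ → X} (hf : IsHolC A U f) (h : V ⊆ U) :
    IsHolC A V f := fun t ht => hf t (h ht)

/-! ### comparison on larger cores -/

/-- closed polydisc of radius `ρ` -/
def coreR (n₁ n₂ : ℕ) (ρ : ℝ) : Set (EV n₁ × EV n₂) :=
  closedBall (0 : EV n₁) ρ ×ˢ closedBall (0 : EV n₂) ρ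

lemma coreR_compact (n₁ n₂ : ℕ) (ρ : ℝ) : IsCompact (coreR n₁ n₂ ρ) :=
  (isCompact_closedBall _ _).prod (isCompact_closedBall _ _)

lemma coreR_subset (n₁ n₂ : ℕ) {ρ : ℝ} (hρ : ρ < 1) :
    coreR n₁ n₂ ρ ⊆ ball (0 : EV n₁) 1 ×ˢ ball (0 : EV n₂) 1 :=
  Set.prod_mono (closedBall_subset_ball hρ) (closedBall_subset_ball hρ)

lemma coreR_eq (n₁ n₂ : ℕ) (ρ : ℝ) : coreR n₁ n₂ ρ = closedBall (0 : EV n₁ × EV n₂) ρ := by
  rw [coreR, closedBall_prod_same]; rfl

/-- comparison of one chart metric with the norm on a compact core -/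
lemma comp_one {A : PFol n₁ n₂ X} (K : KMet A) (i : A.ι) {ρ : ℝ} (hρ : ρ < 1) :
    ∃ κ > 0, ∀ p ∈ coreR n₁ n₂ ρ, ∀ u : EV n₁ × EV n₂,
      κ * ‖u‖ ^ 2 ≤ K.g i p u u ∧ K.g i p u u ≤ κ⁻¹ * ‖u‖ ^ 2 := by
  have hcont : ContinuousOn (K.g i) (coreR n₁ n₂ ρ) :=
    (K.smooth i).continuousOn.mono (coreR_subset n₁ n₂ hρ)
  -- upper bound
  obtain ⟨M, hM⟩ := IsCompact.exists_bound_of_continuousOn
    (E := (EV n₁ × EV n₂) →L[ℝ] (EV n₁ × EV n₂) →L[ℝ] ℝ) (coreR_compact n₁ n₂ ρ) hcont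
  have hup : ∀ p ∈ coreR n₁ n₂ ρ, ∀ u : EV n₁ × EV n₂, K.g i p u u ≤ (|M| + 1) * ‖u‖ ^ 2 := by
    intro p hp u
    have h1 : K.g i p u u ≤ ‖K.g i p u‖ * ‖u‖ :=
      le_trans (le_abs_self _) ((K.g i p u).le_opNorm u)
    have h2 : ‖K.g i p u‖ ≤ ‖K.g i p‖ * ‖u‖ := (K.g i p).le_opNorm u
    have h3 : ‖K.g i p‖ ≤ |M| + 1 := (hM p hp).trans ((le_abs_self M).trans (by linarith))
    calc K.g i p u u ≤ ‖K.g i p u‖ * ‖u‖ := h1
      _ ≤ (‖K.g i p‖ * ‖u‖) * ‖u‖ := by gcongr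
      _ ≤ ((|M| + 1) * ‖u‖) * ‖u‖ := by gcongr
      _ = (|M| + 1) * ‖u‖ ^ 2 := by ring
  -- lower bound on the unit sphere
  have hlow : ∃ m > 0, ∀ p ∈ coreR n₁ n₂ ρ, ∀ u : EV n₁ × EV n₂, ‖u‖ = 1 → m ≤ K.g i p u u := by
    have hc : IsCompact (coreR n₁ n₂ ρ ×ˢ sphere (0 : EV n₁ × EV n₂) 1) :=
      (coreR_compact n₁ n₂ ρ).prod (isCompact_sphere _ _)
    have hf : ContinuousOn (fun q : (EV n₁ × EV n₂) × (EV n₁ × EV n₂) => K.g i q.1 q.2 q.2)
        (coreR n₁ n₂ ρ ×ˢ sphere (0 : EV n₁ × EV n₂) 1) := by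
      have h1 : ContinuousOn (fun q : (EV n₁ × EV n₂) × (EV n₁ × EV n₂) => K.g i q.1)
          (coreR n₁ n₂ ρ ×ˢ sphere (0 : EV n₁ × EV n₂) 1) :=
        hcont.comp continuous_fst.continuousOn (fun q hq => hq.1)
      exact (h1.clm_apply continuous_snd.continuousOn).clm_apply continuous_snd.continuousOn
    rcases (coreR n₁ n₂ ρ ×ˢ sphere (0 : EV n₁ × EV n₂) 1).eq_empty_or_nonempty with he | hne
    · refine ⟨1, one_pos, fun p hp u hu => ?_⟩
      have : (p, u) ∈ coreR n₁ n₂ ρ ×ˢ sphere (0 : EV n₁ × EV n₂) 1 := ⟨hp, by simpa using hu⟩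
      rw [he] at this
      exact this.elim
    · obtain ⟨q, hq, hmin⟩ := hc.exists_isMinOn hne hf
      refine ⟨K.g i q.1 q.2 q.2, ?_, fun p hp u hu => ?_⟩
      · apply K.pos i q.1 (coreR_subset n₁ n₂ hρ hq.1)
        intro h0
        have h2 : ‖q.2‖ = 1 := by simpa using hq.2
        rw [h0] at h2
        simp at h2
      · exact hmin (show (p, u) ∈ coreR n₁ n₂ ρ ×ˢ sphere (0 : EV n₁ × EV n₂) 1 from
          ⟨hp, by simpa using hu⟩)
  obtain ⟨m, hm, hlow⟩ := hlow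
  have hMpos : 0 < |M| + 1 := by positivity
  refine ⟨min m (|M| + 1)⁻¹, lt_min hm (inv_pos.2 hMpos), fun p hp u => ⟨?_, ?_⟩⟩
  · by_cases hu : u = 0
    · subst hu; simp
    have hn : 0 < ‖u‖ := norm_pos_iff.2 hu
    have h1 := hlow p hp ((‖u‖⁻¹ : ℝ) • u) (by
      rw [norm_smul, norm_inv, norm_norm, inv_mul_cancel₀ hn.ne'])
    have h2 : K.g i p ((‖u‖⁻¹ : ℝ) • u) ((‖u‖⁻¹ : ℝ) • u) = ‖u‖⁻¹ * (‖u‖⁻¹ * K.g i p u u) := by
      simp [map_smul]
    rw [h2] at h1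
    have h3 : m * ‖u‖ ^ 2 ≤ K.g i p u u := by
      have h4 := mul_le_mul_of_nonneg_right h1 (sq_nonneg ‖u‖)
      have h5 : ‖u‖⁻¹ * (‖u‖⁻¹ * K.g i p u u) * ‖u‖ ^ 2 = K.g i p u u := by
        field_simp
      rwa [h5] at h4
    refine le_trans ?_ h3
    gcongr
    exact min_le_left _ _
  · refine (hup p hp u).trans ?_
    have h1 : |M| + 1 ≤ (min m (|M| + 1)⁻¹)⁻¹ := by
      rw [le_inv_comm₀ hMpos (lt_min hm (inv_pos.2 hMpos))]
      exact min_le_right _ _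
    gcongr

/-- comparison, uniform over a finite atlas, on a core of any radius `ρ < 1` -/
lemma comp_r {A : PFol n₁ n₂ X} [Finite A.ι] (K : KMet A) {ρ : ℝ} (hρ : ρ < 1) :
    ∃ κ > 0, ∀ i, ∀ p ∈ coreR n₁ n₂ ρ, ∀ u : EV n₁ × EV n₂,
      κ * ‖u‖ ^ 2 ≤ K.g i p u u ∧ K.g i p u u ≤ κ⁻¹ * ‖u‖ ^ 2 := by
  classical
  have := Fintype.ofFinite A.ι
  choose κ hκ h using fun i => comp_one K i hρ
  obtain ⟨κ₀, hκ₀, hle⟩ : ∃ κ₀ > 0, ∀ i, κ₀ ≤ κ i := by
    rcases isEmpty_or_nonempty A.ι with he | hne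
    · exact ⟨1, one_pos, fun i => he.elim i⟩
    · obtain ⟨i₀, hi₀⟩ := Finite.exists_min κ
      exact ⟨κ i₀, hκ i₀, hi₀⟩
  refine ⟨κ₀, hκ₀, fun i p hp u => ⟨?_, ?_⟩⟩
  · refine le_trans ?_ (h i p hp u).1
    gcongr
    exact hle i
  · refine (h i p hp u).2.trans ?_
    gcongr
    exact hle i

end HC

end Crest.Agent.R266
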