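import Mathlib

/-!
R266 / Mono: monodromy lemma for germs on a simply connected space.

`S x` is a set of admissible germs at `x` of maps `X → Y`. If every point has an open
neighbourhood `U` such that every admissible germ at a point of `U` extends to a map with admissible
germs on `U`, and two such maps with the same germ at one point of `U` have the same germ at all
points of `U`, then on a simply connected, locally path connected space every admissible germ
extends to a global map with admissible germs.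
-/

set_option autoImplicit false

open Set Filter Topology Function

namespace Crest.Agent.R266.Mono

variable {X Y : Type*} [TopologicalSpace X]

/-- the étale space of admissible germs -/
def Et (S : ∀ x : X, Set ((𝓝 x).Germ Y)) : Type _ := Σ x : X, {g : (𝓝 x).Germ Y // g ∈ S x}

variable {S : ∀ x : X, Set ((𝓝 x).Germ Y)}

/-- the projection -/
def Et.p (e : Et S) : X := e.1

/-- the germ of `f` at `x` as a point of the étale space -/
def Et.mk (f : X → Y) (x : X) (h : (f : (𝓝 x).Germ Y) ∈ S x) : Et S := ⟨x, ⟨f, h⟩⟩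

theorem Et.exists_rep (e : Et S) : ∃ (f : X → Y) (h : (f : (𝓝 e.p).Germ Y) ∈ S e.p),
    e = Et.mk f e.p h := by
  obtain ⟨x, g, hg⟩ := e
  induction g using Filter.Germ.inductionOn with
  | h f => exact ⟨f, hg, rfl⟩

theorem Et.mk_eq_iff {f f' : X → Y} {x x' : X} (h : (f : (𝓝 x).Germ Y) ∈ S x)
    (h' : (f' : (𝓝 x').Germ Y) ∈ S x') :
    Et.mk f x h = Et.mk f' x' h' ↔ x = x' ∧ f =ᶠ[𝓝 x] f' := by
  constructor
  · intro H
    have hx : x = x' := congrArg Et.p H
    subst hx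
    refine ⟨rfl, ?_⟩
    unfold Et.mk at H
    have := eq_of_heq (Sigma.mk.inj H).2
    have := Subtype.mk.inj this
    exact Filter.Germ.coe_eq.mp this
  · rintro ⟨rfl, H⟩
    have : (f : (𝓝 x).Germ Y) = f' := Filter.Germ.coe_eq.mpr H
    unfold Et.mk
    congr

instance : TopologicalSpace (Et S) where
  IsOpen O := ∀ (x : X) (f : X → Y) (h : (f : (𝓝 x).Germ Y) ∈ S x), Et.mk f x h ∈ O →
    ∀ᶠ y in 𝓝 x, ∀ h' : (f : (𝓝 y).Germ Y) ∈ S y, Et.mk f y h' ∈ O
  isOpen_univ := by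
    intro x f h _
    exact Filter.Eventually.of_forall fun y h' => mem_univ _
  isOpen_inter := by
    intro O O' hO hO' x f h hx
    filter_upwards [hO x f h hx.1, hO' x f h hx.2] with y h1 h2 h'
    exact ⟨h1 h', h2 h'⟩
  isOpen_sUnion := by
    intro s hs x f h hx
    obtain ⟨t, ht, hxt⟩ := hx
    filter_upwards [hs t ht x f h hxt] with y h1 h'
    exact ⟨t, ht, h1 h'⟩

theorem isOpen_et_iff {O : Set (Et S)} : IsOpen O ↔
    ∀ (x : X) (f : X → Y) (h : (f : (𝓝 x).Germ Y) ∈ S x), Et.mk f x h ∈ O →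
    ∀ᶠ y in 𝓝 x, ∀ h' : (f : (𝓝 y).Germ Y) ∈ S y, Et.mk f y h' ∈ O := Iff.rfl

/-- the sheet over `U` defined by `f` -/
def sheet (S : ∀ x : X, Set ((𝓝 x).Germ Y)) (f : X → Y) (U : Set X) : Set (Et S) :=
  {e | ∃ (y : X) (h : (f : (𝓝 y).Germ Y) ∈ S y), y ∈ U ∧ e = Et.mk f y h}

theorem isOpen_sheet (f : X → Y) {U : Set X} (hU : IsOpen U) : IsOpen (sheet S f U) := by
  rw [isOpen_et_iff]
  rintro x f' h ⟨y, hy, hyU, he⟩
  obtain ⟨rfl, hff⟩ := (Et.mk_eq_iff _ _).1 he
  filter_upwards [eventually_eventually_nhds.2 hff, hU.mem_nhds hyU] with y hy1 hyU' h'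
  have h'' : (f : (𝓝 y).Germ Y) ∈ S y := by
    have : (f' : (𝓝 y).Germ Y) = f := Filter.Germ.coe_eq.mpr hy1
    rwa [← this]
  exact ⟨y, h'', hyU', (Et.mk_eq_iff _ _).2 ⟨rfl, hy1⟩⟩

/-- the local hypotheses: extension and separation on `U` -/
structure Good (S : ∀ x : X, Set ((𝓝 x).Germ Y)) (U : Set X) : Prop where
  ext : ∀ x ∈ U, ∀ f : X → Y, (f : (𝓝 x).Germ Y) ∈ S x →
    ∃ f' : X → Y, (∀ y ∈ U, (f' : (𝓝 y).Germ Y) ∈ S y) ∧ f' =ᶠ[𝓝 x] f
  sep : ∀ f f' : X → Y, (∀ y ∈ U, (f : (𝓝 y).Germ Y) ∈ S y) →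
    (∀ y ∈ U, (f' : (𝓝 y).Germ Y) ∈ S y) → (∃ y ∈ U, f =ᶠ[𝓝 y] f') → ∀ y ∈ U, f =ᶠ[𝓝 y] f'

theorem isCoveringMap_p (hS : ∀ x : X, ∃ U : Set X, IsOpen U ∧ x ∈ U ∧ Good S U) :
    IsCoveringMap (Et.p (S := S)) := by
  intro x0
  obtain ⟨V, hV, hx0, hG⟩ := hS x0
  by_cases hne : Nonempty {g : (𝓝 x0).Germ Y // g ∈ S x0}
  · -- nonempty fiber
    have hrep : ∀ g : {g : (𝓝 x0).Germ Y // g ∈ S x0}, ∃ f : X → Y,
        (∀ y ∈ V, (f : (𝓝 y).Germ Y) ∈ S y) ∧ (f : (𝓝 x0).Germ Y) = g.1 := by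
      rintro ⟨g, hg⟩
      induction g using Filter.Germ.inductionOn with
      | h f =>
        obtain ⟨f', hf', hff⟩ := hG.ext x0 hx0 f hg
        exact ⟨f', hf', Filter.Germ.coe_eq.mpr hff⟩
    choose F hF hFg using hrep
    let _ : TopologicalSpace {g : (𝓝 x0).Germ Y // g ∈ S x0} := ⊥
    have : DiscreteTopology {g : (𝓝 x0).Germ Y // g ∈ S x0} := ⟨rfl⟩
    have : Nonempty (X → Et S) := ⟨fun _ => ⟨x0, hne.some⟩⟩
    let t : Bundle.Trivialization {g : (𝓝 x0).Germ Y // g ∈ S x0} (Et.p (S := S)) :=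
      IsOpen.trivializationDiscrete (f := Et.p (S := S))
        (fun g : {g : (𝓝 x0).Germ Y // g ∈ S x0} => sheet S (F g) V) V hV
        (by
          intro g W hW
          constructor
          · intro hWo
            have : Et.p (S := S) ⁻¹' W ∩ sheet S (F g) V = sheet S (F g) W := by
              ext e
              constructor
              · rintro ⟨h1, y, hy, hyV, rfl⟩
                exact ⟨y, hy, h1, rfl⟩
              · rintro ⟨y, hy, hyW, rfl⟩
                exact ⟨hyW, y, hy, hW hyW, rfl⟩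
            rw [this]
            exact isOpen_sheet _ hWo
          · intro ho
            rw [isOpen_iff_mem_nhds]
            intro y hy
            have hyV := hW hy
            have h1 := isOpen_et_iff.1 ho y (F g) (hF g y hyV) ⟨hy, y, hF g y hyV, hyV, rfl⟩
            filter_upwards [h1, hV.mem_nhds hyV] with z hz hzV
            exact (hz (hF g z hzV)).1)
        (by
          rintro g e ⟨y, hy, hyV, rfl⟩ e' ⟨y', hy', hyV', rfl⟩ hee
          have : y = y' := hee
          subst this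
          rfl)
        (by
          intro g y hy
          exact ⟨Et.mk (F g) y (hF g y hy), ⟨y, hF g y hy, hy, rfl⟩, rfl⟩)
        (by
          intro g g' hgg
          rw [Function.onFun, Set.disjoint_left]
          rintro e ⟨y, hy, hyV, rfl⟩ ⟨y', hy', hyV', he⟩
          apply hgg
          obtain ⟨rfl, hff⟩ := (Et.mk_eq_iff _ _).1 he
          have := hG.sep (F g) (F g') (hF g) (hF g') ⟨y, hyV, hff⟩ x0 hx0
          have h2 : (F g : (𝓝 x0).Germ Y) = F g' := Filter.Germ.coe_eq.mpr this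
          rw [hFg, hFg] at h2
          exact Subtype.ext h2)
        (by
          intro e he
          obtain ⟨f, hf, hef⟩ := e.exists_rep
          have hpe : e.p ∈ V := he
          obtain ⟨f', hf', hff⟩ := hG.ext e.p hpe f hf
          rw [mem_iUnion]
          refine ⟨⟨(f' : (𝓝 x0).Germ Y), hf' x0 hx0⟩, ?_⟩
          have h1 : F ⟨(f' : (𝓝 x0).Germ Y), hf' x0 hx0⟩ =ᶠ[𝓝 x0] f' :=
            Filter.Germ.coe_eq.mp (hFg _)
          have h2 := hG.sep _ f' (hF _) hf' ⟨x0, hx0, h1⟩ e.p hpe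
          refine ⟨e.p, hF _ e.p hpe, hpe, ?_⟩
          conv_lhs => rw [hef]
          exact (Et.mk_eq_iff _ _).2 ⟨rfl, (h2.trans hff).symm⟩)
    have ht : x0 ∈ t.baseSet := hx0
    exact (IsEvenlyCovered.of_trivialization ht).to_isEvenlyCovered_preimage
  · -- empty fiber
    have hemp : Et.p (S := S) ⁻¹' V = ∅ := by
      rw [Set.eq_empty_iff_forall_notMem]
      intro e he
      obtain ⟨f, hf, hef⟩ := e.exists_rep
      obtain ⟨f', hf', hff⟩ := hG.ext e.p he f hf
      exact hne ⟨⟨f', hf' x0 hx0⟩⟩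
    exact (IsEvenlyCovered.of_preimage_eq_empty Empty (hV.mem_nhds hx0)
      hemp).to_isEvenlyCovered_preimage

/-- **Monodromy lemma.** -/
theorem mono [SimplyConnectedSpace X] [LocallyPathConnectedSpace X]
    (S : ∀ x : X, Set ((𝓝 x).Germ Y))
    (hS : ∀ x : X, ∃ U : Set X, IsOpen U ∧ x ∈ U ∧ Good S U) (x0 : X) (f0 : X → Y)
    (hf0 : (f0 : (𝓝 x0).Germ Y) ∈ S x0) :
    ∃ F : X → Y, (∀ x, (F : (𝓝 x).Germ Y) ∈ S x) ∧ F =ᶠ[𝓝 x0] f0 := by
  obtain ⟨G, ⟨hG0, hGp⟩, -⟩ := (isCoveringMap_p hS).existsUnique_continuousMap_lifts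
    (ContinuousMap.id X) x0 (Et.mk f0 x0 hf0) rfl
  have hp : ∀ x, (G x).p = x := fun x => congrFun hGp x
  choose R hR hGR using fun x => (G x).exists_rep
  have hR' : ∀ x, (R x : (𝓝 x).Germ Y) ∈ S x := by
    intro x
    have h1 : ∀ z, z = x → (R x : (𝓝 z).Germ Y) ∈ S z → (R x : (𝓝 x).Germ Y) ∈ S x := by
      rintro z rfl h; exact h
    exact h1 _ (hp x) (hR x)
  have hGR' : ∀ x, G x = Et.mk (R x) x (hR' x) := by
    intro x
    rw [hGR x, Et.mk_eq_iff]
    exact ⟨hp x, EventuallyEq.rfl⟩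
  -- local coincidence
  have hloc : ∀ x, ∀ᶠ y in 𝓝 x, R y =ᶠ[𝓝 y] R x := by
    intro x
    have hopen := isOpen_sheet (S := S) (R x) isOpen_univ
    have hmem : G x ∈ sheet S (R x) univ := ⟨x, hR' x, mem_univ _, hGR' x⟩
    have := G.continuous.continuousAt.eventually (hopen.mem_nhds hmem)
    filter_upwards [this] with y hy
    obtain ⟨z, hz, -, hzz⟩ := hy
    rw [hGR' y] at hzz
    exact ((Et.mk_eq_iff _ _).1 hzz).2
  refine ⟨fun x => R x x, ?_, ?_⟩
  · intro x
    have h1 : (fun x => R x x) =ᶠ[𝓝 x] R x := by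
      filter_upwards [hloc x] with y hy
      exact hy.self_of_nhds
    have h2 : ((fun x => R x x : X → Y) : (𝓝 x).Germ Y) = R x := Filter.Germ.coe_eq.mpr h1
    rw [h2]
    exact hR' x
  · have h1 : (fun x => R x x) =ᶠ[𝓝 x0] R x0 := by
      filter_upwards [hloc x0] with y hy
      exact hy.self_of_nhds
    refine h1.trans ?_
    have h2 := hGR' x0
    rw [hG0] at h2
    exact ((Et.mk_eq_iff _ _).1 h2).2.symm

end Crest.Agent.R266.Mono
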