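import Crest.Agent.R266.Stmts

/-!
R266 / PullC: pulling back a closed hermitian form by a holomorphic map: smoothness and the cyclic
identity in one chart.
-/

set_option autoImplicit false

open scoped Manifold ContDiff Topology
open Set Metric Filter

namespace Crest.Agent.R266

namespace Pul
variable {n₁ n₂ : ℕ}

/-- real derivative of a complex-analytic map -/
theorem hasFDerivAt_real_of_analytic {E : Type*} [NormedAddCommGroup E] [NormedSpace ℂ E]
    {φ : ℂ × ℂ → E} {z : ℂ × ℂ} (hφ : AnalyticAt ℂ φ z) :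
    HasFDerivAt φ ((fderiv ℂ φ z).restrictScalars ℝ) z :=
  (hφ.differentiableAt.hasFDerivAt).restrictScalars ℝ

theorem analyticAt_fderiv_apply {E : Type*} [NormedAddCommGroup E] [NormedSpace ℂ E]
    [CompleteSpace E]
    {φ : ℂ × ℂ → E} {z : ℂ × ℂ} (hφ : AnalyticAt ℂ φ z) (u : ℂ × ℂ) :
    AnalyticAt ℂ (fun q => fderiv ℂ φ q u) z :=
  (ContinuousLinearMap.analyticAt (ContinuousLinearMap.apply ℂ E u) _).comp hφ.fderiv

theorem fderiv_fderiv_apply_symm {E : Type*} [NormedAddCommGroup E] [NormedSpace ℂ E]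
    [CompleteSpace E]
    {φ : ℂ × ℂ → E} {z : ℂ × ℂ} (hφ : AnalyticAt ℂ φ z) (u v : ℂ × ℂ) :
    fderiv ℂ (fun q => fderiv ℂ φ q u) z v = fderiv ℂ (fun q => fderiv ℂ φ q v) z u := by
  have hd : DifferentiableAt ℂ (fderiv ℂ φ) z := hφ.fderiv.differentiableAt
  have h1 : ∀ a b : ℂ × ℂ, fderiv ℂ (fun q => fderiv ℂ φ q a) z b = fderiv ℂ (fderiv ℂ φ) z b a := by
    intro a b
    have := (hd.hasFDerivAt.clm_apply (hasFDerivAt_const a z)).fderiv
    rw [this]; simp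
  rw [h1, h1]
  have hs : IsSymmSndFDerivAt ℂ φ z := by
    refine ContDiffAt.isSymmSndFDerivAt (n := ω) hφ.contDiffAt ?_
    simp
  exact hs v u

/-- derivative of the pulled back coefficient function -/
theorem hasFDerivAt_pull {g : EV n₁ × EV n₂ → ((EV n₁ × EV n₂) →L[ℝ] (EV n₁ × EV n₂) →L[ℝ] ℝ)}
    {φ : ℂ × ℂ → EV n₁ × EV n₂} {z : ℂ × ℂ} (hφ : AnalyticAt ℂ φ z)
    (hg : DifferentiableAt ℝ g (φ z)) (u v : ℂ × ℂ) (w : ℂ × ℂ) :
    fderiv ℝ (fun q => g (φ q) (fderiv ℂ φ q u) (fderiv ℂ φ q v)) z w =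
      fderiv ℝ g (φ z) (fderiv ℂ φ z w) (fderiv ℂ φ z u) (fderiv ℂ φ z v)
      + g (φ z) (fderiv ℂ (fun q => fderiv ℂ φ q u) z w) (fderiv ℂ φ z v)
      + g (φ z) (fderiv ℂ φ z u) (fderiv ℂ (fun q => fderiv ℂ φ q v) z w) := by
  have h1 : HasFDerivAt φ ((fderiv ℂ φ z).restrictScalars ℝ) z := hasFDerivAt_real_of_analytic hφ
  have h2 : HasFDerivAt (fun q => g (φ q))
      ((fderiv ℝ g (φ z)).comp ((fderiv ℂ φ z).restrictScalars ℝ)) z :=
    HasFDerivAt.comp (f := φ) (g := g) z hg.hasFDerivAt h1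
  have hu := hasFDerivAt_real_of_analytic (analyticAt_fderiv_apply hφ u)
  have hv := hasFDerivAt_real_of_analytic (analyticAt_fderiv_apply hφ v)
  have h3 := ((h2.clm_apply hu).clm_apply hv).fderiv
  rw [h3]
  simp only [ContinuousLinearMap.add_apply, ContinuousLinearMap.comp_apply,
    ContinuousLinearMap.flip_apply, ContinuousLinearMap.coe_restrictScalars', 
    ContinuousLinearMap.add_apply]
  ring

theorem contDiffAt_pull {g : EV n₁ × EV n₂ → ((EV n₁ × EV n₂) →L[ℝ] (EV n₁ × EV n₂) →L[ℝ] ℝ)}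
    {φ : ℂ × ℂ → EV n₁ × EV n₂} {z : ℂ × ℂ} (hφ : AnalyticAt ℂ φ z)
    (hg : ContDiffAt ℝ ∞ g (φ z)) (u v : ℂ × ℂ) :
    ContDiffAt ℝ ∞ (fun q => g (φ q) (fderiv ℂ φ q u) (fderiv ℂ φ q v)) z := by
  have h1 : ContDiffAt ℝ ∞ φ z := (hφ.contDiffAt (n := ∞)).restrict_scalars ℝ
  have hu : ContDiffAt ℝ ∞ (fun q => fderiv ℂ φ q u) z :=
    ((analyticAt_fderiv_apply hφ u).contDiffAt (n := ∞)).restrict_scalars ℝ
  have hv : ContDiffAt ℝ ∞ (fun q => fderiv ℂ φ q v) z :=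
    ((analyticAt_fderiv_apply hφ v).contDiffAt (n := ∞)).restrict_scalars ℝ
  exact ((hg.comp z h1).clm_apply hu).clm_apply hv

/-- the cyclic identity for the pull back of a closed hermitian form by a holomorphic map -/
theorem closed_pull {g : EV n₁ × EV n₂ → ((EV n₁ × EV n₂) →L[ℝ] (EV n₁ × EV n₂) →L[ℝ] ℝ)}
    {φ : ℂ × ℂ → EV n₁ × EV n₂} {z : ℂ × ℂ} (hφ : AnalyticAt ℂ φ z)
    (hg : DifferentiableAt ℝ g (φ z))
    (hsymm : ∀ u v, g (φ z) u v = g (φ z) v u)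
    (hherm : ∀ u v, g (φ z) (Complex.I • u) (Complex.I • v) = g (φ z) u v)
    (hclosed : ∀ u v w,
      fderiv ℝ (fun q => g q (Complex.I • v) w) (φ z) u
        - fderiv ℝ (fun q => g q (Complex.I • u) w) (φ z) v
        + fderiv ℝ (fun q => g q (Complex.I • u) v) (φ z) w = 0) (u v w : ℂ × ℂ) :
    fderiv ℝ (fun q => g (φ q) (fderiv ℂ φ q (Complex.I • v)) (fderiv ℂ φ q w)) z u
      - fderiv ℝ (fun q => g (φ q) (fderiv ℂ φ q (Complex.I • u)) (fderiv ℂ φ q w)) z v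
      + fderiv ℝ (fun q => g (φ q) (fderiv ℂ φ q (Complex.I • u)) (fderiv ℂ φ q v)) z w = 0 := by
  have hgd : ∀ a b c : EV n₁ × EV n₂, fderiv ℝ (fun q => g q a b) (φ z) c
      = fderiv ℝ g (φ z) c a b := by
    intro a b c
    have := ((hg.hasFDerivAt.clm_apply (hasFDerivAt_const a (φ z))).clm_apply
      (hasFDerivAt_const b (φ z))).fderiv
    rw [this]; simp
  have hcl := hclosed (fderiv ℂ φ z u) (fderiv ℂ φ z v) (fderiv ℂ φ z w)
  rw [hgd, hgd, hgd] at hcl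
  rw [hasFDerivAt_pull hφ hg, hasFDerivAt_pull hφ hg, hasFDerivAt_pull hφ hg]
  have hI : ∀ a b : ℂ × ℂ, fderiv ℂ (fun q => fderiv ℂ φ q (Complex.I • a)) z b
      = Complex.I • fderiv ℂ (fun q => fderiv ℂ φ q a) z b := by
    intro a b
    have : (fun q => fderiv ℂ φ q (Complex.I • a)) = fun q => Complex.I • fderiv ℂ φ q a := by
      funext q; rw [map_smul]
    rw [this, fderiv_fun_const_smul (analyticAt_fderiv_apply hφ a).differentiableAt]
    rfl
  have hD : ∀ a b : ℂ × ℂ, fderiv ℂ (fun q => fderiv ℂ φ q a) z b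
      = fderiv ℂ (fun q => fderiv ℂ φ q b) z a := fun a b => fderiv_fderiv_apply_symm hφ a b
  have hS : ∀ a : ℂ × ℂ, fderiv ℂ φ z (Complex.I • a) = Complex.I • fderiv ℂ φ z a :=
    fun a => map_smul _ _ _
  rw [hI, hI, hI, hS, hS, hD v u, hD w v, hD w u]
  have hII : ∀ a b : EV n₁ × EV n₂, g (φ z) (Complex.I • a) b = - g (φ z) (Complex.I • b) a := by
    intro a b
    have h := hherm (Complex.I • a) b
    rw [smul_smul, Complex.I_mul_I, neg_one_smul, map_neg] at h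
    rw [← h, ContinuousLinearMap.neg_apply, hsymm (Complex.I • b) a]
  have e1 := hII (fderiv ℂ (fun q => fderiv ℂ φ q u) z w) (fderiv ℂ φ z v)
  rw [hD u w] at e1 ⊢
  linarith

end Pul
end Crest.Agent.R266
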