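import Crest.Agent.R266.HolC

/-!
R266 / Punct1: a holomorphic curve of finite energy on a punctured disc extends holomorphically
over the puncture (in one chart).
-/

set_option autoImplicit false

open scoped Manifold ContDiff Topology ENNReal
open Set Metric Filter MeasureTheory

namespace Crest.Agent.R266

namespace PU

variable {n₁ n₂ : ℕ} {X : Type} [TopologicalSpace X]

lemma tri (a b : EV n₁ × EV n₂) : ‖a‖ ≤ ‖b‖ + ‖a - b‖ := by
  have := norm_add_le b (a - b)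
  rwa [add_sub_cancel] at this

lemma tri' {a b : EV n₁ × EV n₂} {x y : ℝ} (h1 : ‖b‖ ≤ x) (h2 : ‖a - b‖ ≤ y) : ‖a‖ ≤ x + y :=
  (tri a b).trans (add_le_add h1 h2)

/-- small volume of small discs -/
lemma exists_small_ball (t₀ : ℂ) {r : ℝ} (hr : 0 < r) {F : ℂ → ℝ≥0∞}
    (hF : ∫⁻ t in ball t₀ r, F t < ⊤) {ε : ℝ≥0∞} (hε : ε ≠ 0) :
    ∃ ρ, 0 < ρ ∧ ρ ≤ r ∧ ∫⁻ t in ball t₀ ρ, F t ≤ ε := by
  obtain ⟨δ, hδ, h⟩ := exists_pos_setLIntegral_lt_of_measure_lt (μ := volume.restrict (ball t₀ r))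
    (f := F) hF.ne hε
  have hcont : Continuous fun ρ : ℝ => ENNReal.ofReal (ρ ^ 2 * Real.pi) :=
    ENNReal.continuous_ofReal.comp (by fun_prop)
  have hev : ∀ᶠ ρ in 𝓝 (0 : ℝ), ENNReal.ofReal (ρ ^ 2 * Real.pi) < δ := by
    apply (hcont.tendsto 0).eventually_lt_const
    simpa using hδ
  obtain ⟨η, hη, hb⟩ := Metric.eventually_nhds_iff.1 hev
  refine ⟨min r (η / 2), lt_min hr (by linarith), min_le_left _ _, ?_⟩
  set ρ := min r (η / 2) with hρ
  have hρ0 : 0 < ρ := lt_min hr (by linarith)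
  have hρη : ρ < η := lt_of_le_of_lt (min_le_right _ _) (by linarith)
  have hvol : volume.restrict (ball t₀ r) (ball t₀ ρ) < δ := by
    refine lt_of_le_of_lt (Measure.restrict_apply_le _ _) ?_
    rw [Complex.volume_ball]
    have h1 := hb (show dist ρ 0 < η by rw [Real.dist_eq, sub_zero, abs_of_pos hρ0]; exact hρη)
    rw [ENNReal.ofReal_mul (by positivity), ENNReal.ofReal_pow hρ0.le] at h1
    have h2 : ENNReal.ofReal Real.pi = (NNReal.pi : ℝ≥0∞) := by
      rw [← NNReal.coe_real_pi, ENNReal.ofReal_coe_nnreal]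
    rwa [h2] at h1
  have h3 := h _ hvol
  rw [Measure.restrict_restrict measurableSet_ball,
    inter_eq_self_of_subset_left (ball_subset_ball (min_le_left _ _))] at h3
  exact h3.le

/-- the step property -/
def Step (A : PFol n₁ n₂ X) (f : ℂ → X) (t₀ : ℂ) (ρ₀ δ : ℝ) : Prop :=
  ∀ t, t ≠ t₀ → ‖t - t₀‖ < ρ₀ → ∀ i, f t ∈ (A.ch i).source → ‖A.ch i (f t)‖ < 3 / 4 →
    ∀ s ∈ ball t (‖t - t₀‖ / 2), f s ∈ (A.ch i).source ∧ ‖A.ch i (f s) - A.ch i (f t)‖ ≤ δ

lemma exists_step {A : PFol n₁ n₂ X} {K : KMet A} (hE : St_E0S K) {f : ℂ → X} {t₀ : ℂ} {r : ℝ}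
    (hr : 0 < r) (hf : IsHolC A (ball t₀ r \ {t₀}) f)
    (hfin : ∫⁻ t in ball t₀ r, ENNReal.ofReal (densM K f t) < ⊤) {δ : ℝ} (hδ : 0 < δ) :
    ∃ ρ₀, 0 < ρ₀ ∧ ρ₀ ≤ r ∧ Step A f t₀ ρ₀ δ := by
  obtain ⟨a₀, ha₀, hE0⟩ := hE δ hδ
  obtain ⟨ρ, hρ, hρr, hint⟩ := exists_small_ball t₀ hr hfin
    (ε := ENNReal.ofReal a₀) (by simpa using ha₀)
  refine ⟨ρ / 2, by linarith, by linarith, ?_⟩
  intro t ht htρ i hi hn s hs
  have htpos : 0 < ‖t - t₀‖ := norm_pos_iff.2 (sub_ne_zero.2 ht)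
  have hsub : ball t ‖t - t₀‖ ⊆ ball t₀ ρ \ {t₀} := by
    intro u hu
    rw [mem_ball, dist_eq_norm] at hu
    refine ⟨?_, ?_⟩
    · rw [mem_ball, dist_eq_norm]
      calc ‖u - t₀‖ = ‖(u - t) + (t - t₀)‖ := by ring_nf
        _ ≤ ‖u - t‖ + ‖t - t₀‖ := norm_add_le _ _
        _ < ρ := by linarith
    · rintro rfl
      rw [norm_sub_rev] at hu
      exact lt_irrefl _ hu
  have hsub2 : ball t ‖t - t₀‖ ⊆ ball t₀ r \ {t₀} := fun u hu =>
    ⟨ball_subset_ball hρr (hsub hu).1, (hsub hu).2⟩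
  have h1 := hE0 f t ‖t - t₀‖ htpos (HC.mono hf hsub2)
    ((lintegral_mono_set (fun u hu => (hsub hu).1)).trans hint) i hi
  have hn' : A.ch i (f t) ∈ ball (0 : EV n₁) (3 / 4) ×ˢ ball (0 : EV n₂) (3 / 4) := by
    rw [ball_prod_same, mem_ball]
    have : dist (A.ch i (f t)) ((0 : EV n₁), (0 : EV n₂)) = ‖A.ch i (f t)‖ := by
      rw [dist_eq_norm]
      congr 1
      exact sub_zero _
    rw [this]; exact hn
  exact h1 hn' s hs

/-- around a circle -/
lemma circle_step {A : PFol n₁ n₂ X} {f : ℂ → X} {t₀ : ℂ} {ρ₀ δ : ℝ} (hδ : 0 ≤ δ)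
    (hs : Step A f t₀ ρ₀ δ) {t : ℂ} (ht : t ≠ t₀) (htρ : ‖t - t₀‖ < ρ₀) {i : A.ι}
    (hi : f t ∈ (A.ch i).source) (hn : ‖A.ch i (f t)‖ + 8 * δ < 3 / 4) :
    ∀ s, ‖s - t₀‖ = ‖t - t₀‖ → f s ∈ (A.ch i).source ∧ ‖A.ch i (f s) - A.ch i (f t)‖ ≤ 8 * δ := by
  intro s hst
  have htpos : 0 < ‖t - t₀‖ := norm_pos_iff.2 (sub_ne_zero.2 ht)
  have hne : t - t₀ ≠ 0 := sub_ne_zero.2 ht
  set θ := Complex.arg ((s - t₀) / (t - t₀)) with hθ
  have hθ1 : |θ| ≤ Real.pi := Complex.abs_arg_le_pi _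
  have hq : (s - t₀) / (t - t₀) = Complex.exp (Complex.I * θ) := by
    have h1 := Complex.norm_mul_exp_arg_mul_I ((s - t₀) / (t - t₀))
    rw [norm_div, hst, div_self htpos.ne'] at h1
    rw [← h1, hθ]
    simp [mul_comm]
  have hs_eq : s = t₀ + (t - t₀) * Complex.exp (Complex.I * θ) := by
    rw [← hq, mul_div_cancel₀ _ hne]; ring
  set p : ℕ → ℂ := fun j => t₀ + (t - t₀) * Complex.exp (Complex.I * ((j * θ / 8 : ℝ) : ℂ)) with hp
  have hpn : ∀ j, ‖p j - t₀‖ = ‖t - t₀‖ := by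
    intro j
    simp only [hp, add_sub_cancel_left, norm_mul]
    rw [mul_comm Complex.I, Complex.norm_exp_ofReal_mul_I, mul_one]
  have hpne : ∀ j, p j ≠ t₀ := by
    intro j hj
    have := hpn j
    rw [hj, sub_self, norm_zero] at this
    exact htpos.ne this
  have hstep : ∀ j, ‖p (j + 1) - p j‖ < ‖t - t₀‖ / 2 := by
    intro j
    have h1 : p (j + 1) - p j = (t - t₀) * Complex.exp (Complex.I * ((j * θ / 8 : ℝ) : ℂ)) *
        (Complex.exp (Complex.I * ((θ / 8 : ℝ) : ℂ)) - 1) := by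
      simp only [hp]
      rw [mul_sub, mul_assoc (t - t₀), ← Complex.exp_add]
      push_cast
      ring_nf
    rw [h1, norm_mul, norm_mul, mul_comm Complex.I ((j * θ / 8 : ℝ) : ℂ),
      Complex.norm_exp_ofReal_mul_I, mul_one]
    have h2 := Real.norm_exp_I_mul_ofReal_sub_one_le (x := θ / 8)
    have h3 : ‖θ / 8‖ < 1 / 2 := by
      rw [Real.norm_eq_abs, abs_div, abs_of_pos (by norm_num : (0 : ℝ) < 8)]
      have := Real.pi_lt_four
      linarith
    calc ‖t - t₀‖ * ‖Complex.exp (Complex.I * ((θ / 8 : ℝ) : ℂ)) - 1‖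
        < ‖t - t₀‖ * (1 / 2) := by
          apply mul_lt_mul_of_pos_left (lt_of_le_of_lt h2 h3) htpos
      _ = ‖t - t₀‖ / 2 := by ring
  have hind : ∀ j : ℕ, j ≤ 8 → f (p j) ∈ (A.ch i).source ∧
      ‖A.ch i (f (p j)) - A.ch i (f t)‖ ≤ j * δ := by
    intro j
    induction j with
    | zero =>
      intro _
      have : p 0 = t := by simp [hp]
      rw [this]
      exact ⟨hi, by simp⟩
    | succ j ih =>
      intro hj
      obtain ⟨h1, h2⟩ := ih (by omega)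
      have h3 : ‖A.ch i (f (p j))‖ < 3 / 4 := by
        have h4 : ‖A.ch i (f (p j))‖ ≤ ‖A.ch i (f t)‖ + ‖A.ch i (f (p j)) - A.ch i (f t)‖ := by
          have := norm_add_le (A.ch i (f t)) (A.ch i (f (p j)) - A.ch i (f t))
          rwa [add_sub_cancel] at this
        have h5 : (j : ℝ) * δ ≤ 8 * δ := by
          have : (j : ℝ) ≤ 8 := by exact_mod_cast (by omega : j ≤ 8)
          gcongr
        linarith
      have h6 := hs (p j) (hpne j) (by rw [hpn]; exact htρ) i h1 h3 (p (j + 1)) (by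
        rw [mem_ball, dist_eq_norm, hpn]; exact hstep j)
      refine ⟨h6.1, ?_⟩
      calc ‖A.ch i (f (p (j + 1))) - A.ch i (f t)‖
          = ‖(A.ch i (f (p (j + 1))) - A.ch i (f (p j))) +
              (A.ch i (f (p j)) - A.ch i (f t))‖ := by
            congr 1; abel
        _ ≤ δ + j * δ := (norm_add_le _ _).trans (add_le_add h6.2 h2)
        _ = ((j + 1 : ℕ) : ℝ) * δ := by push_cast; ring
  have h8 := hind 8 le_rfl
  have hp8 : p 8 = s := by
    rw [hs_eq]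
    simp only [hp]
    congr 3
    push_cast
    ring
  rw [hp8] at h8
  exact_mod_cast h8

section avg

variable {E : Type*} [NormedAddCommGroup E] [NormedSpace ℂ E] [CompleteSpace E]

lemma norm_circleAverage_sub_le {g : ℂ → E} {c : ℂ} {R : ℝ} (hR : 0 ≤ R)
    (hg : ContinuousOn g (sphere c R)) {a : E} {ε : ℝ} (h : ∀ s ∈ sphere c R, ‖g s - a‖ ≤ ε) :
    ‖Real.circleAverage g c R - a‖ ≤ ε := by
  have hci : CircleIntegrable g c R := by
    apply ContinuousOn.circleIntegrable' 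
    rwa [abs_of_nonneg hR]
  have h1 : Real.circleAverage g c R - a = Real.circleAverage (g - fun _ : ℂ => a) c R := by
    rw [Real.circleAverage_sub hci (circleIntegrable_const a c R), Real.circleAverage_const]
  rw [h1, Real.circleAverage_def, norm_smul]
  have h2 : ‖∫ θ in (0 : ℝ)..2 * Real.pi, (g - fun _ : ℂ => a) (circleMap c R θ)‖ ≤
      ε * |2 * Real.pi - 0| := by
    apply intervalIntegral.norm_integral_le_of_norm_le_const
    intro θ _
    exact h _ (circleMap_mem_sphere c hR θ)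
  rw [sub_zero, abs_of_pos (by positivity)] at h2
  calc ‖(2 * Real.pi)⁻¹‖ * ‖∫ θ in (0 : ℝ)..2 * Real.pi, (g - fun _ : ℂ => a) (circleMap c R θ)‖
      ≤ (2 * Real.pi)⁻¹ * (ε * (2 * Real.pi)) := by
        rw [Real.norm_eq_abs, abs_of_pos (by positivity)]
        gcongr
    _ = ε := by field_simp

lemma circleAverage_eq_of_annulus {g : ℂ → E} {c : ℂ} {r R : ℝ} (h0 : 0 < r) (hle : r ≤ R)
    (hd : ∀ z, r ≤ ‖z - c‖ → ‖z - c‖ ≤ R → DifferentiableAt ℂ g z) :
    Real.circleAverage g c R = Real.circleAverage g c r := by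
  rw [Real.circleAverage_eq_circleIntegral (h0.trans_le hle).ne',
    Real.circleAverage_eq_circleIntegral h0.ne']
  congr 1
  apply Complex.circleIntegral_sub_center_inv_smul_eq_of_differentiable_on_annulus_off_countable
    h0 hle countable_empty
  · intro z hz
    rw [mem_diff, mem_closedBall, mem_ball, dist_eq_norm, not_lt] at hz
    exact (hd z hz.2 hz.1).continuousAt.continuousWithinAt
  · intro z hz
    have h1 := hz.1.1
    have h2 := hz.1.2
    rw [mem_ball, dist_eq_norm] at h1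
    rw [mem_closedBall, dist_eq_norm, not_le] at h2
    exact hd z h2.le h1.le

end avg

/-- REMOVAL OF THE PUNCTURE for curves. -/
theorem punct_curve {A : PFol n₁ n₂ X} {K : KMet A} (hE : St_E0S K) {f : ℂ → X} {t₀ : ℂ} {r : ℝ}
    (hr : 0 < r) (hf : IsHolC A (ball t₀ r \ {t₀}) f)
    (hfin : ∫⁻ t in ball t₀ r, ENNReal.ofReal (densM K f t) < ⊤) :
    ∃ (i : A.ι) (ρ : ℝ) (g : ℂ → EV n₁ × EV n₂), 0 < ρ ∧ ρ ≤ r ∧
      DifferentiableOn ℂ g (ball t₀ ρ) ∧ (∀ t ∈ ball t₀ ρ, g t ∈ (A.ch i).target) ∧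
      ∀ t ∈ ball t₀ ρ, t ≠ t₀ → f t ∈ (A.ch i).source ∧ A.ch i (f t) = g t := by
  set δ : ℝ := 1 / 1024 with hδdef
  have hδ : 0 < δ := by norm_num [hδdef]
  obtain ⟨ρ₀, hρ₀, hρ₀r, hstep⟩ := exists_step hE hr hf hfin hδ
  set ρ₁ := ρ₀ / 2 with hρ₁
  have hρ₁0 : 0 < ρ₁ := by linarith
  set t₁ : ℂ := t₀ + (ρ₁ : ℂ) with ht₁
  have ht₁n : ‖t₁ - t₀‖ = ρ₁ := by
    simp [ht₁, abs_of_pos hρ₁0]
  have hne_of : ∀ t, 0 < ‖t - t₀‖ → t ≠ t₀ := fun t h => by
    rintro rfl; simp at h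
  have ht₁ne : t₁ ≠ t₀ := hne_of _ (by rw [ht₁n]; exact hρ₁0)
  set i := A.idx (f t₁) with hi
  have hsrc1 : f t₁ ∈ (A.ch i).source := Slk.idx_source A (f t₁)
  have hcore1 : ‖A.ch i (f t₁)‖ ≤ 1 / 2 := by
    have h1 := Slk.idx_mem A (f t₁)
    rw [Prod.norm_def]
    have h2 := h1.1
    have h3 := h1.2
    rw [mem_closedBall, dist_zero_right] at h2 h3
    exact max_le h2 h3
  -- the circle of radius ρ₁
  have hcirc1 := circle_step hδ.le hstep ht₁ne (by rw [ht₁n]; linarith) hsrc1 (by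
    have : (8 : ℝ) * δ < 1 / 4 := by norm_num [hδdef]
    linarith)
  rw [ht₁n] at hcirc1
  set φ : ℂ → EV n₁ × EV n₂ := fun s => A.ch i (f s) with hφ
  have hcore1' : ‖φ t₁‖ ≤ 1 / 2 := hcore1
  set m := Real.circleAverage φ t₀ ρ₁ with hm
  have hdiff : ∀ t, t ≠ t₀ → ‖t - t₀‖ < r → f t ∈ (A.ch i).source → DifferentiableAt ℂ φ t := by
    intro t ht htr hs
    exact (HC.chart hf ⟨by rw [mem_ball, dist_eq_norm]; exact htr, ht⟩ i hs).differentiableAt
  have hmean : ∀ R, 0 < R → R ≤ ρ₁ → ∀ t, ‖t - t₀‖ = R → f t ∈ (A.ch i).source →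
      ‖φ t‖ + 8 * δ < 3 / 4 → ‖Real.circleAverage φ t₀ R - φ t‖ ≤ 8 * δ := by
    intro R hR hRρ t htR hs hn
    have hc := circle_step hδ.le hstep (hne_of t (by rw [htR]; exact hR)) (by
      rw [htR]; linarith) hs hn
    apply norm_circleAverage_sub_le hR.le
    · intro s hs'
      rw [mem_sphere, dist_eq_norm] at hs'
      have h1 := hc s (by rw [hs', htR])
      exact (hdiff s (hne_of s (by rw [hs']; exact hR)) (by rw [hs']; linarith)
        h1.1).continuousAt.continuousWithinAt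
    · intro s hs'
      rw [mem_sphere, dist_eq_norm] at hs'
      exact (hc s (by rw [hs', htR])).2
  have hm1 : ‖m - φ t₁‖ ≤ 8 * δ := by
    apply hmean ρ₁ hρ₁0 le_rfl t₁ ht₁n hsrc1
    have : (8 : ℝ) * δ < 1 / 4 := by norm_num [hδdef]
    linarith
  have hmn : ‖m‖ ≤ 1 / 2 + 8 * δ := by
    exact tri' hcore1' hm1
  -- main induction
  have hmain : ∀ k : ℕ, ∀ t, ρ₁ * (2 / 3 : ℝ) ^ k ≤ ‖t - t₀‖ → ‖t - t₀‖ ≤ ρ₁ →
      f t ∈ (A.ch i).source ∧ ‖φ t - m‖ ≤ 8 * δ := by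
    intro k
    induction k with
    | zero =>
      intro t h1 h2
      rw [pow_zero, mul_one] at h1
      have h3 : ‖t - t₀‖ = ρ₁ := le_antisymm h2 h1
      have h4 := hcirc1 t h3
      refine ⟨h4.1, ?_⟩
      rw [norm_sub_rev]
      apply hmean ρ₁ hρ₁0 le_rfl t h3 h4.1
      have h5 : ‖φ t‖ ≤ 1 / 2 + 8 * δ := tri' hcore1' h4.2
      have : (16 : ℝ) * δ < 1 / 4 := by norm_num [hδdef]
      linarith
    | succ k ih =>
      -- first: everything in the bigger annulus is in the chart, with values close to `m`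
      have hfirst : ∀ t, ρ₁ * (2 / 3 : ℝ) ^ (k + 1) ≤ ‖t - t₀‖ → ‖t - t₀‖ ≤ ρ₁ →
          f t ∈ (A.ch i).source ∧ ‖φ t - m‖ ≤ 9 * δ := by
        intro t h1 h2
        by_cases h3 : ρ₁ * (2 / 3 : ℝ) ^ k ≤ ‖t - t₀‖
        · obtain ⟨h4, h5⟩ := ih t h3 h2
          exact ⟨h4, h5.trans (by linarith)⟩
        · push Not at h3
          have hpos : 0 < ρ₁ * (2 / 3 : ℝ) ^ (k + 1) := by positivity
          have htpos : 0 < ‖t - t₀‖ := lt_of_lt_of_le hpos h1
          set ρ' := ρ₁ * (2 / 3 : ℝ) ^ k with hρ'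
          have hρ'0 : 0 < ρ' := by positivity
          have hρ'1 : ρ' ≤ ρ₁ := by
            have : (2 / 3 : ℝ) ^ k ≤ 1 := pow_le_one₀ (by norm_num) (by norm_num)
            calc ρ₁ * (2 / 3 : ℝ) ^ k ≤ ρ₁ * 1 := by gcongr
              _ = ρ₁ := mul_one _
          set t' : ℂ := t₀ + ((ρ' / ‖t - t₀‖ : ℝ) : ℂ) * (t - t₀) with ht'
          have ht'n : ‖t' - t₀‖ = ρ' := by
            rw [ht', add_sub_cancel_left, norm_mul, Complex.norm_real, Real.norm_eq_abs,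
              abs_of_pos (by positivity), div_mul_cancel₀ _ htpos.ne']
          have htt' : ‖t - t'‖ = ρ' - ‖t - t₀‖ := by
            have h5 : t - t' = ((1 - ρ' / ‖t - t₀‖ : ℝ) : ℂ) * (t - t₀) := by
              rw [ht']; push_cast; ring
            rw [h5, norm_mul, Complex.norm_real, Real.norm_eq_abs]
            have h6 : 1 - ρ' / ‖t - t₀‖ ≤ 0 := by
              rw [sub_nonpos, one_le_div htpos]; exact h3.le
            rw [abs_of_nonpos h6]
            field_simp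
            ring
          obtain ⟨h7, h8⟩ := ih t' (by rw [ht'n]) (by rw [ht'n]; exact hρ'1)
          have h9 : ‖φ t'‖ < 3 / 4 := by
            have h10 : ‖φ t'‖ ≤ (1 / 2 + 8 * δ) + 8 * δ := tri' hmn h8
            have : (16 : ℝ) * δ < 1 / 4 := by norm_num [hδdef]
            linarith
          have h11 := hstep t' (hne_of t' (by rw [ht'n]; exact hρ'0))
            (by rw [ht'n]; linarith) i h7 h9 t (by
              rw [mem_ball, dist_eq_norm, htt', ht'n]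
              have : ρ₁ * (2 / 3 : ℝ) ^ (k + 1) = ρ' * (2 / 3) := by rw [hρ', pow_succ]; ring
              rw [this] at h1
              linarith)
          refine ⟨h11.1, ?_⟩
          calc ‖φ t - m‖ = ‖(φ t - φ t') + (φ t' - m)‖ := by congr 1; abel
            _ ≤ δ + 8 * δ := (norm_add_le _ _).trans (add_le_add h11.2 h8)
            _ = 9 * δ := by ring
      intro t h1 h2
      obtain ⟨h3, h4⟩ := hfirst t h1 h2
      refine ⟨h3, ?_⟩
      have hpos : 0 < ρ₁ * (2 / 3 : ℝ) ^ (k + 1) := by positivity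
      have htpos : 0 < ‖t - t₀‖ := lt_of_lt_of_le hpos h1
      have h5 : ‖φ t‖ + 8 * δ < 3 / 4 := by
        have h10 : ‖φ t‖ ≤ (1 / 2 + 8 * δ) + 9 * δ := tri' hmn h4
        have : (25 : ℝ) * δ < 1 / 4 := by norm_num [hδdef]
        linarith
      have h6 := hmean ‖t - t₀‖ htpos h2 t rfl h3 h5
      have h7 : Real.circleAverage φ t₀ ρ₁ = Real.circleAverage φ t₀ ‖t - t₀‖ := by
        apply circleAverage_eq_of_annulus htpos h2
        intro z hz1 hz2
        exact hdiff z (hne_of z (lt_of_lt_of_le htpos hz1)) (by linarith)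
          (hfirst z (h1.trans hz1) hz2).1
      rw [norm_sub_rev, hm, h7]
      exact h6
  have hall : ∀ t, t ≠ t₀ → ‖t - t₀‖ ≤ ρ₁ → f t ∈ (A.ch i).source ∧ ‖φ t - m‖ ≤ 8 * δ := by
    intro t ht h2
    have htpos : 0 < ‖t - t₀‖ := norm_pos_iff.2 (sub_ne_zero.2 ht)
    obtain ⟨k, hk⟩ := exists_pow_lt_of_lt_one (show 0 < ‖t - t₀‖ / ρ₁ by positivity)
      (show (2 / 3 : ℝ) < 1 by norm_num)
    refine hmain k t ?_ h2
    rw [lt_div_iff₀ hρ₁0] at hk
    linarith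
  -- removable singularity
  set g : ℂ → EV n₁ × EV n₂ := Function.update φ t₀ (limUnder (𝓝[≠] t₀) φ) with hg
  have hd : DifferentiableOn ℂ φ (ball t₀ ρ₁ \ {t₀}) := by
    intro t ht
    have h1 : ‖t - t₀‖ < ρ₁ := by
      have := ht.1
      rwa [mem_ball, dist_eq_norm] at this
    exact (hdiff t ht.2 (by linarith) (hall t ht.2 h1.le).1).differentiableWithinAt
  have hb : BddAbove (norm ∘ φ '' (ball t₀ ρ₁ \ {t₀})) := by
    refine ⟨‖m‖ + 8 * δ, ?_⟩
    rintro _ ⟨t, ht, rfl⟩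
    have h1 : ‖t - t₀‖ < ρ₁ := by
      have := ht.1
      rwa [mem_ball, dist_eq_norm] at this
    have h2 := (hall t ht.2 h1.le).2
    exact tri' (le_refl ‖m‖) h2
  have hgd : DifferentiableOn ℂ g (ball t₀ ρ₁) :=
    Complex.differentiableOn_update_limUnder_of_bddAbove (ball_mem_nhds t₀ hρ₁0) hd hb
  have hgne : ∀ t, t ≠ t₀ → g t = φ t := fun t ht => Function.update_of_ne ht _ _
  have hgm : ∀ t ∈ ball t₀ ρ₁, ‖g t - m‖ ≤ 8 * δ := by
    intro t ht
    by_cases h : t = t₀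
    · -- by continuity
      have hcont : ContinuousAt g t₀ :=
        (hgd.continuousOn).continuousAt (ball_mem_nhds t₀ hρ₁0)
      have hcl : IsClosed {p : EV n₁ × EV n₂ | ‖p - m‖ ≤ 8 * δ} :=
        isClosed_le (by fun_prop) continuous_const
      have hev : ∀ᶠ s in 𝓝[≠] t₀, g s ∈ {p : EV n₁ × EV n₂ | ‖p - m‖ ≤ 8 * δ} := by
        filter_upwards [self_mem_nhdsWithin,
          nhdsWithin_le_nhds (ball_mem_nhds t₀ hρ₁0)] with s hs1 hs2
        have hs1' : s ≠ t₀ := hs1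
        rw [mem_ball, dist_eq_norm] at hs2
        rw [hgne s hs1']
        exact (hall s hs1' hs2.le).2
      have hten : Tendsto g (𝓝[≠] t₀) (𝓝 (g t₀)) := hcont.tendsto.mono_left nhdsWithin_le_nhds
      rw [h]
      exact hcl.mem_of_tendsto hten hev
    · rw [hgne t h]
      rw [mem_ball, dist_eq_norm] at ht
      exact (hall t h ht.le).2
  refine ⟨i, ρ₁, g, hρ₁0, by linarith, hgd, ?_, ?_⟩
  · intro t ht
    rw [HC.mem_target_iff, ball_prod_same, mem_ball]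
    have h0 : dist (g t) ((0 : EV n₁), (0 : EV n₂)) = ‖g t‖ := by
      rw [dist_eq_norm]
      congr 1
      exact sub_zero _
    rw [h0]
    have h11 : ‖g t‖ ≤ (1 / 2 + 8 * δ) + 8 * δ := tri' hmn (hgm t ht)
    have : (16 : ℝ) * δ < 1 / 2 := by norm_num [hδdef]
    linarith
  · intro t ht hne
    rw [mem_ball, dist_eq_norm] at ht
    exact ⟨(hall t hne ht.le).1, (hgne t hne).symm⟩

end PU

end Crest.Agent.R266
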