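import Crest.Agent.R266.Punct1
import Crest.Agent.R266.E0W
import Crest.Agent.R266.ProdExt
import Crest.Agent.R266.DStmts

/-!
R266 / PunctMain: `St_punct` from `St_E0S`, the curve version (`PU.punct_curve`) and the punctured
product extension.
-/

set_option autoImplicit false

open scoped Manifold ContDiff Topology ENNReal
open Set Metric Filter MeasureTheory

namespace Crest.Agent.R266

namespace PU

variable {n₁ n₂ : ℕ} {X : Type} [TopologicalSpace X]

theorem punct_of_E0S {A : PFol n₁ n₂ X} (hch : St_chart A) (K : KMet A) (hE : St_E0S K) :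
    St_punct K := by
  intro Ω G H t₁ r hr hΩ hG hH hd hin hfin
  set f : ℂ → X := fun t => G (pt t (H t)) with hf
  have hUo : IsOpen (ball t₁ r \ {t₁}) := isOpen_ball.sdiff isClosed_singleton
  have hHd : DifferentiableOn ℂ H (ball t₁ r) := fun t ht =>
    (hH t ht).differentiableAt.differentiableWithinAt
  have hol : IsHolC A (ball t₁ r \ {t₁}) f :=
    E0.hol_curve hG hUo (hHd.mono diff_subset) (fun t ht => hin t ht.1 ht.2)
  have hfin' : ∫⁻ t in ball t₁ r, ENNReal.ofReal (densM K f t) < ⊤ := by
    have hle : (∫⁻ t in ball t₁ r, ENNReal.ofReal (densM K f t)) ≤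
        ∫⁻ t in ball t₁ r, ENNReal.ofReal 2 * ENNReal.ofReal (trM K G (pt t (H t))) := by
      apply lintegral_mono_ae
      have h1 : ∀ᵐ t ∂(volume.restrict (ball t₁ r)), t ∈ ball t₁ r :=
        ae_restrict_mem measurableSet_ball
      have h2 : ∀ᵐ t ∂(volume.restrict (ball t₁ r)), t ≠ t₁ := by
        apply ae_restrict_of_ae
        rw [ae_iff]
        simp
      filter_upwards [h1, h2] with t ht hne
      rw [← ENNReal.ofReal_mul (by norm_num)]
      apply ENNReal.ofReal_le_ofReal
      exact E0.dens_curve_le K hG ((hH t ht).differentiableAt) (hd t ht) (hin t ht hne)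
        (E0.pc_chart_differentiableAt hG (hin t ht hne) (E0.idx_source A _))
    refine lt_of_le_of_lt hle ?_
    rw [lintegral_const_mul' _ _ ENNReal.ofReal_ne_top]
    exact ENNReal.mul_lt_top ENNReal.ofReal_lt_top hfin
  obtain ⟨i, ρ, g, hρ, hρr, hgd, hgt, hgf⟩ := punct_curve hE hr hol hfin'
  have hD'o : IsOpen (ball t₁ ρ \ {t₁}) := isOpen_ball.sdiff isClosed_singleton
  obtain ⟨U₁, U₂, G', hU₁, hU₂, -, -, hsub, hPC, hev⟩ :=
    product_extension_punct hch hG hρ (hHd.mono (ball_subset_ball hρr))
      (fun t ht => hd t (ball_subset_ball hρr ht)) hD'o diff_subset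
      (fun t ht => hin t (ball_subset_ball hρr ht.1) ht.2) i hgd hgt
      (fun t ht => hgf t ht.1 ht.2)
  refine ⟨ρ / 16, by positivity, G', fun z hz => hPC z (hsub hz), ?_⟩
  filter_upwards [self_mem_nhdsWithin, nhdsWithin_le_nhds (ball_mem_nhds t₁ hρ)] with t h1 h2
  exact hev t ⟨h2, h1⟩

/-- `St_punct`, unconditional over a finite atlas -/
theorem punct_holds [T2Space X] {A : PFol n₁ n₂ X} [Finite A.ι] (hch : St_chart A) (K : KMet A) :
    St_punct K :=
  punct_of_E0S hch K (E0.E0S_holds K)

end PU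

end Crest.Agent.R266
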