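import Mathlib
import Crest.Agent.R266.RatDefs

/-!
R266 / RatBaire: the sets {DegLE k} are closed, and Baire.
-/

set_option autoImplicit false

open scoped Topology
open Set Metric Filter

namespace Crest.Agent.R266.Rat

theorem pev_analytic {N k : ℕ} (c : Fin (N + 1) → Fin (k + 1) → ℂ) (i : Fin (N + 1)) (s : Set ℂ) :
    AnalyticOnNhd ℂ (fun z => pev c z i) s := by
  intro z _
  unfold pev
  have : (fun z : ℂ => ∑ j : Fin (k+1), c i j * z ^ (j : ℕ)) =
      (∑ j : Fin (k+1), fun z : ℂ => c i j * z ^ (j : ℕ)) := by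
    ext z; simp
  rw [this]
  apply Finset.analyticAt_sum
  intro j _
  fun_prop

theorem pev_cont {N k : ℕ} (z : ℂ) (i : Fin (N + 1)) :
    Continuous (fun c : Fin (N + 1) → Fin (k + 1) → ℂ => pev c z i) := by
  unfold pev
  fun_prop

theorem pev_smul {N k : ℕ} (a : ℂ) (c : Fin (N + 1) → Fin (k + 1) → ℂ) (z : ℂ) :
    pev (a • c) z = a • pev c z := by
  funext i
  simp [pev, Finset.mul_sum, mul_assoc]

theorem Par.smul_left {N : ℕ} {a b : Fin (N + 1) → ℂ} (h : Par a b) (t : ℂ) : Par (t • a) b := by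
  intro i j
  have := h i j
  simp only [Pi.smul_apply, smul_eq_mul]
  linear_combination t * this

/-- identity theorem: proportionality near `z0` extends to any ball on which `f` is analytic -/
theorem par_extend {N k : ℕ} {c : Fin (N + 1) → Fin (k + 1) → ℂ} {f : ℂ → Fin (N + 1) → ℂ}
    {z0 : ℂ} {r : ℝ} (hf : AnalyticOnNhd ℂ f (ball z0 r))
    (h : ∀ᶠ z in 𝓝 z0, Par (pev c z) (f z)) : ∀ z ∈ ball z0 r, Par (pev c z) (f z) := by
  intro z hz i j
  have hr : 0 < r := by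
    rw [mem_ball] at hz; exact lt_of_le_of_lt dist_nonneg hz
  have hfi : ∀ i, AnalyticOnNhd ℂ (fun z => f z i) (ball z0 r) := by
    intro i z hz
    exact (analyticAt_pi_iff.mp (hf z hz)) i
  have h1 : AnalyticOnNhd ℂ (fun z => pev c z i * f z j) (ball z0 r) :=
    (pev_analytic c i _).mul (hfi j)
  have h2 : AnalyticOnNhd ℂ (fun z => pev c z j * f z i) (ball z0 r) :=
    (pev_analytic c j _).mul (hfi i)
  have h3 : (fun z => pev c z i * f z j) =ᶠ[𝓝 z0] (fun z => pev c z j * f z i) := by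
    filter_upwards [h] with z hz using hz i j
  exact h1.eqOn_of_preconnected_of_eventuallyEq h2 (convex_ball z0 r).isPreconnected
    (mem_ball_self hr) h3 hz

theorem analytic_slice {E : Type*} [NormedAddCommGroup E] [NormedSpace ℂ E] {N : ℕ}
    {G : E × ℂ → Fin (N + 1) → ℂ} {U : Set (E × ℂ)} (hG : AnalyticOnNhd ℂ G U)
    {w : E} {s : Set ℂ} (h : ∀ z ∈ s, (w, z) ∈ U) : AnalyticOnNhd ℂ (fun z => G (w, z)) s := by
  intro z hz
  have h1 := hG (w, z) (h z hz)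
  have h2 : AnalyticAt ℂ (fun z : ℂ => (w, z)) z := by fun_prop
  exact AnalyticAt.comp' h1 h2

/-- closedness of `{w | DegLE k (G (w, ·)) z0}` -/
theorem deg_closed {E : Type*} [NormedAddCommGroup E] [NormedSpace ℂ E] {N : ℕ}
    (G : E × ℂ → Fin (N + 1) → ℂ) (U : Set (E × ℂ)) (hU : IsOpen U)
    (hG : AnalyticOnNhd ℂ G U) (z0 : ℂ) (k : ℕ) (w0 : E) (hw0 : (w0, z0) ∈ U)
    (h : ∀ A ∈ 𝓝 w0, ∃ w ∈ A, DegLE k (fun z => G (w, z)) z0) :
    DegLE k (fun z => G (w0, z)) z0 := by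
  obtain ⟨r, hr, hrU⟩ := Metric.isOpen_iff.mp hU _ hw0
  have hball : ∀ w ∈ ball w0 r, ∀ z ∈ ball z0 r, (w, z) ∈ U := by
    intro w hw z hz
    apply hrU
    rw [← ball_prod_same]
    exact ⟨hw, hz⟩
  -- a sequence
  have hmem : w0 ∈ closure {w | DegLE k (fun z => G (w, z)) z0 ∧ w ∈ ball w0 r} := by
    rw [mem_closure_iff_nhds]
    intro t ht
    obtain ⟨w, hw, hd⟩ := h (t ∩ ball w0 r) (inter_mem ht (ball_mem_nhds _ hr))
    exact ⟨w, hw.1, hd, hw.2⟩
  obtain ⟨w, hw, hlim⟩ := mem_closure_iff_seq_limit.mp hmem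
  have hex : ∀ n, ∃ c : Fin (N + 1) → Fin (k + 1) → ℂ, c ∈ sphere (0 : Fin (N + 1) → Fin (k + 1) → ℂ) 1 ∧
      ∀ z ∈ ball z0 r, Par (pev c z) (G (w n, z)) := by
    intro n
    obtain ⟨⟨c, hc0, hc⟩, hwn⟩ := hw n
    refine ⟨((‖c‖ : ℂ)⁻¹) • c, ?_, ?_⟩
    · rw [mem_sphere_zero_iff_norm, norm_smul, norm_inv, Complex.norm_real, norm_norm]
      exact inv_mul_cancel₀ (norm_ne_zero_iff.mpr hc0)
    · have h1 := par_extend (analytic_slice hG (hball _ hwn)) hc
      intro z hz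
      rw [pev_smul]
      exact (h1 z hz).smul_left _
  choose c hcs hc using hex
  obtain ⟨c', hc's, φ, hφ, hφlim⟩ := (isCompact_sphere (0 : Fin (N + 1) → Fin (k + 1) → ℂ) 1).tendsto_subseq hcs
  refine ⟨c', ?_, ?_⟩
  · intro h0
    rw [h0] at hc's
    simp at hc's
  · filter_upwards [ball_mem_nhds z0 hr] with z hz
    intro i j
    have hGc : ContinuousAt G (w0, z) := (hG _ (hball _ (mem_ball_self hr) z hz)).continuousAt
    have hwl : Tendsto (fun n => w (φ n)) atTop (𝓝 w0) := hlim.comp hφ.tendsto_atTop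
    have hGl : Tendsto (fun n => G (w (φ n), z)) atTop (𝓝 (G (w0, z))) :=
      hGc.tendsto.comp (hwl.prodMk_nhds tendsto_const_nhds)
    have hGi : ∀ i, Tendsto (fun n => G (w (φ n), z) i) atTop (𝓝 (G (w0, z) i)) := fun i =>
      (tendsto_pi_nhds.mp hGl) i
    have hpi : ∀ i, Tendsto (fun n => pev (c (φ n)) z i) atTop (𝓝 (pev c' z i)) := fun i =>
      ((pev_cont z i).tendsto c').comp hφlim
    have h1 : Tendsto (fun n => pev (c (φ n)) z i * G (w (φ n), z) j) atTop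
        (𝓝 (pev c' z i * G (w0, z) j)) := (hpi i).mul (hGi j)
    have h2 : Tendsto (fun n => pev (c (φ n)) z j * G (w (φ n), z) i) atTop
        (𝓝 (pev c' z j * G (w0, z) i)) := (hpi j).mul (hGi i)
    have h3 : (fun n => pev (c (φ n)) z i * G (w (φ n), z) j) =
        (fun n => pev (c (φ n)) z j * G (w (φ n), z) i) := by
      funext n
      exact hc (φ n) z hz i j
    rw [h3] at h1
    exact tendsto_nhds_unique h1 h2

theorem baire_deg {E : Type*} [NormedAddCommGroup E] [NormedSpace ℂ E] [FiniteDimensional ℂ E]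
    {N : ℕ} (G : E × ℂ → Fin (N + 1) → ℂ) (U : Set (E × ℂ)) (hU : IsOpen U)
    (hG : AnalyticOnNhd ℂ G U) (hG0 : ∀ u ∈ U, G u ≠ 0) (z0 : ℂ) (V : Set E) (hV : IsOpen V)
    (hVne : V.Nonempty) (hVU : ∀ w ∈ V, (w, z0) ∈ U)
    (h : ∀ w ∈ V, ∃ k, DegLE k (fun z => G (w, z)) z0) :
    ∃ k, ∃ V' : Set E, IsOpen V' ∧ V'.Nonempty ∧ V' ⊆ V ∧
      ∀ w ∈ V', DegLE k (fun z => G (w, z)) z0 := by
  haveI : CompleteSpace E := FiniteDimensional.complete ℂ E
  let S : ℕ → Set E := fun k => {w | w ∈ V ∧ DegLE k (fun z => G (w, z)) z0}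
  let F : ℕ → Set E := fun k => closure (S k) ∪ Vᶜ
  have hF : ∀ k, IsClosed (F k) := fun k => isClosed_closure.union hV.isClosed_compl
  have hFU : (⋃ k, F k) = univ := by
    rw [eq_univ_iff_forall]
    intro w
    rw [mem_iUnion]
    by_cases hw : w ∈ V
    · obtain ⟨k, hk⟩ := h w hw
      exact ⟨k, Or.inl (subset_closure ⟨hw, hk⟩)⟩
    · exact ⟨0, Or.inr hw⟩
  have hd := dense_iUnion_interior_of_closed hF hFU
  obtain ⟨w, hwV, hw⟩ := hd.inter_open_nonempty V hV hVne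
  rw [mem_iUnion] at hw
  obtain ⟨k, hk⟩ := hw
  refine ⟨k, V ∩ interior (F k), hV.inter isOpen_interior, ⟨w, hwV, hk⟩, inter_subset_left, ?_⟩
  rintro w1 ⟨hw1V, hw1⟩
  have hw1F : w1 ∈ F k := interior_subset hw1
  rcases hw1F with hc | hc
  · apply deg_closed G U hU hG z0 k w1 (hVU _ hw1V)
    intro A hA
    obtain ⟨w2, hw2A, _, hw2⟩ := mem_closure_iff_nhds.mp hc A hA
    exact ⟨w2, hw2A, hw2⟩
  · exact absurd hw1V hc

end Crest.Agent.R266.Rat
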