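import Mathlib

/-! Row 266, S0404 Step 3 (RAT), part 1: rational curves of bounded degree, closedness, reduction. -/

set_option autoImplicit false

namespace Crest.Agent.R266.RatK

open Polynomial Metric Set Filter Topology

variable {ι : Type*} [Fintype ι]

/-- proportionality of two vectors (wedge = 0) -/
def Par (a b : ι → ℂ) : Prop := ∀ i j, a i * b j = a j * b i

omit [Fintype ι] in
theorem Par.symm {a b : ι → ℂ} (h : Par a b) : Par b a := fun i j => by
  have := h j i
  linear_combination this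

omit [Fintype ι] in
theorem Par.exists_smul {a b : ι → ℂ} (h : Par a b) (hb : b ≠ 0) : ∃ c : ℂ, a = c • b := by
  obtain ⟨j, hj⟩ := Function.ne_iff.1 hb
  have hj' : b j ≠ 0 := by simpa using hj
  refine ⟨a j / b j, ?_⟩
  funext i
  have := h i j
  rw [Pi.smul_apply, smul_eq_mul, div_mul_eq_mul_div, eq_div_iff hj', this]

omit [Fintype ι] in
theorem Par.trans {a b c : ι → ℂ} (h : Par a b) (hb : b ≠ 0) (h' : Par b c) : Par a c := by
  obtain ⟨t, rfl⟩ := h.exists_smul hb
  intro i j
  have := h' i j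
  simp only [Pi.smul_apply, smul_eq_mul]
  linear_combination t * this

omit [Fintype ι] in
theorem Par.smul_left {a b : ι → ℂ} (h : Par a b) (t : ℂ) : Par (t • a) b := by
  intro i j
  have := h i j
  simp only [Pi.smul_apply, smul_eq_mul]
  linear_combination t * this

omit [Fintype ι] in
theorem Par.sub_left {a a' b : ι → ℂ} (h : Par a b) (h' : Par a' b) : Par (a - a') b := by
  intro i j
  have := h i j
  have h2 := h' i j
  simp only [Pi.sub_apply]
  linear_combination this - h2

omit [Fintype ι] in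
theorem par_zero_left (b : ι → ℂ) : Par (0 : ι → ℂ) b := by
  intro i j; simp

/-- evaluation of the vector polynomial with coefficient vectors `c 0, …, c (n-1)` -/
noncomputable def E {n : ℕ} (c : Fin n → ι → ℂ) (z : ℂ) : ι → ℂ := fun i => ∑ m, c m i * z ^ (m : ℕ)

/-- the polynomials with coefficients `c` -/
noncomputable def poly {n : ℕ} (c : Fin n → ι → ℂ) (i : ι) : ℂ[X] := ∑ m : Fin n, C (c m i) * X ^ (m : ℕ)

omit [Fintype ι] in
theorem eval_poly {n : ℕ} (c : Fin n → ι → ℂ) (i : ι) (z : ℂ) : (poly c i).eval z = E c z i := by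
  simp [poly, E, eval_finsetSum]

omit [Fintype ι] in
theorem coeff_poly {n : ℕ} (c : Fin n → ι → ℂ) (i : ι) (m : Fin n) : (poly c i).coeff m = c m i := by
  rw [poly, finsetSum_coeff, Finset.sum_eq_single m]
  · simp
  · intro b _ hb
    rw [coeff_C_mul, coeff_X_pow, if_neg, mul_zero]
    intro h
    exact hb (Fin.ext h.symm)
  · simp

omit [Fintype ι] in
theorem degree_poly {n : ℕ} (c : Fin n → ι → ℂ) (i : ι) : (poly c i).degree < n := by
  rw [poly]
  refine (degree_sum_le _ _).trans_lt ?_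
  rw [Finset.sup_lt_iff (by exact_mod_cast WithBot.bot_lt_coe n)]
  intro m _
  refine (degree_C_mul_X_pow_le _ _).trans_lt ?_
  exact_mod_cast m.2

/-- coefficients of a vector of polynomials -/
noncomputable def coefs (n : ℕ) (p : ι → ℂ[X]) : Fin n → ι → ℂ := fun m i => (p i).coeff m

omit [Fintype ι] in
theorem E_coefs {n : ℕ} {p : ι → ℂ[X]} (hp : ∀ i, (p i).degree < n) (z : ℂ) :
    E (coefs n p) z = fun i => (p i).eval z := by
  funext i
  rw [E]
  simp only [coefs]
  by_cases h0 : p i = 0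
  · simp [h0]
  have h1 : (p i).natDegree < n := by
    have := hp i
    rwa [degree_eq_natDegree h0, Nat.cast_lt] at this
  rw [eval_eq_sum_range' h1, Finset.sum_range]

omit [Fintype ι] in
theorem coefs_ne_zero {n : ℕ} {p : ι → ℂ[X]} (hp : ∀ i, (p i).degree < n) (h0 : p ≠ 0) :
    coefs n p ≠ 0 := by
  intro h
  apply h0
  funext i
  ext m
  by_cases hm : m < n
  · have := congrFun (congrFun h ⟨m, hm⟩) i
    simpa [coefs] using this
  · rw [coeff_eq_zero_of_degree_lt]
    · rfl
    · exact (hp i).trans_le (by exact_mod_cast not_lt.1 hm)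

omit [Fintype ι] in
theorem eq_zero_of_E {n : ℕ} {c : Fin n → ι → ℂ} {A : Set ℂ} (hA : A.Infinite)
    (h : ∀ z ∈ A, E c z = 0) : c = 0 := by
  funext m i
  have : poly c i = 0 := by
    refine eq_zero_of_infinite_isRoot _ (hA.mono ?_)
    intro z hz
    have := congrFun (h z hz) i
    rw [mem_ofPred_eq, IsRoot.def, eval_poly, this]
    rfl
  rw [← coeff_poly c i m, this]
  simp

omit [Fintype ι] in
theorem E_smul {n : ℕ} (t : ℂ) (c : Fin n → ι → ℂ) (z : ℂ) : E (t • c) z = t • E c z := by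
  funext i
  simp [E, Finset.mul_sum, mul_assoc]

omit [Fintype ι] in
theorem E_sub {n : ℕ} (c c' : Fin n → ι → ℂ) (z : ℂ) : E (c - c') z = E c z - E c' z := by
  funext i
  simp [E, sub_mul, Finset.sum_sub_distrib]

omit [Fintype ι] in
theorem continuous_E {n : ℕ} : Continuous (fun q : (Fin n → ι → ℂ) × ℂ => E q.1 q.2) := by
  unfold E
  fun_prop

/-- `φ` restricted to `D` is proportional to a nonzero vector polynomial with `n` coefficients. -/
def RatLT (n : ℕ) (φ : ℂ → ι → ℂ) (D : Set ℂ) : Prop :=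
  ∃ c : Fin n → ι → ℂ, c ≠ 0 ∧ ∀ z ∈ D, Par (E c z) (φ z)

omit [Fintype ι] in
theorem not_ratLT_zero (φ : ℂ → ι → ℂ) (D : Set ℂ) : ¬ RatLT 0 φ D := by
  rintro ⟨c, hc, -⟩
  exact hc (Subsingleton.elim _ _)

omit [Fintype ι] in
theorem RatLT.of_poly {n : ℕ} {φ : ℂ → ι → ℂ} {D : Set ℂ} {p : ι → ℂ[X]}
    (hp : ∀ i, (p i).degree < n) (h0 : p ≠ 0) (h : ∀ z ∈ D, Par (fun i => (p i).eval z) (φ z)) :
    RatLT n φ D :=
  ⟨coefs n p, coefs_ne_zero hp h0, fun z hz => by rw [E_coefs hp]; exact h z hz⟩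

omit [Fintype ι] in
theorem exists_E_eq_of_le {n n' : ℕ} (hn : n ≤ n') (c : Fin n → ι → ℂ) :
    ∃ c' : Fin n' → ι → ℂ, (∀ z, E c' z = E c z) ∧ (c ≠ 0 → c' ≠ 0) := by
  have hd : ∀ i, (poly c i).degree < (n' : WithBot ℕ) := fun i =>
    (degree_poly c i).trans_le (by exact_mod_cast hn)
  refine ⟨coefs n' (poly c), fun z => ?_, fun h => ?_⟩
  · rw [E_coefs hd]
    funext i
    rw [eval_poly]
  · apply coefs_ne_zero hd
    intro h0
    apply h
    funext m i
    rw [← coeff_poly c i m, h0]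
    simp

omit [Fintype ι] in
theorem RatLT.mono {n n' : ℕ} (hn : n ≤ n') {φ : ℂ → ι → ℂ} {D : Set ℂ} (h : RatLT n φ D) :
    RatLT n' φ D := by
  obtain ⟨c, hc, h⟩ := h
  obtain ⟨c', h1, h2⟩ := exists_E_eq_of_le hn c
  exact ⟨c', h2 hc, fun z hz => by rw [h1]; exact h z hz⟩

omit [Fintype ι] in
/-- Par is a closed condition -/
theorem par_of_closure {φ ψ : ℂ → ι → ℂ} {D A : Set ℂ} (hφ : ContinuousOn φ D)
    (hψ : ContinuousOn ψ D) (hA : ∀ z ∈ A, Par (ψ z) (φ z)) {z : ℂ} (hz : z ∈ D)
    (hAD : A ⊆ D) (hcl : z ∈ closure A) : Par (ψ z) (φ z) := by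
  intro i j
  have h1 : ContinuousWithinAt (fun z => ψ z i * φ z j) A z :=
    (((continuous_apply i).continuousAt.comp_continuousWithinAt (hψ z hz)).mul
      ((continuous_apply j).continuousAt.comp_continuousWithinAt (hφ z hz))).mono hAD
  have h2 : ContinuousWithinAt (fun z => ψ z j * φ z i) A z :=
    (((continuous_apply j).continuousAt.comp_continuousWithinAt (hψ z hz)).mul
      ((continuous_apply i).continuousAt.comp_continuousWithinAt (hφ z hz))).mono hAD
  have : (𝓝[A] z).NeBot := mem_closure_iff_nhdsWithin_neBot.1 hcl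
  refine tendsto_nhds_unique_of_eventuallyEq h1.tendsto h2.tendsto ?_
  filter_upwards [self_mem_nhdsWithin] with w hw
  exact hA w hw i j

omit [Fintype ι] in
/-- Reduction: a solution whose top coefficient vanishes, or with a common zero, can be
replaced by one of lower degree. -/
theorem RatLT.reduce {n : ℕ} {φ : ℂ → ι → ℂ} {D : Set ℂ} (hD : IsOpen D) (hφ : ContinuousOn φ D)
    {c : Fin (n + 1) → ι → ℂ} (hc : c ≠ 0) (h : ∀ z ∈ D, Par (E c z) (φ z))
    (hz : c (Fin.last n) = 0 ∨ ∃ r, E c r = 0) : RatLT n φ D := by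
  have hp0 : poly c ≠ 0 := by
    intro h0
    apply hc
    funext m i
    rw [← coeff_poly c i m, h0]
    simp
  rcases hz with hz | ⟨r, hr⟩
  · refine RatLT.of_poly (p := poly c) ?_ hp0 ?_
    · intro i
      have h1 : (poly c i).degree < (n + 1 : ℕ) := degree_poly c i
      refine lt_of_le_of_ne ?_ ?_ |>.trans_le le_rfl
      · by_cases h0 : poly c i = 0
        · rw [h0]; simp
        · rw [degree_eq_natDegree h0, Nat.cast_lt] at h1
          rw [degree_eq_natDegree h0]
          exact_mod_cast Nat.lt_succ_iff.1 h1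
      · intro he
        have h2 := coeff_poly c i (Fin.last n)
        rw [hz] at h2
        simp only [Fin.val_last, Pi.zero_apply] at h2
        exact coeff_ne_zero_of_eq_degree he h2
    · intro z hz
      have := h z hz
      simpa [eval_poly] using this
  · -- divide by (X - r)
    have hdvd : ∀ i, ∃ q : ℂ[X], poly c i = (X - C r) * q := by
      intro i
      have : IsRoot (poly c i) r := by
        rw [IsRoot.def, eval_poly, hr]; rfl
      exact dvd_iff_isRoot.2 this
    choose q hq using hdvd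
    have hq0 : q ≠ 0 := by
      intro h0
      apply hp0
      funext i
      rw [hq i, h0]
      simp
    refine RatLT.of_poly (p := q) ?_ hq0 ?_
    · intro i
      by_cases h0 : q i = 0
      · rw [h0]; simp
      · have h1 : (poly c i).degree < (n + 1 : ℕ) := degree_poly c i
        rw [hq i, degree_mul, degree_X_sub_C, degree_eq_natDegree h0] at h1
        rw [degree_eq_natDegree h0]
        have h2 : (1 + (q i).natDegree : ℕ) < n + 1 := by exact_mod_cast h1
        have h3 : (q i).natDegree < n := by omega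
        exact_mod_cast h3
    · have hA : ∀ z ∈ D \ {r}, Par (fun i => (q i).eval z) (φ z) := by
        intro z hz
        have h1 := h z hz.1
        have hzr : z - r ≠ 0 := sub_ne_zero.2 hz.2
        intro i j
        have h2 := h1 i j
        rw [← eval_poly, ← eval_poly, hq i, hq j] at h2
        simp only [eval_mul, eval_sub, eval_X, eval_C] at h2
        have h3 : (z - r) * (eval z (q i) * φ z j) = (z - r) * (eval z (q j) * φ z i) := by
          linear_combination h2
        exact mul_left_cancel₀ hzr h3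
      intro z hz
      refine par_of_closure hφ (ψ := fun z i => (q i).eval z) ?_ hA hz sdiff_subset ?_
      · exact continuousOn_pi.2 fun i => (q i).continuous.continuousOn
      · by_cases hzr : z = r
        · subst hzr
          have h1 : (𝓝[≠] z).NeBot := inferInstance
          rw [mem_closure_iff_nhdsWithin_neBot]
          have : 𝓝[D \ {z}] z = 𝓝[≠] z := by
            rw [sdiff_eq, inter_comm, nhdsWithin_inter_of_mem']
            exact mem_nhdsWithin_of_mem_nhds (hD.mem_nhds hz)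
          rw [this]
          exact h1
        · exact subset_closure ⟨hz, hzr⟩

omit [Fintype ι] in
/-- reduced representation -/
theorem RatLT.exists_reduced {n : ℕ} {φ : ℂ → ι → ℂ} {D : Set ℂ} (hD : IsOpen D)
    (hφ : ContinuousOn φ D) (h : RatLT n φ D) :
    ∃ c : Fin n → ι → ℂ, (∀ z, E c z ≠ 0) ∧ ∀ z ∈ D, Par (E c z) (φ z) := by
  induction n with
  | zero => exact absurd h (not_ratLT_zero _ _)
  | succ n ih =>
    by_cases h' : RatLT n φ D
    · obtain ⟨c, h1, h2⟩ := ih h'
      obtain ⟨c', h3, -⟩ := exists_E_eq_of_le (Nat.le_succ n) c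
      exact ⟨c', fun z => by rw [h3]; exact h1 z, fun z hz => by rw [h3]; exact h2 z hz⟩
    · obtain ⟨c, hc, hp⟩ := h
      refine ⟨c, fun z hz => ?_, hp⟩
      exact h' (RatLT.reduce hD hφ hc hp (Or.inr ⟨z, hz⟩))

omit [Fintype ι] in
/-- uniqueness up to scalar in minimal degree -/
theorem unique_of_minimal {n : ℕ} {φ : ℂ → ι → ℂ} {D : Set ℂ} (hD : IsOpen D) (hne : D.Nonempty)
    (hφ : ContinuousOn φ D) (hφ0 : ∀ z ∈ D, φ z ≠ 0) (hmin : ¬ RatLT n φ D)
    {c c' : Fin (n + 1) → ι → ℂ} (hc : c ≠ 0) (h : ∀ z ∈ D, Par (E c z) (φ z))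
    (h' : ∀ z ∈ D, Par (E c' z) (φ z)) : ∃ t : ℂ, c' = t • c := by
  obtain ⟨z0, hz0⟩ := hne
  have h0 : E c z0 ≠ 0 := fun hz => hmin (RatLT.reduce hD hφ hc h (Or.inr ⟨z0, hz⟩))
  obtain ⟨t, ht⟩ := ((h' z0 hz0).trans (hφ0 z0 hz0) (h z0 hz0).symm).exists_smul h0
  refine ⟨t, ?_⟩
  by_contra hne
  have h1 : c' - t • c ≠ 0 := sub_ne_zero.2 hne
  refine hmin (RatLT.reduce hD hφ h1 ?_ (Or.inr ⟨z0, ?_⟩))
  · intro z hz
    rw [E_sub, E_smul]
    exact (h' z hz).sub_left ((h z hz).smul_left t)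
  · rw [E_sub, E_smul, ht, sub_self]

/-- closedness of the bounded degree condition -/
theorem ratLT_of_mem_closure {T : Type*} [MetricSpace T] {n : ℕ} {Φ : T → ℂ → ι → ℂ} {D : Set ℂ}
    {A : Set T} (hΦ : ∀ z ∈ D, ContinuousOn (fun t => Φ t z) A) {t : T} (ht : t ∈ A)
    (hcl : t ∈ closure {t' | t' ∈ A ∧ RatLT n (Φ t') D}) : RatLT n (Φ t) D := by
  obtain ⟨u, hu, hut⟩ := mem_closure_iff_seq_limit.1 hcl
  have hex : ∀ j, ∃ c : Fin n → ι → ℂ, c ∈ sphere (0 : Fin n → ι → ℂ) 1 ∧
      ∀ z ∈ D, Par (E c z) (Φ (u j) z) := by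
    intro j
    obtain ⟨c, hc, hp⟩ := (hu j).2
    refine ⟨((‖c‖⁻¹ : ℝ) : ℂ) • c, ?_, fun z hz => ?_⟩
    · rw [mem_sphere_zero_iff_norm, norm_smul, Complex.norm_real, norm_inv, norm_norm,
        inv_mul_cancel₀ (norm_ne_zero_iff.2 hc)]
    · rw [E_smul]
      exact (hp z hz).smul_left _
  choose c hc hp using hex
  obtain ⟨c0, hc0, ψ, hψ, hlim⟩ := (isCompact_sphere (0 : Fin n → ι → ℂ) 1).tendsto_subseq hc
  refine ⟨c0, ?_, fun z hz i j => ?_⟩
  · rintro rfl
    rw [mem_sphere_zero_iff_norm, norm_zero] at hc0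
    exact zero_ne_one hc0
  · have hA : Tendsto (fun k => u (ψ k)) atTop (𝓝[A] t) := by
      refine tendsto_nhdsWithin_iff.2 ⟨hut.comp hψ.tendsto_atTop, ?_⟩
      exact Eventually.of_forall fun k => (hu _).1
    have h1 : Tendsto (fun k => Φ (u (ψ k)) z) atTop (𝓝 (Φ t z)) := (hΦ z hz t ht).tendsto.comp hA
    have h2 : Tendsto (fun k => E (c (ψ k)) z) atTop (𝓝 (E c0 z)) := by
      have h3 : Continuous fun c : Fin n → ι → ℂ => E c z :=
        continuous_E.comp (continuous_id.prodMk continuous_const)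
      exact (h3.tendsto c0).comp hlim
    have h3 : ∀ k, E (c (ψ k)) z i * Φ (u (ψ k)) z j = E (c (ψ k)) z j * Φ (u (ψ k)) z i :=
      fun k => hp _ z hz i j
    have h4 := (((continuous_apply i).tendsto _).comp h2).mul (((continuous_apply j).tendsto _).comp h1)
    have h5 := (((continuous_apply j).tendsto _).comp h2).mul (((continuous_apply i).tendsto _).comp h1)
    refine tendsto_nhds_unique h4 (h5.congr fun k => ?_)
    exact (h3 k).symm

/-- Baire, relative to an open set -/
theorem baire_open {T : Type*} [TopologicalSpace T] [BaireSpace T] {O : Set T} (hO : IsOpen O)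
    (hne : O.Nonempty) (C : ℕ → Set T) (hcov : ∀ t ∈ O, ∃ n, t ∈ C n)
    (hcl : ∀ n, ∀ t ∈ O, t ∈ closure {t' | t' ∈ O ∧ t' ∈ C n} → t ∈ C n) :
    ∃ n, (interior {t' | t' ∈ O ∧ t' ∈ C n}).Nonempty := by
  let f : Option ℕ → Set T := fun n => match n with
    | none => Oᶜ
    | some n => closure {t' | t' ∈ O ∧ t' ∈ C n}
  have hf : ∀ n, IsClosed (f n) := by
    rintro (_ | n)
    · exact hO.isClosed_compl
    · exact isClosed_closure
  have hU : ⋃ n, f n = univ := by
    refine eq_univ_of_forall fun t => ?_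
    by_cases ht : t ∈ O
    · obtain ⟨n, hn⟩ := hcov t ht
      exact mem_iUnion.2 ⟨some n, subset_closure ⟨ht, hn⟩⟩
    · exact mem_iUnion.2 ⟨none, ht⟩
  have hd := dense_iUnion_interior_of_closed hf hU
  obtain ⟨x, hxO, hx⟩ := hd.exists_mem_open hO hne
  obtain ⟨n, hn⟩ := mem_iUnion.1 hxO
  rcases n with _ | n
  · exact absurd hx (interior_subset hn)
  · refine ⟨n, x, ?_⟩
    have hopen : IsOpen (O ∩ interior (f (some n))) := hO.inter isOpen_interior
    refine mem_interior.2 ⟨_, ?_, hopen, hx, hn⟩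
    rintro y ⟨hy, hy'⟩
    exact ⟨hy, hcl n y hy (interior_subset hy')⟩

end Crest.Agent.R266.RatK
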