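import Crest.Agent.R266.RatSlopes

/-! Row 266, S0404 Step 3 (RAT), part 4: the main theorem (Baire + slopes + minimal degree). -/

set_option autoImplicit false

namespace Crest.Agent.R266.RatK

open Polynomial Metric Set Filter Topology

variable {ι : Type*} [Fintype ι]

omit [Fintype ι] in
theorem differentiable_E {n : ℕ} (c : Fin n → ι → ℂ) (i : ι) : Differentiable ℂ (fun z => E c z i) := by
  have : (fun z => E c z i) = fun z => (poly c i).eval z := by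
    funext z
    rw [eval_poly]
  rw [this]
  exact (poly c i).differentiable

omit [Fintype ι] in
/-- identity theorem for proportionality -/
theorem par_extend {n : ℕ} {c : Fin n → ι → ℂ} {φ : ℂ → ι → ℂ} {D : Set ℂ} (hD : IsOpen D)
    (hDc : IsPreconnected D) (hφ : DifferentiableOn ℂ φ D) {z0 : ℂ} (hz0 : z0 ∈ D)
    (h : ∀ᶠ z in 𝓝 z0, Par (E c z) (φ z)) : ∀ z ∈ D, Par (E c z) (φ z) := by
  intro z hz i j
  have hφi := differentiableOn_pi.1 hφ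
  have h1 : AnalyticOnNhd ℂ (fun z => E c z i * φ z j) D :=
    ((differentiable_E c i).differentiableOn.mul (hφi j)).analyticOnNhd hD
  have h2 : AnalyticOnNhd ℂ (fun z => E c z j * φ z i) D :=
    ((differentiable_E c j).differentiableOn.mul (hφi i)).analyticOnNhd hD
  have h3 : (fun z => E c z i * φ z j) =ᶠ[𝓝 z0] (fun z => E c z j * φ z i) := by
    filter_upwards [h] with z hz using hz i j
  exact h1.eqOn_of_preconnected_of_eventuallyEq h2 hDc hz0 h3 hz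

theorem rat_main {S : Type*} [NormedAddCommGroup S] [NormedSpace ℂ S] [CompleteSpace S]
    {F : S × ℂ × ℂ → ι → ℂ} {s0 : S} {ζ : ℂ} {r : ℝ} (hr : 0 < r)
    (hF : DifferentiableOn ℂ F (ball s0 r ×ˢ ball ζ r ×ˢ ball ζ r))
    (hF0 : ∀ p ∈ ball s0 r ×ˢ ball ζ r ×ˢ ball ζ r, F p ≠ 0)
    (hline : ∀ᶠ t : S × ℂ × ℂ in 𝓝 (s0, 1, 0), ∃ (n : ℕ) (c : Fin n → ι → ℂ), c ≠ 0 ∧
      ∀ᶠ z in 𝓝 ζ, Par (E c z) (F (t.1, z, t.2.1 * z + t.2.2)))
    {V : Set (S × ℂ)} (hV : V ∈ 𝓝 (s0, ζ)) :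
    ∃ W : Set (S × ℂ), IsOpen W ∧ W.Nonempty ∧ W ⊆ V ∧ W ⊆ ball s0 r ×ˢ ball ζ r ∧
      ∃ (n : ℕ) (a : S × ℂ → Fin (n + 1) → ι → ℂ), DifferentiableOn ℂ a W ∧
        ∀ w ∈ W, (∀ z, E (a w) z ≠ 0) ∧ a w (Fin.last n) ≠ 0 ∧
          ∀ z ∈ ball ζ r, Par (E (a w) z) (F (w.1, z, w.2)) := by
  set Bx : Set (S × ℂ × ℂ) := ball s0 r ×ˢ ball ζ r ×ˢ ball ζ r with hBx
  have hBxo : IsOpen Bx := isOpen_ball.prod (isOpen_ball.prod isOpen_ball)
  -- choice of ε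
  have hc1 : Continuous (fun q : (S × ℂ × ℂ) × ℂ => (q.1.1, q.2, q.1.2.1 * q.2 + q.1.2.2)) := by
    fun_prop
  have hn1 : ∀ᶠ q : (S × ℂ × ℂ) × ℂ in 𝓝 ((s0, 1, 0), ζ),
      (q.1.1, q.2, q.1.2.1 * q.2 + q.1.2.2) ∈ Bx := by
    refine hc1.continuousAt.eventually (hBxo.mem_nhds ?_)
    simp only [hBx, mem_prod, mem_ball, one_mul, add_zero, dist_self]
    exact ⟨hr, hr, hr⟩
  have hc2 : Continuous (fun t : S × ℂ × ℂ => (t.1, t.2.1 * ζ + t.2.2)) := by fun_prop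
  have hn2 : ∀ᶠ t : S × ℂ × ℂ in 𝓝 (s0, 1, 0), (t.1, t.2.1 * ζ + t.2.2) ∈ interior V := by
    refine hc2.continuousAt.eventually (isOpen_interior.mem_nhds ?_)
    simp only [one_mul, add_zero]
    exact mem_interior_iff_mem_nhds.2 hV
  have hn3 : ∀ᶠ t : S × ℂ × ℂ in 𝓝 (s0, 1, 0), t.2.1 ≠ 0 := by
    have : Continuous (fun t : S × ℂ × ℂ => t.2.1) := by fun_prop
    exact this.continuousAt.eventually_ne (by simp)
  obtain ⟨ε1, hε1, hb1⟩ := Metric.eventually_nhds_iff_ball.1 hn1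
  obtain ⟨ε2, hε2, hb2⟩ := Metric.eventually_nhds_iff_ball.1 (hn2.and (hn3.and hline))
  set ε := min ε1 ε2 with hεdef
  have hε : 0 < ε := lt_min hε1 hε2
  set O : Set (S × ℂ × ℂ) := ball (s0, 1, 0) ε with hOdef
  have hO1 : ∀ t ∈ O, ∀ z ∈ ball ζ ε, (t.1, z, t.2.1 * z + t.2.2) ∈ Bx := by
    intro t ht z hz
    refine hb1 (t, z) ?_
    rw [← ball_prod_same]
    exact ⟨ball_subset_ball (min_le_left _ _) ht, ball_subset_ball (min_le_left _ _) hz⟩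
  have hO2 : ∀ t ∈ O, (t.1, t.2.1 * ζ + t.2.2) ∈ interior V ∧ t.2.1 ≠ 0 ∧
      ∃ (n : ℕ) (c : Fin n → ι → ℂ), c ≠ 0 ∧
        ∀ᶠ z in 𝓝 ζ, Par (E c z) (F (t.1, z, t.2.1 * z + t.2.2)) := fun t ht =>
    hb2 t (ball_subset_ball (min_le_right _ _) ht)
  have hFc : ContinuousOn F Bx := hF.continuousOn
  -- first Baire
  obtain ⟨n, hn⟩ := baire_open (T := S × ℂ × ℂ) (O := O) isOpen_ball ⟨_, mem_ball_self hε⟩
    (fun n => {t | RatLT n (fun z => F (t.1, z, t.2.1 * z + t.2.2)) (ball ζ ε)})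
    (by
      intro t ht
      obtain ⟨-, -, n, c, hc, hp⟩ := hO2 t ht
      refine ⟨n, c, hc, ?_⟩
      refine par_extend isOpen_ball (convex_ball ζ ε).isPreconnected ?_ (mem_ball_self hε) hp
      have h3 : DifferentiableOn ℂ (fun z : ℂ => (t.1, z, t.2.1 * z + t.2.2)) (ball ζ ε) := by
        fun_prop
      exact hF.comp h3 fun z hz => hO1 t ht z hz)
    (by
      intro n t ht hcl
      refine ratLT_of_mem_closure (Φ := fun t : S × ℂ × ℂ => fun z => F (t.1, z, t.2.1 * z + t.2.2))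
        (A := O) ?_ ht hcl
      intro z hz
      have h3 : ContinuousOn (fun t : S × ℂ × ℂ => (t.1, z, t.2.1 * z + t.2.2)) O := by fun_prop
      exact hFc.comp h3 fun t ht => hO1 t ht z hz)
  obtain ⟨⟨s1, α, β1⟩, ht1⟩ := hn
  obtain ⟨ρ1, hρ1, hb3⟩ := Metric.isOpen_iff.1 isOpen_interior _ ht1
  have hb4 : ∀ s ∈ ball s1 ρ1, ∀ a ∈ ball α ρ1, ∀ b ∈ ball β1 ρ1, (s, a, b) ∈ O ∧
      RatLT n (fun z => F (s, z, a * z + b)) (ball ζ ε) := by
    intro s hs a ha b hb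
    have h3 : (s, a, b) ∈ ball ((s1, α, β1) : S × ℂ × ℂ) ρ1 := by
      rw [← ball_prod_same, ← ball_prod_same]
      exact ⟨hs, ha, hb⟩
    have h4 := interior_subset (hb3 h3)
    exact ⟨h4.1, h4.2⟩
  have hself := hb4 s1 (mem_ball_self hρ1) α (mem_ball_self hρ1) β1 (mem_ball_self hρ1)
  have hα : α ≠ 0 := (hO2 _ hself.1).2.1
  -- second slope
  set δ : ℝ := ρ1 / (4 * (1 + ‖ζ‖)) with hδdef
  have hz0 : 0 ≤ ‖ζ‖ := norm_nonneg _
  have hδ : 0 < δ := by positivity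
  have hδ1 : δ * (1 + ‖ζ‖) = ρ1 / 4 := by
    rw [hδdef]; field_simp
  have hδ2 : δ < ρ1 := by nlinarith
  have hδ3 : δ * ‖ζ‖ < ρ1 / 4 := by nlinarith
  set ρ : ℝ := min (ρ1 / 4) (δ * ε / 2) with hρdef
  have hρ : 0 < ρ := lt_min (by positivity) (by positivity)
  have hρa : ρ ≤ ρ1 / 4 := min_le_left _ _
  have hρb : ρ ≤ δ * ε / 2 := min_le_right _ _
  set α' : ℂ := α + δ with hα'def
  set r' : ℝ := min ε (ρ / (1 + ‖α‖ + ‖α'‖)) with hr'def
  have hden : 0 < 1 + ‖α‖ + ‖α'‖ := by positivity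
  have hr' : 0 < r' := lt_min hε (by positivity)
  have hr'1 : r' * (1 + ‖α‖ + ‖α'‖) ≤ ρ := by
    have : r' ≤ ρ / (1 + ‖α‖ + ‖α'‖) := min_le_right _ _
    calc r' * (1 + ‖α‖ + ‖α'‖) ≤ ρ / (1 + ‖α‖ + ‖α'‖) * (1 + ‖α‖ + ‖α'‖) :=
          mul_le_mul_of_nonneg_right this hden.le
      _ = ρ := by field_simp
  have hr'ε : r' ≤ ε := min_le_left _ _
  have hna : 0 ≤ ‖α‖ := norm_nonneg _
  have hna' : 0 ≤ ‖α'‖ := norm_nonneg _
  have hα'mem : α' ∈ ball α ρ1 := by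
    rw [mem_ball, dist_eq_norm, hα'def, add_sub_cancel_left, Complex.norm_real, Real.norm_of_nonneg hδ.le]
    exact hδ2
  have hvmem : ∀ b ∈ ball (β1 - δ * ζ) ρ, b ∈ ball β1 ρ1 := by
    intro b hb
    rw [mem_ball, dist_eq_norm] at hb ⊢
    calc ‖b - β1‖ = ‖(b - (β1 - δ * ζ)) - δ * ζ‖ := by congr 1; ring
      _ ≤ ‖b - (β1 - δ * ζ)‖ + ‖(δ : ℂ) * ζ‖ := norm_sub_le _ _
      _ < ρ + ρ1 / 4 := by
          rw [norm_mul, Complex.norm_real, Real.norm_of_nonneg hδ.le]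
          exact add_lt_add hb hδ3
      _ ≤ ρ1 := by linarith
  have humem : ∀ b ∈ ball β1 ρ, b ∈ ball β1 ρ1 := fun b hb =>
    ball_subset_ball (by linarith) hb
  -- rationality on horizontal lines
  have hhor : ∀ s ∈ ball s1 ρ1, ∃ K, ∀ z2 ∈ ball (α * ζ + β1) r',
      RatLT K (fun z => F (s, z, z2)) (ball ζ r') := by
    intro s hs
    refine two_slopes (G := fun z1 z2 => F (s, z1, z2)) (R := {q | (s, q.1, q.2) ∈ Bx})
      (α := α) (α' := α') (u := β1) (v := β1 - δ * ζ) (ζ := ζ) (ρ := ρ) (r := ε) (n := n)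
      ?_ ?_ hα ?_ hρ hr'ε ?_ ?_ ?_ ?_ ?_ ?_ ?_ ?_
    · have h3 : ContinuousOn (fun q : ℂ × ℂ => (s, q.1, q.2)) {q | (s, q.1, q.2) ∈ Bx} := by fun_prop
      exact hFc.comp h3 fun q hq => hq
    · exact fun q hq => hF0 _ hq
    · rw [hα'def, add_sub_cancel_left]
      exact_mod_cast hδ.ne'
    · rw [hα'def]; ring
    · exact fun b hb => (hb4 s hs α (mem_ball_self hρ1) b (humem b hb)).2
    · exact fun b hb => (hb4 s hs α' hα'mem b (hvmem b hb)).2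
    · exact fun b hb z hz => hO1 _ (hb4 s hs α (mem_ball_self hρ1) b (humem b hb)).1 z hz
    · exact fun b hb z hz => hO1 _ (hb4 s hs α' hα'mem b (hvmem b hb)).1 z hz
    · rw [hα'def, add_sub_cancel_left, Complex.norm_real, Real.norm_of_nonneg hδ.le]
      linarith
    · nlinarith
    · nlinarith
  -- second Baire
  set O2 : Set (S × ℂ) := (ball s1 ρ1 ×ˢ ball (α * ζ + β1) r') ∩ interior V with hO2def
  have hO2o : IsOpen O2 := (isOpen_ball.prod isOpen_ball).inter isOpen_interior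
  have hO2ne : O2.Nonempty := ⟨(s1, α * ζ + β1), ⟨mem_ball_self hρ1, mem_ball_self hr'⟩,
    (hO2 _ hself.1).1⟩
  have hbox : ∀ w ∈ O2, ∀ z ∈ ball ζ r', (w.1, z, w.2) ∈ Bx := by
    rintro ⟨s, z2⟩ ⟨⟨hs, hz2⟩, -⟩ z hz
    have hb : z2 - α * z ∈ ball β1 ρ := by
      rw [mem_ball, dist_eq_norm] at hz hz2 ⊢
      have : z2 - α * z - β1 = (z2 - (α * ζ + β1)) - α * (z - ζ) := by ring
      rw [this]
      calc ‖(z2 - (α * ζ + β1)) - α * (z - ζ)‖
          ≤ ‖z2 - (α * ζ + β1)‖ + ‖α * (z - ζ)‖ := norm_sub_le _ _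
        _ < r' + ‖α‖ * r' := by
            rw [norm_mul]
            exact add_lt_add_of_lt_of_le hz2 (mul_le_mul_of_nonneg_left hz.le (norm_nonneg _))
        _ ≤ ρ := by nlinarith
    have h3 := hO1 _ (hb4 s hs α (mem_ball_self hρ1) _ (humem _ hb)).1 z
      (ball_subset_ball hr'ε hz)
    simpa only [add_sub_cancel] using h3
  have hbox2 : ∀ w ∈ O2, w ∈ ball s0 r ×ˢ ball ζ r := by
    intro w hw
    have h3 := hbox w hw ζ (mem_ball_self hr')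
    exact ⟨h3.1, h3.2.2⟩
  let CC : ℕ → Set (S × ℂ) := fun K => {w | RatLT K (fun z => F (w.1, z, w.2)) (ball ζ r')}
  have hCcl : ∀ K, ∀ w ∈ O2, w ∈ closure {w' | w' ∈ O2 ∧ w' ∈ CC K} → w ∈ CC K := by
    intro K w hw hcl
    refine ratLT_of_mem_closure (Φ := fun w : S × ℂ => fun z => F (w.1, z, w.2)) (A := O2) ?_ hw hcl
    intro z hz
    have h3 : ContinuousOn (fun w : S × ℂ => (w.1, z, w.2)) O2 := by fun_prop
    exact hFc.comp h3 fun w hw => hbox w hw z hz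
  have hex : ∃ K, (interior {w' | w' ∈ O2 ∧ w' ∈ CC K}).Nonempty :=
    baire_open hO2o hO2ne CC (by
      rintro ⟨s, z2⟩ ⟨⟨hs, hz2⟩, -⟩
      obtain ⟨K, hK⟩ := hhor s hs
      exact ⟨K, hK z2 hz2⟩) hCcl
  classical
  obtain ⟨hK1, hK2⟩ := And.intro (Nat.find_spec hex) (fun m hm => Nat.find_min hex (m := m) hm)
  rcases hk : Nat.find hex with _ | k
  · rw [hk] at hK1
    obtain ⟨w, hw⟩ := hK1
    exact absurd (interior_subset hw).2 (not_ratLT_zero _ _)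
  rw [hk] at hK1 hK2
  have hmin : ¬ (interior {w' | w' ∈ O2 ∧ w' ∈ CC k}).Nonempty := hK2 k (Nat.lt_succ_self k)
  set U1 : Set (S × ℂ) := interior {w' | w' ∈ O2 ∧ w' ∈ CC (k + 1)} \
    closure {w' | w' ∈ O2 ∧ w' ∈ CC k} with hU1
  have hU1o : IsOpen U1 := isOpen_interior.sdiff isClosed_closure
  have hU1ne : U1.Nonempty := by
    by_contra hemp
    rw [not_nonempty_iff_eq_empty, hU1, sdiff_eq_empty] at hemp
    apply hmin
    obtain ⟨w, hw⟩ := hK1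
    refine ⟨w, mem_interior.2 ⟨interior {w' | w' ∈ O2 ∧ w' ∈ CC (k + 1)}, ?_, isOpen_interior, hw⟩⟩
    intro w' hw'
    have h3 := (interior_subset hw').1
    exact ⟨h3, hCcl k w' h3 (hemp hw')⟩
  have hU1a : ∀ w ∈ U1, w ∈ O2 ∧ RatLT (k + 1) (fun z => F (w.1, z, w.2)) (ball ζ r') :=
    fun w hw => by
      have h4 := interior_subset hw.1
      exact ⟨h4.1, h4.2⟩
  have hU1b : ∀ w ∈ U1, ¬ RatLT k (fun z => F (w.1, z, w.2)) (ball ζ r') := by
    intro w hw hcon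
    exact hw.2 (subset_closure ⟨(hU1a w hw).1, hcon⟩)
  obtain ⟨w0, hw0⟩ := hU1ne
  obtain ⟨W, hWo, hw0W, hWU, a, ha, haw⟩ := holo_family (O := U1) (D := ball ζ r') (n := k)
    (Φ := fun w : S × ℂ => fun z => F (w.1, z, w.2)) hU1o isOpen_ball ⟨ζ, mem_ball_self hr'⟩
    (by
      intro w hw
      have h3 : ContinuousOn (fun z : ℂ => (w.1, z, w.2)) (ball ζ r') := by fun_prop
      exact hFc.comp h3 fun z hz => hbox w (hU1a w hw).1 z hz)
    (fun w hw z hz => hF0 _ (hbox w (hU1a w hw).1 z hz))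
    (by
      intro z hz
      have h3 : DifferentiableOn ℂ (fun w : S × ℂ => (w.1, z, w.2)) U1 := by fun_prop
      exact hF.comp h3 fun w hw => hbox w (hU1a w hw).1 z hz)
    (fun w hw => (hU1a w hw).2) hU1b hw0
  refine ⟨W, hWo, ⟨w0, hw0W⟩, ?_, ?_, k, a, ha, ?_⟩
  · exact fun w hw => interior_subset (hU1a w (hWU hw)).1.2
  · exact fun w hw => hbox2 w (hU1a w (hWU hw)).1
  · intro w hw
    have hwU := hWU hw
    have hwO := (hU1a w hwU).1
    obtain ⟨ha0, hap⟩ := haw w hw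
    have hcont : ContinuousOn (fun z : ℂ => F (w.1, z, w.2)) (ball ζ r') := by
      have h3 : ContinuousOn (fun z : ℂ => (w.1, z, w.2)) (ball ζ r') := by fun_prop
      exact hFc.comp h3 fun z hz => hbox w hwO z hz
    refine ⟨fun z hz => ?_, fun hz => ?_, ?_⟩
    · exact hU1b w hwU (RatLT.reduce isOpen_ball hcont ha0 hap (Or.inr ⟨z, hz⟩))
    · exact hU1b w hwU (RatLT.reduce isOpen_ball hcont ha0 hap (Or.inl hz))
    · refine par_extend isOpen_ball (convex_ball ζ r).isPreconnected ?_ (mem_ball_self hr)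
        (Filter.eventually_of_mem (ball_mem_nhds ζ hr') hap)
      have h3 : DifferentiableOn ℂ (fun z : ℂ => (w.1, z, w.2)) (ball ζ r) := by fun_prop
      have h4 := hbox2 w hwO
      exact hF.comp h3 fun z hz => ⟨h4.1, hz, h4.2⟩

end Crest.Agent.R266.RatK
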