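import Crest.Agent.R266.RatBasic

/-! Row 266, S0404 Step 3 (RAT), part 2: selection of functionals, polynomial kernels,
holomorphic dependence. -/

set_option autoImplicit false

namespace Crest.Agent.R266.RatK

open Polynomial Metric Set Filter Topology

/-- A family of functionals with trivial common kernel contains `finrank` many with trivial
common kernel. -/
theorem exists_select {K V : Type*} [Field K] [AddCommGroup V] [Module K V]
    [FiniteDimensional K V] {J : Type*} (ℓ : J → Module.Dual K V)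
    (h : ∀ v, (∀ j, ℓ j v = 0) → v = 0) :
    ∃ f : Fin (Module.finrank K V) → J, ∀ v, (∀ a, ℓ (f a) v = 0) → v = 0 := by
  have htop : Submodule.span K (range ℓ) = ⊤ := by
    apply Submodule.eq_top_of_finrank_eq
    have h1 := Subspace.finrank_add_finrank_dualCoannihilator_eq (Submodule.span K (range ℓ))
    have h2 : (Submodule.span K (range ℓ)).dualCoannihilator = ⊥ := by
      rw [eq_bot_iff]
      intro v hv
      rw [Submodule.mem_dualCoannihilator] at hv
      exact h v fun j => hv _ (Submodule.subset_span ⟨j, rfl⟩)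
    rw [h2, finrank_bot, add_zero] at h1
    rw [h1, Subspace.dual_finrank_eq]
  obtain ⟨b, hb, hbs, hbl⟩ := exists_linearIndependent K (range ℓ)
  have hbt : ⊤ ≤ Submodule.span K (range ((↑) : b → Module.Dual K V)) := by
    rw [Subtype.range_coe, hbs, htop]
  let B : Module.Basis b K (Module.Dual K V) := Module.Basis.mk hbl hbt
  have : Finite b := Module.Finite.finite_basis B
  have : Fintype b := Fintype.ofFinite b
  have hcard : Fintype.card b = Module.finrank K V := by
    rw [← Module.finrank_eq_card_basis B, Subspace.dual_finrank_eq]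
  let e : Fin (Module.finrank K V) ≃ b := (Fintype.equivFinOfCardEq hcard).symm
  have hch : ∀ x : b, ∃ j, ℓ j = x := fun x => hb x.2
  choose g hg using hch
  refine ⟨fun a => g (e a), fun v hv => h v fun j => ?_⟩
  have hall : ∀ φ : Module.Dual K V, φ v = 0 := by
    intro φ
    have h1 : φ ∈ Submodule.span K (range ((↑) : b → Module.Dual K V)) := hbt trivial
    refine Submodule.span_induction (p := fun φ _ => φ v = 0) ?_ ?_ ?_ ?_ h1
    · rintro _ ⟨x, rfl⟩
      have h2 : ℓ (g (e (e.symm x))) v = 0 := hv (e.symm x)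
      rw [Equiv.apply_symm_apply, hg] at h2
      exact h2
    · simp
    · intro x y _ _ hx hy
      rw [LinearMap.add_apply, hx, hy, add_zero]
    · intro a x _ hx
      rw [LinearMap.smul_apply, hx, smul_zero]
  exact hall _

/-- A polynomial linear system with a nontrivial solution at infinitely many points has a
nontrivial polynomial solution. -/
theorem exists_poly_kernel {σ : Type*} [Fintype σ] [DecidableEq σ] {J : Type*}
    (row : J → σ → ℂ[X]) {B : Set ℂ} (hB : B.Infinite)
    (h : ∀ β ∈ B, ∃ v : σ → ℂ, v ≠ 0 ∧ ∀ j, ∑ s, (row j s).eval β * v s = 0) :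
    ∃ v : σ → ℂ[X], v ≠ 0 ∧ ∀ j, ∑ s, row j s * v s = 0 := by
  by_contra hcon
  push Not at hcon
  let K := FractionRing ℂ[X]
  let ℓ : J → Module.Dual K (σ → K) := fun j =>
    ∑ s, (algebraMap ℂ[X] K (row j s)) • LinearMap.proj s
  have hℓ : ∀ j v, ℓ j v = ∑ s, algebraMap ℂ[X] K (row j s) * v s := by
    intro j v
    simp [ℓ, Algebra.smul_def]
  have hinj : Function.Injective (algebraMap ℂ[X] K) := IsFractionRing.injective _ _
  have hker : ∀ v : σ → K, (∀ j, ℓ j v = 0) → v = 0 := by
    intro v hv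
    obtain ⟨b, hb⟩ := IsLocalization.exist_integer_multiples_of_finite (nonZeroDivisors ℂ[X]) v
    choose w hw using hb
    have hb0 : algebraMap ℂ[X] K (b : ℂ[X]) ≠ 0 := by
      intro h0
      have : (b : ℂ[X]) = 0 := hinj (by rw [h0, map_zero])
      exact nonZeroDivisors.ne_zero b.2 this
    have hw0 : w = 0 := by
      by_contra hne
      obtain ⟨j, hj⟩ := hcon w hne
      apply hj
      apply hinj
      rw [map_sum, map_zero]
      have h1 := hv j
      rw [hℓ] at h1
      calc ∑ s, algebraMap ℂ[X] K (row j s * w s)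
          = ∑ s, algebraMap ℂ[X] K (b : ℂ[X]) * (algebraMap ℂ[X] K (row j s) * v s) := by
            refine Finset.sum_congr rfl fun s _ => ?_
            rw [map_mul, hw s, Algebra.smul_def]
            ring
        _ = 0 := by rw [← Finset.mul_sum, h1, mul_zero]
    funext s
    have h1 := hw s
    rw [hw0, Pi.zero_apply, map_zero, Algebra.smul_def] at h1
    exact (mul_eq_zero.1 h1.symm).resolve_left hb0
  obtain ⟨f, hf⟩ := exists_select ℓ hker
  have hcard : Module.finrank K (σ → K) = Fintype.card σ := Module.finrank_fintype_fun_eq_card K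
  let e : σ ≃ Fin (Module.finrank K (σ → K)) := (Fintype.equivFinOfCardEq hcard.symm)
  let M : Matrix σ σ ℂ[X] := Matrix.of fun s s' => row (f (e s)) s'
  have hdet : M.det ≠ 0 := by
    intro h0
    obtain ⟨v, hv0, hv⟩ := Matrix.exists_mulVec_eq_zero_iff.2 h0
    have h1 : (fun s => algebraMap ℂ[X] K (v s)) = 0 := by
      apply hf
      intro a
      rw [hℓ]
      have h2 := congrFun hv (e.symm a)
      have h3 : ∑ s, row (f a) s * v s = 0 := by
        simpa [Matrix.mulVec, dotProduct, M] using h2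
      rw [← map_zero (algebraMap ℂ[X] K), ← h3, map_sum]
      exact Finset.sum_congr rfl fun s _ => (map_mul _ _ _).symm
    apply hv0
    funext s
    apply hinj
    rw [Pi.zero_apply, map_zero]
    exact congrFun h1 s
  have hex : ∃ β ∈ B, M.det.eval β ≠ 0 := by
    by_contra hno
    push Not at hno
    exact hdet (eq_zero_of_infinite_isRoot _ (hB.mono fun β hβ => hno β hβ))
  obtain ⟨β, hβ, hne⟩ := hex
  obtain ⟨v, hv0, hv⟩ := h β hβ
  have h1 : (M.map (eval β)).det ≠ 0 := by
    have : (M.map (eval β)).det = M.det.eval β := by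
      have := (RingHom.map_det (evalRingHom β) M).symm
      simpa using this
    rw [this]
    exact hne
  apply h1
  apply Matrix.exists_mulVec_eq_zero_iff.1
  refine ⟨v, hv0, ?_⟩
  funext s
  have := hv (f (e s))
  simpa [Matrix.mulVec, dotProduct, M, Matrix.map_apply] using this

variable {ι : Type*} [Fintype ι]

/-- the functional `c ↦ E c z i` -/
noncomputable def evL (n : ℕ) (z : ℂ) (i : ι) : (Fin n → ι → ℂ) →L[ℂ] ℂ :=
  ∑ m : Fin n, (z ^ (m : ℕ)) • ((ContinuousLinearMap.proj (R := ℂ) (φ := fun _ : ι => ℂ) i).comp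
    (ContinuousLinearMap.proj (R := ℂ) (φ := fun _ : Fin n => ι → ℂ) m))

omit [Fintype ι] in
theorem evL_apply (n : ℕ) (z : ℂ) (i : ι) (c : Fin n → ι → ℂ) : evL n z i c = E c z i := by
  simp [evL, E, mul_comm]

/-- holomorphic dependence of the (minimal degree) representation -/
theorem holo_family {W : Type*} [NormedAddCommGroup W] [NormedSpace ℂ W] {O : Set W}
    (hO : IsOpen O) {D : Set ℂ} (hD : IsOpen D) (hDne : D.Nonempty) {n : ℕ}
    {Φ : W → ℂ → ι → ℂ} (hΦc : ∀ w ∈ O, ContinuousOn (Φ w) D)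
    (hΦ0 : ∀ w ∈ O, ∀ z ∈ D, Φ w z ≠ 0)
    (hΦd : ∀ z ∈ D, DifferentiableOn ℂ (fun w => Φ w z) O)
    (hrat : ∀ w ∈ O, RatLT (n + 1) (Φ w) D) (hmin : ∀ w ∈ O, ¬ RatLT n (Φ w) D)
    {w0 : W} (hw0 : w0 ∈ O) :
    ∃ O', IsOpen O' ∧ w0 ∈ O' ∧ O' ⊆ O ∧ ∃ a : W → Fin (n + 1) → ι → ℂ,
      DifferentiableOn ℂ a O' ∧ ∀ w ∈ O', a w ≠ 0 ∧ ∀ z ∈ D, Par (E (a w) z) (Φ w z) := by
  classical
  obtain ⟨c0, hc0, hp0⟩ := hrat w0 hw0
  obtain ⟨m0, hm0⟩ := Function.ne_iff.1 hc0
  obtain ⟨i0, hi0⟩ := Function.ne_iff.1 hm0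
  simp only [Pi.zero_apply] at hi0
  let V := Fin (n + 1) → ι → ℂ
  let lam : V →L[ℂ] ℂ := (ContinuousLinearMap.proj (R := ℂ) (φ := fun _ : ι => ℂ) i0).comp
    (ContinuousLinearMap.proj (R := ℂ) (φ := fun _ : Fin (n + 1) => ι → ℂ) m0)
  have hlam : ∀ c : V, lam c = c m0 i0 := fun c => rfl
  let ℓ : W → Option (D × ι × ι) → V →L[ℂ] ℂ := fun w j => match j with
    | none => lam
    | some (z, i, j) => Φ w z j • evL (n + 1) z i - Φ w z i • evL (n + 1) z j
  have hℓ : ∀ w (z : D) i j c, ℓ w (some (z, i, j)) c = Φ w z j * E c z i - Φ w z i * E c z j := by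
    intro w z i j c
    show Φ w z j • evL (n + 1) z i c - Φ w z i • evL (n + 1) z j c = _
    rw [evL_apply, evL_apply, smul_eq_mul, smul_eq_mul]
  have hPar : ∀ w c, (∀ z ∈ D, Par (E c z) (Φ w z)) ↔ ∀ q, ℓ w (some q) c = 0 := by
    intro w c
    constructor
    · rintro h ⟨z, i, j⟩
      rw [hℓ]
      have := h z z.2 i j
      linear_combination this
    · intro h z hz i j
      have := h (⟨z, hz⟩, i, j)
      rw [hℓ] at this
      linear_combination this
  have hker : ∀ c : V, (∀ j, (ℓ w0 j : V →ₗ[ℂ] ℂ) c = 0) → c = 0 := by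
    intro c hc
    have h1 : ∀ z ∈ D, Par (E c z) (Φ w0 z) := (hPar w0 c).2 fun q => hc (some q)
    obtain ⟨t, rfl⟩ := unique_of_minimal hD hDne (hΦc w0 hw0) (hΦ0 w0 hw0) (hmin w0 hw0) hc0 hp0 h1
    have h2 : lam (t • c0) = 0 := hc none
    rw [hlam, Pi.smul_apply, Pi.smul_apply, smul_eq_mul] at h2
    rw [(mul_eq_zero.1 h2).resolve_right hi0, zero_smul]
  obtain ⟨f, hf⟩ := exists_select (fun j => (ℓ w0 j : V →ₗ[ℂ] ℂ)) hker
  let M : W → V →L[ℂ] (Fin (Module.finrank ℂ V) → ℂ) := fun w => ContinuousLinearMap.pi fun a => ℓ w (f a)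
  have hM : ∀ w c a, M w c a = ℓ w (f a) c := fun w c a => rfl
  have hMinj : Function.Injective (M w0) := by
    rw [injective_iff_map_eq_zero]
    intro c hc
    exact hf c fun a => congrFun hc a
  have hfr : Module.finrank ℂ V = Module.finrank ℂ (Fin (Module.finrank ℂ V) → ℂ) := by
    rw [Module.finrank_fin_fun]
  let e0 : V ≃L[ℂ] (Fin (Module.finrank ℂ V) → ℂ) :=
    (LinearEquiv.ofInjectiveOfFinrankEq (M w0 : V →ₗ[ℂ] (Fin (Module.finrank ℂ V) → ℂ)) hMinj hfr).toContinuousLinearEquiv
  have he0 : (e0 : V →L[ℂ] (Fin (Module.finrank ℂ V) → ℂ)) = M w0 := by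
    ext c a
    rfl
  -- differentiability of M
  have hMd : DifferentiableOn ℂ M O := by
    have hMs : M = fun w => ∑ a, (ContinuousLinearMap.single ℂ
        (fun _ : Fin (Module.finrank ℂ V) => ℂ) a).comp (ℓ w (f a)) := by
      funext w
      ext c b
      rw [hM, sum_apply, Finset.sum_apply, Finset.sum_eq_single b]
      · simp
      · intro a _ hab
        simp [Ne.symm hab]
      · simp
    rw [hMs]
    have hpi : ∀ a, DifferentiableOn ℂ (fun w => ℓ w (f a)) O := by
      intro a
      rcases hfa : f a with _ | ⟨z, i, j⟩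
      · exact differentiableOn_const _
      · have h1 : DifferentiableOn ℂ (fun w => Φ w z) O := hΦd z z.2
        have h2 := differentiableOn_pi.1 h1
        exact ((h2 j).smul_const _).sub ((h2 i).smul_const _)
    refine DifferentiableOn.fun_sum fun a _ => ?_
    exact (differentiableOn_const _).clm_comp (hpi a)
  let bvec : Fin (Module.finrank ℂ V) → ℂ := fun a => match f a with
    | none => 1
    | some _ => 0
  let O' : Set W := O ∩ M ⁻¹' (range ((↑) : (V ≃L[ℂ] (Fin (Module.finrank ℂ V) → ℂ)) → (V →L[ℂ] (Fin (Module.finrank ℂ V) → ℂ))))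
  have hO' : IsOpen O' := hMd.continuousOn.isOpen_inter_preimage hO ContinuousLinearEquiv.isOpen
  refine ⟨O', hO', ⟨hw0, e0, he0⟩, inter_subset_left, fun w => ContinuousLinearMap.inverse (M w) bvec,
    ?_, ?_⟩
  · intro w hw
    obtain ⟨hwO, e, he⟩ := hw
    have h1 : DifferentiableAt ℂ M w := (hMd w hwO).differentiableAt (hO.mem_nhds hwO)
    have h2 : DifferentiableAt ℂ (ContinuousLinearMap.inverse (R := ℂ) (M := V) (M₂ := Fin (Module.finrank ℂ V) → ℂ)) (M w) := by
      rw [← he]
      exact (contDiffAt_map_inverse (n := 1) e).differentiableAt one_ne_zero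
    exact ((h2.comp w h1).clm_apply (differentiableAt_const _)).differentiableWithinAt
  · rintro w ⟨hwO, e, he⟩
    obtain ⟨c, hc, hp⟩ := hrat w hwO
    have h1 := (hPar w c).1 hp
    have h2 : M w c = lam c • bvec := by
      funext a
      rw [hM]
      rcases hfa : f a with _ | q
      · simp [ℓ, bvec, hfa]
      · rw [h1 q]
        simp [bvec, hfa]
    have h3 : lam c ≠ 0 := by
      intro h0
      rw [h0, zero_smul] at h2
      apply hc
      have h4 : e c = 0 := by
        have : (e : V →L[ℂ] (Fin (Module.finrank ℂ V) → ℂ)) c = 0 := by rw [he]; exact h2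
        exact this
      exact (map_eq_zero_iff e e.injective).1 h4
    have h5 : ContinuousLinearMap.inverse (M w) bvec = (lam c)⁻¹ • c := by
      rw [← he, ContinuousLinearMap.inverse_equiv]
      show e.symm bvec = _
      rw [ContinuousLinearEquiv.symm_apply_eq]
      have h6 : e c = lam c • bvec := by
        have : (e : V →L[ℂ] (Fin (Module.finrank ℂ V) → ℂ)) c = lam c • bvec := by rw [he]; exact h2
        exact this
      rw [map_smul, h6, smul_smul, inv_mul_cancel₀ h3, one_smul]
    refine ⟨?_, fun z hz => ?_⟩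
    · show ContinuousLinearMap.inverse (M w) bvec ≠ 0
      rw [h5]
      exact smul_ne_zero (inv_ne_zero h3) hc
    show Par (E (ContinuousLinearMap.inverse (M w) bvec) z) (Φ w z)
    rw [h5, E_smul]
    exact (hp z hz).smul_left _

end Crest.Agent.R266.RatK
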