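import Crest.Agent.R266.RatSel

/-! Row 266, S0404 Step 3 (RAT), part 3: rationality along two slopes gives rationality along
horizontal lines. -/

set_option autoImplicit false

namespace Crest.Agent.R266.RatK

open Polynomial Metric Set Filter Topology

variable {ι : Type*} [Fintype ι]

theorem rowsum {R : Type*} [CommRing R] [DecidableEq ι] {n : ℕ} (Z P Q : R) (i j : ι)
    (v : Fin n × ι → R) :
    ∑ s : Fin n × ι, (Z ^ (s.1 : ℕ) * ((if s.2 = i then P else 0) - (if s.2 = j then Q else 0))) * v s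
      = (∑ m, v (m, i) * Z ^ (m : ℕ)) * P - (∑ m, v (m, j) * Z ^ (m : ℕ)) * Q := by
  rw [Fintype.sum_prod_type, Finset.sum_mul, Finset.sum_mul, ← Finset.sum_sub_distrib]
  refine Finset.sum_congr rfl fun m _ => ?_
  have h1 : ∀ k : ι, (Z ^ (m : ℕ) * ((if k = i then P else 0) - (if k = j then Q else 0))) * v (m, k)
      = (if k = i then v (m, k) * Z ^ (m : ℕ) * P else 0)
        - (if k = j then v (m, k) * Z ^ (m : ℕ) * Q else 0) := by
    intro k
    split_ifs <;> ring
  simp only [h1, Finset.sum_sub_distrib, Finset.sum_ite_eq', Finset.mem_univ, if_true]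

theorem two_slopes {n : ℕ} {G : ℂ → ℂ → ι → ℂ} {R : Set (ℂ × ℂ)}
    (hG : ContinuousOn (fun q : ℂ × ℂ => G q.1 q.2) R) (hG0 : ∀ q ∈ R, G q.1 q.2 ≠ 0)
    {α α' u v ζ : ℂ} {ρ r r' : ℝ} (hα : α ≠ 0) (hne : α' - α ≠ 0) (hρ : 0 < ρ)
    (hr'r : r' ≤ r) (hP : α * ζ + u = α' * ζ + v)
    (h1 : ∀ β ∈ ball u ρ, RatLT n (fun z => G z (α * z + β)) (ball ζ r))
    (h2 : ∀ β ∈ ball v ρ, RatLT n (fun z => G z (α' * z + β)) (ball ζ r))
    (hR1 : ∀ β ∈ ball u ρ, ∀ z ∈ ball ζ r, (z, α * z + β) ∈ R)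
    (hR2 : ∀ β ∈ ball v ρ, ∀ z ∈ ball ζ r, (z, α' * z + β) ∈ R)
    (hρr : 2 * ρ ≤ ‖α' - α‖ * r)
    (hr1 : r' * (1 + ‖α‖) ≤ ρ) (hr2 : r' * (1 + ‖α'‖) ≤ ρ) :
    ∃ K, ∀ z2 ∈ ball (α * ζ + u) r', RatLT K (fun z => G z z2) (ball ζ r') := by
  classical
  have hred : ∀ b : ball v ρ, ∃ c : Fin n → ι → ℂ, (∀ z, E c z ≠ 0) ∧
      ∀ z ∈ ball ζ r, Par (E c z) (G z (α' * z + b)) := by
    intro b
    refine RatLT.exists_reduced isOpen_ball ?_ (h2 b b.2)
    have h3 : ContinuousOn (fun z : ℂ => (z, α' * z + (b : ℂ))) (ball ζ r) := by fun_prop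
    exact hG.comp h3 fun z hz => hR2 b b.2 z hz
  choose p hp0 hp using hred
  let Z : ball v ρ → ℂ[X] := fun b => C (α' - α)⁻¹ * (X - C (b : ℂ))
  let Pp : ball v ρ → ι → ℂ[X] := fun b i => (poly (p b) i).comp (Z b)
  let row : ball v ρ × ι × ι → Fin n × ι → ℂ[X] := fun q s =>
    (Z q.1) ^ (s.1 : ℕ) * ((if s.2 = q.2.1 then Pp q.1 q.2.2 else 0) -
      (if s.2 = q.2.2 then Pp q.1 q.2.1 else 0))
  have hZe : ∀ (b : ball v ρ) (β : ℂ), (Z b).eval β = (α' - α)⁻¹ * (β - b) := by
    intro b β; simp [Z]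
  have hPe : ∀ (b : ball v ρ) (i : ι) (β : ℂ),
      (Pp b i).eval β = E (p b) ((α' - α)⁻¹ * (β - b)) i := by
    intro b i β
    simp only [Pp]
    rw [eval_comp, eval_poly, hZe]
  have hrow : ∀ q s β, (row q s).eval β = ((α' - α)⁻¹ * (β - q.1)) ^ (s.1 : ℕ) *
      ((if s.2 = q.2.1 then E (p q.1) ((α' - α)⁻¹ * (β - q.1)) q.2.2 else 0) -
      (if s.2 = q.2.2 then E (p q.1) ((α' - α)⁻¹ * (β - q.1)) q.2.1 else 0)) := by
    intro q s β
    simp only [row]
    rw [eval_mul, eval_pow, hZe, eval_sub, apply_ite (eval β), apply_ite (eval β), hPe, hPe, eval_zero]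
  have hBinf : (ball u ρ).Infinite := infinite_of_mem_nhds u (ball_mem_nhds u hρ)
  have hmem : ∀ β ∈ ball u ρ, ∀ b ∈ ball v ρ, (α' - α)⁻¹ * (β - b) ∈ ball ζ r := by
    intro β hβ b hb
    rw [mem_ball, dist_eq_norm] at hβ hb ⊢
    have h3 : (α' - α) * ((α' - α)⁻¹ * (β - b) - ζ) = (β - u) - (b - v) := by
      rw [mul_sub, mul_inv_cancel_left₀ hne]
      linear_combination hP
    have h4 : ‖α' - α‖ * ‖(α' - α)⁻¹ * (β - b) - ζ‖ < ‖α' - α‖ * r := by
      rw [← norm_mul, h3]
      calc ‖(β - u) - (b - v)‖ ≤ ‖β - u‖ + ‖b - v‖ := norm_sub_le _ _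
        _ < 2 * ρ := by linarith
        _ ≤ _ := hρr
    exact lt_of_mul_lt_mul_left h4 (norm_nonneg _)
  obtain ⟨w, hw0, hw⟩ := exists_poly_kernel row hBinf (by
    intro β hβ
    obtain ⟨c, hc, hcp⟩ := h1 β hβ
    refine ⟨fun s => c s.1 s.2, ?_, ?_⟩
    · intro h0
      apply hc
      funext m i
      exact congrFun h0 (m, i)
    · rintro ⟨b, i, j⟩
      simp only [hrow]
      rw [rowsum (v := fun s => c s.1 s.2)]
      have hz := hmem β hβ b b.2
      set z := (α' - α)⁻¹ * (β - b) with hzdef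
      have hzz : α' * z + b = α * z + β := by
        have : (α' - α) * z = β - b := by rw [hzdef, mul_inv_cancel_left₀ hne]
        linear_combination this
      have h3 := hp b z hz
      rw [hzz] at h3
      have h4 : Par (E c z) (E (p b) z) :=
        (hcp z hz).trans (hG0 (z, α * z + β) (hR1 β hβ z hz)) h3.symm
      have h5 := h4 i j
      simp only [E] at h5 ⊢
      linear_combination h5)
  -- the polynomial family, evaluated
  have hker : ∀ (b : ball v ρ) (β : ℂ), Par (E (fun (m : Fin n) i => (w (m, i)).eval β)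
      ((α' - α)⁻¹ * (β - b))) (E (p b) ((α' - α)⁻¹ * (β - b))) := by
    intro b β i j
    have h3 := congrArg (eval β) (hw (b, i, j))
    rw [eval_finsetSum, eval_zero] at h3
    simp only [eval_mul, hrow] at h3
    rw [rowsum (v := fun s => (w s).eval β)] at h3
    simp only [E] at h3 ⊢
    linear_combination h3
  have hkey : ∀ z1 ∈ ball ζ r', ∀ z2 ∈ ball (α * ζ + u) r',
      Par (E (fun (m : Fin n) i => (w (m, i)).eval (z2 - α * z1)) z1) (G z1 z2) := by
    intro z1 hz1 z2 hz2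
    rw [mem_ball, dist_eq_norm] at hz1 hz2
    have hb : z2 - α' * z1 ∈ ball v ρ := by
      rw [mem_ball, dist_eq_norm]
      have : z2 - α' * z1 - v = (z2 - (α * ζ + u)) - α' * (z1 - ζ) := by
        linear_combination hP
      rw [this]
      calc ‖(z2 - (α * ζ + u)) - α' * (z1 - ζ)‖
          ≤ ‖z2 - (α * ζ + u)‖ + ‖α' * (z1 - ζ)‖ := norm_sub_le _ _
        _ < r' + ‖α'‖ * r' := by
            rw [norm_mul]
            exact add_lt_add_of_lt_of_le hz2 (mul_le_mul_of_nonneg_left hz1.le (norm_nonneg _))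
        _ = r' * (1 + ‖α'‖) := by ring
        _ ≤ ρ := hr2
    have hz : (α' - α)⁻¹ * ((z2 - α * z1) - (z2 - α' * z1)) = z1 := by
      have : (z2 - α * z1) - (z2 - α' * z1) = (α' - α) * z1 := by ring
      rw [this, inv_mul_cancel_left₀ hne]
    have h3 := hker ⟨_, hb⟩ (z2 - α * z1)
    simp only [hz] at h3
    have h4 := hp ⟨_, hb⟩ z1 (by rw [mem_ball, dist_eq_norm]; exact hz1.trans_le hr'r)
    simp only [add_sub_cancel] at h4
    exact h3.trans (hp0 _ _) h4
  -- the polynomial in `z1` for fixed `z2`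
  let H : ℂ → ι → ℂ[X] := fun z2 i => ∑ m : Fin n, (w (m, i)).comp (C z2 - C α * X) * X ^ (m : ℕ)
  have hH : ∀ z2 i z, (H z2 i).eval z = E (fun (m : Fin n) i => (w (m, i)).eval (z2 - α * z)) z i := by
    intro z2 i z
    simp only [H, E]
    rw [eval_finsetSum]
    refine Finset.sum_congr rfl fun m _ => ?_
    rw [eval_mul, eval_comp, eval_pow, eval_X]
    simp
  let d : ℕ := Finset.univ.sup fun s => (w s).natDegree
  have hdeg : ∀ z2 i, (H z2 i).degree < (d + n + 1 : ℕ) := by
    intro z2 i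
    refine (degree_sum_le _ _).trans_lt ?_
    rw [Finset.sup_lt_iff (by exact_mod_cast WithBot.bot_lt_coe (d + n + 1))]
    intro m _
    have h3 : ((w (m, i)).comp (C z2 - C α * X) * X ^ (m : ℕ)).natDegree ≤ d + n := by
      refine natDegree_mul_le.trans (add_le_add ?_ ?_)
      · refine natDegree_comp_le.trans ?_
        have h4 : (C z2 - C α * X : ℂ[X]).natDegree ≤ 1 := by
          refine (natDegree_sub_le _ _).trans ?_
          simp only [natDegree_C]
          exact max_le (Nat.zero_le _) ((natDegree_C_mul_le _ _).trans natDegree_X_le)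
        calc (w (m, i)).natDegree * (C z2 - C α * X : ℂ[X]).natDegree
            ≤ (w (m, i)).natDegree * 1 := Nat.mul_le_mul_left _ h4
          _ = (w (m, i)).natDegree := mul_one _
          _ ≤ d := Finset.le_sup (f := fun s => (w s).natDegree) (Finset.mem_univ (m, i))
      · rw [natDegree_X_pow]
        exact m.2.le
    refine (degree_le_natDegree).trans_lt ?_
    exact_mod_cast Nat.lt_succ_of_le h3
  have hTfin : {z2 | H z2 = 0}.Finite := by
    by_contra hinf
    apply hw0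
    funext s
    apply Polynomial.funext
    intro β
    have h3 : (fun (m : Fin n) i => (w (m, i)).eval β) = 0 := by
      refine eq_zero_of_E (A := (fun z : ℂ => β + α * z) ⁻¹' {z2 | H z2 = 0}) ?_ ?_
      · intro hfin
        apply hinf
        refine (hfin.image fun z : ℂ => β + α * z).subset ?_
        intro z2 hz2
        refine ⟨α⁻¹ * (z2 - β), ?_, ?_⟩
        · show H (β + α * (α⁻¹ * (z2 - β))) = 0
          rw [mul_inv_cancel_left₀ hα, add_sub_cancel]
          exact hz2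
        · show β + α * (α⁻¹ * (z2 - β)) = z2
          rw [mul_inv_cancel_left₀ hα, add_sub_cancel]
      · intro z hz
        have hz' : H (β + α * z) = 0 := hz
        funext i
        have h4 := hH (β + α * z) i z
        rw [hz', add_sub_cancel_right] at h4
        rw [← h4]
        simp
    have h4 := congrFun (congrFun h3 s.1) s.2
    simpa using h4
  refine ⟨d + n + 1, fun z2 hz2 => ?_⟩
  have hgood : ∀ z2 ∈ ball (α * ζ + u) r', H z2 ≠ 0 →
      RatLT (d + n + 1) (fun z => G z z2) (ball ζ r') := by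
    intro z2 hz2 hne'
    refine RatLT.of_poly (p := H z2) (hdeg z2) hne' fun z hz => ?_
    have h3 := hkey z hz z2 hz2
    have h4 : (fun i => (H z2 i).eval z) = E (fun (m : Fin n) i => (w (m, i)).eval (z2 - α * z)) z := by
      funext i
      exact hH z2 i z
    rw [h4]
    exact h3
  refine ratLT_of_mem_closure (Φ := fun t z => G z t) (A := ball (α * ζ + u) r') ?_ hz2 ?_
  · intro z hz
    have h3 : ContinuousOn (fun t : ℂ => (z, t)) (ball (α * ζ + u) r') := by fun_prop
    refine hG.comp h3 fun t ht => ?_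
    have h4 : t - α * z ∈ ball u ρ := by
      rw [mem_ball, dist_eq_norm] at hz ht ⊢
      have : t - α * z - u = (t - (α * ζ + u)) - α * (z - ζ) := by ring
      rw [this]
      calc ‖(t - (α * ζ + u)) - α * (z - ζ)‖
          ≤ ‖t - (α * ζ + u)‖ + ‖α * (z - ζ)‖ := norm_sub_le _ _
        _ < r' + ‖α‖ * r' := by
            rw [norm_mul]
            exact add_lt_add_of_lt_of_le ht (mul_le_mul_of_nonneg_left hz.le (norm_nonneg _))
        _ = r' * (1 + ‖α‖) := by ring
        _ ≤ ρ := hr1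
    have h5 := hR1 _ h4 z (ball_subset_ball hr'r hz)
    rwa [add_sub_cancel] at h5
  · have hdense : Dense ({z2 | H z2 = 0}ᶜ) := hTfin.countable.dense_compl ℂ
    have h3 := hdense.open_subset_closure_inter (isOpen_ball (x := α * ζ + u) (ε := r')) hz2
    refine closure_mono ?_ h3
    rintro t ⟨ht, ht'⟩
    exact ⟨ht, hgood t ht ht'⟩

end Crest.Agent.R266.RatK
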