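import Crest.Agent.R266.Contact

/-!
R266 / Safe: the cutoff function, the set `S` and the constants needed to apply the slice mass
lemma `St_B` to the maximal graph domain (NC block of S0405).
-/

set_option autoImplicit false

open scoped Manifold ContDiff Topology ENNReal
open Set Metric Filter MeasureTheory

namespace Crest.Agent.R266

namespace Cont

/-- smooth step: `1` on `(-∞, 1/2]`, `0` on `[1, ∞)` -/
noncomputable def stp (u : ℝ) : ℝ := Real.smoothTransition (2 - 2 * u)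

theorem stp_one {u : ℝ} (h : u ≤ 1 / 2) : stp u = 1 :=
  Real.smoothTransition.one_of_one_le (by linarith)

theorem stp_zero {u : ℝ} (h : 1 ≤ u) : stp u = 0 :=
  Real.smoothTransition.zero_of_nonpos (by linarith)

theorem stp_nonneg (u : ℝ) : 0 ≤ stp u := Real.smoothTransition.nonneg _

theorem stp_le_one (u : ℝ) : stp u ≤ 1 := Real.smoothTransition.le_one _

theorem contDiff_stp : ContDiff ℝ ∞ stp := by
  unfold stp
  exact Real.smoothTransition.contDiff.comp (by fun_prop)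

/-- the cutoff -/
noncomputable def cut (a : ℝ) (z : ℂ × ℂ) : ℝ :=
  stp (‖tau z‖ ^ 2 / a ^ 2) * stp (eta z ^ 2 / a ^ 2) * stp (XX z ^ 2 / a ^ 2)

theorem contDiff_tau : ContDiff ℝ ∞ tau := by
  unfold tau; fun_prop

theorem contDiff_XX : ContDiff ℝ ∞ XX := by
  unfold XX
  exact Complex.reCLM.contDiff.comp (contDiff_fst.add contDiff_snd)

theorem contDiff_eta : ContDiff ℝ ∞ eta := by
  unfold eta
  exact Complex.imCLM.contDiff.comp (contDiff_fst.add contDiff_snd)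

theorem contDiff_cut (a : ℝ) : ContDiff ℝ ∞ (cut a) := by
  unfold cut
  refine ContDiff.mul (ContDiff.mul ?_ ?_) ?_
  · exact contDiff_stp.comp ((contDiff_tau.norm_sq ℝ).div_const _)
  · exact contDiff_stp.comp ((contDiff_eta.pow 2).div_const _)
  · exact contDiff_stp.comp ((contDiff_XX.pow 2).div_const _)

theorem cut_nonneg (a : ℝ) (z : ℂ × ℂ) : 0 ≤ cut a z :=
  mul_nonneg (mul_nonneg (stp_nonneg _) (stp_nonneg _)) (stp_nonneg _)

theorem cut_le_one (a : ℝ) (z : ℂ × ℂ) : cut a z ≤ 1 :=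
  mul_le_one₀ (mul_le_one₀ (stp_le_one _) (stp_nonneg _) (stp_le_one _)) (stp_nonneg _)
    (stp_le_one _)

/-- the box -/
def bx (a : ℝ) : Set (ℂ × ℂ) := {z | ‖tau z‖ ≤ a ∧ |eta z| ≤ a ∧ |XX z| ≤ a}

theorem isClosed_bx (a : ℝ) : IsClosed (bx a) :=
  (isClosed_le MaxGraph.continuous_tau.norm continuous_const).inter
    ((isClosed_le MaxGraph.continuous_eta.abs continuous_const).inter
      (isClosed_le MaxGraph.continuous_XX.abs continuous_const))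

theorem norm_le_coords (z : ℂ × ℂ) : ‖z‖ ≤ (‖tau z‖ + |eta z| + |XX z|) / 2 := by
  have hZ : ‖z.1 + z.2‖ ≤ |XX z| + |eta z| := Complex.norm_le_abs_re_add_abs_im _
  have h1 : z.1 = ((z.1 + z.2) + tau z) / 2 := by simp only [tau]; ring
  have h2 : z.2 = ((z.1 + z.2) - tau z) / 2 := by simp only [tau]; ring
  rw [Prod.norm_def, max_le_iff]
  constructor
  · calc ‖z.1‖ = ‖((z.1 + z.2) + tau z) / 2‖ := by rw [← h1]
      _ = ‖(z.1 + z.2) + tau z‖ / 2 := by rw [norm_div]; norm_num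
      _ ≤ _ := by have := norm_add_le (z.1 + z.2) (tau z); linarith
  · calc ‖z.2‖ = ‖((z.1 + z.2) - tau z) / 2‖ := by rw [← h2]
      _ = ‖(z.1 + z.2) - tau z‖ / 2 := by rw [norm_div]; norm_num
      _ ≤ _ := by have := norm_sub_le (z.1 + z.2) (tau z); linarith

theorem isCompact_bx (a : ℝ) : IsCompact (bx a) := by
  refine Metric.isCompact_of_isClosed_isBounded (isClosed_bx a) ?_
  refine (Metric.isBounded_closedBall (x := (0 : ℂ × ℂ)) (r := 2 * |a|)).subset ?_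
  rintro z ⟨h1, h2, h3⟩
  rw [mem_closedBall_zero_iff]
  have h4 := norm_le_coords z
  have h5 : a ≤ |a| := le_abs_self a
  linarith [norm_nonneg (tau z), abs_nonneg a]

theorem cut_ne_zero {a : ℝ} (ha : 0 < a) {z : ℂ × ℂ} (h : cut a z ≠ 0) : z ∈ bx a := by
  have key : ∀ u : ℝ, 0 ≤ u → stp (u ^ 2 / a ^ 2) ≠ 0 → u ≤ a := by
    intro u hu hne
    by_contra hcon
    push Not at hcon
    apply hne
    apply stp_zero
    rw [le_div_iff₀ (by positivity), one_mul]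
    exact pow_le_pow_left₀ ha.le hcon.le 2
  unfold cut at h
  have h1 : stp (‖tau z‖ ^ 2 / a ^ 2) ≠ 0 := fun h' => h (by rw [h']; ring)
  have h2 : stp (eta z ^ 2 / a ^ 2) ≠ 0 := fun h' => h (by rw [h']; ring)
  have h3 : stp (XX z ^ 2 / a ^ 2) ≠ 0 := fun h' => h (by rw [h']; ring)
  rw [← sq_abs] at h2 h3
  exact ⟨key _ (norm_nonneg _) h1, key _ (abs_nonneg _) h2, key _ (abs_nonneg _) h3⟩

theorem tsupport_cut {a : ℝ} (ha : 0 < a) : tsupport (cut a) ⊆ bx a :=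
  closure_minimal (fun _ hz => cut_ne_zero ha hz) (isClosed_bx a)

theorem hasCompactSupport_cut {a : ℝ} (ha : 0 < a) : HasCompactSupport (cut a) :=
  HasCompactSupport.intro (isCompact_bx a) (fun _ hz => by
    by_contra h
    exact hz (cut_ne_zero ha h))

/-- the region where the cutoff is not constantly one -/
def Sset (a : ℝ) : Set (ℂ × ℂ) :=
  {z | ¬ (‖tau z‖ ^ 2 < a ^ 2 / 2 ∧ eta z ^ 2 < a ^ 2 / 2 ∧ XX z ^ 2 < a ^ 2 / 2)}

theorem cut_one {a : ℝ} (ha : 0 < a) {z : ℂ × ℂ} (h1 : ‖tau z‖ ^ 2 < a ^ 2 / 2)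
    (h2 : eta z ^ 2 < a ^ 2 / 2) (h3 : XX z ^ 2 < a ^ 2 / 2) : cut a z = 1 := by
  have key : ∀ u : ℝ, u < a ^ 2 / 2 → stp (u / a ^ 2) = 1 := by
    intro u hu
    apply stp_one
    rw [div_le_iff₀ (by positivity)]
    linarith
  rw [cut, key _ h1, key _ h2, key _ h3]; norm_num

theorem cut_eventually {a : ℝ} (ha : 0 < a) {z : ℂ × ℂ} (hz : z ∉ Sset a) :
    ∀ᶠ w in 𝓝 z, cut a w = cut a z := by
  simp only [Sset, mem_ofPred_eq, not_not] at hz
  obtain ⟨h1, h2, h3⟩ := hz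
  rw [cut_one ha h1 h2 h3]
  filter_upwards [(MaxGraph.continuous_tau.norm.pow 2).continuousAt.eventually (gt_mem_nhds h1),
    (MaxGraph.continuous_eta.pow 2).continuousAt.eventually (gt_mem_nhds h2),
    (MaxGraph.continuous_XX.pow 2).continuousAt.eventually (gt_mem_nhds h3)] with w w1 w2 w3
  exact cut_one ha w1 w2 w3

end Cont

section
variable {n₁ n₂ : ℕ} {X : Type} [TopologicalSpace X]

open Cont in
/-- cutoff and constants, core form -/
theorem Cont.safe_core {A : PFol n₁ n₂ X} (K : KMet A) (hpull : St_pull K) {ε C₀ C : ℝ}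
    (hε : 0 < ε) (hC₀ : 0 ≤ C₀) (hC : C₀ < C) {m : ℂ → ℝ → ℝ} {G : ℂ × ℂ → X}
    (hM : Maxi A ε m G) (hle : ∀ t e, m t e ≤ par C₀ t e) {ε₀ : ℝ} (hε₀ : 0 < ε₀) :
    ∃ (χ : ℂ × ℂ → ℝ) (S : Set (ℂ × ℂ)) (M β ρ : ℝ), ContDiff ℝ ∞ χ ∧ HasCompactSupport χ ∧
      (∀ z, 0 ≤ χ z ∧ χ z ≤ 1) ∧
      (∀ z ∈ tsupport χ, ‖tau z‖ ≤ ε₀ ∧ |eta z| ≤ ε₀ ∧ |XX z| ≤ 1 ∧ ‖tau z‖ < ε ∧ |eta z| < ε ∧
        XX z < ε) ∧
      (∀ z, z ∉ S → ∀ᶠ w in 𝓝 z, χ w = χ z) ∧ 0 < β ∧ 0 < ρ ∧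
      (∀ z ∈ ball (0 : ℂ × ℂ) ρ, χ z = 1) ∧
      ∀ z ∈ S ∩ tsupport χ, ∀ l : ℝ, -β ≤ l → 0 < XX z - par C (tau z) (eta z) - l →
        trM K G z ≤ M := by
  have hCpos : 0 < C := by linarith
  set D : ℝ := C - C₀ with hD
  have hD0 : 0 < D := by rw [hD]; linarith
  set a : ℝ := min (min ε₀ (ε / 2)) (min 1 (1 / (8 * C))) with ha
  have ha0 : 0 < a := by positivity
  have haε₀ : a ≤ ε₀ := (min_le_left _ _).trans (min_le_left _ _)
  have haε : a < ε := by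
    have : a ≤ ε / 2 := (min_le_left _ _).trans (min_le_right _ _)
    linarith
  have ha1 : a ≤ 1 := (min_le_right _ _).trans (min_le_left _ _)
  have haC : 2 * C * a ^ 2 ≤ a / 4 := by
    have h1 : a ≤ 1 / (8 * C) := (min_le_right _ _).trans (min_le_right _ _)
    have h2 : C * a ≤ 1 / 8 := by
      calc C * a ≤ C * (1 / (8 * C)) := by gcongr
        _ = 1 / 8 := by field_simp
    nlinarith
  have hparC : ∀ z ∈ bx a, par C (tau z) (eta z) ≤ a / 4 := by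
    rintro z ⟨h1, h2, -⟩
    have h3 : ‖tau z‖ ^ 2 ≤ a ^ 2 := pow_le_pow_left₀ (norm_nonneg _) h1 2
    have h4 : eta z ^ 2 ≤ a ^ 2 := by
      rw [← sq_abs]; exact pow_le_pow_left₀ (abs_nonneg _) h2 2
    have h5 : par C (tau z) (eta z) ≤ C * (2 * a ^ 2) := by
      unfold par; gcongr; linarith
    linarith
  have hpar0 : ∀ (c : ℝ) (z : ℂ × ℂ), 0 ≤ c → 0 ≤ par c (tau z) (eta z) := by
    intro c z hc; unfold par; positivity
  have hparD : ∀ z : ℂ × ℂ, par C (tau z) (eta z) = par C₀ (tau z) (eta z) +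
      D * (‖tau z‖ ^ 2 + eta z ^ 2) := by
    intro z; simp only [par, hD]; ring
  set δ : ℝ := min (D * a ^ 2 / 4) (a / 4) with hδ
  have hδ0 : 0 < δ := by positivity
  -- the compact safe region
  set K₁ : Set (ℂ × ℂ) := bx a ∩ {z | par C₀ (tau z) (eta z) + δ ≤ XX z} with hK₁
  have hK₁c : IsCompact K₁ := (isCompact_bx a).inter_right
    (isClosed_le ((continuous_par_comp C₀).add continuous_const) MaxGraph.continuous_XX)
  have hK₁s : K₁ ⊆ GD ε m := by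
    rintro z ⟨⟨h1, h2, h3⟩, h4⟩
    have h5 := hle (tau z) (eta z)
    have h6 : par C₀ (tau z) (eta z) + δ ≤ XX z := h4
    exact ⟨by linarith, by linarith, by linarith, by linarith [(abs_le.1 h3).2]⟩
  have hopen : IsOpen (GD ε m) := MaxGraph.isOpen_GD hM.usc
  have hCF : CForm (GD ε m) (pullM K G) := hpull _ G hopen hM.pc
  have hcont : ContinuousOn (fun z => pullM K G z (1, 0) (1, 0) + pullM K G z (0, 1) (0, 1))
      (GD ε m) :=
    (hCF.smooth (1, 0) (1, 0)).continuousOn.add (hCF.smooth (0, 1) (0, 1)).continuousOn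
  obtain ⟨M, hMb⟩ := hK₁c.exists_bound_of_continuousOn (hcont.mono hK₁s)
  refine ⟨cut a, Sset a, M, δ, a / 4, contDiff_cut a, hasCompactSupport_cut ha0,
    fun z => ⟨cut_nonneg a z, cut_le_one a z⟩, ?_, fun z hz => cut_eventually ha0 hz, hδ0,
    by positivity, ?_, ?_⟩
  · intro z hz
    obtain ⟨h1, h2, h3⟩ := tsupport_cut ha0 hz
    exact ⟨h1.trans haε₀, h2.trans haε₀, h3.trans ha1, by linarith, by linarith,
      by linarith [(abs_le.1 h3).2]⟩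
  · intro z hz
    rw [mem_ball_zero_iff] at hz
    have h1 := norm_tau_sub_le z 0
    have h2 := abs_eta_sub_le z 0
    have h3 := abs_XX_sub_le z 0
    rw [sub_zero, tau_zero, sub_zero] at h1
    rw [sub_zero, eta_zero, sub_zero] at h2
    rw [sub_zero, XX_zero, sub_zero] at h3
    have key : ∀ u : ℝ, 0 ≤ u → u ≤ 2 * ‖z‖ → u ^ 2 < a ^ 2 / 2 := by
      intro u hu hu2
      have h4 : u ≤ a / 2 := by linarith
      have h5 : u ^ 2 ≤ (a / 2) ^ 2 := pow_le_pow_left₀ hu h4 2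
      nlinarith [pow_pos ha0 2]
    refine cut_one ha0 (key _ (norm_nonneg _) h1) ?_ ?_
    · rw [← sq_abs]; exact key _ (abs_nonneg _) h2
    · rw [← sq_abs]; exact key _ (abs_nonneg _) h3
  · rintro z ⟨hzS, hz⟩ l hl hw
    have hbx : z ∈ bx a := tsupport_cut ha0 hz
    have h1 : ‖tau z‖ ≤ a := hbx.1
    have hzK : z ∈ K₁ := by
      refine ⟨hbx, ?_⟩
      change par C₀ (tau z) (eta z) + δ ≤ XX z
      have hpC := hparD z
      have hδ1 : δ ≤ D * a ^ 2 / 4 := min_le_left _ _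
      have hδ2 : δ ≤ a / 4 := min_le_right _ _
      have hcases : a ^ 2 / 2 ≤ ‖tau z‖ ^ 2 + eta z ^ 2 ∨ a ^ 2 / 2 ≤ XX z ^ 2 := by
        by_contra hcon
        push Not at hcon
        apply hzS
        refine ⟨?_, ?_, hcon.2⟩
        · nlinarith [sq_nonneg (eta z)]
        · nlinarith [sq_nonneg ‖tau z‖]
      rcases hcases with hc | hc
      · have h4 : D * (a ^ 2 / 2) ≤ D * (‖tau z‖ ^ 2 + eta z ^ 2) := by gcongr
        nlinarith
      · have h5 : par C₀ (tau z) (eta z) ≤ par C (tau z) (eta z) := by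
          rw [hpC]; nlinarith [mul_nonneg hD0.le (add_nonneg (sq_nonneg ‖tau z‖)
            (sq_nonneg (eta z)))]
        have h6 := hparC z hbx
        have h7 : 0 ≤ par C (tau z) (eta z) := hpar0 C z hCpos.le
        have h8 : -(a / 4) < XX z := by linarith
        have h9 : a / 2 ≤ XX z := by
          by_contra hcon
          push Not at hcon
          nlinarith
        linarith
    have h10 := hMb z hzK
    rw [Real.norm_eq_abs] at h10
    exact (le_abs_self _).trans h10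

open Cont in
/-- **cutoff and constants** for the slice mass lemma on the maximal graph domain (form with the
paraboloids `w_ C b s`) -/
theorem safe {A : PFol n₁ n₂ X} (K : KMet A) (hpull : St_pull K) {ε C₀ C : ℝ} (hε : 0 < ε)
    (hC₀ : 0 ≤ C₀) (hC : C₀ < C) {m : ℂ → ℝ → ℝ} {G : ℂ × ℂ → X} (hM : Maxi A ε m G)
    (hle : ∀ t e, m t e ≤ par C₀ t e) {ε₀ : ℝ} (hε₀ : 0 < ε₀) :
    ∃ (χ : ℂ × ℂ → ℝ) (S : Set (ℂ × ℂ)) (M β ρ : ℝ), ContDiff ℝ ∞ χ ∧ HasCompactSupport χ ∧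
      (∀ z, 0 ≤ χ z ∧ χ z ≤ 1) ∧
      (∀ z ∈ tsupport χ, ‖tau z‖ ≤ ε₀ ∧ |eta z| ≤ ε₀ ∧ |XX z| ≤ 1 ∧ ‖tau z‖ < ε ∧ |eta z| < ε ∧
        XX z < ε) ∧
      (∀ z, z ∉ S → ∀ᶠ w in 𝓝 z, χ w = χ z) ∧ 0 < β ∧ 0 < ρ ∧
      (∀ z ∈ ball (0 : ℂ × ℂ) ρ, χ z = 1) ∧
      ∀ z ∈ S ∩ tsupport χ, ∀ (b : ℂ) (s : ℝ), ‖b‖ ≤ β → 0 ≤ s → 0 < w_ C b s z →
        trM K G z ≤ M := by
  obtain ⟨χ, S, M, β, ρ, h1, h2, h3, h4, h5, h6, h7, h8, h9⟩ :=
    safe_core K hpull hε hC₀ hC hM hle hε₀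
  refine ⟨χ, S, M, β / ε₀, ρ, h1, h2, h3, h4, h5, by positivity, h7, h8, ?_⟩
  intro z hz b s hb hs hw
  refine h9 z hz ((b * tau z).re + s) ?_ ?_
  · have h10 := (abs_le.1 (re_mul_le b (tau z))).1
    have h11 : ‖b‖ * ‖tau z‖ ≤ β := by
      calc ‖b‖ * ‖tau z‖ ≤ β / ε₀ * ε₀ := by
            gcongr
            exact (h4 z hz.2).1
        _ = β := by field_simp
    linarith
  · have hw' : 0 < XX z - par C (tau z) (eta z) - (b * tau z).re - s := hw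
    linarith

/-- **cutoff and constants** for the slice mass lemma on the maximal graph domain (form with a
general function `L`) -/
theorem safeL {A : PFol n₁ n₂ X} (K : KMet A) (hpull : St_pull K) {ε C₀ C : ℝ} (hε : 0 < ε)
    (hC₀ : 0 ≤ C₀) (hC : C₀ < C) {m : ℂ → ℝ → ℝ} {G : ℂ × ℂ → X} (hM : Maxi A ε m G)
    (hle : ∀ t e, m t e ≤ par C₀ t e) {ε₀ : ℝ} (hε₀ : 0 < ε₀) :
    ∃ (χ : ℂ × ℂ → ℝ) (S : Set (ℂ × ℂ)) (M β ρ : ℝ), ContDiff ℝ ∞ χ ∧ HasCompactSupport χ ∧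
      (∀ z, 0 ≤ χ z ∧ χ z ≤ 1) ∧
      (∀ z ∈ tsupport χ, ‖tau z‖ ≤ ε₀ ∧ |eta z| ≤ ε₀ ∧ |XX z| ≤ 1) ∧
      (∀ z, z ∉ S → ∀ᶠ w in 𝓝 z, χ w = χ z) ∧ 0 < β ∧ 0 < ρ ∧
      (∀ z ∈ ball (0 : ℂ × ℂ) ρ, χ z = 1) ∧
      ∀ L : ℂ → ℝ, (∀ t, ‖t‖ ≤ ε₀ → -β ≤ L t) → (∀ t e, m t e ≤ par C t e + L t) →
        (∀ z ∈ tsupport χ, 0 < XX z - par C (tau z) (eta z) - L (tau z) → z ∈ GD ε m) ∧
        (∀ z ∈ S ∩ tsupport χ, 0 < XX z - par C (tau z) (eta z) - L (tau z) →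
          pullM K G z (1, 0) (1, 0) + pullM K G z (0, 1) (0, 1) ≤ M) := by
  obtain ⟨χ, S, M, β, ρ, h1, h2, h3, h4, h5, h6, h7, h8, h9⟩ :=
    Cont.safe_core K hpull hε hC₀ hC hM hle hε₀
  refine ⟨χ, S, M, β, ρ, h1, h2, h3, fun z hz => ⟨(h4 z hz).1, (h4 z hz).2.1, (h4 z hz).2.2.1⟩,
    h5, h6, h7, h8, fun L hL hmL => ⟨fun z hz hw => ?_, fun z hz hw => ?_⟩⟩
  · obtain ⟨-, -, -, k1, k2, k3⟩ := h4 z hz
    exact ⟨k1, k2, by linarith [hmL (tau z) (eta z)], k3⟩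
  · exact h9 z hz (L (tau z)) (hL _ (h4 z hz.2).1) hw

end

end Crest.Agent.R266
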