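import Mathlib

/-!
R266 / Softmin: smooth concave approximation from above of the minimum of finitely many affine
functions.
-/

set_option autoImplicit false

open scoped ContDiff Topology
open Set Metric Filter

namespace Crest.Agent.R266

section
variable {E : Type*} [NormedAddCommGroup E] [NormedSpace ℝ E] {ι : Type*}

/-- abstract softmin -/
theorem softmin_aux (s : Finset ι) (hs : s.Nonempty) (l : ι → E →L[ℝ] ℝ) (σ : ι → ℝ) (δ : ℝ)
    (hδ : 0 < δ) (e₀ : ℝ) (hb : ∀ b ∈ s, ‖l b‖ ≤ e₀) :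
    ∃ L : E → ℝ, ContDiff ℝ ∞ L ∧ (∀ t, ‖fderiv ℝ L t‖ ≤ e₀) ∧
      (∀ t v, fderiv ℝ (fun s => fderiv ℝ L s v) t v ≤ 0) ∧
      (∀ t, ∃ b ∈ s, l b t + σ b ≤ L t) ∧ (∀ t, ∀ b ∈ s, L t ≤ l b t + σ b + δ) := by
  classical
  have hcard : (1 : ℝ) ≤ s.card := by exact_mod_cast hs.card_pos
  have hlog : 0 ≤ Real.log s.card := Real.log_nonneg hcard
  obtain ⟨ε, hε, hεδ⟩ : ∃ ε : ℝ, 0 < ε ∧ ε * Real.log s.card ≤ δ := by
    refine ⟨δ / (Real.log s.card + 1), by positivity, ?_⟩
    rw [div_mul_eq_mul_div, div_le_iff₀ (by positivity)]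
    nlinarith
  -- the exponentials
  set f : ι → E → ℝ := fun b t => Real.exp (-(l b t + σ b) / ε) with hf
  have hfpos : ∀ b t, 0 < f b t := fun b t => Real.exp_pos _
  have hfd : ∀ b t, HasFDerivAt (f b) (f b t • (-(1 / ε) • l b)) t := by
    intro b t
    have h1 : HasFDerivAt (fun t => -(l b t + σ b) / ε) (-(1 / ε) • l b) t := by
      have h0 : HasFDerivAt (fun t => l b t + σ b) (l b) t := (l b).hasFDerivAt.add_const _
      have h2 := h0.const_mul (-(1 / ε))
      refine h2.congr_of_eventuallyEq (Eventually.of_forall fun t => ?_)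
      simp only
      ring
    exact h1.exp
  have hfsm : ∀ b, ContDiff ℝ ∞ (f b) := by
    intro b
    apply Real.contDiff_exp.comp
    exact (((l b).contDiff.add contDiff_const).neg).div_const _
  set S : E → ℝ := fun t => ∑ b ∈ s, f b t with hS
  have hSpos : ∀ t, 0 < S t := fun t => Finset.sum_pos (fun b _ => hfpos b t) hs
  have hSsm : ContDiff ℝ ∞ S := ContDiff.sum fun b _ => hfsm b
  have hSd : ∀ t, HasFDerivAt S (∑ b ∈ s, f b t • (-(1 / ε) • l b)) t := by
    intro t
    exact HasFDerivAt.fun_sum fun b _ => hfd b t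
  set L : E → ℝ := fun t => -ε * Real.log (S t) + ε * Real.log s.card with hL
  have hLsm : ContDiff ℝ ∞ L := by
    have : ContDiff ℝ ∞ (fun t => Real.log (S t)) := hSsm.log fun t => (hSpos t).ne'
    exact (contDiff_const.mul this).add contDiff_const
  -- first derivative
  have hLd : ∀ t, HasFDerivAt L ((S t)⁻¹ • ∑ b ∈ s, f b t • l b) t := by
    intro t
    have h1 := ((hSd t).log (hSpos t).ne').const_mul (-ε)
    have h2 := h1.add_const (ε * Real.log s.card)
    refine h2.congr_fderiv ?_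
    rw [smul_comm, Finset.smul_sum, Finset.smul_sum, Finset.smul_sum]
    refine Finset.sum_congr rfl fun b _ => ?_
    ext v
    simp only [smul_apply, smul_eq_mul]
    field_simp
  have hLv : ∀ t v, fderiv ℝ L t v = (S t)⁻¹ * ∑ b ∈ s, f b t * l b v := by
    intro t v
    rw [(hLd t).fderiv]
    simp [sum_apply]
  refine ⟨L, hLsm, ?_, ?_, ?_, ?_⟩
  · intro t
    rw [(hLd t).fderiv, norm_smul, Real.norm_eq_abs, abs_of_pos (inv_pos.2 (hSpos t)),
      inv_mul_le_iff₀ (hSpos t)]
    calc ‖∑ b ∈ s, f b t • l b‖ ≤ ∑ b ∈ s, ‖f b t • l b‖ := norm_sum_le _ _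
      _ ≤ ∑ b ∈ s, f b t * e₀ := by
          refine Finset.sum_le_sum fun b hbs => ?_
          rw [norm_smul, Real.norm_eq_abs, abs_of_pos (hfpos b t)]
          exact mul_le_mul_of_nonneg_left (hb b hbs) (hfpos b t).le
      _ = S t * e₀ := by rw [hS, Finset.sum_mul]
  · intro t v
    have heq : (fun s => fderiv ℝ L s v) = fun t => (S t)⁻¹ * ∑ b ∈ s, f b t * l b v := by
      funext t
      exact hLv t v
    rw [heq]
    have hN : HasFDerivAt (fun t => ∑ b ∈ s, f b t * l b v)
        (∑ b ∈ s, l b v • (f b t • (-(1 / ε) • l b))) t := by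
      refine HasFDerivAt.fun_sum fun b _ => ?_
      have := (hfd b t).mul_const (l b v)
      simpa using this
    have hSi : HasFDerivAt (fun t => (S t)⁻¹) (-((S t) ^ 2)⁻¹ • ∑ b ∈ s, f b t • (-(1 / ε) • l b))
        t := (hasDerivAt_inv (hSpos t).ne').comp_hasFDerivAt t (hSd t)
    have hprod := hSi.mul hN
    have hprod' : HasFDerivAt (fun t => (S t)⁻¹ * ∑ b ∈ s, f b t * l b v)
      ((S t)⁻¹ • (∑ b ∈ s, l b v • (f b t • (-(1 / ε) • l b))) +
        (∑ b ∈ s, f b t * l b v) • (-((S t) ^ 2)⁻¹ • ∑ b ∈ s, f b t • (-(1 / ε) • l b))) t := hprod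
    rw [hprod'.fderiv]
    simp only [add_apply, smul_apply, sum_apply, smul_eq_mul]
    have e1 : ∑ b ∈ s, l b v * (f b t * (-(1 / ε) * l b v))
        = -(1 / ε) * ∑ b ∈ s, f b t * (l b v) ^ 2 := by
      rw [Finset.mul_sum]
      exact Finset.sum_congr rfl fun b _ => by ring
    have e2 : ∑ b ∈ s, f b t * (-(1 / ε) * l b v) = -(1 / ε) * ∑ b ∈ s, f b t * l b v := by
      rw [Finset.mul_sum]
      exact Finset.sum_congr rfl fun b _ => by ring
    rw [e1, e2]
    set A := ∑ b ∈ s, f b t * (l b v) ^ 2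
    set B := ∑ b ∈ s, f b t * l b v
    have hCS : B ^ 2 ≤ S t * A := by
      have h := Finset.sum_sq_le_sum_mul_sum_of_sq_le_mul s (r := fun b => f b t * l b v)
        (f := fun b => f b t) (g := fun b => f b t * (l b v) ^ 2)
        (fun b _ => (hfpos b t).le) (fun b _ => by have := (hfpos b t).le; positivity)
        (fun b _ => le_of_eq (by ring))
      exact h
    have hS0 := hSpos t
    have : (S t)⁻¹ * (-(1 / ε) * A) + B * (-((S t) ^ 2)⁻¹ * (-(1 / ε) * B))
        = (1 / ε) * ((S t) ^ 2)⁻¹ * (B ^ 2 - S t * A) := by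
      field_simp
      ring
    rw [this]
    apply mul_nonpos_of_nonneg_of_nonpos (by positivity)
    linarith
  · intro t
    obtain ⟨b, hbs, hmin⟩ := s.exists_min_image (fun b => l b t + σ b) hs
    refine ⟨b, hbs, ?_⟩
    have h1 : S t ≤ s.card * f b t := by
      calc S t = ∑ c ∈ s, f c t := rfl
        _ ≤ ∑ c ∈ s, f b t := by
            refine Finset.sum_le_sum fun c hc => ?_
            apply Real.exp_le_exp.2
            have := hmin c hc
            gcongr
        _ = s.card * f b t := by simp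
    have h2 : Real.log (S t) ≤ Real.log s.card + (-(l b t + σ b) / ε) := by
      have := Real.log_le_log (hSpos t) h1
      rw [Real.log_mul (by positivity) (hfpos b t).ne'] at this
      simpa [hf] using this
    have h3 : ε * Real.log (S t) ≤ ε * Real.log s.card - (l b t + σ b) := by
      have := mul_le_mul_of_nonneg_left h2 hε.le
      have h4 : ε * (Real.log s.card + (-(l b t + σ b) / ε))
          = ε * Real.log s.card - (l b t + σ b) := by
        field_simp
        ring
      linarith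
    simp only [hL]
    linarith
  · intro t b hbs
    have h1 : f b t ≤ S t :=
      Finset.single_le_sum (f := fun b => f b t) (fun c _ => (hfpos c t).le) hbs
    have h2 : -(l b t + σ b) / ε ≤ Real.log (S t) := by
      have := Real.log_le_log (hfpos b t) h1
      simpa [hf] using this
    have h3 : -(l b t + σ b) ≤ ε * Real.log (S t) := by
      rw [div_le_iff₀ hε] at h2
      linarith
    simp only [hL]
    linarith

end

/-- the linear functional `t ↦ Re (b t)` -/
noncomputable def reMul (b : ℂ) : ℂ →L[ℝ] ℝ :=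
  Complex.reCLM.comp (ContinuousLinearMap.mul ℝ ℂ b)

theorem reMul_apply (b t : ℂ) : reMul b t = (b * t).re := rfl

theorem norm_reMul_le (b : ℂ) : ‖reMul b‖ ≤ ‖b‖ := by
  refine ContinuousLinearMap.opNorm_le_bound _ (norm_nonneg _) fun t => ?_
  rw [reMul_apply, ← norm_mul, Real.norm_eq_abs]
  exact Complex.abs_re_le_norm _

/-- softmin of the affine functions `Re (b t) + σ b`, in the form needed for `St_B`. -/
theorem softmin_exists (s : Finset ℂ) (hs : s.Nonempty) (σ : ℂ → ℝ) (δ : ℝ) (hδ : 0 < δ) (e₀ : ℝ)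
    (hb : ∀ b ∈ s, ‖b‖ ≤ e₀) :
    ∃ L : ℂ → ℝ, ContDiff ℝ ∞ L ∧ (∀ t, ‖fderiv ℝ L t‖ ≤ e₀) ∧
      (∀ t, fderiv ℝ (fun s => fderiv ℝ L s 1) t 1
        + fderiv ℝ (fun s => fderiv ℝ L s Complex.I) t Complex.I ≤ 0) ∧
      (∀ t, ∃ b ∈ s, (b * t).re + σ b ≤ L t) ∧
      (∀ t, ∀ b ∈ s, L t ≤ (b * t).re + σ b + δ) := by
  obtain ⟨L, h1, h2, h3, h4, h5⟩ := softmin_aux s hs reMul σ δ hδ e₀
    fun b hbs => (norm_reMul_le b).trans (hb b hbs)
  exact ⟨L, h1, h2, fun t => add_nonpos (h3 t 1) (h3 t Complex.I), h4, h5⟩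

end Crest.Agent.R266
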