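import Mathlib
import Crest.Prelude.Def_TangentSplitting
import Crest.Agent.R266.StepOne

/-!
R266 / StepOneC: density of two-point submersive points implies density of one-point submersive
points of a family of rational curves.
-/

set_option autoImplicit false

open scoped Manifold ContDiff Topology
open Set Filter Metric Crest.AlgGeometry.HolSplit

namespace Crest.Agent.R266.S1

variable {n : ℕ} {X : Type} [TopologicalSpace X] [ChartedSpace (Model n) X]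
  [IsManifold (mI n) ω X]

omit [IsManifold (mI n) ω X] in
/-- a two-point submersive point gives a one-point submersive point -/
theorem onePt_of_twoPt {E : Type} [NormedAddCommGroup E] [NormedSpace ℂ E] {W : Set E}
    (hW : IsOpen W) {f : E → Bool → ℂ → X} (hf : IsFam n W f) (b b' : Bool) {p : E × ℂ × ℂ}
    (hp : p.1 ∈ W) (h : Function.Surjective (mfderiv 𝓘(ℂ, E × ℂ × ℂ) ((mI n).prod (mI n))
      (F404.twoPt f b b') p)) :
    Function.Surjective (mfderiv 𝓘(ℂ, E × ℂ) (mI n) (fun q : E × ℂ => f q.1 b q.2)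
      (p.1, p.2.1)) := by
  have hd : MDifferentiableAt 𝓘(ℂ, E × ℂ × ℂ) ((mI n).prod (mI n)) (F404.twoPt f b b') p :=
    ((tp_hol hf b b').contMDiffAt ((hW.prod (isOpen_univ.prod isOpen_univ)).mem_nhds
      ⟨hp, mem_univ _, mem_univ _⟩)).mdifferentiableAt (by simp)
  have hd1 : MDifferentiableAt 𝓘(ℂ, E × ℂ) (mI n) (fun q : E × ℂ => f q.1 b q.2)
      (p.1, p.2.1) :=
    ((hf.hol b).contMDiffAt ((hW.prod isOpen_univ).mem_nhds
      ⟨hp, mem_univ _⟩)).mdifferentiableAt (by simp)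
  let L : E × ℂ × ℂ →L[ℂ] E × ℂ :=
    (ContinuousLinearMap.fst ℂ E (ℂ × ℂ)).prod
      ((ContinuousLinearMap.fst ℂ ℂ ℂ).comp (ContinuousLinearMap.snd ℂ E (ℂ × ℂ)))
  have hL : MDifferentiableAt 𝓘(ℂ, E × ℂ × ℂ) 𝓘(ℂ, E × ℂ) (L : E × ℂ × ℂ → E × ℂ) p :=
    L.differentiableAt.mdifferentiableAt
  have e1 : (Prod.fst ∘ F404.twoPt f b b' : E × ℂ × ℂ → X) =
      (fun q : E × ℂ => f q.1 b q.2) ∘ (L : E × ℂ × ℂ → E × ℂ) := by
    funext q
    rfl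
  have c1 : mfderiv 𝓘(ℂ, E × ℂ × ℂ) (mI n) (Prod.fst ∘ F404.twoPt f b b' : E × ℂ × ℂ → X) p =
      (mfderiv ((mI n).prod (mI n)) (mI n) (Prod.fst : X × X → X) (F404.twoPt f b b' p)).comp
        (mfderiv 𝓘(ℂ, E × ℂ × ℂ) ((mI n).prod (mI n)) (F404.twoPt f b b') p) :=
    mfderiv_comp p mdifferentiableAt_fst hd
  have c2 : mfderiv 𝓘(ℂ, E × ℂ × ℂ) (mI n)
      ((fun q : E × ℂ => f q.1 b q.2) ∘ (L : E × ℂ × ℂ → E × ℂ)) p =
      (mfderiv 𝓘(ℂ, E × ℂ) (mI n) (fun q : E × ℂ => f q.1 b q.2) (p.1, p.2.1)).comp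
        (mfderiv 𝓘(ℂ, E × ℂ × ℂ) 𝓘(ℂ, E × ℂ) (L : E × ℂ × ℂ → E × ℂ) p) :=
    mfderiv_comp p hd1 hL
  rw [e1, c2, mfderiv_fst] at c1
  intro v
  obtain ⟨u, hu⟩ := h (v, 0)
  refine ⟨mfderiv 𝓘(ℂ, E × ℂ × ℂ) 𝓘(ℂ, E × ℂ) (L : E × ℂ × ℂ → E × ℂ) p u, ?_⟩
  have c3 := congrArg (fun A => A u) c1
  have c4 : (ContinuousLinearMap.fst ℂ (TangentSpace (mI n) (F404.twoPt f b b' p).1)
      (TangentSpace (mI n) (F404.twoPt f b b' p).2))
      (mfderiv 𝓘(ℂ, E × ℂ × ℂ) ((mI n).prod (mI n)) (F404.twoPt f b b') p u) = v := by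
    rw [hu]
    rfl
  exact c3.trans c4

omit [IsManifold (mI n) ω X] in
/-- density of one-point submersive points (the hypothesis of `St_three`) -/
theorem onePt_dense {E : Type} [NormedAddCommGroup E] [NormedSpace ℂ E] {W : Set E}
    (hW : IsOpen W) {f : E → Bool → ℂ → X} (hf : IsFam n W f) (b b' : Bool)
    (h : ∀ V : Set (E × ℂ × ℂ), IsOpen V → V.Nonempty → V ⊆ W ×ˢ (univ ×ˢ univ) →
      ∃ p ∈ V, Function.Surjective
        (mfderiv 𝓘(ℂ, E × ℂ × ℂ) ((mI n).prod (mI n)) (F404.twoPt f b b') p))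
    (O : Set (E × ℂ)) (hO : IsOpen O) (hne : O.Nonempty) (hOW : O ⊆ W ×ˢ univ) :
    ∃ p ∈ O, Function.Surjective
      (mfderiv 𝓘(ℂ, E × ℂ) (mI n) (fun q : E × ℂ => f q.1 b q.2) p) := by
  obtain ⟨q, hq⟩ := hne
  have hc : Continuous (fun p : E × ℂ × ℂ => ((p.1, p.2.1) : E × ℂ)) := by fun_prop
  obtain ⟨p, hp, hs⟩ := h ((fun p : E × ℂ × ℂ => ((p.1, p.2.1) : E × ℂ)) ⁻¹' O)
    (hO.preimage hc) ⟨(q.1, q.2, 0), hq⟩
    (fun p hp => ⟨(hOW hp).1, mem_univ _, mem_univ _⟩)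
  exact ⟨(p.1, p.2.1), hp, onePt_of_twoPt hW hf b b' (hOW hp).1 hs⟩

end Crest.Agent.R266.S1
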