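import Crest.Agent.R266.StepThreeDefs

/-!
R266 / StepThreeA (helper338): gluing of two discs to `P¹`, and the rational curves obtained by
restricting the doubling `F_s(z₁,z₂)` to lines `z₂ = α z₁ + β` near the diagonal.
-/

set_option autoImplicit false

open scoped Manifold ContDiff Topology
open Set Metric Filter
open Crest.AlgGeometry.HolSplit
open Crest.Agent.R266

namespace Crest.Agent.R266.St3

variable {n : ℕ} {X : Type*} [TopologicalSpace X] [ChartedSpace (Model n) X]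
variable {E : Type*} [NormedAddCommGroup E] [NormedSpace ℂ E]

/-- gluing of two maps of the disc of radius `3/2` to a map of `P¹` -/
noncomputable def glueP1 (A : Bool → ℂ → X) : Bool → ℂ → X :=
  fun b z => if ‖z‖ < 3 / 2 then A b z else A (!b) z⁻¹

omit [TopologicalSpace X] [ChartedSpace (Model n) X] in
lemma glueP1_glue (A : Bool → ℂ → X)
    (hA : ∀ b (z : ℂ), 2 / 3 < ‖z‖ → ‖z‖ < 3 / 2 → A (!b) z⁻¹ = A b z) (b : Bool) (z : ℂ)
    (hz : z ≠ 0) : glueP1 A (!b) z = glueP1 A b z⁻¹ := by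
  have hz' : 0 < ‖z‖ := norm_pos_iff.2 hz
  unfold glueP1
  rw [norm_inv, inv_inv, Bool.not_not]
  by_cases h1 : ‖z‖ < 3 / 2
  · rw [if_pos h1]
    by_cases h2 : ‖z‖⁻¹ < 3 / 2
    · rw [if_pos h2]
      have h3 : 2 / 3 < ‖z‖ := by
        rw [inv_lt_comm₀ hz' (by norm_num)] at h2
        linarith [show (3 / 2 : ℝ)⁻¹ = 2 / 3 by norm_num]
      have := hA (!b) z h3 h1
      rw [Bool.not_not] at this
      exact this.symm
    · rw [if_neg h2]
  · rw [if_neg h1]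
    have h2 : ‖z‖⁻¹ < 3 / 2 := by
      rw [inv_lt_comm₀ hz' (by norm_num)]
      rw [not_lt] at h1
      have : (3 / 2 : ℝ)⁻¹ = 2 / 3 := by norm_num
      rw [this]; linarith
    rw [if_pos h2]

lemma glueP1_hol (A : Bool → ℂ → X)
    (hs : ∀ b, ContMDiffOn 𝓘(ℂ, ℂ) (mI n) ω (A b) (ball 0 (3 / 2)))
    (hA : ∀ b (z : ℂ), 2 / 3 < ‖z‖ → ‖z‖ < 3 / 2 → A (!b) z⁻¹ = A b z) (b : Bool) :
    ContMDiff 𝓘(ℂ, ℂ) (mI n) ω (glueP1 A b) := by
  intro z
  by_cases h1 : ‖z‖ < 3 / 2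
  · have hmem : ball (0 : ℂ) (3 / 2) ∈ 𝓝 z := isOpen_ball.mem_nhds (by simpa using h1)
    refine ((hs b).contMDiffAt hmem).congr_of_eventuallyEq ?_
    filter_upwards [hmem] with w hw
    have : ‖w‖ < 3 / 2 := by simpa using hw
    simp only [glueP1, if_pos this]
  · rw [not_lt] at h1
    have hz0 : z ≠ 0 := by
      rintro rfl
      norm_num at h1
    have hz' : 0 < ‖z‖ := norm_pos_iff.2 hz0
    have hzi : ‖z⁻¹‖ < 3 / 2 := by
      rw [norm_inv, inv_lt_comm₀ hz' (by norm_num)]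
      have : (3 / 2 : ℝ)⁻¹ = 2 / 3 := by norm_num
      rw [this]; linarith
    have hmem : ball (0 : ℂ) (3 / 2) ∈ 𝓝 z⁻¹ := isOpen_ball.mem_nhds (by simpa using hzi)
    have h2 : ContMDiffAt 𝓘(ℂ, ℂ) (mI n) ω (fun w => A (!b) w⁻¹) z := by
      have h3 : ContMDiffAt 𝓘(ℂ, ℂ) 𝓘(ℂ, ℂ) ω (fun w : ℂ => w⁻¹) z := by
        rw [contMDiffAt_iff_contDiffAt]
        exact contDiffAt_inv ℂ hz0
      exact ContMDiffAt.comp z (g := A (!b)) ((hs (!b)).contMDiffAt hmem) h3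
    refine h2.congr_of_eventuallyEq ?_
    have h4 : ∀ᶠ w : ℂ in 𝓝 z, 2 / 3 < ‖w‖ :=
      (continuous_norm.continuousAt).eventually_const_lt (by linarith)
    filter_upwards [h4] with w hw
    by_cases h5 : ‖w‖ < 3 / 2
    · simp only [glueP1, if_pos h5]
      exact (hA b w hw h5).symm
    · simp only [glueP1, if_neg h5]

/-- the two discs of the curve along the line `z₂ = α z₁ + β` -/
noncomputable def lineA (F : Bool → E × ℂ × ℂ → X) (s : E) (α β : ℂ) : Bool → ℂ → X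
  | false, z => F false (s, z, α * z + β)
  | true, u => F true (s, u, u / (α + β * u))

/-- estimates -/
lemma line_est {δ : ℝ} (hδ : 0 < δ) : ∃ ε > 0, ∀ α β z : ℂ, ‖α - 1‖ < ε → ‖β‖ < ε → ‖z‖ < 3 / 2 →
    ‖α * z + β‖ < 2 ∧ ‖z - (α * z + β)‖ < δ ∧ α + β * z ≠ 0 ∧ ‖z / (α + β * z)‖ < 2 ∧
      ‖z - z / (α + β * z)‖ < δ := by
  refine ⟨min (1 / 20) (δ / 10), by positivity, fun α β z hα hβ hz => ?_⟩
  have hα1 : ‖α - 1‖ < 1 / 20 := hα.trans_le (min_le_left _ _)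
  have hα2 : ‖α - 1‖ < δ / 10 := hα.trans_le (min_le_right _ _)
  have hβ1 : ‖β‖ < 1 / 20 := hβ.trans_le (min_le_left _ _)
  have hβ2 : ‖β‖ < δ / 10 := hβ.trans_le (min_le_right _ _)
  have n1 : ‖(α - 1) * z‖ ≤ ‖α - 1‖ * (3 / 2) := by
    rw [norm_mul]; exact mul_le_mul_of_nonneg_left hz.le (norm_nonneg _)
  have n2 : ‖β * z‖ ≤ ‖β‖ * (3 / 2) := by
    rw [norm_mul]; exact mul_le_mul_of_nonneg_left hz.le (norm_nonneg _)
  have hd : ‖z - (α * z + β)‖ ≤ ‖(α - 1) * z‖ + ‖β‖ := by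
    have : z - (α * z + β) = -((α - 1) * z + β) := by ring
    rw [this, norm_neg]
    exact norm_add_le _ _
  have hw : ‖1 - (α + β * z)‖ ≤ ‖α - 1‖ + ‖β * z‖ := by
    have : 1 - (α + β * z) = -((α - 1) + β * z) := by ring
    rw [this, norm_neg]
    exact norm_add_le _ _
  have hw3 : 4 / 5 < ‖α + β * z‖ := by
    have h1 : ‖(1 : ℂ)‖ ≤ ‖1 - (α + β * z)‖ + ‖α + β * z‖ := by
      have := norm_add_le (1 - (α + β * z)) (α + β * z)
      simpa using this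
    rw [norm_one] at h1
    linarith
  have hw0 : α + β * z ≠ 0 := by
    intro h
    rw [h, norm_zero] at hw3
    linarith
  have hq : ‖z - z / (α + β * z)‖ ≤ (3 / 2) * (‖1 - (α + β * z)‖ * (5 / 4)) := by
    have h1 : z - z / (α + β * z) = z * (-(1 - (α + β * z)) / (α + β * z)) := by
      generalize α + β * z = w at hw0 ⊢
      field_simp
      ring
    rw [h1, norm_mul, norm_div, norm_neg]
    refine mul_le_mul hz.le ?_ (by positivity) (by norm_num)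
    rw [div_eq_mul_inv]
    refine mul_le_mul_of_nonneg_left ?_ (norm_nonneg _)
    rw [inv_le_comm₀ (by linarith) (by norm_num)]
    linarith [show (5 / 4 : ℝ)⁻¹ = 4 / 5 by norm_num]
  refine ⟨?_, by linarith, hw0, ?_, by linarith⟩
  · have h1 : α * z + β = z - (z - (α * z + β)) := by ring
    rw [h1]
    have h2 := norm_sub_le z (z - (α * z + β))
    linarith
  · have h1 : z / (α + β * z) = z - (z - z / (α + β * z)) := by ring
    rw [h1]
    have h2 := norm_sub_le z (z - z / (α + β * z))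
    linarith

omit [NormedSpace ℂ E] in
lemma line_mem {s₀ s : E} {r δ : ℝ} {z w : ℂ} (hs : ‖s - s₀‖ < r) (hz : ‖z‖ < 3 / 2)
    (hw : ‖w‖ < 2) (h : ‖z - w‖ < δ) : (s, z, w) ∈ Dg s₀ r δ :=
  ⟨hs, by simpa using hz.trans (by norm_num), hw, h⟩

variable [IsManifold (mI n) ω X]

lemma lineA_glue {S : Splitting n X} {f : E → Bool → ℂ → X} {s₀ : E} {r δ : ℝ}
    {F : Bool → E × ℂ × ℂ → X} (hD : Dbl S f s₀ r δ F) {s : E} (hs : ‖s - s₀‖ < r) {α β : ℂ}
    (hest : ∀ z : ℂ, ‖z‖ < 3 / 2 →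
    ‖α * z + β‖ < 2 ∧ ‖z - (α * z + β)‖ < δ ∧ α + β * z ≠ 0 ∧ ‖z / (α + β * z)‖ < 2 ∧
      ‖z - z / (α + β * z)‖ < δ) (b : Bool) (z : ℂ) (h1 : 2 / 3 < ‖z‖) (h2 : ‖z‖ < 3 / 2) :
    lineA F s α β (!b) z⁻¹ = lineA F s α β b z := by
  have hz0 : z ≠ 0 := by
    rintro rfl
    norm_num at h1
  have hz' : 0 < ‖z‖ := norm_pos_iff.2 hz0
  have hzi : ‖z⁻¹‖ < 3 / 2 := by
    rw [norm_inv, inv_lt_comm₀ hz' (by norm_num)]
    have : (3 / 2 : ℝ)⁻¹ = 2 / 3 := by norm_num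
    rw [this]; exact h1
  obtain ⟨a1, a2, a3, a4, a5⟩ := hest z h2
  obtain ⟨b1, b2, b3, b4, b5⟩ := hest z⁻¹ hzi
  cases b
  · -- b = false
    simp only [Bool.not_false, lineA]
    have e1 : z⁻¹ / (α + β * z⁻¹) = (α * z + β)⁻¹ := by
      field_simp
    have e2 : α * z + β ≠ 0 := by
      intro h
      apply b3
      have : α + β * z⁻¹ = (α * z + β) / z := by field_simp
      rw [this, h, zero_div]
    rw [e1] at b4 b5 ⊢
    have := hD.glue false s z⁻¹ (α * z + β)⁻¹ (inv_ne_zero hz0) (inv_ne_zero e2)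
      (line_mem hs hzi b4 b5) (by rw [inv_inv, inv_inv]; exact line_mem hs h2 a1 a2)
    rw [inv_inv, inv_inv] at this
    exact this
  · simp only [Bool.not_true, lineA]
    have e1 : α * z⁻¹ + β = (z / (α + β * z))⁻¹ := by
      field_simp
    have e2 : α * z⁻¹ + β ≠ 0 := by
      rw [e1]
      exact inv_ne_zero (div_ne_zero hz0 a3)
    have e3 : (α * z⁻¹ + β)⁻¹ = z / (α + β * z) := by rw [e1, inv_inv]
    have := hD.glue true s z⁻¹ (α * z⁻¹ + β) (inv_ne_zero hz0) e2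
      (line_mem hs hzi b1 b2) (by rw [inv_inv, e3]; exact line_mem hs h2 a4 a5)
    rw [inv_inv, e3] at this
    exact this

lemma lineA_hol {S : Splitting n X} {f : E → Bool → ℂ → X} {s₀ : E} {r δ : ℝ}
    {F : Bool → E × ℂ × ℂ → X} (hD : Dbl S f s₀ r δ F) {s : E} (hs : ‖s - s₀‖ < r) {α β : ℂ}
    (hest : ∀ z : ℂ, ‖z‖ < 3 / 2 →
    ‖α * z + β‖ < 2 ∧ ‖z - (α * z + β)‖ < δ ∧ α + β * z ≠ 0 ∧ ‖z / (α + β * z)‖ < 2 ∧
      ‖z - z / (α + β * z)‖ < δ) (b : Bool) :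
    ContMDiffOn 𝓘(ℂ, ℂ) (mI n) ω (lineA F s α β b) (ball 0 (3 / 2)) := by
  cases b
  · have h1 : ContMDiffOn 𝓘(ℂ, ℂ) 𝓘(ℂ, E × ℂ × ℂ) ω (fun z : ℂ => (s, z, α * z + β))
        (ball 0 (3 / 2)) := by
      rw [contMDiffOn_iff_contDiffOn]
      fun_prop
    refine (hD.hol false).comp h1 ?_
    intro z hz
    have hz' : ‖z‖ < 3 / 2 := by simpa using hz
    obtain ⟨a1, a2, a3, a4, a5⟩ := hest z hz'
    exact line_mem hs hz' a1 a2
  · have h1 : ContMDiffOn 𝓘(ℂ, ℂ) 𝓘(ℂ, E × ℂ × ℂ) ω (fun z : ℂ => (s, z, z / (α + β * z)))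
        (ball 0 (3 / 2)) := by
      rw [contMDiffOn_iff_contDiffOn]
      refine contDiffOn_const.prodMk (contDiffOn_id.prodMk (ContDiffOn.div contDiffOn_id ?_ ?_))
      · fun_prop
      · intro z hz
        exact (hest z (by simpa using hz)).2.2.1
    refine (hD.hol true).comp h1 ?_
    intro z hz
    have hz' : ‖z‖ < 3 / 2 := by simpa using hz
    obtain ⟨a1, a2, a3, a4, a5⟩ := hest z hz'
    exact line_mem hs hz' a4 a5

/-- (T1) the restriction of the doubling to a line close to the diagonal extends to a rational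
curve. -/
theorem exists_line_curve {S : Splitting n X} {f : E → Bool → ℂ → X} {s₀ : E} {r δ : ℝ}
    (hδ : 0 < δ) {F : Bool → E × ℂ × ℂ → X} (hD : Dbl S f s₀ r δ F) :
    ∃ ε > 0, ∀ s : E, ‖s - s₀‖ < r → ∀ α β : ℂ, ‖α - 1‖ < ε → ‖β‖ < ε →
      (∀ z : ℂ, ‖z‖ < 3 / 2 → (s, z, α * z + β) ∈ Dg s₀ r δ) ∧
      ∃ h : Bool → ℂ → X, (∀ b, ContMDiff 𝓘(ℂ, ℂ) (mI n) ω (h b)) ∧
        (∀ b (z : ℂ), z ≠ 0 → h (!b) z = h b z⁻¹) ∧
        ∀ z : ℂ, ‖z‖ < 3 / 2 → h false z = F false (s, z, α * z + β) := by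
  obtain ⟨ε, hε, hest⟩ := line_est hδ
  refine ⟨ε, hε, fun s hs α β hα hβ => ?_⟩
  have hest' := fun z => hest α β z hα hβ
  refine ⟨fun z hz => line_mem hs hz (hest' z hz).1 (hest' z hz).2.1, glueP1 (lineA F s α β),
    glueP1_hol _ (lineA_hol hD hs hest') (lineA_glue hD hs hest'),
    glueP1_glue _ (lineA_glue hD hs hest'), fun z hz => ?_⟩
  simp only [glueP1, if_pos hz, lineA]

end Crest.Agent.R266.St3
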