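import Crest.Agent.R266.StepThreeDefs
import Crest.Agent.R266.Chart
import Crest.Agent.R266.SurjDense

/-!
R266 / StepThreeB (helper338): derivatives in charts, identity theorem for tangency of curves to
the summands of the splitting, swapped splitting.
-/

set_option autoImplicit false

open scoped Manifold ContDiff Topology
open Set Metric Filter
open Crest.AlgGeometry.HolSplit

namespace Crest.Agent.R266.St3

section deriv

variable {n : ℕ} {X : Type*} [TopologicalSpace X] [ChartedSpace (Model n) X]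
  [IsManifold (mI n) ω X]
variable {G : Type*} [NormedAddCommGroup G] [NormedSpace ℂ G]

/-- the differential of a map into `X`, read in the chart at `x₀` -/
lemma tcc_mfderiv {f : G → X} {z : G} (hf : MDifferentiableAt 𝓘(ℂ, G) (mI n) f z) {x₀ : X}
    (hx : f z ∈ (chartAt (Model n) x₀).source) (v : G) :
    tcc (f z) x₀ (f z) (mfderiv 𝓘(ℂ, G) (mI n) f z v) =
      fderiv ℂ (fun w => chartAt (Model n) x₀ (f w)) z v := by
  have h1 : MDifferentiableAt (mI n) 𝓘(ℂ, Model n) (extChartAt (mI n) x₀) (f z) :=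
    mdifferentiableAt_extChartAt hx
  have h2 := mfderiv_comp z h1 hf
  have h3 : (extChartAt (mI n) x₀ ∘ f) = fun w => chartAt (Model n) x₀ (f w) := by
    funext w
    simp [extChartAt]
  rw [h3, mfderiv_eq_fderiv] at h2
  have h4 := congrArg (fun T : G →L[ℂ] Model n => T v) h2
  refine Eq.trans ?_ h4.symm
  exact (congrArg (fun L : Model n →L[ℂ] Model n => L (mfderiv 𝓘(ℂ, G) (mI n) f z v))
    (mfderiv_extChart hx)).symm

/-- a map into `X` which is holomorphic at `z` is analytic in charts -/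
lemma analyticAt_chart {f : G → X} {z : G} (hf : ContMDiffAt 𝓘(ℂ, G) (mI n) ω f z) {x₀ : X}
    (hx : f z ∈ (chartAt (Model n) x₀).source) :
    AnalyticAt ℂ (fun w => chartAt (Model n) x₀ (f w)) z := by
  have h1 : ContMDiffAt (mI n) (mI n) ω (chartAt (Model n) x₀) (f z) :=
    (contMDiffOn_chart (I := mI n) (n := ω) (x := x₀)).contMDiffAt
      ((chartAt (Model n) x₀).open_source.mem_nhds hx)
  have h2 : ContMDiffAt 𝓘(ℂ, G) (mI n) ω (fun w => chartAt (Model n) x₀ (f w)) z := h1.comp z hf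
  exact (contMDiffAt_iff_contDiffAt.1 h2).analyticAt

lemma pr_eq (S : Splitting n X) {x₀ x : X} (hx : x ∈ (chartAt (Model n) x₀).source)
    (v : Model n) : tcc x x₀ x (pr S x v) = Pc S x₀ (chartAt (Model n) x₀ x) (tcc x x₀ x v) := by
  have h := Pc_tcc S ((chartAt (Model n) x₀).map_source hx) v
  rw [(chartAt (Model n) x₀).left_inv hx] at h
  exact h.symm

lemma tcc_injective {x₀ x : X} (hx : x ∈ (chartAt (Model n) x₀).source) {u v : Model n}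
    (h : tcc x x₀ x u = tcc x x₀ x v) : u = v := by
  have := congrArg (tcc x₀ x x) h
  rwa [tcc_cancel' hx, tcc_cancel' hx] at this

lemma Pc_analyticAt (S : Splitting n X) {x₀ : X} {y : Model n}
    (hy : y ∈ (chartAt (Model n) x₀).target) : AnalyticAt ℂ (Pc S x₀) y :=
  ((Pc_contDiffOn S x₀).contDiffAt ((chartAt (Model n) x₀).open_target.mem_nhds hy)).analyticAt

/-- **identity theorem for tangency** (`E₁`) -/
theorem tan1_of_open (S : Splitting n X) {c : ℂ → X} (hc : ContMDiff 𝓘(ℂ, ℂ) (mI n) ω c)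
    {z₀ : ℂ} (h : ∃ᶠ z in 𝓝[≠] z₀, S.proj (c z) (mfderiv 𝓘(ℂ, ℂ) (mI n) c z (1 : ℂ)) =
      mfderiv 𝓘(ℂ, ℂ) (mI n) c z (1 : ℂ)) : Tan1 S c := by
  set A : Set ℂ := {z | ∀ᶠ w in 𝓝 z, S.proj (c w) (mfderiv 𝓘(ℂ, ℂ) (mI n) c w (1 : ℂ)) =
      mfderiv 𝓘(ℂ, ℂ) (mI n) c w (1 : ℂ)} with hA
  have key : ∀ z₁ : ℂ, (∃ᶠ z in 𝓝[≠] z₁,
      S.proj (c z) (mfderiv 𝓘(ℂ, ℂ) (mI n) c z (1 : ℂ)) =
      mfderiv 𝓘(ℂ, ℂ) (mI n) c z (1 : ℂ)) → z₁ ∈ A := by
    intro z₁ hf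
    set x₀ := c z₁ with hx₀
    set u : ℂ → Model n := fun w => chartAt (Model n) x₀ (c w) with hu
    have hxs : c z₁ ∈ (chartAt (Model n) x₀).source := mem_chart_source _ _
    have hua : AnalyticAt ℂ u z₁ := analyticAt_chart (hc z₁) hxs
    have hP : AnalyticAt ℂ (fun w => Pc S x₀ (u w)) z₁ := by
      have h1 : AnalyticAt ℂ (Pc S x₀) (u z₁) :=
        Pc_analyticAt S ((chartAt (Model n) x₀).map_source hxs)
      exact h1.comp hua
    have hd : AnalyticAt ℂ (deriv u) z₁ := hua.deriv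
    have hh : AnalyticAt ℂ (fun w => Pc S x₀ (u w) (deriv u w) - deriv u w) z₁ := by
      have h1 : ContDiffAt ℂ ω (fun w => Pc S x₀ (u w) (deriv u w)) z₁ :=
        hP.contDiffAt.clm_apply hd.contDiffAt
      exact h1.analyticAt.sub hd
    have hev : ∀ᶠ w in 𝓝 z₁, c w ∈ (chartAt (Model n) x₀).source :=
      (hc z₁).continuousAt.eventually ((chartAt (Model n) x₀).open_source.mem_nhds hxs)
    have hiff : ∀ᶠ w in 𝓝 z₁, (S.proj (c w) (mfderiv 𝓘(ℂ, ℂ) (mI n) c w (1 : ℂ)) =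
        mfderiv 𝓘(ℂ, ℂ) (mI n) c w (1 : ℂ) ↔ Pc S x₀ (u w) (deriv u w) - deriv u w = 0) := by
      filter_upwards [hev] with w hw
      have hm : MDifferentiableAt 𝓘(ℂ, ℂ) (mI n) c w := (hc w).mdifferentiableAt (by simp)
      have e1 := tcc_mfderiv hm hw (1 : ℂ)
      rw [fderiv_apply_one_eq_deriv] at e1
      have e2 := pr_eq S hw (mfderiv 𝓘(ℂ, ℂ) (mI n) c w (1 : ℂ))
      rw [e1] at e2
      rw [sub_eq_zero]
      constructor
      · intro h1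
        have h2 : pr S (c w) (mfderiv 𝓘(ℂ, ℂ) (mI n) c w (1 : ℂ)) =
          mfderiv 𝓘(ℂ, ℂ) (mI n) c w (1 : ℂ) := h1
        rw [h2, e1] at e2
        exact e2.symm
      · intro h1
        apply tcc_injective hw
        exact e2.trans (h1.trans e1.symm)
    rcases hh.eventually_eq_zero_or_eventually_ne_zero with h0 | h0
    · filter_upwards [hiff, h0] with w h1 h2
      exact h1.2 h2
    · exfalso
      apply hf
      have hiff' := hiff.filter_mono (nhdsWithin_le_nhds (s := {z₁}ᶜ))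
      filter_upwards [hiff', h0] with w h1 h2 h3
      exact h2 (h1.1 h3)
  have hopen : IsOpen A := isOpen_iff_eventually.2 fun z hz => hz.eventually_nhds
  have hclosed : IsClosed A := by
    rw [isClosed_iff_frequently]
    intro z hz
    apply key
    by_contra hcon
    rw [Filter.not_frequently] at hcon
    -- near `z` (except possibly `z`) no tangency, but `z` is a limit of interior points
    have h2 : ∃ᶠ w in 𝓝 z, w ∈ A := hz
    rw [eventually_nhdsWithin_iff, _root_.eventually_nhds_iff] at hcon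
    obtain ⟨t, ht, hto, hzt⟩ := hcon
    obtain ⟨w, hwA, hwt⟩ := (h2.and_eventually (hto.mem_nhds hzt)).exists
    have h3 : ∀ᶠ y in 𝓝 w, y ∈ t ∧ S.proj (c y) (mfderiv 𝓘(ℂ, ℂ) (mI n) c y (1 : ℂ)) =
      mfderiv 𝓘(ℂ, ℂ) (mI n) c y (1 : ℂ) := Filter.Eventually.and (hto.mem_nhds hwt) hwA
    have h4 : ∀ᶠ y in 𝓝[≠] w, y ∈ t ∧ S.proj (c y) (mfderiv 𝓘(ℂ, ℂ) (mI n) c y (1 : ℂ)) =
      mfderiv 𝓘(ℂ, ℂ) (mI n) c y (1 : ℂ) := h3.filter_mono nhdsWithin_le_nhds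
    by_cases hwz : w = z
    · subst hwz
      obtain ⟨y, hy, hyne⟩ := (h4.and self_mem_nhdsWithin).exists
      exact ht y hy.1 hyne hy.2
    · exact ht w hwt hwz h3.self_of_nhds.2
  have huniv : A = univ := IsClopen.eq_univ ⟨hclosed, hopen⟩ ⟨z₀, key z₀ h⟩
  intro z
  have hz : z ∈ A := by rw [huniv]; exact mem_univ z
  exact hz.self_of_nhds

/-- tangency passes to the other chart of `P¹` -/
theorem tan1_other (S : Splitting n X) {c c' : ℂ → X} (hc : ContMDiff 𝓘(ℂ, ℂ) (mI n) ω c)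
    (hc' : ContMDiff 𝓘(ℂ, ℂ) (mI n) ω c') (hg : ∀ z : ℂ, z ≠ 0 → c' z = c z⁻¹)
    (h : Tan1 S c) : Tan1 S c' := by
  apply tan1_of_open S hc' (z₀ := 1)
  apply Filter.Eventually.frequently
  have h1 : ∀ᶠ z : ℂ in 𝓝 1, z ≠ 0 := continuousAt_id.eventually_ne one_ne_zero
  refine (h1.eventually_nhds.filter_mono nhdsWithin_le_nhds).mono ?_
  intro z hz
  have hz0 : z ≠ 0 := hz.self_of_nhds
  have hev : c' =ᶠ[𝓝 z] c ∘ (fun w : ℂ => w⁻¹) := by
    filter_upwards [hz] with w hw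
    exact hg w hw
  have hinv : HasDerivAt (fun w : ℂ => w⁻¹) (-(z ^ 2)⁻¹) z := hasDerivAt_inv hz0
  have hmi : HasMFDerivAt 𝓘(ℂ, ℂ) 𝓘(ℂ, ℂ) (fun w : ℂ => w⁻¹) z
      (ContinuousLinearMap.toSpanSingleton ℂ (-(z ^ 2)⁻¹)) :=
    hinv.hasFDerivAt.hasMFDerivAt
  have hcm : HasMFDerivAt 𝓘(ℂ, ℂ) (mI n) c z⁻¹ (mfderiv 𝓘(ℂ, ℂ) (mI n) c z⁻¹) :=
    ((hc z⁻¹).mdifferentiableAt (by simp)).hasMFDerivAt
  have hcomp := HasMFDerivAt.comp z hcm hmi
  have e1 : mfderiv 𝓘(ℂ, ℂ) (mI n) c' z = (mfderiv 𝓘(ℂ, ℂ) (mI n) c z⁻¹).comp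
      (ContinuousLinearMap.toSpanSingleton ℂ (-(z ^ 2)⁻¹)) := by
    rw [hev.mfderiv_eq]
    exact hcomp.mfderiv
  have e2 : (mfderiv 𝓘(ℂ, ℂ) (mI n) c' z (1 : ℂ) : Model n) =
      (-(z ^ 2)⁻¹ : ℂ) • (mfderiv 𝓘(ℂ, ℂ) (mI n) c z⁻¹ (1 : ℂ) : Model n) := by
    have e3 := congrArg (fun T : ℂ →L[ℂ] Model n => T 1) e1
    refine e3.trans ?_
    have e4 : (ContinuousLinearMap.toSpanSingleton ℂ (-(z ^ 2)⁻¹ : ℂ)) (1 : ℂ) =
      (-(z ^ 2)⁻¹ : ℂ) • (1 : ℂ) := by simp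
    refine (congrArg (fun v : ℂ => (mfderiv 𝓘(ℂ, ℂ) (mI n) c z⁻¹ : ℂ →L[ℂ] Model n) v) e4).trans ?_
    exact map_smul (mfderiv 𝓘(ℂ, ℂ) (mI n) c z⁻¹ : ℂ →L[ℂ] Model n) _ _
  have e5 : pr S (c z⁻¹) (mfderiv 𝓘(ℂ, ℂ) (mI n) c z⁻¹ (1 : ℂ)) =
    mfderiv 𝓘(ℂ, ℂ) (mI n) c z⁻¹ (1 : ℂ) := h z⁻¹
  have e6 : pr S (c' z) = pr S (c z⁻¹) := by rw [hg z hz0]
  have e7 : pr S (c' z) (mfderiv 𝓘(ℂ, ℂ) (mI n) c' z (1 : ℂ)) =
      mfderiv 𝓘(ℂ, ℂ) (mI n) c' z (1 : ℂ) := by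
    rw [e6, e2]
    refine (map_smul (pr S (c z⁻¹)) _ _).trans ?_
    rw [e5]
    rfl
  exact e7

end deriv

end Crest.Agent.R266.St3
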