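import Crest.Agent.R266.StepThreeA
import Crest.Agent.R266.StepThreeB
import Crest.Agent.R266.PdAn
import Crest.Agent.R266.A.St4Defs

/-!
R266 / StepThreeC (helper338): Step 3 of S0404, from the doubling `F_s(z₁,z₂)` near the diagonal to
the families of rational curves tangent to `E₁`.
-/

set_option autoImplicit false

open scoped Manifold ContDiff Topology
open Set Metric Filter
open Crest.AlgGeometry.HolSplit
open Crest.Agent.R266.Rat Crest.Agent.R266.Emb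

namespace Crest.Agent.R266.St3

section
variable {n N : ℕ} {X : Type} [TopologicalSpace X] [ChartedSpace (Model n) X]
  [IsManifold (mI n) ω X]
variable {E : Type} [NormedAddCommGroup E] [NormedSpace ℂ E]

/-- input P1POLY: a holomorphic map `P¹ → X ⊆ P^N` is polynomial -/
def St_P1 (pe : ProjEmbedding n X N) : Prop :=
  ∀ h : Bool → ℂ → X, (∀ b, ContMDiff 𝓘(ℂ, ℂ) (mI n) ω (h b)) →
    (∀ b (z : ℂ), z ≠ 0 → h (!b) z = h b z⁻¹) →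
    ∃ (d : ℕ) (q : Fin (N + 1) → Fin (d + 1) → ℂ), ∀ z, OnX pe (pev q z) (h false z)

/-- input RAT -/
def St_Rat (E : Type) [NormedAddCommGroup E] [NormedSpace ℂ E] (N : ℕ) : Prop :=
  ∀ (G : E × ℂ × ℂ → (Fin (N + 1) → ℂ)) (U : Set (E × ℂ × ℂ)), IsOpen U →
    AnalyticOnNhd ℂ G U → (∀ u ∈ U, G u ≠ 0) → ∀ (s₀ : E) (z₀ : ℂ), (s₀, z₀, z₀) ∈ U →
    (∀ᶠ p : E × ℂ × ℂ in 𝓝 (s₀, 1, 0),
      ∃ k, DegLE k (fun z => G (p.1, z, p.2.1 * z + p.2.2)) z₀) →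
    ∀ V : Set (E × ℂ), V ∈ 𝓝 (s₀, z₀) →
    ∃ r > 0, ∃ W : Set (E × ℂ), IsOpen W ∧ W.Nonempty ∧ W ⊆ V ∧ W ⊆ ball s₀ r ×ˢ ball z₀ r ∧
      ball s₀ r ×ˢ ball z₀ r ×ˢ ball z₀ r ⊆ U ∧
      ∃ (d : ℕ) (q : E × ℂ → Fin (N + 1) → Fin (d + 1) → ℂ), AnalyticOnNhd ℂ q W ∧
        (∀ w ∈ W, ∀ z, pev (q w) z ≠ 0) ∧ (∀ w ∈ W, ∃ i, q w i (Fin.last d) ≠ 0) ∧
        ∀ w ∈ W, ∀ z ∈ ball z₀ r, Par (pev (q w) z) (G (w.1, z, w.2))

omit [NormedSpace ℂ E] in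
lemma isOpen_Dg (s₀ : E) (r δ : ℝ) : IsOpen (Dg s₀ r δ) := by
  have h1 : IsOpen {p : E × ℂ × ℂ | ‖p.1 - s₀‖ < r} := isOpen_lt (by fun_prop) continuous_const
  have h2 : IsOpen {p : E × ℂ × ℂ | ‖p.2.1‖ < 2} := isOpen_lt (by fun_prop) continuous_const
  have h3 : IsOpen {p : E × ℂ × ℂ | ‖p.2.2‖ < 2} := isOpen_lt (by fun_prop) continuous_const
  have h4 : IsOpen {p : E × ℂ × ℂ | ‖p.2.1 - p.2.2‖ < δ} :=
    isOpen_lt (by fun_prop) continuous_const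
  exact h1.inter (h2.inter (h3.inter h4))

omit [NormedSpace ℂ E] in
lemma diag_mem {s₀ s : E} {r δ : ℝ} (hδ : 0 < δ) {z : ℂ} (hs : ‖s - s₀‖ < r) (hz : ‖z‖ < 2) :
    (s, z, z) ∈ Dg s₀ r δ := ⟨hs, hz, hz, by simpa using hδ⟩

/-- the line condition for RAT -/
lemma line_deg {S : Splitting n X} {pe : ProjEmbedding n X N} (hP1 : St_P1 pe)
    {f : E → Bool → ℂ → X} {s₀ : E} {r δ : ℝ} (hδ : 0 < δ) {F : Bool → E × ℂ × ℂ → X}
    (hD : Dbl S f s₀ r δ F) {s₁ : E} {z₁ : ℂ} (hs₁ : ‖s₁ - s₀‖ < r) (hz₁ : ‖z₁‖ < 1)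
    {p : X} {U : Set (E × ℂ × ℂ)} (hU : IsOpen U) (hUn : ∀ u ∈ U, F false u ∈ pe.nbhd p)
    (hmem : (s₁, z₁, z₁) ∈ U) :
    ∀ᶠ a : E × ℂ × ℂ in 𝓝 (s₁, 1, 0),
      ∃ k, DegLE k (fun z => pe.coords p (F false (a.1, z, a.2.1 * z + a.2.2))) z₁ := by
  obtain ⟨ε, hε, hcurve⟩ := exists_line_curve hδ hD
  have c1 : ∀ᶠ a : E × ℂ × ℂ in 𝓝 (s₁, 1, 0), ‖a.1 - s₀‖ < r :=
    (isOpen_lt (by fun_prop) continuous_const : IsOpen {a : E × ℂ × ℂ | ‖a.1 - s₀‖ < r}).mem_nhds hs₁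
  have c2 : ∀ᶠ a : E × ℂ × ℂ in 𝓝 (s₁, 1, 0), ‖a.2.1 - 1‖ < ε :=
    (isOpen_lt (by fun_prop) continuous_const : IsOpen {a : E × ℂ × ℂ | ‖a.2.1 - 1‖ < ε}).mem_nhds
      (by simpa using hε)
  have c3 : ∀ᶠ a : E × ℂ × ℂ in 𝓝 (s₁, 1, 0), ‖a.2.2‖ < ε :=
    (isOpen_lt (by fun_prop) continuous_const : IsOpen {a : E × ℂ × ℂ | ‖a.2.2‖ < ε}).mem_nhds
      (by simpa using hε)
  have hcont : Continuous (fun b : (E × ℂ × ℂ) × ℂ =>
      ((b.1.1, b.2, b.1.2.1 * b.2 + b.1.2.2) : E × ℂ × ℂ)) := by fun_prop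
  have c4 : ∀ᶠ a : E × ℂ × ℂ in 𝓝 (s₁, 1, 0), (a.1, z₁, a.2.1 * z₁ + a.2.2) ∈ U := by
    have h1 : Continuous (fun a : E × ℂ × ℂ => ((a.1, z₁, a.2.1 * z₁ + a.2.2) : E × ℂ × ℂ)) := by
      fun_prop
    have h2 : ((s₁, z₁, (1 : ℂ) * z₁ + 0) : E × ℂ × ℂ) ∈ U := by simpa using hmem
    exact h1.continuousAt.eventually (hU.mem_nhds h2)
  filter_upwards [c1, c2, c3, c4] with a h1 h2 h3 h4
  obtain ⟨hDg, h, hh, hg, heq⟩ := hcurve a.1 h1 a.2.1 a.2.2 h2 h3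
  obtain ⟨d, q, hq⟩ := hP1 h hh hg
  refine ⟨d, q, ?_, ?_⟩
  · rintro rfl
    apply (hq 0).1
    funext i
    simp [pev]
  · have e1 : ∀ᶠ z : ℂ in 𝓝 z₁, ‖z‖ < 3 / 2 :=
      (isOpen_lt continuous_norm continuous_const : IsOpen {z : ℂ | ‖z‖ < 3 / 2}).mem_nhds
        (by simpa using hz₁.trans (by norm_num))
    have e2 : ∀ᶠ z : ℂ in 𝓝 z₁, (a.1, z, a.2.1 * z + a.2.2) ∈ U := by
      have h5 : Continuous (fun z : ℂ => ((a.1, z, a.2.1 * z + a.2.2) : E × ℂ × ℂ)) := by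
        fun_prop
      exact h5.continuousAt.eventually (hU.mem_nhds h4)
    filter_upwards [e1, e2] with z hz1 hz2
    have h6 := hq z
    rw [heq z hz1] at h6
    exact ((onX_iff_wedge pe (hUn _ hz2)).1 h6).2

variable [CompactSpace X]

/-- a polynomial family which lies on `X` over an open set of `z` lies in `Pd` -/
lemma mem_Pd_of_open {pe : ProjEmbedding n X N} {d : ℕ} {q : Fin (N + 1) → Fin (d + 1) → ℂ}
    (h0 : ∀ z, pev q z ≠ 0) (htop : ∃ i, q i (Fin.last d) ≠ 0) {z₁ : ℂ} {r : ℝ} (hr : 0 < r)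
    (h : ∀ z ∈ ball z₁ r, ∃ x, OnX pe (pev q z) x) : q ∈ Pd pe d := by
  have han : ∀ b, AnalyticOnNhd ℂ (fun z : ℂ => pev (cb b q) z) univ := by
    intro b z _
    have h1 := analyticAt_pev b (q, z)
    have h2 : AnalyticAt ℂ (fun z : ℂ => ((q, z) : Cf N d × ℂ)) z :=
      analyticAt_const.prod analyticAt_id
    exact h1.comp_of_eq h2 rfl
  have hall : ∀ z, ∃ x, OnX pe (pev q z) x := by
    intro z
    refine onX_ident (pe := pe) (q := fun z : ℂ => pev q z) (W := univ) (V := ball z₁ r)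
      isOpen_univ isPreconnected_univ (han false) (fun z _ => h0 z) isOpen_ball ?_ ?_ z (mem_univ z)
    · exact ⟨z₁, mem_ball_self hr, mem_univ _⟩
    · intro w hw
      exact h w hw.1
  have hrev : ∀ z, pev (revc q) z ≠ 0 := by
    intro z
    by_cases hz : z = 0
    · rw [hz, pev_revc_zero]
      intro h1
      obtain ⟨i, hi⟩ := htop
      exact hi (congrFun h1 i)
    · rw [pev_revc q hz]
      exact smul_ne_zero (pow_ne_zero _ hz) (h0 _)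
  refine ⟨hall, ?_⟩
  have h1 := onX_ident (pe := pe) (q := fun z : ℂ => pev (revc q) z) (W := univ) (V := {0}ᶜ)
      isOpen_univ isPreconnected_univ (han true) (fun z _ => hrev z) isOpen_compl_singleton
      ⟨1, by simp, mem_univ _⟩ ?_ 0 (mem_univ _)
  · simp only [pev_revc_zero] at h1
    exact h1
  · intro w hw
    have hw0 : w ≠ 0 := hw.1
    rw [pev_revc q hw0]
    obtain ⟨x, hx⟩ := hall w⁻¹
    exact ⟨x, hx.smul (pow_ne_zero _ hw0)⟩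

end

end Crest.Agent.R266.St3
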