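import Crest.Agent.R266.StepThreeC

/-!
R266 / StepThreeD (helper338): Step 3 of S0404, main theorem.
-/

set_option autoImplicit false

open scoped Manifold ContDiff Topology
open Set Metric Filter
open Crest.AlgGeometry.HolSplit
open Crest.Agent.R266.Rat Crest.Agent.R266.Emb Crest.Agent.R266.St4

namespace Crest.Agent.R266.St3

section
variable {n N : ℕ} {X : Type} [TopologicalSpace X] [ChartedSpace (Model n) X]
  [IsManifold (mI n) ω X]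
variable {E : Type} [NormedAddCommGroup E] [NormedSpace ℂ E]

omit [IsManifold (mI n) ω X] in
/-- derivative of `F ∘ L + const` for an affine map of parameters -/
lemma mfderiv_comp_affine {G G' : Type} [NormedAddCommGroup G] [NormedSpace ℂ G]
    [NormedAddCommGroup G'] [NormedSpace ℂ G'] {F : G' → X} {h : G → G'} {L : G →L[ℂ] G'} {z : G}
    {y : G'} (hh : HasFDerivAt h L z) (hy : h z = y)
    (hF : MDifferentiableAt 𝓘(ℂ, G') (mI n) F y) {c : G → X}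
    (hc : c =ᶠ[𝓝 z] F ∘ h) (v : G) :
    (mfderiv 𝓘(ℂ, G) (mI n) c z v : Model n) = mfderiv 𝓘(ℂ, G') (mI n) F y (L v) := by
  subst hy
  have h1 : HasMFDerivAt 𝓘(ℂ, G) 𝓘(ℂ, G') h z L := hh.hasMFDerivAt
  have h2 := (HasMFDerivAt.comp z hF.hasMFDerivAt h1).mfderiv
  have h3 : mfderiv 𝓘(ℂ, G) (mI n) c z = mfderiv 𝓘(ℂ, G) (mI n) (F ∘ h) z := hc.mfderiv_eq
  have h4 : mfderiv 𝓘(ℂ, G) (mI n) c z = (mfderiv 𝓘(ℂ, G') (mI n) F (h z)).comp L := h3.trans h2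
  exact congrArg (fun T : G →L[ℂ] Model n => T v) h4

variable [CompactSpace X]

/-- **Step 3** of S0404 (`E₁`-version). -/
theorem step_three_core (S : Splitting n X) (pe : ProjEmbedding n X N) (hP1 : St_P1 pe)
    (hRat : St_Rat E N) {f : E → Bool → ℂ → X} {s₀ : E} {r δ : ℝ} (hδ : 0 < δ)
    {F : Bool → E × ℂ × ℂ → X} (hD : Dbl S f s₀ r δ F) {V : Set (E × ℂ)} (hV : IsOpen V)
    (hVne : V.Nonempty) (hVs : V ⊆ ball s₀ r ×ˢ ball 0 1)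
    (hsub : ∀ O : Set (E × ℂ), IsOpen O → O.Nonempty → O ⊆ V →
      ∃ p ∈ O, Function.Surjective (dfam n f false p)) :
    ∃ (W : Set (E × ℂ)) (g : E × ℂ → Bool → ℂ → X), W ⊆ V ∧ W.Nonempty ∧ Fam n W g ∧
      (∀ w ∈ W, ∀ b z, (vel n (g w b) z : TangentSpace (mI n) (g w b z)) ∈ E₁ S (g w b z)) ∧
      (∀ w ∈ W, g w false w.2 = f w.1 false w.2) ∧
      (∀ w ∈ W, vel n (g w false) w.2 = pr S (f w.1 false w.2) (vel n (f w.1 false) w.2)) := by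
  obtain ⟨⟨s₁, z₁⟩, hv₁⟩ := hVne
  obtain ⟨hs₁, hz₁⟩ := hVs hv₁
  have hs₁' : ‖s₁ - s₀‖ < r := by simpa [dist_eq_norm] using hs₁
  have hz₁' : ‖z₁‖ < 1 := by simpa using hz₁
  have : Nonempty X := ⟨F false (s₁, z₁, z₁)⟩
  set p := F false (s₁, z₁, z₁) with hp
  set U : Set (E × ℂ × ℂ) := Dg s₀ r δ ∩ F false ⁻¹' (pe.nbhd p) with hUdef
  have hU : IsOpen U := (hD.hol false).continuousOn.isOpen_inter_preimage (isOpen_Dg s₀ r δ)
    (pe.isOpen_nbhd p)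
  have hUn : ∀ u ∈ U, F false u ∈ pe.nbhd p := fun u hu => hu.2
  have hmem : (s₁, z₁, z₁) ∈ U :=
    ⟨diag_mem hδ hs₁' (hz₁'.trans (by norm_num)), pe.mem_nbhd p⟩
  set G : E × ℂ × ℂ → (Fin (N + 1) → ℂ) := fun u => pe.coords p (F false u) with hG
  have hGan : AnalyticOnNhd ℂ G U := by
    intro u hu
    have h1 : ContMDiffAt 𝓘(ℂ, E × ℂ × ℂ) (mI n) ω (F false) u :=
      (hD.hol false).contMDiffAt ((isOpen_Dg s₀ r δ).mem_nhds hu.1)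
    have h2 : ContMDiffAt (mI n) 𝓘(ℂ, Fin (N + 1) → ℂ) ω (pe.coords p) (F false u) :=
      (pe.holomorphic p).contMDiffAt ((pe.isOpen_nbhd p).mem_nhds hu.2)
    have h3 : ContMDiffAt 𝓘(ℂ, E × ℂ × ℂ) 𝓘(ℂ, Fin (N + 1) → ℂ) ω G u := h2.comp u h1
    exact (contMDiffAt_iff_contDiffAt.1 h3).analyticAt
  have hG0 : ∀ u ∈ U, G u ≠ 0 := fun u hu => pe.ne_zero p _ hu.2
  obtain ⟨r', hr', W₀, hW₀, hW₀ne, hW₀V, hW₀b, hbU, d, q, hq, hq0, hqt, hpar⟩ :=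
    hRat G U hU hGan hG0 s₁ z₁ hmem (line_deg hP1 hδ hD hs₁' hz₁' hU hUn hmem) V
      (hV.mem_nhds hv₁)
  -- shrink to a ball
  obtain ⟨w₀, hw₀⟩ := hW₀ne
  obtain ⟨ρ, hρ, hρb⟩ := Metric.isOpen_iff.1 hW₀ w₀ hw₀
  set W : Set (E × ℂ) := ball w₀ ρ with hW
  have hWW₀ : W ⊆ W₀ := hρb
  have hWo : IsOpen W := isOpen_ball
  have hWc : IsPreconnected W := (convex_ball w₀ ρ).isPreconnected
  -- membership
  have hwU : ∀ w ∈ W, ∀ z ∈ ball z₁ r', (w.1, z, w.2) ∈ U := by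
    intro w hw z hz
    have h1 := hW₀b (hWW₀ hw)
    exact hbU ⟨h1.1, hz, h1.2⟩
  have honF : ∀ w ∈ W, ∀ z ∈ ball z₁ r', OnX pe (pev (q w) z) (F false (w.1, z, w.2)) := by
    intro w hw z hz
    rw [onX_iff_wedge pe (hUn _ (hwU w hw z hz))]
    exact ⟨hq0 w (hWW₀ hw) z, hpar w (hWW₀ hw) z hz⟩
  have hPd : ∀ w ∈ W, q w ∈ Pd pe d := fun w hw =>
    mem_Pd_of_open (hq0 w (hWW₀ hw)) (hqt w (hWW₀ hw)) hr'
      (fun z hz => ⟨_, honF w hw z hz⟩)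
  obtain ⟨g, hg1, hg2, hg3⟩ := exists_fam (pe := pe) hWo (hq.mono hWW₀) hPd
  have hgF : ∀ w ∈ W, ∀ z ∈ ball z₁ r', g w false z = F false (w.1, z, w.2) := by
    intro w hw z hz
    exact (hg2 w hw false z).unique (honF w hw z hz)
  have hw2 : ∀ w ∈ W, w.2 ∈ ball z₁ r' := fun w hw => (hW₀b (hWW₀ hw)).2
  have hcurve : ∀ w ∈ W, ∀ b, ContMDiff 𝓘(ℂ, ℂ) (mI n) ω (g w b) := by
    intro w hw b z
    have h1 : ContMDiffAt 𝓘(ℂ, (E × ℂ) × ℂ) (mI n) ω (fun p : (E × ℂ) × ℂ => g p.1 b p.2) (w, z) :=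
      (hg1 b).contMDiffAt ((hWo.prod isOpen_univ).mem_nhds ⟨hw, mem_univ _⟩)
    have h2 : ContMDiffAt 𝓘(ℂ, ℂ) 𝓘(ℂ, (E × ℂ) × ℂ) ω (fun z : ℂ => (w, z)) z := by
      rw [contMDiffAt_iff_contDiffAt]
      fun_prop
    exact h1.comp z h2
  -- derivative of F
  have hFd : ∀ w ∈ W, ∀ z ∈ ball z₁ r', MDifferentiableAt 𝓘(ℂ, E × ℂ × ℂ) (mI n) (F false)
      (w.1, z, w.2) := by
    intro w hw z hz
    exact ((hD.hol false).contMDiffAt ((isOpen_Dg s₀ r δ).mem_nhds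
      (hwU w hw z hz).1)).mdifferentiableAt (by simp)
  have hvel : ∀ w ∈ W, ∀ z ∈ ball z₁ r', vel n (g w false) z =
      (mfderiv 𝓘(ℂ, E × ℂ × ℂ) (mI n) (F false) (w.1, z, w.2) ((0, 1, 0) : E × ℂ × ℂ) : Model n) := by
    intro w hw z hz
    have h1 : HasFDerivAt (fun t : ℂ => ((w.1, t, w.2) : E × ℂ × ℂ))
        ((0 : ℂ →L[ℂ] E).prod ((ContinuousLinearMap.id ℂ ℂ).prod (0 : ℂ →L[ℂ] ℂ))) z :=
      (hasFDerivAt_const _ _).prodMk ((hasFDerivAt_id z).prodMk (hasFDerivAt_const _ _))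
    have h2 : g w false =ᶠ[𝓝 z] F false ∘ (fun t : ℂ => ((w.1, t, w.2) : E × ℂ × ℂ)) := by
      filter_upwards [isOpen_ball.mem_nhds hz] with t ht
      exact hgF w hw t ht
    have h3 := mfderiv_comp_affine h1 rfl (hFd w hw z hz) h2 1
    exact h3
  have hpt : ∀ w ∈ W, ∀ z ∈ ball z₁ r', S.proj (g w false z)
      (mfderiv 𝓘(ℂ, ℂ) (mI n) (g w false) z (1 : ℂ)) =
      mfderiv 𝓘(ℂ, ℂ) (mI n) (g w false) z (1 : ℂ) := by
    intro w hw z hz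
    have h1 := hD.tan1 false _ (hwU w hw z hz).1
    have h2 : pr S (F false (w.1, z, w.2)) (vel n (g w false) z) = vel n (g w false) z := by
      rw [hvel w hw z hz]
      exact h1
    rw [← hgF w hw z hz] at h2
    exact h2
  have htan : ∀ w ∈ W, Tan1 S (g w false) := by
    intro w hw
    apply tan1_of_open S (hcurve w hw false) (z₀ := w.2)
    apply Filter.Eventually.frequently
    refine Filter.Eventually.filter_mono nhdsWithin_le_nhds ?_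
    filter_upwards [isOpen_ball.mem_nhds (hw2 w hw)] with z hz
    exact hpt w hw z hz
  have htan' : ∀ w ∈ W, ∀ b, Tan1 S (g w b) := by
    intro w hw b
    cases b
    · exact htan w hw
    · refine tan1_other S (hcurve w hw false) (hcurve w hw true) ?_ (htan w hw)
      intro z hz
      exact hg3 w hw false z hz
  have hbase : ∀ w ∈ W, g w false w.2 = f w.1 false w.2 := by
    intro w hw
    rw [hgF w hw w.2 (hw2 w hw)]
    have h1 := hVs (hW₀V (hWW₀ hw))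
    have h2 : ‖w.1 - s₀‖ < r := by simpa [dist_eq_norm] using h1.1
    have h3 : ‖w.2‖ < 1 := by simpa using h1.2
    exact hD.diag false w.1 w.2 h2 (h3.trans (by norm_num))
  -- `f` is `F` on the diagonal
  have hfF : ∀ w ∈ W, (fun p : E × ℂ => f p.1 false p.2) =ᶠ[𝓝 w]
      F false ∘ (fun p : E × ℂ => ((p.1, p.2, p.2) : E × ℂ × ℂ)) := by
    intro w hw
    have h1 := hV.mem_nhds (hW₀V (hWW₀ hw))
    filter_upwards [h1] with p hp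
    obtain ⟨h2, h3⟩ := hVs hp
    have h2 : ‖p.1 - s₀‖ < r := by simpa [dist_eq_norm] using h2
    have h3 : ‖p.2‖ < 1 := by simpa using h3
    exact (hD.diag false p.1 p.2 h2 (h3.trans (by norm_num))).symm
  have hvbase : ∀ w ∈ W, vel n (g w false) w.2 =
      pr S (f w.1 false w.2) (vel n (f w.1 false) w.2) := by
    intro w hw
    have h1 : HasFDerivAt (fun t : ℂ => ((w.1, t, t) : E × ℂ × ℂ))
        ((0 : ℂ →L[ℂ] E).prod ((ContinuousLinearMap.id ℂ ℂ).prod (ContinuousLinearMap.id ℂ ℂ)))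
        w.2 :=
      (hasFDerivAt_const _ _).prodMk ((hasFDerivAt_id _).prodMk (hasFDerivAt_id _))
    have h2 : f w.1 false =ᶠ[𝓝 w.2] F false ∘ (fun t : ℂ => ((w.1, t, t) : E × ℂ × ℂ)) := by
      have hc : ContinuousAt (fun t : ℂ => (w.1, t)) w.2 := by fun_prop
      exact hc.eventually (hfF w hw)
    have h3 := mfderiv_comp_affine h1 rfl (hFd w hw w.2 (hw2 w hw)) h2 1
    have h4 : vel n (f w.1 false) w.2 =
        (mfderiv 𝓘(ℂ, E × ℂ × ℂ) (mI n) (F false) (w.1, w.2, w.2) ((0, 1, 1) : E × ℂ × ℂ) : Model n) :=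
      h3
    have h5 : (mfderiv 𝓘(ℂ, E × ℂ × ℂ) (mI n) (F false) (w.1, w.2, w.2)
        ((0, 1, 1) : E × ℂ × ℂ) : Model n) =
        (mfderiv 𝓘(ℂ, E × ℂ × ℂ) (mI n) (F false) (w.1, w.2, w.2) ((0, 1, 0) : E × ℂ × ℂ) : Model n) +
        (mfderiv 𝓘(ℂ, E × ℂ × ℂ) (mI n) (F false) (w.1, w.2, w.2) ((0, 0, 1) : E × ℂ × ℂ) : Model n) := by
      have h6 : ((0, 1, 1) : E × ℂ × ℂ) = (0, 1, 0) + (0, 0, 1) := by simp
      have h7 := map_add (mfderiv 𝓘(ℂ, E × ℂ × ℂ) (mI n) (F false) (w.1, w.2, w.2) :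
        E × ℂ × ℂ →L[ℂ] Model n) ((0, 1, 0) : E × ℂ × ℂ) (0, 0, 1)
      rw [← h6] at h7
      exact h7
    have hz := hwU w hw w.2 (hw2 w hw)
    have h8 : pr S (F false (w.1, w.2, w.2)) (mfderiv 𝓘(ℂ, E × ℂ × ℂ) (mI n) (F false)
        (w.1, w.2, w.2) ((0, 1, 0) : E × ℂ × ℂ)) =
        mfderiv 𝓘(ℂ, E × ℂ × ℂ) (mI n) (F false) (w.1, w.2, w.2) ((0, 1, 0) : E × ℂ × ℂ) :=
      hD.tan1 false _ hz.1
    have h9 : pr S (F false (w.1, w.2, w.2)) (mfderiv 𝓘(ℂ, E × ℂ × ℂ) (mI n) (F false)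
        (w.1, w.2, w.2) ((0, 0, 1) : E × ℂ × ℂ)) = 0 := hD.tan2 false _ hz.1
    have h10 : pr S (f w.1 false w.2) = pr S (F false (w.1, w.2, w.2)) := by
      rw [← hbase w hw, hgF w hw w.2 (hw2 w hw)]
    rw [hvel w hw w.2 (hw2 w hw), h10, h4, h5]
    refine Eq.symm ((map_add (pr S (F false (w.1, w.2, w.2))) _ _).trans ?_)
    exact (congrArg₂ (fun a b : Model n => a + b) h8 h9).trans (add_zero _)
  -- a submersive point
  obtain ⟨a, haW, hasurj⟩ := hsub W hWo ⟨w₀, mem_ball_self hρ⟩ (hWW₀.trans hW₀V)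
  have hFsurj : Function.Surjective (fun v : E × ℂ × ℂ =>
      (mfderiv 𝓘(ℂ, E × ℂ × ℂ) (mI n) (F false) (a.1, a.2, a.2) v : Model n)) := by
    intro y
    obtain ⟨u, hu⟩ := hasurj y
    have h1 : HasFDerivAt (fun p : E × ℂ => ((p.1, p.2, p.2) : E × ℂ × ℂ))
        ((ContinuousLinearMap.fst ℂ E ℂ).prod ((ContinuousLinearMap.snd ℂ E ℂ).prod
          (ContinuousLinearMap.snd ℂ E ℂ))) a :=
      hasFDerivAt_fst.prodMk (hasFDerivAt_snd.prodMk hasFDerivAt_snd)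
    have h2 := mfderiv_comp_affine h1 rfl (hFd a haW a.2 (hw2 a haW)) (hfF a haW) u
    exact ⟨_, h2.symm.trans hu⟩
  have hgsurj : Function.Surjective
      (mfderiv 𝓘(ℂ, (E × ℂ) × ℂ) (mI n) (fun q : (E × ℂ) × ℂ => g q.1 false q.2) (a, a.2)) := by
    intro y
    obtain ⟨v, hv⟩ := hFsurj y
    have h1 : HasFDerivAt (fun p : (E × ℂ) × ℂ => ((p.1.1, p.2, p.1.2) : E × ℂ × ℂ))
        (((ContinuousLinearMap.fst ℂ E ℂ).comp (ContinuousLinearMap.fst ℂ (E × ℂ) ℂ)).prod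
          ((ContinuousLinearMap.snd ℂ (E × ℂ) ℂ).prod
          ((ContinuousLinearMap.snd ℂ E ℂ).comp (ContinuousLinearMap.fst ℂ (E × ℂ) ℂ)))) (a, a.2) :=
      (hasFDerivAt_fst.comp (a, a.2) hasFDerivAt_fst).prodMk
        (hasFDerivAt_snd.prodMk (hasFDerivAt_snd.comp (a, a.2) hasFDerivAt_fst))
    have h2 : (fun q : (E × ℂ) × ℂ => g q.1 false q.2) =ᶠ[𝓝 (a, a.2)]
        F false ∘ (fun p : (E × ℂ) × ℂ => ((p.1.1, p.2, p.1.2) : E × ℂ × ℂ)) := by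
      filter_upwards [(hWo.prod isOpen_ball).mem_nhds
        (⟨haW, hw2 a haW⟩ : (a, a.2) ∈ W ×ˢ ball z₁ r')] with x hx
      exact hgF x.1 hx.1 x.2 hx.2
    have h3 := mfderiv_comp_affine h1 rfl (hFd a haW a.2 (hw2 a haW)) h2 ((v.1, v.2.2), v.2.1)
    exact ⟨((v.1, v.2.2), v.2.1), h3.trans hv⟩
  have hWuo : IsOpen (W ×ˢ (univ : Set ℂ)) := hWo.prod isOpen_univ
  have hWuc : IsPreconnected (W ×ˢ (univ : Set ℂ)) := hWc.prod isPreconnected_univ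
  have hdenseF := SD.exists_surj hWuo hWuc (hg1 false) (p := (a, a.2)) ⟨haW, mem_univ _⟩ hgsurj
  -- submersive point in the other chart
  obtain ⟨b, hbO, hbs⟩ := hdenseF (W ×ˢ {z : ℂ | z ≠ 0}) (hWo.prod isOpen_ne)
    ⟨(w₀, 1), mem_ball_self hρ, one_ne_zero⟩ (prod_mono subset_rfl (subset_univ _))
  have hbz : b.2 ≠ 0 := hbO.2
  have htsurj : Function.Surjective
      (mfderiv 𝓘(ℂ, (E × ℂ) × ℂ) (mI n) (fun q : (E × ℂ) × ℂ => g q.1 true q.2) (b.1, b.2⁻¹)) := by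
    intro y
    obtain ⟨v, hv⟩ := hbs y
    have hi : HasFDerivAt (fun p : (E × ℂ) × ℂ => p.2⁻¹)
        ((-(b.2⁻¹ ^ 2)⁻¹ : ℂ) • ContinuousLinearMap.snd ℂ (E × ℂ) ℂ) (b.1, b.2⁻¹) := by
      have h0 : HasDerivAt (fun x : ℂ => x⁻¹) (-(b.2⁻¹ ^ 2)⁻¹) (b.2⁻¹) :=
        hasDerivAt_inv (inv_ne_zero hbz)
      exact h0.comp_hasFDerivAt (b.1, b.2⁻¹) (hasFDerivAt_snd (𝕜 := ℂ) (p := (b.1, b.2⁻¹)))
    have h1 : HasFDerivAt (fun p : (E × ℂ) × ℂ => ((p.1, p.2⁻¹) : (E × ℂ) × ℂ))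
        ((ContinuousLinearMap.fst ℂ (E × ℂ) ℂ).prod
          ((-(b.2⁻¹ ^ 2)⁻¹ : ℂ) • ContinuousLinearMap.snd ℂ (E × ℂ) ℂ)) (b.1, b.2⁻¹) :=
      hasFDerivAt_fst.prodMk hi
    have h2 : (fun q : (E × ℂ) × ℂ => g q.1 true q.2) =ᶠ[𝓝 (b.1, b.2⁻¹)]
        (fun q : (E × ℂ) × ℂ => g q.1 false q.2) ∘
          (fun p : (E × ℂ) × ℂ => ((p.1, p.2⁻¹) : (E × ℂ) × ℂ)) := by
      filter_upwards [(hWo.prod isOpen_ne).mem_nhds
        (⟨hbO.1, inv_ne_zero hbz⟩ : (b.1, b.2⁻¹) ∈ W ×ˢ {z : ℂ | z ≠ 0})] with x hx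
      exact hg3 x.1 hx.1 false x.2 hx.2
    have h4 : ((b.1, b.2⁻¹).1, (b.1, b.2⁻¹).2⁻¹) = b := by simp
    have hmd : MDifferentiableAt 𝓘(ℂ, (E × ℂ) × ℂ) (mI n)
        (fun q : (E × ℂ) × ℂ => g q.1 false q.2) b := by
      exact ((hg1 false).contMDiffAt (hWuo.mem_nhds ⟨hbO.1, mem_univ _⟩)).mdifferentiableAt
        (by simp)
    have h3 := mfderiv_comp_affine h1 h4 hmd h2 (v.1, (-(b.2⁻¹ ^ 2)⁻¹)⁻¹ * v.2)
    have hne : (-(b.2⁻¹ ^ 2)⁻¹ : ℂ) ≠ 0 := by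
      simpa using hbz
    have h5 : ((ContinuousLinearMap.fst ℂ (E × ℂ) ℂ).prod
          ((-(b.2⁻¹ ^ 2)⁻¹ : ℂ) • ContinuousLinearMap.snd ℂ (E × ℂ) ℂ))
          (v.1, (-(b.2⁻¹ ^ 2)⁻¹)⁻¹ * v.2) = v := by
      apply Prod.ext
      · rfl
      · show (-(b.2⁻¹ ^ 2)⁻¹ : ℂ) • ((-(b.2⁻¹ ^ 2)⁻¹)⁻¹ * v.2) = v.2
        rw [smul_eq_mul, ← mul_assoc, mul_inv_cancel₀ hne, one_mul]
    refine ⟨(v.1, (-(b.2⁻¹ ^ 2)⁻¹)⁻¹ * v.2), h3.trans ?_⟩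
    exact (congrArg (fun t : (E × ℂ) × ℂ => (mfderiv 𝓘(ℂ, (E × ℂ) × ℂ) (mI n)
      (fun q : (E × ℂ) × ℂ => g q.1 false q.2) b :
      (E × ℂ) × ℂ →L[ℂ] Model n) t) h5).trans hv
  have hdenseT := SD.exists_surj hWuo hWuc (hg1 true) (p := (b.1, b.2⁻¹)) ⟨hbO.1, mem_univ _⟩
    htsurj
  refine ⟨W, g, hWW₀.trans hW₀V, ⟨w₀, mem_ball_self hρ⟩, ?_, ?_, hbase, hvbase⟩
  · refine ⟨hWo, hg1, hg3, ?_⟩
    intro b O hO hOne hOW
    cases b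
    · exact hdenseF O hO hOne hOW
    · exact hdenseT O hO hOne hOW
  · intro w hw b z
    exact ⟨_, htan' w hw b z⟩

end

end Crest.Agent.R266.St3
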