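import Crest.Agent.R266.Defs

/-!
R266 / Stmts: the interface statements of the analytic core of S0405 as `Prop`s. A module proving
`St_foo` should prove `theorem foo_holds : St_foo ...` (or take other `St_`s as hypotheses).
-/

set_option autoImplicit false

open scoped Manifold ContDiff Topology ENNReal
open Set Metric Filter MeasureTheory

namespace Crest.Agent.R266

section
variable {n₁ n₂ : ℕ} {X : Type} [TopologicalSpace X]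

/-- identity theorem for p.c. maps -/
def St_unique (A : PFol n₁ n₂ X) : Prop :=
  ∀ (Ω : Set (ℂ × ℂ)) (G G' : ℂ × ℂ → X), IsOpen Ω → IsPreconnected Ω → IsPC A Ω G → IsPC A Ω G' →
    (∃ z ∈ Ω, G =ᶠ[𝓝 z] G') → ∀ z ∈ Ω, G z = G' z

/-- p.c. maps have product form in every chart around the point -/
def St_chart (A : PFol n₁ n₂ X) : Prop :=
  ∀ (Ω : Set (ℂ × ℂ)) (G : ℂ × ℂ → X), IsPC A Ω G → ∀ z ∈ Ω, ∀ i, G z ∈ (A.ch i).source →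
    ∃ (a : ℂ → EV n₁) (b : ℂ → EV n₂), AnalyticAt ℂ a z.1 ∧ AnalyticAt ℂ b z.2 ∧
      ∀ᶠ w in 𝓝 z, G w ∈ (A.ch i).source ∧ A.ch i (G w) = (a w.1, b w.2)

/-- the pulled back metric is a closed hermitian form -/
def St_pull {A : PFol n₁ n₂ X} (K : KMet A) : Prop :=
  ∀ (Ω : Set (ℂ × ℂ)) (G : ℂ × ℂ → X), IsOpen Ω → IsPC A Ω G → CForm Ω (pullM K G)

/-- uniform slack and uniform comparison with the chart derivatives -/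
def St_slack {A : PFol n₁ n₂ X} (K : KMet A) : Prop :=
  ∃ c₀ > 0, ∃ κ > 0, ∀ (Ω : Set (ℂ × ℂ)) (G : ℂ × ℂ → X), IsOpen Ω → IsPC A Ω G →
    Slack c₀ Ω (pullM K G) ∧ ∀ z ∈ Ω, ∀ u : ℂ × ℂ,
      κ * ‖fderiv ℂ (fun w => A.ch (A.idx (G z)) (G w)) z u‖ ^ 2 ≤ pullM K G z u u ∧
      pullM K G z u u ≤ κ⁻¹ * ‖fderiv ℂ (fun w => A.ch (A.idx (G z)) (G w)) z u‖ ^ 2

/-- curve extension: small area of `G` along the holomorphic curve `t ↦ pt t (H t)` gives an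
extension of `G` to a bidisc of comparable size. -/
def St_CE {A : PFol n₁ n₂ X} (K : KMet A) : Prop :=
  ∃ a₀ > 0, ∀ (Ω : Set (ℂ × ℂ)) (G : ℂ × ℂ → X) (H : ℂ → ℂ) (t₀ : ℂ) (r : ℝ), 0 < r → IsOpen Ω →
    IsPC A Ω G → DifferentiableOn ℂ H (ball t₀ r) → (∀ t ∈ ball t₀ r, ‖deriv H t‖ ≤ 1 / 2) →
    (∀ t ∈ ball t₀ r, pt t (H t) ∈ Ω) →
    (∫⁻ t in ball t₀ r, ENNReal.ofReal (trM K G (pt t (H t))) ≤ ENNReal.ofReal a₀) →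
    ∃ G' : ℂ × ℂ → X, IsPC A (ball (pt t₀ (H t₀)) (r / 32)) G' ∧ G' =ᶠ[𝓝 (pt t₀ (H t₀))] G

/-- density lemma (LemC) -/
def St_C {A : PFol n₁ n₂ X} (K : KMet A) (C : ℝ) : Prop :=
  ∃ b₀ > 0, ∃ c₁ > 0, ∃ r₁ > 0, ∀ (p : ℂ × ℂ) (b : ℂ) (s r : ℝ) (G : ℂ × ℂ → X), ‖b‖ ≤ b₀ →
    ‖tau p‖ ≤ b₀ → |eta p| ≤ b₀ → w_ C b s p = 0 → 0 < r → r ≤ r₁ →
    IsPC A (ball p r ∩ {z | 0 < w_ C b s z}) G →
    (∫⁻ z in ball p r ∩ {z | 0 < w_ C b s z}, ENNReal.ofReal (trM K G z)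
      < ENNReal.ofReal (c₁ * r ^ 2)) →
    ∃ ρ > 0, ∃ G' : ℂ × ℂ → X, IsPC A (ball p ρ) G' ∧ ∀ z ∈ ball p ρ, 0 < w_ C b s z → G' z = G z

/-- `m` is an upper semicontinuous graph function on the box, `G` is p.c. above the graph, and
`G` does not extend across any point of the graph (vertical vector `(1/2,1/2)`) -/
structure Maxi (A : PFol n₁ n₂ X) (ε : ℝ) (m : ℂ → ℝ → ℝ) (G : ℂ × ℂ → X) : Prop where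
  lower : ∀ t e, -ε ≤ m t e
  usc : ∀ t e, ‖t‖ < ε → |e| < ε → ∀ c, m t e < c → ∀ᶠ q : ℂ × ℝ in 𝓝 (t, e), m q.1 q.2 < c
  pc : IsPC A (GD ε m) G
  irr : ∀ p : ℂ × ℂ, ‖tau p‖ < ε → |eta p| < ε → XX p = m (tau p) (eta p) → -ε < XX p → XX p < ε →
    ¬ ∃ ρ > 0, ∃ G' : ℂ × ℂ → X, IsPC A (ball p ρ) G' ∧
      ∃ s : ℝ, 0 < s ∧ s < ρ ∧ XX p + s < ε ∧
        ∀ᶠ z in 𝓝 (p + (((s / 2 : ℝ) : ℂ), ((s / 2 : ℝ) : ℂ))), G' z = G z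

/-- maximal graph domain -/
def St_max (A : PFol n₁ n₂ X) : Prop :=
  ∀ (ε C : ℝ) (G : ℂ × ℂ → X), 0 < ε → 0 < C → 4 * C * ε < 1 → IsPC A (GD ε (par C)) G →
    ∃ (m : ℂ → ℝ → ℝ) (G' : ℂ × ℂ → X), (∀ t e, m t e ≤ par C t e) ∧ Maxi A ε m G' ∧
      ∀ z ∈ GD ε (par C), G' z = G z

/-- disc lemma (LemD) -/
def St_D {A : PFol n₁ n₂ X} (_K : KMet A) : Prop :=
  ∀ (ε : ℝ) (m : ℂ → ℝ → ℝ) (G : ℂ × ℂ → X), 0 < ε → Maxi A ε m G →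
    ∀ (H : ℂ → ℂ) (t₀ : ℂ) (R S : ℝ), 0 < R → 0 < S → AnalyticOnNhd ℂ H (closedBall t₀ R) →
    (∀ t ∈ closedBall t₀ R, ‖deriv H t‖ ≤ 1 / 2) →
    (∀ t ∈ closedBall t₀ R, ‖t‖ < ε ∧ |(H t).im| < ε ∧ -ε < (H t).re ∧ (H t).re + S < ε ∧
      m t (H t).im < (H t).re + S) →
    (∀ t ∈ sphere t₀ R, m t (H t).im < (H t).re) →
    ∀ t ∈ closedBall t₀ R, m t (H t).im < (H t).re

/-- no-contact theorem -/
def St_NC (A : PFol n₁ n₂ X) : Prop :=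
  ∀ (ε C : ℝ) (G : ℂ × ℂ → X), 0 < ε → 0 < C → IsPC A (GD ε (par C)) G →
    ∃ ρ > 0, ∃ G' : ℂ × ℂ → X, IsPC A (ball 0 ρ) G' ∧ ∀ z ∈ ball (0 : ℂ × ℂ) ρ ∩ GD ε (par C), G' z = G z
end

/-- Stokes for a closed form against `i∂∂̄ f` -/
def St_stokes : Prop :=
  ∀ (Ω : Set (ℂ × ℂ)) (γ : ℂ × ℂ → ℂ × ℂ → ℂ × ℂ → ℝ) (f : ℂ × ℂ → ℝ), IsOpen Ω → CForm Ω γ →
    ContDiff ℝ ∞ f → HasCompactSupport f → tsupport f ⊆ Ω →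
    ∫ z, wdg (γ z) (levi f z) = 0

/-- slice mass lemma (LemB). `S` is a set off which the cutoff `χ` is locally constant. -/
def St_B : Prop :=
  ∀ c₀ > 0, ∀ C > 0, ∃ ε₀ > 0, ∀ (χ : ℂ × ℂ → ℝ) (S : Set (ℂ × ℂ)) (M : ℝ), ContDiff ℝ ∞ χ →
    HasCompactSupport χ → (∀ z, 0 ≤ χ z ∧ χ z ≤ 1) →
    (∀ z ∈ tsupport χ, ‖tau z‖ ≤ ε₀ ∧ |eta z| ≤ ε₀ ∧ |XX z| ≤ 1) →
    (∀ z, z ∉ S → ∀ᶠ w in 𝓝 z, χ w = χ z) →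
    ∃ C' : ℝ, ∀ (Ω : Set (ℂ × ℂ)) (γ : ℂ × ℂ → ℂ × ℂ → ℂ × ℂ → ℝ) (L : ℂ → ℝ), IsOpen Ω →
      CForm Ω γ → Slack c₀ Ω γ → ContDiff ℝ ∞ L → (∀ t, ‖fderiv ℝ L t‖ ≤ ε₀) →
      (∀ t, ‖t‖ ≤ ε₀ → |L t| ≤ 1) →
      (∀ t, fderiv ℝ (fun s => fderiv ℝ L s 1) t 1
        + fderiv ℝ (fun s => fderiv ℝ L s Complex.I) t Complex.I ≤ 0) →
      (∀ z ∈ tsupport χ, 0 < XX z - par C (tau z) (eta z) - L (tau z) → z ∈ Ω) →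
      (∀ z ∈ S ∩ tsupport χ, 0 < XX z - par C (tau z) (eta z) - L (tau z) →
        γ z (1, 0) (1, 0) + γ z (0, 1) (0, 1) ≤ M) →
      ∀ r : ℝ, 0 < r → r ≤ 1 →
        ∫⁻ z in {z | 0 < XX z - par C (tau z) (eta z) - L (tau z) ∧
            XX z - par C (tau z) (eta z) - L (tau z) < r},
          ENNReal.ofReal (χ z * (γ z (1, 0) (1, 0) + γ z (0, 1) (0, 1)))
          ≤ ENNReal.ofReal (C' * r)

end Crest.Agent.R266
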