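import Mathlib
import Crest.Agent.R266.Chart4
import Crest.Agent.R266.StepThreeDefs

/-!
R266 / SwapDbl (helper113): the doubling for the swapped splitting.
-/

set_option autoImplicit false
set_option linter.unusedSectionVars false

open scoped Manifold ContDiff Topology
open Set Metric Filter
open Crest.AlgGeometry.HolSplit

namespace Crest.Agent.R266.SwD

variable {n : ℕ} {X : Type*} [TopologicalSpace X] [ChartedSpace (Model n) X]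
  [IsManifold (mI n) ω X]
variable {E : Type*} [NormedAddCommGroup E] [NormedSpace ℂ E]

theorem tan1_swap (S : Splitting n X) (c : ℂ → X) : Tan1 (swap S) c ↔ Tan2 S c := by
  unfold Tan1 Tan2
  simp only [swap_proj_eq_iff]

theorem tan2_swap (S : Splitting n X) (c : ℂ → X) : Tan2 (swap S) c ↔ Tan1 S c := by
  unfold Tan1 Tan2
  simp only [swap_proj_zero_iff]

/-- exchange of the two curve parameters -/
noncomputable def sw : (E × ℂ × ℂ) →L[ℂ] (E × ℂ × ℂ) :=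
  (ContinuousLinearMap.fst ℂ E (ℂ × ℂ)).prod
    (((ContinuousLinearMap.snd ℂ ℂ ℂ).comp (ContinuousLinearMap.snd ℂ E (ℂ × ℂ))).prod
      ((ContinuousLinearMap.fst ℂ ℂ ℂ).comp (ContinuousLinearMap.snd ℂ E (ℂ × ℂ))))

@[simp] theorem sw_apply (p : E × ℂ × ℂ) : sw p = (p.1, p.2.2, p.2.1) := rfl

theorem sw_mem_Dg {s₀ : E} {r δ : ℝ} {p : E × ℂ × ℂ} (hp : p ∈ Dg s₀ r δ) :
    sw p ∈ Dg s₀ r δ := by
  obtain ⟨h1, h2, h3, h4⟩ := hp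
  refine ⟨h1, h3, h2, ?_⟩
  have h5 : ‖p.2.2 - p.2.1‖ < δ := by rw [norm_sub_rev]; exact h4
  exact h5

theorem isOpen_Dg (s₀ : E) (r δ : ℝ) : IsOpen (Dg s₀ r δ) := by
  have c1 : Continuous fun p : E × ℂ × ℂ => ‖p.1 - s₀‖ := by fun_prop
  have c2 : Continuous fun p : E × ℂ × ℂ => ‖p.2.1‖ := by fun_prop
  have c3 : Continuous fun p : E × ℂ × ℂ => ‖p.2.2‖ := by fun_prop
  have c4 : Continuous fun p : E × ℂ × ℂ => ‖p.2.1 - p.2.2‖ := by fun_prop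
  exact (isOpen_lt c1 continuous_const).inter ((isOpen_lt c2 continuous_const).inter
    ((isOpen_lt c3 continuous_const).inter (isOpen_lt c4 continuous_const)))

theorem mfderiv_sw {F : E × ℂ × ℂ → X} {s₀ : E} {r δ : ℝ}
    (hF : ContMDiffOn 𝓘(ℂ, E × ℂ × ℂ) (mI n) ω F (Dg s₀ r δ)) {p : E × ℂ × ℂ}
    (hp : p ∈ Dg s₀ r δ) (v : E × ℂ × ℂ) :
    (mfderiv 𝓘(ℂ, E × ℂ × ℂ) (mI n) (fun q => F (sw q)) p v : Model n) =
      mfderiv 𝓘(ℂ, E × ℂ × ℂ) (mI n) F (sw p) (sw v) := by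
  have h1 : MDifferentiableAt 𝓘(ℂ, E × ℂ × ℂ) (mI n) F (sw p) :=
    (hF.contMDiffAt ((isOpen_Dg s₀ r δ).mem_nhds (sw_mem_Dg hp))).mdifferentiableAt (by simp)
  have h2 : MDifferentiableAt 𝓘(ℂ, E × ℂ × ℂ) 𝓘(ℂ, E × ℂ × ℂ)
      (sw : (E × ℂ × ℂ) →L[ℂ] (E × ℂ × ℂ)) p :=
    (sw : (E × ℂ × ℂ) →L[ℂ] (E × ℂ × ℂ)).mdifferentiableAt
  have h3 := mfderiv_comp p h1 h2
  have h4 : mfderiv 𝓘(ℂ, E × ℂ × ℂ) 𝓘(ℂ, E × ℂ × ℂ)
      (sw : (E × ℂ × ℂ) →L[ℂ] (E × ℂ × ℂ)) p = sw := by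
    rw [mfderiv_eq_fderiv]
    exact ContinuousLinearMap.fderiv _
  have h5 : mfderiv 𝓘(ℂ, E × ℂ × ℂ) (mI n) (fun q => F (sw q)) p v =
      mfderiv 𝓘(ℂ, E × ℂ × ℂ) (mI n) F (sw p)
        (mfderiv 𝓘(ℂ, E × ℂ × ℂ) 𝓘(ℂ, E × ℂ × ℂ)
          (sw : (E × ℂ × ℂ) →L[ℂ] (E × ℂ × ℂ)) p v) :=
    congrArg (fun L => L v) h3
  refine h5.trans ?_
  rw [h4]
  rfl

/-- the doubling for the swapped splitting -/
theorem dbl_swap {S : Splitting n X} {f : E → Bool → ℂ → X} {s₀ : E} {r δ : ℝ}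
    {F : Bool → E × ℂ × ℂ → X} (h : Dbl S f s₀ r δ F) :
    Dbl (R266.swap S) f s₀ r δ (fun b p => F b (p.1, p.2.2, p.2.1)) where
  hol b := by
    have h2 : ContMDiffOn 𝓘(ℂ, E × ℂ × ℂ) 𝓘(ℂ, E × ℂ × ℂ) ω
        (sw : (E × ℂ × ℂ) →L[ℂ] (E × ℂ × ℂ)) (Dg s₀ r δ) :=
      (sw : (E × ℂ × ℂ) →L[ℂ] (E × ℂ × ℂ)).contMDiff.contMDiffOn
    exact (h.hol b).comp h2 (fun p hp => sw_mem_Dg hp)
  diag b s z hs hz := h.diag b s z hs hz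
  tan1 b p hp := by
    rw [swap_proj_eq_iff]
    have e := mfderiv_sw (h.hol b) hp ((0, 1, 0) : E × ℂ × ℂ)
    have t := h.tan2 b (sw p) (sw_mem_Dg hp)
    have e' : mfderiv 𝓘(ℂ, E × ℂ × ℂ) (mI n) (fun p : E × ℂ × ℂ => F b (p.1, p.2.2, p.2.1)) p
        ((0, 1, 0) : E × ℂ × ℂ) =
        mfderiv 𝓘(ℂ, E × ℂ × ℂ) (mI n) (F b) (sw p) ((0, 0, 1) : E × ℂ × ℂ) := e
    rw [e']
    exact t
  tan2 b p hp := by
    rw [swap_proj_zero_iff]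
    have e := mfderiv_sw (h.hol b) hp ((0, 0, 1) : E × ℂ × ℂ)
    have t := h.tan1 b (sw p) (sw_mem_Dg hp)
    have e' : mfderiv 𝓘(ℂ, E × ℂ × ℂ) (mI n) (fun p : E × ℂ × ℂ => F b (p.1, p.2.2, p.2.1)) p
        ((0, 0, 1) : E × ℂ × ℂ) =
        mfderiv 𝓘(ℂ, E × ℂ × ℂ) (mI n) (F b) (sw p) ((0, 1, 0) : E × ℂ × ℂ) := e
    rw [e']
    exact t
  glue b s z₁ z₂ h1 h2 h3 h4 :=
    h.glue b s z₂ z₁ h2 h1 (sw_mem_Dg h3) (sw_mem_Dg h4)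

end Crest.Agent.R266.SwD
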