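import Crest.Agent.R266.Stmts

/-!
Row 266, S0405, step (2): the SWEEP. Abstract "product compatible" (p.c.) theory on `ℂ × ℂ`,
and the completeness theorem on a bidisc from the local extension theorem NC.
-/

set_option autoImplicit false

open Topology Set Filter Metric

namespace Crest.Agent.R266

/-- Abstract germwise theory of product compatible maps `G : ℂ × ℂ → X`
(`∂_x G ∈ E₁`, `∂_y G ∈ E₂`), together with discs tangent to `E₁`, `E₂`. -/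
structure PCTheory (X : Type*) where
  PCAt : (ℂ × ℂ → X) → ℂ × ℂ → Prop
  E1At : (ℂ → X) → ℂ → Prop
  E2At : (ℂ → X) → ℂ → Prop
  pc_congr : ∀ {G G' : ℂ × ℂ → X} {p : ℂ × ℂ}, G =ᶠ[𝓝 p] G' → PCAt G p → PCAt G' p
  pc_open : ∀ {G : ℂ × ℂ → X} {p : ℂ × ℂ}, PCAt G p → ∀ᶠ q in 𝓝 p, PCAt G q
  pc_ident : ∀ {G G' : ℂ × ℂ → X} {p : ℂ × ℂ}, PCAt G p → PCAt G' p →
    (∃ᶠ q in 𝓝 p, G =ᶠ[𝓝 q] G') → G =ᶠ[𝓝 p] G'
  /-- extension along the `x`-axis direction inside one product chart -/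
  ax1 : ∀ {c : ℂ → X} {x₀ : ℂ}, E1At c x₀ → ∃ r > 0, ∀ (G : ℂ × ℂ → X) (y₀ x₁ : ℂ),
    x₁ ∈ ball x₀ r → PCAt G (x₁, y₀) → (∀ᶠ x in 𝓝 x₁, G (x, y₀) = c x) →
    ∃ G' : ℂ × ℂ → X, (∀ x ∈ ball x₀ r, PCAt G' (x, y₀)) ∧ (∀ x ∈ ball x₀ r, G' (x, y₀) = c x) ∧
      G' =ᶠ[𝓝 (x₁, y₀)] G
  /-- extension along the `y`-axis direction inside one product chart -/
  ax2 : ∀ {c : ℂ → X} {y₀ : ℂ}, E2At c y₀ → ∃ r > 0, ∀ (G : ℂ × ℂ → X) (x₀ y₁ : ℂ),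
    y₁ ∈ ball y₀ r → PCAt G (x₀, y₁) → (∀ᶠ y in 𝓝 y₁, G (x₀, y) = c y) →
    ∃ G' : ℂ × ℂ → X, (∀ y ∈ ball y₀ r, PCAt G' (x₀, y)) ∧ (∀ y ∈ ball y₀ r, G' (x₀, y) = c y) ∧
      G' =ᶠ[𝓝 (x₀, y₁)] G
  /-- initial germ -/
  init : ∀ {c₁ c₂ : ℂ → X} {x₀ y₀ : ℂ}, E1At c₁ x₀ → E2At c₂ y₀ → c₁ x₀ = c₂ y₀ →
    ∃ G : ℂ × ℂ → X, PCAt G (x₀, y₀) ∧ (∀ᶠ x in 𝓝 x₀, G (x, y₀) = c₁ x) ∧
      (∀ᶠ y in 𝓝 y₀, G (x₀, y) = c₂ y)

/-- The local extension theorem NC: a p.c. map on `{Re(l·Δx + m·Δy) > C‖Δ‖²}` near `q`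
extends across `q`; the extension agrees with it on all rays entering the domain. -/
def PCTheory.NC {X : Type*} (T : PCTheory X) : Prop :=
  ∀ (G : ℂ × ℂ → X) (q : ℂ × ℂ) (l m : ℂ) (C d : ℝ), l ≠ 0 → m ≠ 0 → 0 < C → 0 < d →
    (∀ p ∈ ball q d, C * ‖p - q‖ ^ 2 < (l * (p.1 - q.1) + m * (p.2 - q.2)).re → T.PCAt G p) →
    ∃ G' : ℂ × ℂ → X, T.PCAt G' q ∧ ∀ v : ℂ × ℂ, 0 < (l * v.1 + m * v.2).re →
      ∀ᶠ t : ℝ in 𝓝[>] 0, G' =ᶠ[𝓝 (q + t • v)] G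

namespace PCTheory

variable {X : Type*} (T : PCTheory X)

lemma isOpen_pc (G : ℂ × ℂ → X) : IsOpen {p | T.PCAt G p} := by
  rw [isOpen_iff_mem_nhds]
  intro p hp
  exact T.pc_open hp

lemma isOpen_germEq (G G' : ℂ × ℂ → X) : IsOpen {p | G =ᶠ[𝓝 p] G'} := by
  rw [isOpen_iff_mem_nhds]
  intro p hp
  exact eventually_eventually_nhds.2 hp

/-- uniqueness of continuation along a preconnected set -/
lemma unique_along {G G' : ℂ × ℂ → X} {s : Set (ℂ × ℂ)} (hs : IsPreconnected s)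
    (h : ∀ p ∈ s, T.PCAt G p) (h' : ∀ p ∈ s, T.PCAt G' p) {p₀ : ℂ × ℂ} (hp₀ : p₀ ∈ s)
    (he : G =ᶠ[𝓝 p₀] G') : ∀ p ∈ s, G =ᶠ[𝓝 p] G' := by
  have := hs.subset_of_closure_inter_subset (isOpen_germEq G G') ⟨p₀, hp₀, he⟩ (by
    rintro p ⟨hpc, hps⟩
    refine T.pc_ident (h p hps) (h' p hps) ?_
    exact mem_closure_iff_frequently.1 hpc)
  intro p hp
  exact this hp

/-- `G₀` extends along the segment `[0,p]`. -/
def Ext (G₀ : ℂ × ℂ → X) (p : ℂ × ℂ) : Prop :=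
  ∃ G' : ℂ × ℂ → X, (∀ t ∈ Icc (0:ℝ) 1, T.PCAt G' (t • p)) ∧ G' =ᶠ[𝓝 0] G₀

lemma seg_preconnected (p : ℂ × ℂ) : IsPreconnected ((fun t : ℝ => t • p) '' Icc (0:ℝ) 1) :=
  isPreconnected_Icc.image _ (by fun_prop)

lemma eventually_seg {G' : ℂ × ℂ → X} {p : ℂ × ℂ} (h : ∀ t ∈ Icc (0:ℝ) 1, T.PCAt G' (t • p)) :
    ∀ᶠ p' in 𝓝 p, ∀ t ∈ Icc (0:ℝ) 1, T.PCAt G' (t • p') := by
  have hW := T.isOpen_pc G'
  have hcont : Continuous (fun z : ℝ × (ℂ × ℂ) => z.1 • z.2) := by fun_prop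
  have hpre : IsOpen {z : ℝ × (ℂ × ℂ) | T.PCAt G' (z.1 • z.2)} := hW.preimage hcont
  have hsub : Icc (0:ℝ) 1 ×ˢ ({p} : Set (ℂ × ℂ)) ⊆ {z : ℝ × (ℂ × ℂ) | T.PCAt G' (z.1 • z.2)} := by
    rintro ⟨t, p'⟩ ⟨ht, hp'⟩
    simp only [mem_singleton_iff] at hp'
    subst hp'
    exact h t ht
  obtain ⟨u, v, hu, hv, hu', hv', huv⟩ := generalized_tube_lemma isCompact_Icc
    (isCompact_singleton (x := p)) hpre hsub
  filter_upwards [hv.mem_nhds (hv' rfl)] with p' hp' t ht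
  exact huv (show (t, p') ∈ u ×ˢ v from ⟨hu' ht, hp'⟩)

lemma isOpen_ext (G₀ : ℂ × ℂ → X) : IsOpen {p | T.Ext G₀ p} := by
  rw [isOpen_iff_mem_nhds]
  rintro p ⟨G', h, he⟩
  filter_upwards [T.eventually_seg h] with p' hp'
  exact ⟨G', hp', he⟩

lemma unique_seg {G G' : ℂ × ℂ → X} {p : ℂ × ℂ} (h : ∀ t ∈ Icc (0:ℝ) 1, T.PCAt G (t • p))
    (h' : ∀ t ∈ Icc (0:ℝ) 1, T.PCAt G' (t • p)) (he : G =ᶠ[𝓝 0] G') :
    ∀ t ∈ Icc (0:ℝ) 1, G =ᶠ[𝓝 (t • p)] G' := by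
  intro t ht
  refine T.unique_along (seg_preconnected p) ?_ ?_ (p₀ := 0) ⟨0, by simp, by simp⟩ he _ ⟨t, ht, rfl⟩
  · rintro _ ⟨t, ht, rfl⟩; exact h t ht
  · rintro _ ⟨t, ht, rfl⟩; exact h' t ht

open Classical in
/-- the star extension of `G₀` -/
noncomputable def star (G₀ : ℂ × ℂ → X) : ℂ × ℂ → X := fun p =>
  if h : T.Ext G₀ p then (Classical.choose h) p else G₀ p

lemma star_eq {G₀ G' : ℂ × ℂ → X} {p : ℂ × ℂ} (h : ∀ t ∈ Icc (0:ℝ) 1, T.PCAt G' (t • p))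
    (he : G' =ᶠ[𝓝 0] G₀) : T.star G₀ =ᶠ[𝓝 p] G' := by
  filter_upwards [T.eventually_seg h] with p' hp'
  have hext : T.Ext G₀ p' := ⟨G', hp', he⟩
  have hs := Classical.choose_spec hext
  have := T.unique_seg hs.1 hp' (hs.2.trans he.symm) 1 (by simp)
  rw [one_smul] at this
  simp only [star, hext, dif_pos]
  exact this.self_of_nhds

lemma star_pc {G₀ : ℂ × ℂ → X} {p : ℂ × ℂ} (h : T.Ext G₀ p) : T.PCAt (T.star G₀) p := by
  obtain ⟨G', h1, h2⟩ := h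
  refine T.pc_congr (T.star_eq h1 h2).symm ?_
  simpa using h1 1 (by simp)

lemma star_zero {G₀ : ℂ × ℂ → X} (h : T.PCAt G₀ 0) : T.star G₀ =ᶠ[𝓝 0] G₀ := by
  refine T.star_eq (p := 0) (fun t _ => by simpa using h) (Eventually.of_forall fun _ => rfl)

open Classical in
/-- glue two maps along a hyperplane transversal to a ray -/
noncomputable def glue (f : ℂ × ℂ →L[ℝ] ℝ) (t₁ : ℝ) (G G' : ℂ × ℂ → X) : ℂ × ℂ → X := fun p =>
  if t₁ < f p then G' p else G p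

lemma glue_lt {f : ℂ × ℂ →L[ℝ] ℝ} {t₁ : ℝ} {G G' : ℂ × ℂ → X} {p : ℂ × ℂ} (h : f p < t₁) :
    glue f t₁ G G' =ᶠ[𝓝 p] G := by
  have : ∀ᶠ p' in 𝓝 p, f p' < t₁ := f.continuous.continuousAt.eventually_lt_const h
  filter_upwards [this] with p' hp'
  simp [glue, not_lt.2 hp'.le]

lemma glue_gt {f : ℂ × ℂ →L[ℝ] ℝ} {t₁ : ℝ} {G G' : ℂ × ℂ → X} {p : ℂ × ℂ} (h : t₁ < f p) :
    glue f t₁ G G' =ᶠ[𝓝 p] G' := by
  have : ∀ᶠ p' in 𝓝 p, t₁ < f p' := f.continuous.continuousAt.eventually_const_lt h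
  filter_upwards [this] with p' hp'
  simp [glue, hp']

lemma glue_eq {f : ℂ × ℂ →L[ℝ] ℝ} {t₁ : ℝ} {G G' : ℂ × ℂ → X} {p : ℂ × ℂ} (h : G' =ᶠ[𝓝 p] G) :
    glue f t₁ G G' =ᶠ[𝓝 p] G := by
  filter_upwards [h] with p' hp'
  unfold glue
  split_ifs
  · exact hp'
  · rfl


/-- glue along a ray: `G` on `[0,t₁)`, `G'` on `(t₁, t₂]`. -/
lemma glue_ray {q : ℂ × ℂ} (hq : q ≠ 0) {t₁ : ℝ} {G G' : ℂ × ℂ → X}
    (he : G' =ᶠ[𝓝 (t₁ • q)] G) :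
    ∃ H : ℂ × ℂ → X, (∀ t ≤ t₁, H =ᶠ[𝓝 (t • q)] G) ∧ (∀ t, t₁ ≤ t → H =ᶠ[𝓝 (t • q)] G') := by
  obtain ⟨f, hf⟩ := SeparatingDual.exists_eq_one (R := ℝ) hq
  have hft : ∀ t : ℝ, f (t • q) = t := fun t => by rw [map_smul, hf]; simp
  refine ⟨glue f t₁ G G', ?_, ?_⟩
  · intro t ht
    rcases ht.lt_or_eq with h | h
    · exact glue_lt (by rwa [hft])
    · subst h; exact glue_eq he
  · intro t ht
    rcases ht.lt_or_eq with h | h
    · exact glue_gt (by rwa [hft])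
    · subst h; exact (glue_eq he).trans he.symm

/-- the axis chain, first axis -/
lemma axis1 {c : ℂ → X} {R : ℝ} (hc : ∀ x ∈ ball (0:ℂ) R, T.E1At c x) {G₀ : ℂ × ℂ → X}
    (h₀ : T.PCAt G₀ 0) (h₀' : ∀ᶠ x in 𝓝 (0:ℂ), G₀ (x, 0) = c x) {x : ℂ} (hx : x ∈ ball (0:ℂ) R)
    (hx0 : x ≠ 0) :
    ∃ G' : ℂ × ℂ → X, (∀ t ∈ Icc (0:ℝ) 1, T.PCAt G' (t • (x, 0))) ∧
      (∀ t ∈ Icc (0:ℝ) 1, ∀ᶠ z in 𝓝 (t • x), G' (z, 0) = c z) ∧ G' =ᶠ[𝓝 0] G₀ := by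
  have hq : ((x, 0) : ℂ × ℂ) ≠ 0 := fun h => hx0 (congrArg Prod.fst h)
  set P : ℝ → Prop := fun t => ∃ G' : ℂ × ℂ → X, (∀ t' ∈ Icc (0:ℝ) t, T.PCAt G' (t' • (x, 0))) ∧
      (∀ t' ∈ Icc (0:ℝ) t, ∀ᶠ z in 𝓝 (t' • x), G' (z, 0) = c z) ∧ G' =ᶠ[𝓝 0] G₀ with hP
  have hmono : ∀ t t', t' ≤ t → P t → P t' := by
    rintro t t' h ⟨G', h1, h2, h3⟩
    exact ⟨G', fun u hu => h1 u ⟨hu.1, hu.2.trans h⟩, fun u hu => h2 u ⟨hu.1, hu.2.trans h⟩, h3⟩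
  have htx : ∀ t ∈ Icc (0:ℝ) 1, t • x ∈ ball (0:ℂ) R := by
    intro t ht
    rw [mem_ball_zero_iff] at hx ⊢
    rw [norm_smul, Real.norm_of_nonneg ht.1]
    calc t * ‖x‖ ≤ 1 * ‖x‖ := by gcongr; exact ht.2
      _ < R := by simpa using hx
  -- local propagation
  have hkey : ∀ t ∈ Icc (0:ℝ) 1, ∃ δ > 0, ∀ t₁ ∈ Icc (0:ℝ) 1, ∀ t₂ ∈ Icc (0:ℝ) 1,
      |t₁ - t| < δ → |t₂ - t| < δ → P t₁ → P t₂ := by
    intro t ht
    obtain ⟨r, hr, H⟩ := T.ax1 (hc _ (htx t ht))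
    have hxn : 0 < ‖x‖ := norm_pos_iff.2 hx0
    refine ⟨r / ‖x‖, div_pos hr hxn, ?_⟩
    intro t₁ ht₁ t₂ ht₂ h1 h2 hPt
    rcases le_total t₂ t₁ with hle | hle
    · exact hmono _ _ hle hPt
    have hin : ∀ u, |u - t| < r / ‖x‖ → u • x ∈ ball (t • x) r := by
      intro u hu
      rw [mem_ball, dist_eq_norm, ← sub_smul, norm_smul, Real.norm_eq_abs]
      rwa [lt_div_iff₀ hxn] at hu
    obtain ⟨G', hG1, hG2, hG3⟩ := hPt
    have ht11 : t₁ ∈ Icc (0:ℝ) t₁ := ⟨ht₁.1, le_rfl⟩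
    have hp1 := hG1 t₁ ht11
    have hsm : ∀ u : ℝ, u • ((x, 0) : ℂ × ℂ) = (u • x, 0) := fun u => by simp
    rw [hsm] at hp1
    obtain ⟨G'', k1, k2, k3⟩ := H G' 0 (t₁ • x) (hin t₁ h1) hp1 (hG2 t₁ ht11)
    rw [← hsm] at k3
    obtain ⟨K, K1, K2⟩ := glue_ray hq k3
    have hbd : ∀ u ∈ Icc t₁ t₂, |u - t| < r / ‖x‖ := by
      intro u hu
      rw [abs_lt] at h1 h2 ⊢
      exact ⟨by linarith [hu.1], by linarith [hu.2]⟩
    refine ⟨K, ?_, ?_, ?_⟩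
    · intro u hu
      rcases le_total u t₁ with h | h
      · exact T.pc_congr (K1 u h).symm (hG1 u ⟨hu.1, h⟩)
      · refine T.pc_congr (K2 u h).symm ?_
        rw [hsm]
        exact k1 _ (hin u (hbd u ⟨h, hu.2⟩))
    · intro u hu
      have hcont : Continuous (fun z : ℂ => ((z, 0) : ℂ × ℂ)) := by fun_prop
      rcases le_total u t₁ with h | h
      · have e1 := K1 u h
        rw [hsm] at e1
        filter_upwards [hcont.continuousAt.eventually e1, hG2 u ⟨hu.1, h⟩] with z hz1 hz2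
        rw [hz1, hz2]
      · have e1 := K2 u h
        rw [hsm] at e1
        have hb : ball (t • x) r ∈ 𝓝 (u • x) := isOpen_ball.mem_nhds (hin u (hbd u ⟨h, hu.2⟩))
        filter_upwards [hcont.continuousAt.eventually e1, hb] with z hz1 hz2
        rw [hz1, k2 z hz2]
    · have := K1 0 ht₁.1
      rw [zero_smul] at this
      exact this.trans hG3
  have hP0 : P 0 := by
    refine ⟨G₀, ?_, ?_, Eventually.of_forall fun _ => rfl⟩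
    · intro t ht
      have : t = 0 := le_antisymm ht.2 ht.1
      subst this; simpa using h₀
    · intro t ht
      have : t = 0 := le_antisymm ht.2 ht.1
      subst this; simpa using h₀'
  have hP1 : P 1 := by
    have hpre : IsPreconnected (Icc (0:ℝ) 1) := isPreconnected_Icc
    -- the set of t with P t, made open
    set u : Set ℝ := {t | ∃ t' , t' ∈ Icc (0:ℝ) 1 ∧ P t' ∧ ∃ δ > 0, |t - t'| < δ ∧
      ∀ t₂ ∈ Icc (0:ℝ) 1, |t₂ - t'| < δ → P t₂} with hu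
    have huo : IsOpen u := by
      rw [Metric.isOpen_iff]
      rintro t ⟨t', ht', hPt', δ, hδ, h1, h2⟩
      refine ⟨δ - |t - t'|, by linarith, fun s hs => ⟨t', ht', hPt', δ, hδ, ?_, h2⟩⟩
      rw [mem_ball, Real.dist_eq] at hs
      calc |s - t'| ≤ |s - t| + |t - t'| := abs_sub_le _ _ _
        _ < δ := by linarith
    have huP : ∀ t ∈ Icc (0:ℝ) 1, t ∈ u → P t := by
      rintro t ht ⟨t', ht', hPt', δ, hδ, h1, h2⟩
      exact h2 t ht h1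
    have hPu : ∀ t ∈ Icc (0:ℝ) 1, P t → t ∈ u := by
      intro t ht hPt
      obtain ⟨δ, hδ, h⟩ := hkey t ht
      exact ⟨t, ht, hPt, δ, hδ, by simpa using hδ, fun t₂ ht₂ h2 =>
        h t ht t₂ ht₂ (by simpa using hδ) h2 hPt⟩
    have := hpre.subset_of_closure_inter_subset huo
      ⟨0, ⟨le_rfl, zero_le_one⟩, hPu 0 ⟨le_rfl, zero_le_one⟩ hP0⟩ (by
        rintro t ⟨htc, ht⟩
        obtain ⟨δ, hδ, h⟩ := hkey t ht
        rw [Metric.mem_closure_iff] at htc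
        obtain ⟨s, ⟨t', ht', hPt', δ', hδ', h1, h2⟩, hs⟩ := htc (min δ 1) (lt_min hδ one_pos)
        refine hPu t ht ?_
        -- find a point of [0,1] close to both
        rw [Real.dist_eq] at hs
        have hsδ : |t - s| < δ := hs.trans_le (min_le_left _ _)
        -- projection of s onto [0,1]
        set s' : ℝ := max 0 (min 1 s) with hs'
        have hs'mem : s' ∈ Icc (0:ℝ) 1 := ⟨le_max_left _ _, max_le zero_le_one (min_le_left _ _)⟩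
        have hproj : ∀ w ∈ Icc (0:ℝ) 1, |s' - w| ≤ |s - w| := by
          intro w hw
          rw [hs']
          rcases le_total s 0 with h0 | h0
          · rw [min_eq_right (h0.trans zero_le_one), max_eq_left h0]
            rw [abs_le]
            constructor
            · have := neg_abs_le (s - w); nlinarith [abs_nonneg (s - w), neg_abs_le (s-w)]
            · have := abs_nonneg (s - w); linarith [hw.1]
          · rcases le_total s 1 with h1 | h1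
            · rw [min_eq_right h1, max_eq_right h0]
            · rw [min_eq_left h1, max_eq_right zero_le_one]
              rw [abs_of_nonneg (by linarith [hw.2]), abs_of_nonneg (by linarith [hw.2])]
              linarith
        have a1 : |s' - t'| < δ' := (hproj t' ht').trans_lt h1
        have a2 : |s' - t| < δ := by
          refine (hproj t ht).trans_lt ?_
          rwa [abs_sub_comm]
        exact h s' hs'mem t ht a2 (by simpa using hδ) (h2 s' hs'mem a1))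
    exact huP 1 ⟨zero_le_one, le_rfl⟩ (this ⟨zero_le_one, le_rfl⟩)
  obtain ⟨G', h1, h2, h3⟩ := hP1
  exact ⟨G', h1, h2, h3⟩

/-! ### the swapped theory -/

lemma germ_swap {G G' : ℂ × ℂ → X} {p : ℂ × ℂ} (h : G =ᶠ[𝓝 p] G') :
    (fun z : ℂ × ℂ => G z.swap) =ᶠ[𝓝 p.swap] (fun z => G' z.swap) := by
  have : Tendsto (Prod.swap : ℂ × ℂ → ℂ × ℂ) (𝓝 p.swap) (𝓝 p) := by
    have := (continuous_swap (X := ℂ) (Y := ℂ)).tendsto p.swap
    rwa [Prod.swap_swap] at this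
  exact this.eventually h

/-- exchange the two coordinates -/
def swap (T : PCTheory X) : PCTheory X where
  PCAt G p := T.PCAt (fun z => G z.swap) p.swap
  E1At := T.E2At
  E2At := T.E1At
  pc_congr h hp := T.pc_congr (germ_swap h) hp
  pc_open := by
    intro G p h
    have := T.pc_open h
    exact (continuous_swap.tendsto p).eventually this
  pc_ident := by
    intro G G' p h h' hf
    have : (fun z : ℂ × ℂ => G z.swap) =ᶠ[𝓝 p.swap] (fun z => G' z.swap) := by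
      refine T.pc_ident h h' ?_
      have h1 : ∃ᶠ q in 𝓝 p, (fun z : ℂ × ℂ => G z.swap) =ᶠ[𝓝 q.swap] (fun z => G' z.swap) :=
        hf.mono fun q hq => germ_swap hq
      exact (continuous_swap.tendsto p).frequently h1
    simpa using germ_swap this
  ax1 := by
    intro c x₀ hc
    obtain ⟨r, hr, H⟩ := T.ax2 hc
    refine ⟨r, hr, fun G y₀ x₁ hx₁ hG hGc => ?_⟩
    obtain ⟨G', h1, h2, h3⟩ := H (fun z => G z.swap) y₀ x₁ hx₁ hG hGc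
    refine ⟨fun z => G' z.swap, ?_, ?_, ?_⟩
    · intro x hx; simpa using h1 x hx
    · intro x hx; simpa using h2 x hx
    · have := germ_swap h3
      simpa using this
  ax2 := by
    intro c x₀ hc
    obtain ⟨r, hr, H⟩ := T.ax1 hc
    refine ⟨r, hr, fun G y₀ x₁ hx₁ hG hGc => ?_⟩
    obtain ⟨G', h1, h2, h3⟩ := H (fun z => G z.swap) y₀ x₁ hx₁ hG hGc
    refine ⟨fun z => G' z.swap, ?_, ?_, ?_⟩
    · intro x hx; simpa using h1 x hx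
    · intro x hx; simpa using h2 x hx
    · have := germ_swap h3
      simpa using this
  init := by
    intro c₁ c₂ x₀ y₀ h1 h2 h
    obtain ⟨G, g1, g2, g3⟩ := T.init h2 h1 h.symm
    refine ⟨fun z => G z.swap, ?_, ?_, ?_⟩
    · simpa using g1
    · simpa using g3
    · simpa using g2

/-- the axis chain, second axis -/
lemma axis2 {c : ℂ → X} {R : ℝ} (hc : ∀ y ∈ ball (0:ℂ) R, T.E2At c y) {G₀ : ℂ × ℂ → X}
    (h₀ : T.PCAt G₀ 0) (h₀' : ∀ᶠ y in 𝓝 (0:ℂ), G₀ (0, y) = c y) {y : ℂ} (hy : y ∈ ball (0:ℂ) R)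
    (hy0 : y ≠ 0) :
    ∃ G' : ℂ × ℂ → X, (∀ t ∈ Icc (0:ℝ) 1, T.PCAt G' (t • (0, y))) ∧
      (∀ t ∈ Icc (0:ℝ) 1, ∀ᶠ z in 𝓝 (t • y), G' (0, z) = c z) ∧ G' =ᶠ[𝓝 0] G₀ := by
  obtain ⟨G', h1, h2, h3⟩ := T.swap.axis1 (c := c) (R := R) hc (G₀ := fun z => G₀ z.swap)
    (show T.PCAt _ _ by simpa using h₀) (by simpa using h₀') hy hy0
  refine ⟨fun z => G' z.swap, ?_, ?_, ?_⟩
  · intro t ht
    have := h1 t ht
    change T.PCAt _ _ at this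
    simpa using this
  · intro t ht
    simpa using h2 t ht
  · have := germ_swap h3
    simpa using this

/-- the polynomial sweep estimate -/
lemma sweep_poly {R₁ R₂ : ℝ} {x₀ y₀ : ℂ} (hx : ‖x₀‖ < R₁) (hy : ‖y₀‖ < R₂) :
    ∃ C > 0, ∀ h : ℂ × ℂ, ‖h‖ ≤ 1 →
      (-(2 * (R₂ ^ 2 - ‖y₀‖ ^ 2 : ℝ)) * (starRingEnd ℂ) x₀ * h.1
        + -(2 * (R₁ ^ 2 - ‖x₀‖ ^ 2 : ℝ)) * (starRingEnd ℂ) y₀ * h.2).re - C * ‖h‖ ^ 2 ≤
      (R₁ ^ 2 - ‖x₀ + h.1‖ ^ 2) * (R₂ ^ 2 - ‖y₀ + h.2‖ ^ 2)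
        - (R₁ ^ 2 - ‖x₀‖ ^ 2) * (R₂ ^ 2 - ‖y₀‖ ^ 2) := by
  have hA : 0 < R₁ ^ 2 - ‖x₀‖ ^ 2 := by nlinarith [norm_nonneg x₀]
  have hB : 0 < R₂ ^ 2 - ‖y₀‖ ^ 2 := by nlinarith [norm_nonneg y₀]
  refine ⟨(R₁ ^ 2 - ‖x₀‖ ^ 2) + (R₂ ^ 2 - ‖y₀‖ ^ 2) + (2 * ‖x₀‖ + 1) * (2 * ‖y₀‖ + 1), by positivity, ?_⟩
  rintro ⟨h₁, h₂⟩ hh
  have hn1 : ‖h₁‖ ≤ ‖(h₁, h₂)‖ := norm_fst_le (h₁, h₂)
  have hn2 : ‖h₂‖ ≤ ‖(h₁, h₂)‖ := norm_snd_le (h₁, h₂)
  set N := ‖(h₁, h₂)‖ with hN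
  have hN0 : 0 ≤ N := norm_nonneg _
  have e1 : ‖x₀ + h₁‖ ^ 2 = ‖x₀‖ ^ 2 + (2 * ((starRingEnd ℂ) x₀ * h₁).re + ‖h₁‖ ^ 2) := by
    rw [← Complex.normSq_eq_norm_sq, ← Complex.normSq_eq_norm_sq, ← Complex.normSq_eq_norm_sq]
    simp [Complex.normSq_apply]; ring
  have e2 : ‖y₀ + h₂‖ ^ 2 = ‖y₀‖ ^ 2 + (2 * ((starRingEnd ℂ) y₀ * h₂).re + ‖h₂‖ ^ 2) := by
    rw [← Complex.normSq_eq_norm_sq, ← Complex.normSq_eq_norm_sq, ← Complex.normSq_eq_norm_sq]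
    simp [Complex.normSq_apply]; ring
  have b1 : |2 * ((starRingEnd ℂ) x₀ * h₁).re + ‖h₁‖ ^ 2| ≤ (2 * ‖x₀‖ + 1) * N := by
    have : |((starRingEnd ℂ) x₀ * h₁).re| ≤ ‖x₀‖ * ‖h₁‖ := by
      refine (Complex.abs_re_le_norm _).trans ?_
      rw [norm_mul, Complex.norm_conj]
    rw [abs_le] at this ⊢
    have h2 : ‖x₀‖ * ‖h₁‖ ≤ ‖x₀‖ * N := by gcongr
    have h3 : ‖h₁‖ ^ 2 ≤ N := by nlinarith [norm_nonneg h₁]
    constructor <;> nlinarith [norm_nonneg h₁, sq_nonneg ‖h₁‖]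
  have b2 : |2 * ((starRingEnd ℂ) y₀ * h₂).re + ‖h₂‖ ^ 2| ≤ (2 * ‖y₀‖ + 1) * N := by
    have : |((starRingEnd ℂ) y₀ * h₂).re| ≤ ‖y₀‖ * ‖h₂‖ := by
      refine (Complex.abs_re_le_norm _).trans ?_
      rw [norm_mul, Complex.norm_conj]
    rw [abs_le] at this ⊢
    have h2 : ‖y₀‖ * ‖h₂‖ ≤ ‖y₀‖ * N := by gcongr
    have h3 : ‖h₂‖ ^ 2 ≤ N := by nlinarith [norm_nonneg h₂]
    constructor <;> nlinarith [norm_nonneg h₂, sq_nonneg ‖h₂‖]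
  have hre : (-(2 * ((R₂ ^ 2 - ‖y₀‖ ^ 2 : ℝ) : ℂ)) * (starRingEnd ℂ) x₀ * h₁
        + -(2 * ((R₁ ^ 2 - ‖x₀‖ ^ 2 : ℝ) : ℂ)) * (starRingEnd ℂ) y₀ * h₂).re =
      -(2 * (R₂ ^ 2 - ‖y₀‖ ^ 2)) * ((starRingEnd ℂ) x₀ * h₁).re
        + -(2 * (R₁ ^ 2 - ‖x₀‖ ^ 2)) * ((starRingEnd ℂ) y₀ * h₂).re := by
    have : (-(2 * ((R₂ ^ 2 - ‖y₀‖ ^ 2 : ℝ) : ℂ)) * (starRingEnd ℂ) x₀ * h₁
        + -(2 * ((R₁ ^ 2 - ‖x₀‖ ^ 2 : ℝ) : ℂ)) * (starRingEnd ℂ) y₀ * h₂) =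
      ((-(2 * (R₂ ^ 2 - ‖y₀‖ ^ 2)) : ℝ) : ℂ) * ((starRingEnd ℂ) x₀ * h₁)
        + ((-(2 * (R₁ ^ 2 - ‖x₀‖ ^ 2)) : ℝ) : ℂ) * ((starRingEnd ℂ) y₀ * h₂) := by
      push_cast; ring
    rw [this, Complex.add_re, Complex.re_ofReal_mul, Complex.re_ofReal_mul]
  simp only [] at *
  rw [hre, e1, e2]
  set α := 2 * ((starRingEnd ℂ) x₀ * h₁).re + ‖h₁‖ ^ 2 with hα
  set β := 2 * ((starRingEnd ℂ) y₀ * h₂).re + ‖h₂‖ ^ 2 with hβ
  have hαβ : -((2 * ‖x₀‖ + 1) * (2 * ‖y₀‖ + 1) * N ^ 2) ≤ α * β := by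
    have h4 : |α * β| ≤ ((2 * ‖x₀‖ + 1) * N) * ((2 * ‖y₀‖ + 1) * N) := by
      rw [abs_mul]; gcongr
    have h5 := neg_abs_le (α * β)
    nlinarith
  have s1 : ‖h₁‖ ^ 2 ≤ N ^ 2 := by gcongr
  have s2 : ‖h₂‖ ^ 2 ≤ N ^ 2 := by gcongr
  have r1 : ((starRingEnd ℂ) x₀ * h₁).re = (α - ‖h₁‖ ^ 2) / 2 := by rw [hα]; ring
  have r2 : ((starRingEnd ℂ) y₀ * h₂).re = (β - ‖h₂‖ ^ 2) / 2 := by rw [hβ]; ring
  rw [r1, r2]
  nlinarith [mul_le_mul_of_nonneg_left s1 hB.le, mul_le_mul_of_nonneg_left s2 hA.le]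

/-- **Completeness from NC** (abstract form). -/
theorem complete (hNC : T.NC) {R₁ R₂ : ℝ} (hR₁ : 0 < R₁) (hR₂ : 0 < R₂) {c₁ c₂ : ℂ → X}
    (h₁ : ∀ x ∈ ball (0:ℂ) R₁, T.E1At c₁ x) (h₂ : ∀ y ∈ ball (0:ℂ) R₂, T.E2At c₂ y)
    (h : c₁ 0 = c₂ 0) :
    ∃ G : ℂ × ℂ → X, (∀ p ∈ ball (0:ℂ) R₁ ×ˢ ball (0:ℂ) R₂, T.PCAt G p) ∧
      (∀ x ∈ ball (0 : ℂ) R₁, G (x, 0) = c₁ x) ∧ (∀ y ∈ ball (0 : ℂ) R₂, G (0, y) = c₂ y) := by
  obtain ⟨G₀, g0, g1, g2⟩ := T.init (h₁ 0 (mem_ball_self hR₁)) (h₂ 0 (mem_ball_self hR₂)) h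
  have g0' : T.PCAt G₀ 0 := g0
  have hsm1 : ∀ (t : ℝ) (x : ℂ), t • ((x, 0) : ℂ × ℂ) = (t • x, 0) := fun u x => by simp
  have hsm2 : ∀ (t : ℝ) (x : ℂ), t • ((0, x) : ℂ × ℂ) = (0, t • x) := fun u x => by simp
  have hax1 : ∀ x ∈ ball (0:ℂ) R₁, T.Ext G₀ (x, 0) ∧ T.star G₀ (x, 0) = c₁ x := by
    intro x hx
    by_cases hx0 : x = 0
    · subst hx0
      refine ⟨⟨G₀, fun t _ => by
        rw [show t • ((0, 0) : ℂ × ℂ) = 0 from smul_zero t]; exact g0', Eventually.of_forall fun _ => rfl⟩, ?_⟩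
      have := (T.star_zero g0').self_of_nhds
      rw [show ((0, 0) : ℂ × ℂ) = 0 from rfl, this]
      exact g1.self_of_nhds
    · obtain ⟨G', k1, k2, k3⟩ := T.axis1 h₁ g0' g1 hx hx0
      refine ⟨⟨G', k1, k3⟩, ?_⟩
      rw [(T.star_eq k1 k3).self_of_nhds]
      have := (k2 1 ⟨zero_le_one, le_rfl⟩).self_of_nhds
      simpa using this
  have hax2 : ∀ y ∈ ball (0:ℂ) R₂, T.Ext G₀ (0, y) ∧ T.star G₀ (0, y) = c₂ y := by
    intro x hx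
    by_cases hx0 : x = 0
    · subst hx0
      refine ⟨⟨G₀, fun t _ => by
        rw [show t • ((0, 0) : ℂ × ℂ) = 0 from smul_zero t]; exact g0', Eventually.of_forall fun _ => rfl⟩, ?_⟩
      have := (T.star_zero g0').self_of_nhds
      rw [show ((0, 0) : ℂ × ℂ) = 0 from rfl, this]
      exact g2.self_of_nhds
    · obtain ⟨G', k1, k2, k3⟩ := T.axis2 h₂ g0' g2 hx hx0
      refine ⟨⟨G', k1, k3⟩, ?_⟩
      rw [(T.star_eq k1 k3).self_of_nhds]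
      have := (k2 1 ⟨zero_le_one, le_rfl⟩).self_of_nhds
      simpa using this
  have hall : ∀ p ∈ ball (0:ℂ) R₁ ×ˢ ball (0:ℂ) R₂, T.Ext G₀ p := by
    by_contra hcon
    push Not at hcon
    obtain ⟨p₁, hp₁, hnp₁⟩ := hcon
    set f : ℂ × ℂ → ℝ := fun p => (R₁ ^ 2 - ‖p.1‖ ^ 2) * (R₂ ^ 2 - ‖p.2‖ ^ 2) with hf
    have hfc : Continuous f := by fun_prop
    have hfpos : ∀ p ∈ ball (0:ℂ) R₁ ×ˢ ball (0:ℂ) R₂, 0 < f p := by
      rintro p ⟨hp1, hp2⟩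
      rw [mem_ball_zero_iff] at hp1 hp2
      have := norm_nonneg p.1
      have := norm_nonneg p.2
      exact mul_pos (by nlinarith) (by nlinarith)
    set K : Set (ℂ × ℂ) := (closedBall (0:ℂ) R₁ ×ˢ closedBall (0:ℂ) R₂) ∩
      ({p | f p₁ ≤ f p} ∩ {p | T.Ext G₀ p}ᶜ) with hK
    have hKc : IsCompact K := by
      refine ((isCompact_closedBall _ _).prod (isCompact_closedBall _ _)).inter_right ?_
      exact (isClosed_le continuous_const hfc).inter (T.isOpen_ext G₀).isClosed_compl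
    have hKne : K.Nonempty := ⟨p₁, ⟨ball_subset_closedBall hp₁.1, ball_subset_closedBall hp₁.2⟩,
      (show f p₁ ≤ f p₁ from le_rfl), hnp₁⟩
    obtain ⟨q, hqK, hqmax⟩ := hKc.exists_isMaxOn hKne hfc.continuousOn
    obtain ⟨⟨hq1, hq2⟩, hqf, hqn⟩ := hqK
    simp only [mem_setOf_eq, mem_compl_iff] at hqf hqn
    have hfq : 0 < f q := (hfpos p₁ hp₁).trans_le hqf
    rw [mem_closedBall_zero_iff] at hq1 hq2
    have hq1' : ‖q.1‖ < R₁ := by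
      rcases hq1.lt_or_eq with h | h
      · exact h
      · rw [hf] at hfq; simp only [h, sub_self, zero_mul, lt_self_iff_false] at hfq
    have hq2' : ‖q.2‖ < R₂ := by
      rcases hq2.lt_or_eq with h | h
      · exact h
      · rw [hf] at hfq; simp only [h, sub_self, mul_zero, lt_self_iff_false] at hfq
    have hqb : q ∈ ball (0:ℂ) R₁ ×ˢ ball (0:ℂ) R₂ := by
      constructor <;> rw [mem_ball_zero_iff] <;> assumption
    have hgood : ∀ p ∈ ball (0:ℂ) R₁ ×ˢ ball (0:ℂ) R₂, f q < f p → T.Ext G₀ p := by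
      intro p hp hlt
      by_contra hne
      have : p ∈ K := ⟨⟨ball_subset_closedBall hp.1, ball_subset_closedBall hp.2⟩,
        hqf.trans hlt.le, hne⟩
      exact absurd (hqmax this) (not_le.2 hlt)
    have hx0 : q.1 ≠ 0 := by
      intro h0
      apply hqn
      have := (hax2 q.2 hqb.2).1
      rwa [show ((0, q.2) : ℂ × ℂ) = q from by rw [← h0]] at this
    have hy0 : q.2 ≠ 0 := by
      intro h0
      apply hqn
      have := (hax1 q.1 hqb.1).1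
      rwa [show ((q.1, 0) : ℂ × ℂ) = q from by rw [← h0]] at this
    have hq0 : q ≠ 0 := fun h0 => hx0 (by rw [h0]; rfl)
    have hA : 0 < R₁ ^ 2 - ‖q.1‖ ^ 2 := by nlinarith [norm_nonneg q.1]
    have hB : 0 < R₂ ^ 2 - ‖q.2‖ ^ 2 := by nlinarith [norm_nonneg q.2]
    obtain ⟨C, hC, hpoly⟩ := sweep_poly (R₁ := R₁) (R₂ := R₂) (x₀ := q.1) (y₀ := q.2) hq1' hq2'
    set l : ℂ := -(2 * (R₂ ^ 2 - ‖q.2‖ ^ 2 : ℝ)) * (starRingEnd ℂ) q.1 with hl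
    set m : ℂ := -(2 * (R₁ ^ 2 - ‖q.1‖ ^ 2 : ℝ)) * (starRingEnd ℂ) q.2 with hm
    have hl0 : l ≠ 0 := by
      rw [hl]
      refine mul_ne_zero (neg_ne_zero.2 (mul_ne_zero two_ne_zero ?_)) ?_
      · exact_mod_cast hB.ne'
      · simpa using hx0
    have hm0 : m ≠ 0 := by
      rw [hm]
      refine mul_ne_zero (neg_ne_zero.2 (mul_ne_zero two_ne_zero ?_)) ?_
      · exact_mod_cast hA.ne'
      · simpa using hy0
    -- a small ball around q inside the bidisc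
    have hopen : IsOpen (ball (0:ℂ) R₁ ×ˢ ball (0:ℂ) R₂) := isOpen_ball.prod isOpen_ball
    obtain ⟨d, hd, hdsub⟩ := Metric.isOpen_iff.1 hopen q hqb
    obtain ⟨G', hG', hG'v⟩ := hNC (T.star G₀) q l m C (min d 1) hl0 hm0 hC (lt_min hd one_pos) (by
      intro p hp hlt
      refine T.star_pc (hgood p (hdsub (ball_subset_ball (min_le_left _ _) hp)) ?_)
      have hpn : ‖p - q‖ ≤ 1 := by
        rw [mem_ball, dist_eq_norm] at hp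
        exact (hp.trans_le (min_le_right _ _)).le
      have := hpoly (p - q) hpn
      simp only [Prod.fst_sub, Prod.snd_sub, add_sub_cancel] at this
      simp only [hf]
      linarith)
    have hv : 0 < (l * (-q).1 + m * (-q).2).re := by
      have e1 : l * (-q).1 + m * (-q).2 =
          ((2 * (R₂ ^ 2 - ‖q.2‖ ^ 2) * ‖q.1‖ ^ 2 + 2 * (R₁ ^ 2 - ‖q.1‖ ^ 2) * ‖q.2‖ ^ 2 : ℝ) : ℂ) := by
        have a1 : (starRingEnd ℂ) q.1 * q.1 = ((‖q.1‖ ^ 2 : ℝ) : ℂ) := by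
          rw [mul_comm, Complex.mul_conj, Complex.normSq_eq_norm_sq]
        have a2 : (starRingEnd ℂ) q.2 * q.2 = ((‖q.2‖ ^ 2 : ℝ) : ℂ) := by
          rw [mul_comm, Complex.mul_conj, Complex.normSq_eq_norm_sq]
        rw [hl, hm, Prod.fst_neg, Prod.snd_neg]
        push_cast
        push_cast at a1 a2
        linear_combination (2 * ((R₂:ℂ) ^ 2 - (‖q.2‖:ℂ) ^ 2)) * a1 + (2 * ((R₁:ℂ) ^ 2 - (‖q.1‖:ℂ) ^ 2)) * a2
      rw [e1, Complex.ofReal_re]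
      have := norm_pos_iff.2 hx0
      have := norm_pos_iff.2 hy0
      positivity
    have hev := hG'v (-q) hv
    -- G' p.c. near q along the ray
    have hev2 : ∀ᶠ t : ℝ in 𝓝 0, T.PCAt G' (q + t • (-q)) := by
      have hc : Continuous (fun t : ℝ => q + t • (-q)) := by fun_prop
      have : Tendsto (fun t : ℝ => q + t • (-q)) (𝓝 0) (𝓝 q) := by
        have := hc.tendsto 0
        simpa using this
      exact this.eventually (T.pc_open hG')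
    obtain ⟨δ, hδ, hδball⟩ := Metric.eventually_nhds_iff_ball.1 hev2
    have hev3 : ∀ᶠ t : ℝ in 𝓝[>] 0, t ∈ Ioo (0:ℝ) (min δ 1) :=
      Ioo_mem_nhdsGT (lt_min hδ one_pos)
    obtain ⟨t, ht1, ht2⟩ := (hev.and hev3).exists
    have hray : ∀ u : ℝ, q + u • (-q) = (1 - u) • q := fun u => by
      rw [sub_smul, one_smul, smul_neg, sub_eq_add_neg]
    rw [hray] at ht1
    obtain ⟨H, H1, H2⟩ := glue_ray hq0 ht1
    have ht0 : 0 < t := ht2.1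
    have htδ : t < δ := ht2.2.trans_le (min_le_left _ _)
    have htl : t < 1 := ht2.2.trans_le (min_le_right _ _)
    have hfray : ∀ u ∈ Ico (0:ℝ) 1, u • q ∈ ball (0:ℂ) R₁ ×ˢ ball (0:ℂ) R₂ ∧ f q < f (u • q) := by
      intro u hu
      have n1 : ‖(u • q).1‖ = u * ‖q.1‖ := by
        rw [Prod.smul_fst, norm_smul, Real.norm_of_nonneg hu.1]
      have n2 : ‖(u • q).2‖ = u * ‖q.2‖ := by
        rw [Prod.smul_snd, norm_smul, Real.norm_of_nonneg hu.1]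
      have p1 := norm_pos_iff.2 hx0
      have p2 := norm_pos_iff.2 hy0
      have l1 : u * ‖q.1‖ < ‖q.1‖ := by nlinarith [hu.2]
      have l2 : u * ‖q.2‖ < ‖q.2‖ := by nlinarith [hu.2]
      have m1 : 0 ≤ u * ‖q.1‖ := mul_nonneg hu.1 p1.le
      have m2 : 0 ≤ u * ‖q.2‖ := mul_nonneg hu.1 p2.le
      refine ⟨⟨?_, ?_⟩, ?_⟩
      · rw [mem_ball_zero_iff, n1]; linarith
      · rw [mem_ball_zero_iff, n2]; linarith
      · simp only [hf]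
        rw [n1, n2]
        have k1 : R₁ ^ 2 - ‖q.1‖ ^ 2 < R₁ ^ 2 - (u * ‖q.1‖) ^ 2 := by nlinarith
        have k2 : R₂ ^ 2 - ‖q.2‖ ^ 2 < R₂ ^ 2 - (u * ‖q.2‖) ^ 2 := by nlinarith
        exact mul_lt_mul'' k1 k2 hA.le hB.le
    apply hqn
    refine ⟨H, ?_, ?_⟩
    · intro u hu
      rcases le_total u (1 - t) with hle | hle
      · refine T.pc_congr (H1 u hle).symm (T.star_pc ?_)
        have := hfray u ⟨hu.1, by linarith⟩
        exact hgood _ this.1 this.2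
      · refine T.pc_congr (H2 u hle).symm ?_
        have := hδball (1 - u) (by
          rw [mem_ball, dist_zero_right, Real.norm_eq_abs, abs_lt]
          constructor <;> linarith [hu.2])
        rw [hray] at this
        simpa using this
    · have := H1 0 (by linarith)
      rw [zero_smul] at this
      exact this.trans (T.star_zero g0')
  exact ⟨T.star G₀, fun p hp => T.star_pc (hall p hp), fun x hx => (hax1 x hx).2,
    fun y hy => (hax2 y hy).2⟩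

end PCTheory

end Crest.Agent.R266
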