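import Crest.Agent.R266.Stmts

/-!
R266 / Sweep0: elementary facts on product-compatible maps and the sweep domains
`Om c = {|x| < 1, |y| < 1, (1-|x|²)(1-|y|²) > c}`.
-/

set_option autoImplicit false

open scoped Manifold ContDiff Topology
open Set Metric Filter

namespace Crest.Agent.R266.Sw

/-- sweep domain in the unit bidisc -/
def Om (c : ℝ) : Set (ℂ × ℂ) :=
  {z | ‖z.1‖ < 1 ∧ ‖z.2‖ < 1 ∧ c < (1 - ‖z.1‖ ^ 2) * (1 - ‖z.2‖ ^ 2)}

lemma isOpen_Om (c : ℝ) : IsOpen (Om c) := by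
  have h1 : IsOpen {z : ℂ × ℂ | ‖z.1‖ < 1} := isOpen_lt (by fun_prop) (by fun_prop)
  have h2 : IsOpen {z : ℂ × ℂ | ‖z.2‖ < 1} := isOpen_lt (by fun_prop) (by fun_prop)
  have h3 : IsOpen {z : ℂ × ℂ | c < (1 - ‖z.1‖ ^ 2) * (1 - ‖z.2‖ ^ 2)} :=
    isOpen_lt (by fun_prop) (by fun_prop)
  exact h1.inter (h2.inter h3)

lemma Om_anti {c c' : ℝ} (h : c ≤ c') : Om c' ⊆ Om c := fun _ hz => ⟨hz.1, hz.2.1, h.trans_lt hz.2.2⟩

lemma aux_norm {u v : ℂ} {a b : ℝ} (ha : 0 ≤ a) (hb : 0 ≤ b) (hab : a + b = 1) :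
    a * (1 - ‖u‖ ^ 2) + b * (1 - ‖v‖ ^ 2) ≤ 1 - ‖a • u + b • v‖ ^ 2 := by
  have h1 : ‖a • u + b • v‖ ≤ a * ‖u‖ + b * ‖v‖ := by
    refine (norm_add_le _ _).trans ?_
    rw [norm_smul, norm_smul, Real.norm_of_nonneg ha, Real.norm_of_nonneg hb]
  have h2 : ‖a • u + b • v‖ ^ 2 ≤ (a * ‖u‖ + b * ‖v‖) ^ 2 :=
    pow_le_pow_left₀ (norm_nonneg _) h1 2
  have h3 : (a * ‖u‖ + b * ‖v‖) ^ 2 ≤ a * ‖u‖ ^ 2 + b * ‖v‖ ^ 2 := by
    have hb' : b = 1 - a := by linarith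
    subst hb'
    nlinarith [mul_nonneg (mul_nonneg ha hb) (sq_nonneg (‖u‖ - ‖v‖))]
  nlinarith

lemma aux_norm_lt {u v : ℂ} {a b : ℝ} (ha : 0 ≤ a) (hb : 0 ≤ b) (hab : a + b = 1)
    (hu : ‖u‖ < 1) (hv : ‖v‖ < 1) : ‖a • u + b • v‖ < 1 := by
  have h := (convex_ball (0 : ℂ) 1) (mem_ball_zero_iff.2 hu) (mem_ball_zero_iff.2 hv) ha hb hab
  exact mem_ball_zero_iff.1 h

lemma aux_hyp {p q p' q' a b c : ℝ} (hp : 0 < p) (hq : 0 < q) (hp' : 0 < p') (hq' : 0 < q')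
    (hc : 0 < c) (h : c < p * q) (h' : c < p' * q') (ha : 0 ≤ a) (hb : 0 ≤ b) (hab : a + b = 1) :
    c < (a * p + b * p') * (a * q + b * q') := by
  have h1 : c ^ 2 < (p * q') * (p' * q) := by nlinarith
  have h2 : 2 * c < p * q' + p' * q := by
    by_contra hcon
    push Not at hcon
    have hx : 0 < p * q' := by positivity
    have hy : 0 < p' * q := by positivity
    nlinarith [sq_nonneg (p * q' - p' * q)]
  have hb' : b = 1 - a := by linarith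
  rcases eq_or_lt_of_le ha with h0 | h0
  · rw [← h0]
    have : b = 1 := by linarith
    rw [this]; linarith
  rcases eq_or_lt_of_le hb with h3 | h3
  · rw [← h3]
    have : a = 1 := by linarith
    rw [this]; linarith
  have e1 : 0 < a * a * (p * q - c) := by
    apply mul_pos (mul_pos h0 h0); linarith
  have e2 : 0 < b * b * (p' * q' - c) := by
    apply mul_pos (mul_pos h3 h3); linarith
  have e3 : 0 < a * b * (p * q' + p' * q - 2 * c) := by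
    apply mul_pos (mul_pos h0 h3); linarith
  have e4 : (a * p + b * p') * (a * q + b * q') - c * (a + b) ^ 2
      = a * a * (p * q - c) + b * b * (p' * q' - c) + a * b * (p * q' + p' * q - 2 * c) := by ring
  rw [hab] at e4
  linarith

lemma one_sub_pos {u : ℂ} (hu : ‖u‖ < 1) : 0 < 1 - ‖u‖ ^ 2 := by
  nlinarith [norm_nonneg u]

lemma convex_Om {c : ℝ} (hc : 0 ≤ c) : Convex ℝ (Om c) := by
  intro z hz w hw a b ha hb hab
  refine ⟨aux_norm_lt ha hb hab hz.1 hw.1, aux_norm_lt ha hb hab hz.2.1 hw.2.1, ?_⟩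
  have hA := one_sub_pos hz.1
  have hB := one_sub_pos hz.2.1
  have hA' := one_sub_pos hw.1
  have hB' := one_sub_pos hw.2.1
  have h1 := aux_norm (u := z.1) (v := w.1) ha hb hab
  have h2 := aux_norm (u := z.2) (v := w.2) ha hb hab
  have h0 : 0 < a * (1 - ‖z.1‖ ^ 2) + b * (1 - ‖w.1‖ ^ 2) := by
    rcases eq_or_lt_of_le ha with h0 | h0
    · have : b = 1 := by linarith
      rw [← h0, this]; linarith
    · have := mul_pos h0 hA
      have := mul_nonneg hb hA'.le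
      linarith
  have h0' : 0 < a * (1 - ‖z.2‖ ^ 2) + b * (1 - ‖w.2‖ ^ 2) := by
    rcases eq_or_lt_of_le ha with h0 | h0
    · have : b = 1 := by linarith
      rw [← h0, this]; linarith
    · have := mul_pos h0 hB
      have := mul_nonneg hb hB'.le
      linarith
  rcases eq_or_lt_of_le hc with h3 | h3
  · rw [← h3]
    show 0 < (1 - ‖a • z.1 + b • w.1‖ ^ 2) * (1 - ‖a • z.2 + b • w.2‖ ^ 2)
    exact mul_pos (by linarith) (by linarith)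
  · have h4 := aux_hyp hA hB hA' hB' h3 hz.2.2 hw.2.2 ha hb hab
    show c < (1 - ‖a • z.1 + b • w.1‖ ^ 2) * (1 - ‖a • z.2 + b • w.2‖ ^ 2)
    refine h4.trans_le ?_
    exact mul_le_mul h1 h2 h0'.le (h0.le.trans h1)

section
variable {n₁ n₂ : ℕ} {X : Type} [TopologicalSpace X] {A : PFol n₁ n₂ X}

lemma pc_mono {Ω Ω' : Set (ℂ × ℂ)} {G : ℂ × ℂ → X} (h : IsPC A Ω G) (hs : Ω' ⊆ Ω) :
    IsPC A Ω' G := fun z hz => h z (hs hz)

lemma pc_congr {Ω : Set (ℂ × ℂ)} {G G' : ℂ × ℂ → X} (h : IsPC A Ω G)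
    (he : ∀ z ∈ Ω, G =ᶠ[𝓝 z] G') : IsPC A Ω G' := by
  intro z hz
  obtain ⟨i, a, b, ha, hb, hw⟩ := h z hz
  refine ⟨i, a, b, ha, hb, ?_⟩
  filter_upwards [hw, he z hz] with w hw1 hw2
  rw [← hw2]; exact hw1

/-- diagonal affine reparametrisation -/
lemma pc_affine {Ω : Set (ℂ × ℂ)} {G : ℂ × ℂ → X} (h : IsPC A Ω G) (α₁ β₁ α₂ β₂ : ℂ) :
    IsPC A {z | (α₁ * z.1 + β₁, α₂ * z.2 + β₂) ∈ Ω}
      (fun z => G (α₁ * z.1 + β₁, α₂ * z.2 + β₂)) := by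
  intro z hz
  obtain ⟨i, a, b, ha, hb, hw⟩ := h _ hz
  refine ⟨i, fun x => a (α₁ * x + β₁), fun y => b (α₂ * y + β₂), ?_, ?_, ?_⟩
  · exact ha.comp_of_eq (by fun_prop) rfl
  · exact hb.comp_of_eq (by fun_prop) rfl
  · have hc : Tendsto (fun w : ℂ × ℂ => (α₁ * w.1 + β₁, α₂ * w.2 + β₂)) (𝓝 z)
        (𝓝 (α₁ * z.1 + β₁, α₂ * z.2 + β₂)) := by
      apply Continuous.tendsto' (by fun_prop) _ _ rfl
    exact hc.eventually hw

/-- a curve tangent to `E₁` as a p.c. map -/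
lemma pc_of_E1 {U : Set ℂ} {c : ℂ → X} (h : IsE1 A U c) :
    IsPC A {z | z.1 ∈ U} (fun z => c z.1) := by
  intro z hz
  obtain ⟨i, a, b, ha, hw⟩ := h _ hz
  exact ⟨i, a, fun _ => b, ha, analyticAt_const, continuous_fst.continuousAt.eventually hw⟩

lemma pc_of_E2 {U : Set ℂ} {c : ℂ → X} (h : IsE2 A U c) :
    IsPC A {z | z.2 ∈ U} (fun z => c z.2) := by
  intro z hz
  obtain ⟨i, a, b, hb, hw⟩ := h _ hz
  exact ⟨i, fun _ => a, b, analyticAt_const, hb, continuous_snd.continuousAt.eventually hw⟩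

lemma pc_slice1 {Ω : Set (ℂ × ℂ)} {G : ℂ × ℂ → X} (h : IsPC A Ω G) (y₀ : ℂ) :
    IsPC A {z | (z.1, y₀) ∈ Ω} (fun z => G (z.1, y₀)) := by
  intro z hz
  obtain ⟨i, a, b, ha, hb, hw⟩ := h _ hz
  refine ⟨i, a, fun _ => b y₀, ha, analyticAt_const, ?_⟩
  have hc : Tendsto (fun w : ℂ × ℂ => (w.1, y₀)) (𝓝 z) (𝓝 (z.1, y₀)) :=
    Continuous.tendsto' (by fun_prop) _ _ rfl
  exact hc.eventually hw

lemma pc_slice2 {Ω : Set (ℂ × ℂ)} {G : ℂ × ℂ → X} (h : IsPC A Ω G) (x₀ : ℂ) :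
    IsPC A {z | (x₀, z.2) ∈ Ω} (fun z => G (x₀, z.2)) := by
  intro z hz
  obtain ⟨i, a, b, ha, hb, hw⟩ := h _ hz
  refine ⟨i, fun _ => a x₀, b, analyticAt_const, hb, ?_⟩
  have hc : Tendsto (fun w : ℂ × ℂ => (x₀, w.2)) (𝓝 z) (𝓝 (x₀, z.2)) :=
    Continuous.tendsto' (by fun_prop) _ _ rfl
  exact hc.eventually hw

/-- a map given by a product in one chart is p.c. -/
lemma pc_of_chart (i : A.ι) {D : Set (ℂ × ℂ)} (hD : IsOpen D) {a : ℂ → EV n₁} {b : ℂ → EV n₂}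
    (ha : ∀ z ∈ D, AnalyticAt ℂ a z.1) (hb : ∀ z ∈ D, AnalyticAt ℂ b z.2)
    (ht : ∀ z ∈ D, (a z.1, b z.2) ∈ (A.ch i).target) :
    IsPC A D (fun z => (A.ch i).symm (a z.1, b z.2)) := by
  intro z hz
  refine ⟨i, a, b, ha z hz, hb z hz, ?_⟩
  filter_upwards [hD.mem_nhds hz] with w hw
  exact ⟨(A.ch i).map_target (ht w hw), (A.ch i).right_inv (ht w hw)⟩

/-- uniqueness on open convex sets -/
lemma uniq_convex (hU : St_unique A) {Ω : Set (ℂ × ℂ)} (ho : IsOpen Ω) (hc : Convex ℝ Ω)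
    {G G' : ℂ × ℂ → X} (h : IsPC A Ω G) (h' : IsPC A Ω G') {z₀ : ℂ × ℂ} (hz₀ : z₀ ∈ Ω)
    (he : G =ᶠ[𝓝 z₀] G') : ∀ z ∈ Ω, G z = G' z :=
  hU Ω G G' ho hc.isPreconnected h h' ⟨z₀, hz₀, he⟩

/-- extension across a compact part of the boundary of a convex domain -/
lemma extend_step (hU : St_unique A) {Ω : Set (ℂ × ℂ)} (ho : IsOpen Ω) (hc : Convex ℝ Ω)
    {K : Set (ℂ × ℂ)} (hK : IsCompact K) (hKΩ : K ⊆ closure Ω) {G : ℂ × ℂ → X}
    (hG : IsPC A Ω G)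
    (hloc : ∀ q ∈ K, ∃ r > 0, ∃ G' : ℂ × ℂ → X, IsPC A (ball q r) G' ∧
      ∀ z ∈ ball q r, z ∈ Ω → G' z = G z) :
    ∃ r > 0, ∃ G' : ℂ × ℂ → X, IsPC A (Ω ∪ ⋃ q ∈ K, ball q r) G' ∧ ∀ z ∈ Ω, G' z = G z := by
  classical
  have : Nonempty X := ⟨G 0⟩
  choose! r hr G₁ hG₁ hag using hloc
  obtain ⟨δ, hδ, hleb⟩ := lebesgue_number_lemma_of_metric (s := K) (c := fun q : K => ball (q : ℂ × ℂ) (r q))
    hK (fun _ => isOpen_ball) (fun q hq => mem_iUnion.2 ⟨⟨q, hq⟩, mem_ball_self (hr q hq)⟩)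
  have h1 : ∀ q ∈ K, ∃ G' : ℂ × ℂ → X, IsPC A (ball q δ) G' ∧
      ∀ z ∈ ball q δ, z ∈ Ω → G' z = G z := by
    intro q hq
    obtain ⟨p, hp⟩ := hleb q hq
    exact ⟨G₁ p, pc_mono (hG₁ p p.2) hp, fun z hz hzΩ => hag p p.2 z (hp hz) hzΩ⟩
  choose! G₂ hG₂ hag₂ using h1
  have key : ∀ q ∈ K, ∀ q' ∈ K, ∀ z ∈ ball q δ ∩ ball q' δ, G₂ q z = G₂ q' z := by
    intro q hq q' hq' z hz
    have hqq : dist q q' < 2 * δ := by
      have h1 := hz.1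
      have h2 := hz.2
      rw [mem_ball] at h1 h2
      have := dist_triangle_left q q' z
      linarith
    have hcl : midpoint ℝ q q' ∈ closure Ω := hc.closure.midpoint_mem (hKΩ hq) (hKΩ hq')
    have hm1 : midpoint ℝ q q' ∈ ball q δ := by
      rw [mem_ball, dist_midpoint_left]
      simp only [Real.norm_ofNat]
      linarith
    have hm2 : midpoint ℝ q q' ∈ ball q' δ := by
      rw [mem_ball, dist_midpoint_right]
      simp only [Real.norm_ofNat]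
      linarith
    have hopen : IsOpen (ball q δ ∩ ball q' δ) := isOpen_ball.inter isOpen_ball
    obtain ⟨w, hw, hwΩ⟩ := mem_closure_iff.1 hcl _ hopen ⟨hm1, hm2⟩
    refine uniq_convex hU hopen ((convex_ball q δ).inter (convex_ball q' δ))
      (pc_mono (hG₂ q hq) inter_subset_left) (pc_mono (hG₂ q' hq') inter_subset_right) hw ?_ z hz
    filter_upwards [hopen.mem_nhds hw, ho.mem_nhds hwΩ] with v hv hvΩ
    rw [hag₂ q hq v hv.1 hvΩ, hag₂ q' hq' v hv.2 hvΩ]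
  let G' : ℂ × ℂ → X := fun z => if z ∈ Ω then G z else
    if h : ∃ q ∈ K, z ∈ ball q δ then G₂ h.choose z else G z
  have hG'Ω : ∀ z ∈ Ω, G' z = G z := fun z hz => if_pos hz
  have hG'b : ∀ q ∈ K, ∀ z ∈ ball q δ, G' z = G₂ q z := by
    intro q hq z hz
    by_cases hzΩ : z ∈ Ω
    · rw [hG'Ω z hzΩ, hag₂ q hq z hz hzΩ]
    · have hex : ∃ q ∈ K, z ∈ ball q δ := ⟨q, hq, hz⟩
      have : G' z = G₂ hex.choose z := by
        simp only [G', if_neg hzΩ, dif_pos hex]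
      rw [this]
      exact key _ hex.choose_spec.1 q hq z ⟨hex.choose_spec.2, hz⟩
  refine ⟨δ, hδ, G', ?_, hG'Ω⟩
  intro z hz
  rcases hz with hz | hz
  · refine pc_congr hG (fun w hw => ?_) z hz
    filter_upwards [ho.mem_nhds hw] with v hv
    exact (hG'Ω v hv).symm
  · simp only [mem_iUnion, exists_prop] at hz
    obtain ⟨q, hq, hz⟩ := hz
    refine pc_congr (hG₂ q hq) (fun w hw => ?_) z hz
    filter_upwards [isOpen_ball.mem_nhds hw] with v hv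
    exact (hG'b q hq v hv).symm

end

end Crest.Agent.R266.Sw
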