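import Crest.Agent.R266.Sweep0

/-!
R266 / Sweep1: extension across axis points, initial germ, nested gluing.
-/

set_option autoImplicit false

open scoped Manifold ContDiff Topology
open Set Metric Filter

namespace Crest.Agent.R266.Sw

section
variable {n₁ n₂ : ℕ} {X : Type} [TopologicalSpace X] {A : PFol n₁ n₂ X}

lemma mem_target_iff (i : A.ι) (p : EV n₁ × EV n₂) :
    p ∈ (A.ch i).target ↔ p.1 ∈ ball (0 : EV n₁) 1 ∧ p.2 ∈ ball (0 : EV n₂) 1 := by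
  rw [A.target_eq i]; rfl

/-- extension across a point of the first axis -/
lemma axis1 (hU : St_unique A) (hC : St_chart A) {Ω : Set (ℂ × ℂ)} (ho : IsOpen Ω)
    (hc : Convex ℝ Ω) {G : ℂ × ℂ → X} (hG : IsPC A Ω G) {U : Set ℂ} {c₁ : ℂ → X}
    (h1 : IsE1 A U c₁) {x₀ : ℂ} (hx₀ : x₀ ∈ U) (hag : ∀ x, (x, (0 : ℂ)) ∈ Ω → G (x, 0) = c₁ x)
    (happ : ∀ δ > 0, ∃ x₁, dist x₁ x₀ < δ ∧ (x₁, (0 : ℂ)) ∈ Ω) :
    ∃ r > 0, ∃ G' : ℂ × ℂ → X, IsPC A (ball (x₀, (0 : ℂ)) r) G' ∧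
      ∀ z ∈ ball (x₀, (0 : ℂ)) r, z ∈ Ω → G' z = G z := by
  obtain ⟨i, a, b₀, ha, hw⟩ := h1 x₀ hx₀
  obtain ⟨δ, hδ, hb⟩ := Metric.eventually_nhds_iff_ball.1 (hw.and ha.eventually_analyticAt)
  obtain ⟨x₁, hx₁, hx₁Ω⟩ := happ δ hδ
  have hx₁' : x₁ ∈ ball x₀ δ := hx₁
  have hGx₁ : G (x₁, 0) ∈ (A.ch i).source := by rw [hag _ hx₁Ω]; exact (hb x₁ hx₁').1.1
  obtain ⟨a', b', ha', hb', hw'⟩ := hC Ω G hG (x₁, 0) hx₁Ω i hGx₁
  have hself : (a x₁, b₀) = (a' x₁, b' 0) := by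
    have := hw'.self_of_nhds.2
    rw [hag _ hx₁Ω, (hb x₁ hx₁').1.2] at this
    exact this
  have hb'0 : b' 0 = b₀ := (congrArg Prod.snd hself).symm
  have hinc : Tendsto (fun x : ℂ => (x, (0 : ℂ))) (𝓝 x₁) (𝓝 (x₁, 0)) :=
    Continuous.tendsto' (by fun_prop) _ _ rfl
  have haa : ∀ᶠ x in 𝓝 x₁, a' x = a x := by
    filter_upwards [hinc.eventually hw', hinc.eventually (ho.mem_nhds hx₁Ω),
      isOpen_ball.mem_nhds hx₁'] with x hx1 hx2 hx3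
    have h3 := hx1.2
    rw [hag _ hx2, (hb x hx3).1.2] at h3
    exact (congrArg Prod.fst h3).symm
  have hbt : b₀ ∈ ball (0 : EV n₂) 1 := by
    have := (A.ch i).map_source (hb x₁ hx₁').1.1
    rw [(hb x₁ hx₁').1.2, mem_target_iff] at this
    exact this.2
  have hev : ∀ᶠ y in 𝓝 (0 : ℂ), AnalyticAt ℂ b' y ∧ b' y ∈ ball (0 : EV n₂) 1 := by
    refine hb'.eventually_analyticAt.and ?_
    have : Tendsto b' (𝓝 0) (𝓝 b₀) := by
      have := hb'.continuousAt.tendsto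
      simpa only [hb'0] using this
    exact this.eventually (isOpen_ball.mem_nhds hbt)
  obtain ⟨δ', hδ', hb''⟩ := Metric.eventually_nhds_iff_ball.1 hev
  set D : Set (ℂ × ℂ) := ball x₀ δ ×ˢ ball (0 : ℂ) δ' with hD
  have hDo : IsOpen D := isOpen_ball.prod isOpen_ball
  have hDc : Convex ℝ D := (convex_ball x₀ δ).prod (convex_ball 0 δ')
  have hpc : IsPC A D (fun z => (A.ch i).symm (a z.1, b' z.2)) := by
    refine pc_of_chart i hDo (fun z hz => (hb z.1 hz.1).2) (fun z hz => (hb'' z.2 hz.2).1) ?_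
    intro z hz
    rw [mem_target_iff]
    refine ⟨?_, (hb'' z.2 hz.2).2⟩
    have := (A.ch i).map_source (hb z.1 hz.1).1.1
    rw [(hb z.1 hz.1).1.2, mem_target_iff] at this
    exact this.1
  have hnear : (fun z : ℂ × ℂ => (A.ch i).symm (a z.1, b' z.2)) =ᶠ[𝓝 (x₁, (0 : ℂ))] G := by
    have hf : Tendsto (fun z : ℂ × ℂ => z.1) (𝓝 (x₁, (0 : ℂ))) (𝓝 x₁) :=
      Continuous.tendsto' (by fun_prop) _ _ rfl
    filter_upwards [hw', hf.eventually haa] with w hw1 hw2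
    rw [← hw2, ← hw1.2]
    exact (A.ch i).left_inv hw1.1
  have hmem : (x₁, (0 : ℂ)) ∈ D ∩ Ω := ⟨⟨hx₁', mem_ball_self hδ'⟩, hx₁Ω⟩
  have huniq := uniq_convex hU (hDo.inter ho) (hDc.inter hc) (pc_mono hpc inter_subset_left)
    (pc_mono hG inter_subset_right) hmem hnear
  have hsub : ball (x₀, (0 : ℂ)) (min δ δ') ⊆ D := by
    rw [← ball_prod_same]
    exact prod_mono (ball_subset_ball (min_le_left _ _)) (ball_subset_ball (min_le_right _ _))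
  exact ⟨min δ δ', lt_min hδ hδ', _, pc_mono hpc hsub, fun z hz hzΩ => huniq z ⟨hsub hz, hzΩ⟩⟩

/-- extension across a point of the second axis -/
lemma axis2 (hU : St_unique A) (hC : St_chart A) {Ω : Set (ℂ × ℂ)} (ho : IsOpen Ω)
    (hc : Convex ℝ Ω) {G : ℂ × ℂ → X} (hG : IsPC A Ω G) {U : Set ℂ} {c₂ : ℂ → X}
    (h2 : IsE2 A U c₂) {y₀ : ℂ} (hy₀ : y₀ ∈ U) (hag : ∀ y, ((0 : ℂ), y) ∈ Ω → G (0, y) = c₂ y)
    (happ : ∀ δ > 0, ∃ y₁, dist y₁ y₀ < δ ∧ ((0 : ℂ), y₁) ∈ Ω) :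
    ∃ r > 0, ∃ G' : ℂ × ℂ → X, IsPC A (ball ((0 : ℂ), y₀) r) G' ∧
      ∀ z ∈ ball ((0 : ℂ), y₀) r, z ∈ Ω → G' z = G z := by
  obtain ⟨i, a₀, b, ha, hw⟩ := h2 y₀ hy₀
  obtain ⟨δ, hδ, hb⟩ := Metric.eventually_nhds_iff_ball.1 (hw.and ha.eventually_analyticAt)
  obtain ⟨y₁, hy₁, hy₁Ω⟩ := happ δ hδ
  have hy₁' : y₁ ∈ ball y₀ δ := hy₁
  have hGy₁ : G (0, y₁) ∈ (A.ch i).source := by rw [hag _ hy₁Ω]; exact (hb y₁ hy₁').1.1
  obtain ⟨a', b', ha', hb', hw'⟩ := hC Ω G hG (0, y₁) hy₁Ω i hGy₁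
  have hself : (a₀, b y₁) = (a' 0, b' y₁) := by
    have := hw'.self_of_nhds.2
    rw [hag _ hy₁Ω, (hb y₁ hy₁').1.2] at this
    exact this
  have ha'0 : a' 0 = a₀ := (congrArg Prod.fst hself).symm
  have hinc : Tendsto (fun y : ℂ => ((0 : ℂ), y)) (𝓝 y₁) (𝓝 (0, y₁)) :=
    Continuous.tendsto' (by fun_prop) _ _ rfl
  have hbb : ∀ᶠ y in 𝓝 y₁, b' y = b y := by
    filter_upwards [hinc.eventually hw', hinc.eventually (ho.mem_nhds hy₁Ω),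
      isOpen_ball.mem_nhds hy₁'] with x hx1 hx2 hx3
    have h3 := hx1.2
    rw [hag _ hx2, (hb x hx3).1.2] at h3
    exact (congrArg Prod.snd h3).symm
  have hat : a₀ ∈ ball (0 : EV n₁) 1 := by
    have := (A.ch i).map_source (hb y₁ hy₁').1.1
    rw [(hb y₁ hy₁').1.2, mem_target_iff] at this
    exact this.1
  have hev : ∀ᶠ x in 𝓝 (0 : ℂ), AnalyticAt ℂ a' x ∧ a' x ∈ ball (0 : EV n₁) 1 := by
    refine ha'.eventually_analyticAt.and ?_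
    have : Tendsto a' (𝓝 0) (𝓝 a₀) := by
      have := ha'.continuousAt.tendsto
      simpa only [ha'0] using this
    exact this.eventually (isOpen_ball.mem_nhds hat)
  obtain ⟨δ', hδ', hb''⟩ := Metric.eventually_nhds_iff_ball.1 hev
  set D : Set (ℂ × ℂ) := ball (0 : ℂ) δ' ×ˢ ball y₀ δ with hD
  have hDo : IsOpen D := isOpen_ball.prod isOpen_ball
  have hDc : Convex ℝ D := (convex_ball 0 δ').prod (convex_ball y₀ δ)
  have hpc : IsPC A D (fun z => (A.ch i).symm (a' z.1, b z.2)) := by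
    refine pc_of_chart i hDo (fun z hz => (hb'' z.1 hz.1).1) (fun z hz => (hb z.2 hz.2).2) ?_
    intro z hz
    rw [mem_target_iff]
    refine ⟨(hb'' z.1 hz.1).2, ?_⟩
    have := (A.ch i).map_source (hb z.2 hz.2).1.1
    rw [(hb z.2 hz.2).1.2, mem_target_iff] at this
    exact this.2
  have hnear : (fun z : ℂ × ℂ => (A.ch i).symm (a' z.1, b z.2)) =ᶠ[𝓝 ((0 : ℂ), y₁)] G := by
    have hf : Tendsto (fun z : ℂ × ℂ => z.2) (𝓝 ((0 : ℂ), y₁)) (𝓝 y₁) :=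
      Continuous.tendsto' (by fun_prop) _ _ rfl
    filter_upwards [hw', hf.eventually hbb] with w hw1 hw2
    rw [← hw2, ← hw1.2]
    exact (A.ch i).left_inv hw1.1
  have hmem : ((0 : ℂ), y₁) ∈ D ∩ Ω := ⟨⟨mem_ball_self hδ', hy₁'⟩, hy₁Ω⟩
  have huniq := uniq_convex hU (hDo.inter ho) (hDc.inter hc) (pc_mono hpc inter_subset_left)
    (pc_mono hG inter_subset_right) hmem hnear
  have hsub : ball ((0 : ℂ), y₀) (min δ δ') ⊆ D := by
    rw [← ball_prod_same]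
    exact prod_mono (ball_subset_ball (min_le_right _ _)) (ball_subset_ball (min_le_left _ _))
  exact ⟨min δ δ', lt_min hδ hδ', _, pc_mono hpc hsub, fun z hz hzΩ => huniq z ⟨hsub hz, hzΩ⟩⟩

/-- the initial germ -/
lemma init_germ (hC : St_chart A) {c₁ c₂ : ℂ → X} (h1 : IsE1 A (ball 0 1) c₁)
    (h2 : IsE2 A (ball 0 1) c₂) (h0 : c₁ 0 = c₂ 0) :
    ∃ r > 0, ∃ G₀ : ℂ × ℂ → X, IsPC A (ball 0 r) G₀ ∧ (∀ x : ℂ, ‖x‖ < r → G₀ (x, 0) = c₁ x) ∧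
      (∀ y : ℂ, ‖y‖ < r → G₀ (0, y) = c₂ y) := by
  obtain ⟨i, a, b₀, ha, hw⟩ := h1 0 (mem_ball_self one_pos)
  have hs : c₂ 0 ∈ (A.ch i).source := by rw [← h0]; exact hw.self_of_nhds.1
  obtain ⟨a', b', ha', hb', hw'⟩ := hC _ _ (pc_of_E2 h2) (0, 0)
    (by show (0 : ℂ) ∈ ball (0 : ℂ) 1; exact mem_ball_self one_pos) i hs
  have hself : (a 0, b₀) = (a' 0, b' 0) := by
    have h3 := hw'.self_of_nhds.2
    have h4 := hw.self_of_nhds.2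
    rw [h0] at h4
    exact h4.symm.trans h3
  have hb'0 : b' 0 = b₀ := (congrArg Prod.snd hself).symm
  have ha'0 : a 0 = a' 0 := congrArg Prod.fst hself
  have hinc : Tendsto (fun y : ℂ => ((0 : ℂ), y)) (𝓝 0) (𝓝 (0, 0)) :=
    Continuous.tendsto' (by fun_prop) _ _ rfl
  obtain ⟨δ, hδ, hb⟩ := Metric.eventually_nhds_iff_ball.1 (hw.and ha.eventually_analyticAt)
  obtain ⟨δ', hδ', hb''⟩ := Metric.eventually_nhds_iff_ball.1
    ((hinc.eventually hw').and hb'.eventually_analyticAt)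
  have hr : 0 < min δ δ' := lt_min hδ hδ'
  have e1 : ∀ x : ℂ, ‖x‖ < min δ δ' → x ∈ ball (0 : ℂ) δ := fun x hx =>
    mem_ball_zero_iff.2 (hx.trans_le (min_le_left _ _))
  have e2 : ∀ x : ℂ, ‖x‖ < min δ δ' → x ∈ ball (0 : ℂ) δ' := fun x hx =>
    mem_ball_zero_iff.2 (hx.trans_le (min_le_right _ _))
  have hsub : ∀ z ∈ ball (0 : ℂ × ℂ) (min δ δ'), ‖z.1‖ < min δ δ' ∧ ‖z.2‖ < min δ δ' := by
    intro z hz
    rw [mem_ball_zero_iff, Prod.norm_def] at hz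
    exact max_lt_iff.1 hz
  refine ⟨min δ δ', hr, fun z => (A.ch i).symm (a z.1, b' z.2), ?_, ?_, ?_⟩
  · refine pc_of_chart i isOpen_ball (fun z hz => (hb z.1 (e1 _ (hsub z hz).1)).2)
      (fun z hz => (hb'' z.2 (e2 _ (hsub z hz).2)).2) ?_
    intro z hz
    rw [mem_target_iff]
    have h3 := hb z.1 (e1 _ (hsub z hz).1)
    have h4 := hb'' z.2 (e2 _ (hsub z hz).2)
    have h5 := (A.ch i).map_source h3.1.1
    have h6 := (A.ch i).map_source h4.1.1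
    rw [h3.1.2, mem_target_iff] at h5
    rw [h4.1.2, mem_target_iff] at h6
    exact ⟨h5.1, h6.2⟩
  · intro x hx
    have h3 := hb x (e1 _ hx)
    show (A.ch i).symm (a x, b' 0) = c₁ x
    rw [hb'0, ← h3.1.2]
    exact (A.ch i).left_inv h3.1.1
  · intro y hy
    have h3 := hb'' y (e2 _ hy)
    show (A.ch i).symm (a 0, b' y) = c₂ y
    have h4 : (a 0, b' y) = A.ch i (c₂ y) := by
      rw [h3.1.2, ha'0]
    rw [h4]
    exact (A.ch i).left_inv h3.1.1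

lemma zero_mem_Om {c : ℝ} (hc : c < 1) : (0 : ℂ × ℂ) ∈ Om c := by
  refine ⟨by simp, by simp, by simpa using hc⟩

/-- nested gluing -/
lemma glue_nested (hU : St_unique A) {c₀ : ℝ} (hc₀ : 0 ≤ c₀) (hc₁ : c₀ < 1) {G₀ : ℂ × ℂ → X}
    (h : ∀ c, c₀ < c → c < 1 → ∃ G : ℂ × ℂ → X, IsPC A (Om c) G ∧ G =ᶠ[𝓝 0] G₀) :
    ∃ G : ℂ × ℂ → X, IsPC A (Om c₀) G ∧ G =ᶠ[𝓝 0] G₀ := by
  have : Nonempty X := ⟨G₀ 0⟩
  choose! G hG hG0 using h
  have key : ∀ c c', c₀ < c → c < 1 → c₀ < c' → c' < 1 → c ≤ c' → ∀ z ∈ Om c', G c z = G c' z := by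
    intro c c' h1 h2 h3 h4 h5 z hz
    exact uniq_convex hU (isOpen_Om c') (convex_Om (hc₀.trans h3.le)) (pc_mono (hG c h1 h2) (Om_anti h5))
      (hG c' h3 h4) (zero_mem_Om h4) ((hG0 c h1 h2).trans (hG0 c' h3 h4).symm) z hz
  set f : ℂ × ℂ → ℝ := fun z => (1 - ‖z.1‖ ^ 2) * (1 - ‖z.2‖ ^ 2) with hf
  have hf1 : ∀ z ∈ Om c₀, f z ≤ 1 := by
    intro z hz
    have h1 := one_sub_pos hz.1
    have h2 := one_sub_pos hz.2.1
    have h3 : 1 - ‖z.1‖ ^ 2 ≤ 1 := by nlinarith [sq_nonneg ‖z.1‖]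
    have h4 : 1 - ‖z.2‖ ^ 2 ≤ 1 := by nlinarith [sq_nonneg ‖z.2‖]
    calc f z = (1 - ‖z.1‖ ^ 2) * (1 - ‖z.2‖ ^ 2) := rfl
      _ ≤ 1 * 1 := mul_le_mul h3 h4 h2.le zero_le_one
      _ = 1 := by norm_num
  let cc : ℂ × ℂ → ℝ := fun z => (c₀ + f z) / 2
  have hcc : ∀ z ∈ Om c₀, c₀ < cc z ∧ cc z < 1 ∧ z ∈ Om (cc z) := by
    intro z hz
    have h1 : c₀ < f z := hz.2.2
    have h2 := hf1 z hz
    refine ⟨by simp only [cc]; linarith, by simp only [cc]; linarith, hz.1, hz.2.1, ?_⟩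
    show cc z < f z
    simp only [cc]; linarith
  have hval : ∀ c, c₀ < c → c < 1 → ∀ z ∈ Om c, G (cc z) z = G c z := by
    intro c h1 h2 z hz
    have hz0 : z ∈ Om c₀ := Om_anti h1.le hz
    obtain ⟨h3, h4, h5⟩ := hcc z hz0
    rcases le_total c (cc z) with h6 | h6
    · exact (key c (cc z) h1 h2 h3 h4 h6 z h5).symm
    · exact key (cc z) c h3 h4 h1 h2 h6 z hz
  refine ⟨fun z => G (cc z) z, ?_, ?_⟩
  · intro z hz
    obtain ⟨h3, h4, h5⟩ := hcc z hz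
    have := pc_congr (G' := fun z => G (cc z) z) (hG (cc z) h3 h4) (fun w hw => by
      filter_upwards [(isOpen_Om _).mem_nhds hw] with v hv
      exact (hval _ h3 h4 v hv).symm)
    exact this z h5
  · have h1 : c₀ < (c₀ + 1) / 2 := by linarith
    have h2 : (c₀ + 1) / 2 < 1 := by linarith
    filter_upwards [hG0 _ h1 h2, (isOpen_Om _).mem_nhds (zero_mem_Om h2)] with z hz1 hz2
    rw [hval _ h1 h2 z hz2, hz1]

end

end Crest.Agent.R266.Sw
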