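import Crest.Agent.R266.Sweep0

/-!
R266 / SweepCorner: extension across an off-axis boundary point of the sweep domain, by the
no-contact theorem.
-/

set_option autoImplicit false

open scoped Manifold ContDiff Topology
open Set Metric Filter

namespace Crest.Agent.R266.Sw

/-- the elementary expansion of `1 - |u₀ - u₀ l w|²` for real `l` -/
lemma expand_norm (u₀ w : ℂ) (l : ℝ) :
    1 - ‖u₀ - u₀ * l * w‖ ^ 2
      = (1 - ‖u₀‖ ^ 2) + 2 * ‖u₀‖ ^ 2 * l * w.re - ‖u₀‖ ^ 2 * l ^ 2 * ‖w‖ ^ 2 := by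
  rw [← Complex.normSq_eq_norm_sq, ← Complex.normSq_eq_norm_sq, ← Complex.normSq_eq_norm_sq]
  simp only [Complex.normSq_apply, Complex.sub_re, Complex.sub_im, Complex.mul_re, Complex.mul_im,
    Complex.ofReal_re, Complex.ofReal_im]
  ring

lemma incr_bound {P l M n r : ℝ} (hP : 0 < P) (hl : 0 < l) (hn : 0 ≤ n) (hn1 : n ≤ 1)
    (hr : |r| ≤ n) (hM : M = 2 * P * l + P * l ^ 2) :
    |2 * P * l * r - P * l ^ 2 * n ^ 2| ≤ M * n := by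
  have h1 : |2 * P * l * r - P * l ^ 2 * n ^ 2| ≤ 2 * P * l * |r| + P * l ^ 2 * n ^ 2 := by
    refine (abs_sub _ _).trans ?_
    rw [abs_mul (2 * P * l), abs_of_pos (by positivity : 0 < 2 * P * l),
      abs_of_nonneg (by positivity : 0 ≤ P * l ^ 2 * n ^ 2)]
  have h2 : 2 * P * l * |r| ≤ 2 * P * l * n := mul_le_mul_of_nonneg_left hr (by positivity)
  have h4 : n ^ 2 ≤ n := by
    rw [pow_two]; exact mul_le_of_le_one_left hn hn1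
  have h3 : P * l ^ 2 * n ^ 2 ≤ P * l ^ 2 * n := mul_le_mul_of_nonneg_left h4 (by positivity)
  rw [hM, add_mul]
  linarith

lemma prod_bound {α β M₁ M₂ a b : ℝ} (hα : |α| ≤ M₁ * a) (hβ : |β| ≤ M₂ * b) (ha : 0 ≤ a)
    (_hb : 0 ≤ b) (h1 : 0 < M₁) (h2 : 0 < M₂) : -(M₁ * M₂ * (a ^ 2 + b ^ 2)) ≤ α * β := by
  have h1' : |α * β| ≤ (M₁ * a) * (M₂ * b) := by
    rw [abs_mul]
    exact mul_le_mul hα hβ (abs_nonneg _) (by positivity)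
  have h3 : a * b ≤ a ^ 2 + b ^ 2 := by nlinarith [sq_nonneg (a - b), sq_nonneg (a + b)]
  have h4 : (M₁ * M₂) * (a * b) ≤ (M₁ * M₂) * (a ^ 2 + b ^ 2) :=
    mul_le_mul_of_nonneg_left h3 (by positivity)
  have h5 : (M₁ * a) * (M₂ * b) = (M₁ * M₂) * (a * b) := by ring
  have h6 := neg_abs_le (α * β)
  linarith

lemma half_bound {l a b : ℝ} (hl : 0 < l) : (l / 2) * a ^ 2 ≤ l * (a ^ 2 + b ^ 2) := by
  have h1 : 0 ≤ l * a ^ 2 := by positivity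
  have h2 : 0 ≤ l * b ^ 2 := by positivity
  rw [mul_add]
  linarith

lemma half_bound' {l a b : ℝ} (hl : 0 < l) : (l / 2) * b ^ 2 ≤ l * (a ^ 2 + b ^ 2) := by
  have h1 : 0 ≤ l * a ^ 2 := by positivity
  have h2 : 0 ≤ l * b ^ 2 := by positivity
  rw [mul_add]
  linarith

lemma corner_alg {A B P Q l₁ l₂ M₁ M₂ a b r s : ℝ} (hP : 0 < P) (hQ : 0 < Q)
    (hl₁ : 0 < l₁) (hl₂ : 0 < l₂) (e1 : 2 * B * P * l₁ = 1) (e2 : 2 * A * Q * l₂ = 1)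
    (ha : 0 ≤ a) (hb : 0 ≤ b) (ha1 : a ≤ 1) (hb1 : b ≤ 1) (hr : |r| ≤ a) (hs : |s| ≤ b)
    (hM₁ : M₁ = 2 * P * l₁ + P * l₁ ^ 2) (hM₂ : M₂ = 2 * Q * l₂ + Q * l₂ ^ 2) :
    A * B + (r + s) - (l₁ + l₂ + M₁ * M₂) * (a ^ 2 + b ^ 2)
      ≤ (A + 2 * P * l₁ * r - P * l₁ ^ 2 * a ^ 2) * (B + 2 * Q * l₂ * s - Q * l₂ ^ 2 * b ^ 2) := by
  have hM₁p : 0 < M₁ := by rw [hM₁]; positivity
  have hM₂p : 0 < M₂ := by rw [hM₂]; positivity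
  have h1 := incr_bound hP hl₁ ha ha1 hr hM₁
  have h2 := incr_bound hQ hl₂ hb hb1 hs hM₂
  have h3 := prod_bound h1 h2 ha hb hM₁p hM₂p
  have h4 := half_bound (l := l₁) (a := a) (b := b) hl₁
  have h5 := half_bound' (l := l₂) (a := a) (b := b) hl₂
  have hBα : B * (2 * P * l₁ * r - P * l₁ ^ 2 * a ^ 2) = r - (l₁ / 2) * a ^ 2 := by
    have : B * (2 * P * l₁ * r - P * l₁ ^ 2 * a ^ 2)
        = (2 * B * P * l₁) * r - (2 * B * P * l₁) * (l₁ / 2) * a ^ 2 := by ring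
    rw [this, e1]; ring
  have hAβ : A * (2 * Q * l₂ * s - Q * l₂ ^ 2 * b ^ 2) = s - (l₂ / 2) * b ^ 2 := by
    have : A * (2 * Q * l₂ * s - Q * l₂ ^ 2 * b ^ 2)
        = (2 * A * Q * l₂) * s - (2 * A * Q * l₂) * (l₂ / 2) * b ^ 2 := by ring
    rw [this, e2]; ring
  have hfin : (A + 2 * P * l₁ * r - P * l₁ ^ 2 * a ^ 2) * (B + 2 * Q * l₂ * s - Q * l₂ ^ 2 * b ^ 2)
      = A * B + B * (2 * P * l₁ * r - P * l₁ ^ 2 * a ^ 2)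
        + A * (2 * Q * l₂ * s - Q * l₂ ^ 2 * b ^ 2)
        + (2 * P * l₁ * r - P * l₁ ^ 2 * a ^ 2) * (2 * Q * l₂ * s - Q * l₂ ^ 2 * b ^ 2) := by ring
  rw [hfin, hBα, hAβ, add_mul, add_mul]
  linarith

/-- lower bound for the sweep function in the rescaled coordinates -/
lemma corner_bound {x₀ y₀ w₁ w₂ : ℂ} (hx : x₀ ≠ 0) (hy : y₀ ≠ 0) (hx1 : ‖x₀‖ < 1)
    (hy1 : ‖y₀‖ < 1) {l₁ l₂ : ℝ} (hl₁ : l₁ = 1 / (2 * (1 - ‖y₀‖ ^ 2) * ‖x₀‖ ^ 2))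
    (hl₂ : l₂ = 1 / (2 * (1 - ‖x₀‖ ^ 2) * ‖y₀‖ ^ 2)) (hw₁ : ‖w₁‖ ≤ 1) (hw₂ : ‖w₂‖ ≤ 1)
    {M₁ M₂ : ℝ} (hM₁ : M₁ = 2 * ‖x₀‖ ^ 2 * l₁ + ‖x₀‖ ^ 2 * l₁ ^ 2)
    (hM₂ : M₂ = 2 * ‖y₀‖ ^ 2 * l₂ + ‖y₀‖ ^ 2 * l₂ ^ 2) :
    (1 - ‖x₀‖ ^ 2) * (1 - ‖y₀‖ ^ 2) + (w₁.re + w₂.re)
        - (l₁ + l₂ + M₁ * M₂) * (‖w₁‖ ^ 2 + ‖w₂‖ ^ 2)
      ≤ (1 - ‖x₀ - x₀ * l₁ * w₁‖ ^ 2) * (1 - ‖y₀ - y₀ * l₂ * w₂‖ ^ 2) := by
  rw [expand_norm, expand_norm]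
  have hA := one_sub_pos hx1
  have hB := one_sub_pos hy1
  have hx2 : 0 < ‖x₀‖ ^ 2 := by positivity
  have hy2 : 0 < ‖y₀‖ ^ 2 := by positivity
  have hl₁p : 0 < l₁ := by rw [hl₁]; positivity
  have hl₂p : 0 < l₂ := by rw [hl₂]; positivity
  have e1 : 2 * (1 - ‖y₀‖ ^ 2) * ‖x₀‖ ^ 2 * l₁ = 1 := by rw [hl₁]; field_simp
  have e2 : 2 * (1 - ‖x₀‖ ^ 2) * ‖y₀‖ ^ 2 * l₂ = 1 := by rw [hl₂]; field_simp
  exact corner_alg hx2 hy2 hl₁p hl₂p e1 e2 (norm_nonneg _) (norm_nonneg _) hw₁ hw₂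
    (Complex.abs_re_le_norm w₁) (Complex.abs_re_le_norm w₂) hM₁ hM₂

lemma inv_a {k x z : ℂ} (hk : k ≠ 0) : (-k) * ((-k⁻¹) * z + k⁻¹ * x) + x = z := by
  field_simp
  ring

lemma inv_b {k x w : ℂ} (hk : k ≠ 0) : (-k⁻¹) * ((-k) * w + x) + k⁻¹ * x = w := by
  field_simp
  ring

lemma final_ineq {C X' T η ε : ℝ} (hC : 0 < C) (hX : 0 < X') (h3 : C * (T ^ 2 + η ^ 2) < X')
    (h4 : X' < ε) (hε : C * ε ≤ 1) :
    0 < X' - C * ((T ^ 2 + X' ^ 2 + η ^ 2) / 2) := by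
  have h5 : C * X' ≤ 1 := le_trans (mul_le_mul_of_nonneg_left h4.le hC.le) hε
  have h9 : C * X' ^ 2 ≤ X' := by
    have : C * X' ^ 2 = (C * X') * X' := by ring
    rw [this]
    exact mul_le_of_le_one_left hX.le h5
  have h6 : C * ((T ^ 2 + X' ^ 2 + η ^ 2) / 2) = (C * (T ^ 2 + η ^ 2) + C * X' ^ 2) / 2 := by ring
  rw [h6]
  linarith

section
variable {n₁ n₂ : ℕ} {X : Type} [TopologicalSpace X] {A : PFol n₁ n₂ X}

lemma isOpen_GD (ε C : ℝ) : IsOpen (GD ε (par C)) := by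
  unfold GD par tau eta XX
  have h1 : IsOpen {z : ℂ × ℂ | ‖z.1 - z.2‖ < ε} := isOpen_lt (by fun_prop) (by fun_prop)
  have h2 : IsOpen {z : ℂ × ℂ | |(z.1 + z.2).im| < ε} :=
    isOpen_lt (by fun_prop) (by fun_prop)
  have h3 : IsOpen {z : ℂ × ℂ | C * (‖z.1 - z.2‖ ^ 2 + (z.1 + z.2).im ^ 2) < (z.1 + z.2).re} :=
    isOpen_lt (by fun_prop) (by fun_prop)
  have h4 : IsOpen {z : ℂ × ℂ | (z.1 + z.2).re < ε} := isOpen_lt (by fun_prop) (by fun_prop)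
  exact h1.inter (h2.inter (h3.inter h4))

/-- off-axis extension -/
lemma corner_ext (hNC : St_NC A) (hU : St_unique A) {c : ℝ} (hc : 0 < c) {x₀ y₀ : ℂ}
    (hx : x₀ ≠ 0) (hy : y₀ ≠ 0) (hx1 : ‖x₀‖ < 1) (hy1 : ‖y₀‖ < 1)
    (hq : (1 - ‖x₀‖ ^ 2) * (1 - ‖y₀‖ ^ 2) = c) {G : ℂ × ℂ → X} (hG : IsPC A (Om c) G) :
    ∃ r > 0, ∃ G' : ℂ × ℂ → X, IsPC A (ball (x₀, y₀) r) G' ∧
      ∀ z ∈ ball (x₀, y₀) r, z ∈ Om c → G' z = G z := by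
  set l₁ : ℝ := 1 / (2 * (1 - ‖y₀‖ ^ 2) * ‖x₀‖ ^ 2) with hl₁
  set l₂ : ℝ := 1 / (2 * (1 - ‖x₀‖ ^ 2) * ‖y₀‖ ^ 2) with hl₂
  set M₁ : ℝ := 2 * ‖x₀‖ ^ 2 * l₁ + ‖x₀‖ ^ 2 * l₁ ^ 2 with hM₁
  set M₂ : ℝ := 2 * ‖y₀‖ ^ 2 * l₂ + ‖y₀‖ ^ 2 * l₂ ^ 2 with hM₂
  set C : ℝ := l₁ + l₂ + M₁ * M₂ with hC
  have hA := one_sub_pos hx1
  have hB := one_sub_pos hy1
  have hl₁p : 0 < l₁ := by rw [hl₁]; positivity
  have hl₂p : 0 < l₂ := by rw [hl₂]; positivity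
  have hM₁p : 0 < M₁ := by rw [hM₁]; positivity
  have hM₂p : 0 < M₂ := by rw [hM₂]; positivity
  have hCp : 0 < C := by rw [hC]; positivity
  let L : ℂ × ℂ → ℂ × ℂ := fun w => ((-(x₀ * l₁)) * w.1 + x₀, (-(y₀ * l₂)) * w.2 + y₀)
  have hL1 : ∀ w : ℂ × ℂ, (L w).1 = x₀ - x₀ * l₁ * w.1 := fun w => by simp only [L]; ring
  have hL2 : ∀ w : ℂ × ℂ, (L w).2 = y₀ - y₀ * l₂ * w.2 := fun w => by simp only [L]; ring
  have hLc : Continuous L := by fun_prop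
  have hL0 : L 0 = (x₀, y₀) := by simp [L]
  have hev : ∀ᶠ w in 𝓝 (0 : ℂ × ℂ), ‖(L w).1‖ < 1 ∧ ‖(L w).2‖ < 1 := by
    have h1 : Tendsto (fun w => ‖(L w).1‖) (𝓝 0) (𝓝 ‖x₀‖) :=
      Continuous.tendsto' (by fun_prop) _ _ (by rw [hL0])
    have h2 : Tendsto (fun w => ‖(L w).2‖) (𝓝 0) (𝓝 ‖y₀‖) :=
      Continuous.tendsto' (by fun_prop) _ _ (by rw [hL0])
    exact (h1.eventually (gt_mem_nhds hx1)).and (h2.eventually (gt_mem_nhds hy1))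
  obtain ⟨ε₁, hε₁, hεb⟩ := Metric.eventually_nhds_iff_ball.1 hev
  -- the size of the model region
  set ε : ℝ := min (ε₁ / 2) (min (1 / 2) (1 / C)) with hε
  have hεp : 0 < ε := by
    rw [hε]; exact lt_min (by positivity) (lt_min (by norm_num) (by positivity))
  have hε1 : ε ≤ ε₁ / 2 := min_le_left _ _
  have hε2 : ε ≤ 1 / 2 := (min_le_right _ _).trans (min_le_left _ _)
  have hε3 : C * ε ≤ 1 := by
    have : ε ≤ 1 / C := (min_le_right _ _).trans (min_le_right _ _)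
    calc C * ε ≤ C * (1 / C) := by gcongr
      _ = 1 := by field_simp
  have hGDsub : ∀ w ∈ GD ε (par C), L w ∈ Om c := by
    intro w hw
    obtain ⟨h1, h2, h3, h4⟩ := hw
    simp only [tau, eta, XX, par] at h1 h2 h3 h4
    set X' := (w.1 + w.2).re with hX
    set η := (w.1 + w.2).im with hη
    set T := ‖w.1 - w.2‖ with hT
    have hX0 : 0 < X' := lt_of_le_of_lt (by positivity) h3
    have hZ : ‖w.1 + w.2‖ ≤ |X'| + |η| := Complex.norm_le_abs_re_add_abs_im _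
    rw [abs_of_pos hX0] at hZ
    have hw1 : ‖w.1‖ ≤ 3 / 2 * ε := by
      have : w.1 = (1 / 2 : ℂ) * ((w.1 + w.2) + (w.1 - w.2)) := by ring
      rw [this, norm_mul]
      have h5 : ‖(w.1 + w.2) + (w.1 - w.2)‖ ≤ ‖w.1 + w.2‖ + T := norm_add_le _ _
      have h6 : ‖(1 / 2 : ℂ)‖ = 1 / 2 := by norm_num
      rw [h6]; linarith
    have hw2 : ‖w.2‖ ≤ 3 / 2 * ε := by
      have : w.2 = (1 / 2 : ℂ) * ((w.1 + w.2) - (w.1 - w.2)) := by ring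
      rw [this, norm_mul]
      have h5 : ‖(w.1 + w.2) - (w.1 - w.2)‖ ≤ ‖w.1 + w.2‖ + T := norm_sub_le _ _
      have h6 : ‖(1 / 2 : ℂ)‖ = 1 / 2 := by norm_num
      rw [h6]; linarith
    have hwball : w ∈ ball (0 : ℂ × ℂ) ε₁ := by
      rw [mem_ball_zero_iff, Prod.norm_def]
      exact max_lt (by linarith) (by linarith)
    obtain ⟨h7, h8⟩ := hεb w hwball
    refine ⟨h7, h8, ?_⟩
    have hcb := corner_bound hx hy hx1 hy1 hl₁ hl₂ (w₁ := w.1) (w₂ := w.2) (by linarith)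
      (by linarith) hM₁ hM₂
    rw [hL1, hL2]
    refine lt_of_lt_of_le ?_ hcb
    rw [hq, ← hC]
    have hpar : ‖w.1‖ ^ 2 + ‖w.2‖ ^ 2 = (T ^ 2 + X' ^ 2 + η ^ 2) / 2 := by
      rw [hT, hX, hη, ← Complex.normSq_eq_norm_sq, ← Complex.normSq_eq_norm_sq,
        ← Complex.normSq_eq_norm_sq]
      simp only [Complex.normSq_apply, Complex.sub_re, Complex.sub_im, Complex.add_re,
        Complex.add_im]
      ring
    rw [hpar, ← Complex.add_re, ← hX]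
    have := final_ineq hCp hX0 h3 h4 hε3
    linarith
  have hpc : IsPC A (GD ε (par C)) (fun w => G (L w)) := by
    have := pc_affine hG (-(x₀ * l₁)) x₀ (-(y₀ * l₂)) y₀
    exact pc_mono this hGDsub
  obtain ⟨ρ, hρ, G', hG', hag⟩ := hNC ε C _ hεp hCp hpc
  -- the inverse map
  have hxl : x₀ * l₁ ≠ 0 := mul_ne_zero hx (by exact_mod_cast hl₁p.ne')
  have hyl : y₀ * l₂ ≠ 0 := mul_ne_zero hy (by exact_mod_cast hl₂p.ne')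
  let N : ℂ × ℂ → ℂ × ℂ := fun z =>
    ((-(x₀ * l₁)⁻¹) * z.1 + (x₀ * l₁)⁻¹ * x₀, (-(y₀ * l₂)⁻¹) * z.2 + (y₀ * l₂)⁻¹ * y₀)
  have hNc : Continuous N := by fun_prop
  have hLN : ∀ z, L (N z) = z := by
    intro z
    exact Prod.ext (inv_a hxl) (inv_a hyl)
  have hNL : ∀ w, N (L w) = w := by
    intro w
    exact Prod.ext (inv_b hxl) (inv_b hyl)
  have hN0 : N (x₀, y₀) = 0 := by rw [← hL0, hNL]
  have hpc' : IsPC A {z | N z ∈ ball (0 : ℂ × ℂ) ρ} (fun z => G' (N z)) :=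
    pc_affine hG' (-(x₀ * l₁)⁻¹) ((x₀ * l₁)⁻¹ * x₀) (-(y₀ * l₂)⁻¹) ((y₀ * l₂)⁻¹ * y₀)
  have hopen : {z | N z ∈ ball (0 : ℂ × ℂ) ρ} ∈ 𝓝 (x₀, y₀) := by
    apply (isOpen_ball.preimage hNc).mem_nhds
    show N (x₀, y₀) ∈ ball 0 ρ
    rw [hN0]; exact mem_ball_self hρ
  obtain ⟨r, hr, hrsub⟩ := Metric.mem_nhds_iff.1 hopen
  refine ⟨r, hr, fun z => G' (N z), pc_mono hpc' hrsub, ?_⟩
  -- a point of agreement
  have hseg : ∀ᶠ t : ℝ in 𝓝[>] 0, L ((t / 2 : ℝ), (t / 2 : ℝ)) ∈ ball (x₀, y₀) r ∧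
      (((t / 2 : ℝ) : ℂ), ((t / 2 : ℝ) : ℂ)) ∈ ball (0 : ℂ × ℂ) ρ ∧ t < ε ∧ 0 < t := by
    have hcont : Continuous fun t : ℝ => (((t / 2 : ℝ) : ℂ), ((t / 2 : ℝ) : ℂ)) := by fun_prop
    have h1 : Tendsto (fun t : ℝ => L ((t / 2 : ℝ), (t / 2 : ℝ))) (𝓝 0) (𝓝 (x₀, y₀)) := by
      have h2 : Continuous fun t : ℝ => L ((t / 2 : ℝ), (t / 2 : ℝ)) := hLc.comp hcont
      refine h2.tendsto' _ _ ?_
      have : (((0 / 2 : ℝ) : ℂ), ((0 / 2 : ℝ) : ℂ)) = (0 : ℂ × ℂ) := by simp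
      rw [this, hL0]
    have h3 : Tendsto (fun t : ℝ => (((t / 2 : ℝ) : ℂ), ((t / 2 : ℝ) : ℂ))) (𝓝 0) (𝓝 (0 : ℂ × ℂ)) :=
      hcont.tendsto' _ _ (by simp)
    refine ((h1.eventually (isOpen_ball.mem_nhds (mem_ball_self hr))).filter_mono
      nhdsWithin_le_nhds).and (((h3.eventually (isOpen_ball.mem_nhds (mem_ball_self hρ))).filter_mono
      nhdsWithin_le_nhds).and (((gt_mem_nhds hεp).filter_mono nhdsWithin_le_nhds).and ?_))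
    exact self_mem_nhdsWithin
  obtain ⟨t, ht1, ht2, ht3, ht4⟩ := hseg.exists
  set w : ℂ × ℂ := (((t / 2 : ℝ) : ℂ), ((t / 2 : ℝ) : ℂ)) with hw
  have hwGD : w ∈ GD ε (par C) := by
    have e1 : tau w = 0 := by simp [tau, hw]
    have e2 : w.1 + w.2 = (t : ℂ) := by
      simp only [hw]; push_cast; ring
    refine ⟨by rw [e1]; simpa using hεp, ?_, ?_, ?_⟩
    · simp only [eta, e2, Complex.ofReal_im, abs_zero]; exact hεp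
    · simp only [par, e1, eta, XX, e2, Complex.ofReal_im, Complex.ofReal_re]
      simpa using ht4
    · simp only [XX, e2, Complex.ofReal_re]; exact ht3
  have hopen2 : IsOpen (ball (x₀, y₀) r ∩ Om c) := isOpen_ball.inter (isOpen_Om c)
  have hmem : L w ∈ ball (x₀, y₀) r ∩ Om c := ⟨ht1, hGDsub w hwGD⟩
  have hnear : (fun z => G' (N z)) =ᶠ[𝓝 (L w)] G := by
    have h1 : Tendsto N (𝓝 (L w)) (𝓝 w) := hNc.tendsto' _ _ (hNL w)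
    have h2 : ball (0 : ℂ × ℂ) ρ ∩ GD ε (par C) ∈ 𝓝 w :=
      (isOpen_ball.inter (isOpen_GD ε C)).mem_nhds ⟨ht2, hwGD⟩
    filter_upwards [h1.eventually h2] with z hz
    rw [hag (N z) hz, hLN]
  have huniq := uniq_convex hU hopen2 ((convex_ball _ _).inter (convex_Om hc.le))
    (pc_mono (pc_mono hpc' hrsub) inter_subset_left) (pc_mono hG inter_subset_right) hmem hnear
  exact fun z hz hzΩ => huniq z ⟨hz, hzΩ⟩

end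

end Crest.Agent.R266.Sw
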