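import Crest.Agent.R266.Sweep1
import Crest.Agent.R266.SweepCorner

/-!
R266 / Sweep: the no-contact theorem implies completeness.
-/

set_option autoImplicit false

open scoped Manifold ContDiff Topology
open Set Metric Filter

namespace Crest.Agent.R266.Sw

section
variable {n₁ n₂ : ℕ} {X : Type} [TopologicalSpace X] {A : PFol n₁ n₂ X}

/-- shrinking increases the sweep function strictly -/
lemma shrink_lt {q : ℂ × ℂ} (h1 : ‖q.1‖ < 1) (h2 : ‖q.2‖ < 1) (hq : q ≠ 0) {s : ℝ} (hs0 : 0 < s)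
    (hs1 : s < 1) : (1 - ‖q.1‖ ^ 2) * (1 - ‖q.2‖ ^ 2)
      < (1 - ‖(s • q).1‖ ^ 2) * (1 - ‖(s • q).2‖ ^ 2) := by
  have e1 : ‖(s • q).1‖ = s * ‖q.1‖ := by
    rw [Prod.smul_fst, norm_smul, Real.norm_of_nonneg hs0.le]
  have e2 : ‖(s • q).2‖ = s * ‖q.2‖ := by
    rw [Prod.smul_snd, norm_smul, Real.norm_of_nonneg hs0.le]
  rw [e1, e2]
  have hA := one_sub_pos h1
  have hB := one_sub_pos h2
  have hss : s ^ 2 < 1 := by nlinarith
  have hle1 : 1 - ‖q.1‖ ^ 2 ≤ 1 - (s * ‖q.1‖) ^ 2 := by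
    rw [mul_pow]; nlinarith [sq_nonneg ‖q.1‖]
  have hle2 : 1 - ‖q.2‖ ^ 2 ≤ 1 - (s * ‖q.2‖) ^ 2 := by
    rw [mul_pow]; nlinarith [sq_nonneg ‖q.2‖]
  by_cases hx : q.1 = 0
  · have hy : q.2 ≠ 0 := fun h => hq (Prod.ext hx h)
    have hy' : 0 < ‖q.2‖ ^ 2 := by positivity
    have hlt : 1 - ‖q.2‖ ^ 2 < 1 - (s * ‖q.2‖) ^ 2 := by
      rw [mul_pow]; nlinarith
    exact mul_lt_mul' hle1 hlt hB.le (hA.trans_le hle1)
  · have hx' : 0 < ‖q.1‖ ^ 2 := by positivity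
    have hlt : 1 - ‖q.1‖ ^ 2 < 1 - (s * ‖q.1‖) ^ 2 := by
      rw [mul_pow]; nlinarith
    exact mul_lt_mul hlt hle2 hB (hA.le.trans hle1)

lemma smul_mem_Om {c : ℝ} (_hc : 0 < c) {q : ℂ × ℂ} (h1 : ‖q.1‖ < 1) (h2 : ‖q.2‖ < 1)
    (hq : q ≠ 0) (hqc : c ≤ (1 - ‖q.1‖ ^ 2) * (1 - ‖q.2‖ ^ 2)) {s : ℝ} (hs0 : 0 < s)
    (hs1 : s < 1) : s • q ∈ Om c := by
  refine ⟨?_, ?_, hqc.trans_lt (shrink_lt h1 h2 hq hs0 hs1)⟩
  · rw [Prod.smul_fst, norm_smul, Real.norm_of_nonneg hs0.le]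
    nlinarith [norm_nonneg q.1]
  · rw [Prod.smul_snd, norm_smul, Real.norm_of_nonneg hs0.le]
    nlinarith [norm_nonneg q.2]

/-- the values on the first axis -/
lemma on_axis1 (hU : St_unique A) {c₁ : ℂ → X} (h1 : IsE1 A (ball 0 1) c₁) {c : ℝ} (hc : 0 ≤ c)
    (hc1 : c < 1) {G G₀ : ℂ × ℂ → X} (hG : IsPC A (Om c) G) (hGG : G =ᶠ[𝓝 0] G₀) {r : ℝ}
    (hr : 0 < r) (h₀ : ∀ x : ℂ, ‖x‖ < r → G₀ (x, 0) = c₁ x) :
    ∀ x : ℂ, (x, (0 : ℂ)) ∈ Om c → G (x, 0) = c₁ x := by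
  intro x hx
  set Ω' : Set (ℂ × ℂ) := {z | (z.1, (0 : ℂ)) ∈ Om c} with hΩ'
  have ho : IsOpen Ω' := (isOpen_Om c).preimage (by fun_prop)
  have hconv : Convex ℝ Ω' :=
    (convex_Om hc).linear_preimage ((LinearMap.fst ℝ ℂ ℂ).prod (0 : ℂ × ℂ →ₗ[ℝ] ℂ))
  have hp1 : IsPC A Ω' (fun z => G (z.1, 0)) := pc_slice1 hG 0
  have hp2 : IsPC A Ω' (fun z => c₁ z.1) :=
    pc_mono (pc_of_E1 h1) (fun z hz => mem_ball_zero_iff.2 hz.1)
  have h0 : (0 : ℂ × ℂ) ∈ Ω' := zero_mem_Om hc1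
  have hnear : (fun z : ℂ × ℂ => G (z.1, 0)) =ᶠ[𝓝 0] (fun z => c₁ z.1) := by
    have ht : Tendsto (fun z : ℂ × ℂ => (z.1, (0 : ℂ))) (𝓝 0) (𝓝 0) :=
      Continuous.tendsto' (by fun_prop) _ _ rfl
    filter_upwards [ht.eventually hGG, isOpen_ball.mem_nhds (mem_ball_self hr)] with z hz1 hz2
    rw [hz1]
    apply h₀
    rw [mem_ball_zero_iff, Prod.norm_def] at hz2
    exact (max_lt_iff.1 hz2).1
  exact uniq_convex hU ho hconv hp1 hp2 h0 hnear (x, 0) hx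

lemma on_axis2 (hU : St_unique A) {c₂ : ℂ → X} (h2 : IsE2 A (ball 0 1) c₂) {c : ℝ} (hc : 0 ≤ c)
    (hc1 : c < 1) {G G₀ : ℂ × ℂ → X} (hG : IsPC A (Om c) G) (hGG : G =ᶠ[𝓝 0] G₀) {r : ℝ}
    (hr : 0 < r) (h₀ : ∀ y : ℂ, ‖y‖ < r → G₀ (0, y) = c₂ y) :
    ∀ y : ℂ, ((0 : ℂ), y) ∈ Om c → G (0, y) = c₂ y := by
  intro y hy
  set Ω' : Set (ℂ × ℂ) := {z | ((0 : ℂ), z.2) ∈ Om c} with hΩ'
  have ho : IsOpen Ω' := (isOpen_Om c).preimage (by fun_prop)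
  have hconv : Convex ℝ Ω' :=
    (convex_Om hc).linear_preimage ((0 : ℂ × ℂ →ₗ[ℝ] ℂ).prod (LinearMap.snd ℝ ℂ ℂ))
  have hp1 : IsPC A Ω' (fun z => G (0, z.2)) := pc_slice2 hG 0
  have hp2 : IsPC A Ω' (fun z => c₂ z.2) :=
    pc_mono (pc_of_E2 h2) (fun z hz => mem_ball_zero_iff.2 hz.2.1)
  have h0 : (0 : ℂ × ℂ) ∈ Ω' := zero_mem_Om hc1
  have hnear : (fun z : ℂ × ℂ => G (0, z.2)) =ᶠ[𝓝 0] (fun z => c₂ z.2) := by
    have ht : Tendsto (fun z : ℂ × ℂ => ((0 : ℂ), z.2)) (𝓝 0) (𝓝 0) :=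
      Continuous.tendsto' (by fun_prop) _ _ rfl
    filter_upwards [ht.eventually hGG, isOpen_ball.mem_nhds (mem_ball_self hr)] with z hz1 hz2
    rw [hz1]
    apply h₀
    rw [mem_ball_zero_iff, Prod.norm_def] at hz2
    exact (max_lt_iff.1 hz2).2
  exact uniq_convex hU ho hconv hp1 hp2 h0 hnear (0, y) hy

/-- one step of the sweep -/
lemma step (hNC : St_NC A) (hU : St_unique A) (hC : St_chart A) {c₁ c₂ : ℂ → X}
    (h1 : IsE1 A (ball 0 1) c₁) (h2 : IsE2 A (ball 0 1) c₂) {G₀ : ℂ × ℂ → X} {r : ℝ} (hr : 0 < r)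
    (h₁ : ∀ x : ℂ, ‖x‖ < r → G₀ (x, 0) = c₁ x) (h₂ : ∀ y : ℂ, ‖y‖ < r → G₀ (0, y) = c₂ y)
    {c : ℝ} (hc : 0 < c) (hc1 : c < 1) (h : ∃ G : ℂ × ℂ → X, IsPC A (Om c) G ∧ G =ᶠ[𝓝 0] G₀) :
    ∃ c', 0 < c' ∧ c' < c ∧ ∃ G : ℂ × ℂ → X, IsPC A (Om c') G ∧ G =ᶠ[𝓝 0] G₀ := by
  obtain ⟨G, hG, hGG⟩ := h
  set f : ℂ × ℂ → ℝ := fun z => (1 - ‖z.1‖ ^ 2) * (1 - ‖z.2‖ ^ 2) with hf
  have hfc : Continuous f := by fun_prop
  set K : Set (ℂ × ℂ) := closedBall (0 : ℂ × ℂ) 1 ∩ {z | f z = c} with hK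
  have hKc : IsCompact K :=
    (isCompact_closedBall _ _).inter_right (isClosed_eq hfc continuous_const)
  have hK1 : ∀ q ∈ K, ‖q.1‖ < 1 ∧ ‖q.2‖ < 1 ∧ q ≠ 0 := by
    intro q hq
    have hb : ‖q.1‖ ≤ 1 ∧ ‖q.2‖ ≤ 1 := by
      have := hq.1
      rw [mem_closedBall_zero_iff, Prod.norm_def] at this
      exact max_le_iff.1 this
    have hfq : (1 - ‖q.1‖ ^ 2) * (1 - ‖q.2‖ ^ 2) = c := hq.2
    refine ⟨?_, ?_, ?_⟩
    · rcases lt_or_eq_of_le hb.1 with h | h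
      · exact h
      · rw [h] at hfq; norm_num at hfq; linarith
    · rcases lt_or_eq_of_le hb.2 with h | h
      · exact h
      · rw [h] at hfq; norm_num at hfq; linarith
    · rintro rfl
      simp at hfq
      linarith
  have hKcl : K ⊆ closure (Om c) := by
    intro q hq
    obtain ⟨k1, k2, k3⟩ := hK1 q hq
    have ht : Tendsto (fun s : ℝ => s • q) (𝓝[<] 1) (𝓝 q) := by
      have : Tendsto (fun s : ℝ => s • q) (𝓝 1) (𝓝 q) :=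
        Continuous.tendsto' (by fun_prop) _ _ (one_smul _ _)
      exact this.mono_left nhdsWithin_le_nhds
    refine mem_closure_of_tendsto ht ?_
    have h3 : ∀ᶠ s : ℝ in 𝓝[<] 1, s < 1 := self_mem_nhdsWithin
    have h4 : ∀ᶠ s : ℝ in 𝓝[<] 1, 0 < s :=
      (lt_mem_nhds (zero_lt_one)).filter_mono nhdsWithin_le_nhds
    filter_upwards [h3, h4] with s hs1 hs0
    exact smul_mem_Om hc k1 k2 k3 (le_of_eq hq.2.symm) hs0 hs1
  have hax1 := on_axis1 hU h1 hc.le hc1 hG hGG hr h₁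
  have hax2 := on_axis2 hU h2 hc.le hc1 hG hGG hr h₂
  have hloc : ∀ q ∈ K, ∃ r > 0, ∃ G' : ℂ × ℂ → X, IsPC A (ball q r) G' ∧
      ∀ z ∈ ball q r, z ∈ Om c → G' z = G z := by
    rintro ⟨x₀, y₀⟩ hq
    obtain ⟨k1, k2, k3⟩ := hK1 _ hq
    have hfq : (1 - ‖x₀‖ ^ 2) * (1 - ‖y₀‖ ^ 2) = c := hq.2
    have hseg : ∀ s : ℝ, 0 < s → s < 1 → s • (x₀, y₀) ∈ Om c := fun s hs0 hs1 =>
      smul_mem_Om hc k1 k2 k3 hfq.ge hs0 hs1
    by_cases hy : y₀ = 0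
    · subst hy
      refine axis1 hU hC (isOpen_Om c) (convex_Om hc.le) hG h1 (mem_ball_zero_iff.2 k1) hax1 ?_
      intro δ hδ
      have ht : Tendsto (fun s : ℝ => s • x₀) (𝓝[<] 1) (𝓝 x₀) := by
        have : Tendsto (fun s : ℝ => s • x₀) (𝓝 1) (𝓝 x₀) :=
          Continuous.tendsto' (by fun_prop) _ _ (one_smul _ _)
        exact this.mono_left nhdsWithin_le_nhds
      have h3 : ∀ᶠ s : ℝ in 𝓝[<] 1, s < 1 := self_mem_nhdsWithin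
      have h4 : ∀ᶠ s : ℝ in 𝓝[<] 1, 0 < s :=
        (lt_mem_nhds (zero_lt_one)).filter_mono nhdsWithin_le_nhds
      obtain ⟨s, hs1, hs2, hs3⟩ :=
        ((ht.eventually (isOpen_ball.mem_nhds (mem_ball_self hδ))).and (h3.and h4)).exists
      refine ⟨s • x₀, hs1, ?_⟩
      have := hseg s hs3 hs2
      simpa [Prod.smul_mk] using this
    by_cases hx : x₀ = 0
    · subst hx
      refine axis2 hU hC (isOpen_Om c) (convex_Om hc.le) hG h2 (mem_ball_zero_iff.2 k2) hax2 ?_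
      intro δ hδ
      have ht : Tendsto (fun s : ℝ => s • y₀) (𝓝[<] 1) (𝓝 y₀) := by
        have : Tendsto (fun s : ℝ => s • y₀) (𝓝 1) (𝓝 y₀) :=
          Continuous.tendsto' (by fun_prop) _ _ (one_smul _ _)
        exact this.mono_left nhdsWithin_le_nhds
      have h3 : ∀ᶠ s : ℝ in 𝓝[<] 1, s < 1 := self_mem_nhdsWithin
      have h4 : ∀ᶠ s : ℝ in 𝓝[<] 1, 0 < s :=
        (lt_mem_nhds (zero_lt_one)).filter_mono nhdsWithin_le_nhds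
      obtain ⟨s, hs1, hs2, hs3⟩ :=
        ((ht.eventually (isOpen_ball.mem_nhds (mem_ball_self hδ))).and (h3.and h4)).exists
      refine ⟨s • y₀, hs1, ?_⟩
      have := hseg s hs3 hs2
      simpa [Prod.smul_mk] using this
    exact corner_ext hNC hU hc hx hy k1 k2 hfq hG
  obtain ⟨δ, hδ, G', hG', hag⟩ := extend_step hU (isOpen_Om c) (convex_Om hc.le) hKc hKcl hG hloc
  set O : Set (ℂ × ℂ) := Om c ∪ ⋃ q ∈ K, ball q δ with hO
  have hOo : IsOpen O := (isOpen_Om c).union (isOpen_biUnion fun _ _ => isOpen_ball)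
  -- a smaller level
  have hex : ∃ c', 0 < c' ∧ c' < c ∧ Om c' ⊆ O := by
    set Q : Set (ℂ × ℂ) := closedBall (0 : ℂ × ℂ) 1 \ O with hQ
    have hQc : IsCompact Q := (isCompact_closedBall _ _).diff hOo
    rcases Q.eq_empty_or_nonempty with hQe | hQn
    · refine ⟨c / 2, by linarith, by linarith, fun z hz => ?_⟩
      by_contra hzO
      have hzQ : z ∈ Q := by
        refine ⟨?_, hzO⟩
        rw [mem_closedBall_zero_iff, Prod.norm_def]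
        exact max_le hz.1.le hz.2.1.le
      rw [hQe] at hzQ
      exact hzQ
    · obtain ⟨z₀, hz₀, hmax⟩ := hQc.exists_isMaxOn hQn hfc.continuousOn
      have hz₀c : f z₀ < c := by
        by_contra hcon
        push Not at hcon
        have hb : ‖z₀.1‖ ≤ 1 ∧ ‖z₀.2‖ ≤ 1 := by
          have := hz₀.1
          rw [mem_closedBall_zero_iff, Prod.norm_def] at this
          exact max_le_iff.1 this
        rcases eq_or_lt_of_le hcon with h | h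
        · apply hz₀.2
          right
          simp only [mem_iUnion, exists_prop]
          exact ⟨z₀, ⟨hz₀.1, h.symm⟩, mem_ball_self hδ⟩
        · apply hz₀.2
          left
          have hfz : 0 < (1 - ‖z₀.1‖ ^ 2) * (1 - ‖z₀.2‖ ^ 2) := hc.trans h
          refine ⟨?_, ?_, h⟩
          · rcases lt_or_eq_of_le hb.1 with h | h
            · exact h
            · rw [h] at hfz; norm_num at hfz
          · rcases lt_or_eq_of_le hb.2 with h | h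
            · exact h
            · rw [h] at hfz; norm_num at hfz
      refine ⟨max (f z₀) (c / 2), by positivity, max_lt hz₀c (by linarith), fun z hz => ?_⟩
      by_contra hzO
      have hzQ : z ∈ Q := by
        refine ⟨?_, hzO⟩
        rw [mem_closedBall_zero_iff, Prod.norm_def]
        exact max_le hz.1.le hz.2.1.le
      have h5 : f z ≤ f z₀ := hmax hzQ
      have h6 : max (f z₀) (c / 2) < f z := hz.2.2
      have h7 := le_max_left (f z₀) (c / 2)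
      linarith
  obtain ⟨c', hc'0, hc'1, hsub⟩ := hex
  refine ⟨c', hc'0, hc'1, G', pc_mono hG' hsub, ?_⟩
  have : G' =ᶠ[𝓝 0] G := by
    filter_upwards [(isOpen_Om c).mem_nhds (zero_mem_Om hc1)] with z hz
    exact hag z hz
  exact this.trans hGG

/-- completeness on the unit bidisc -/
lemma complete_unit (hNC : St_NC A) (hU : St_unique A) (hC : St_chart A) {c₁ c₂ : ℂ → X}
    (h1 : IsE1 A (ball 0 1) c₁) (h2 : IsE2 A (ball 0 1) c₂) (h0 : c₁ 0 = c₂ 0) :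
    ∃ G : ℂ × ℂ → X, IsPC A (ball 0 1 ×ˢ ball 0 1) G ∧
      (∀ x ∈ ball (0 : ℂ) 1, G (x, 0) = c₁ x) ∧ (∀ y ∈ ball (0 : ℂ) 1, G (0, y) = c₂ y) := by
  obtain ⟨r, hr, G₀, hG₀, hx₀, hy₀⟩ := init_germ hC h1 h2 h0
  set S : Set ℝ := {c | 0 < c ∧ c < 1 ∧ ∃ G : ℂ × ℂ → X, IsPC A (Om c) G ∧ G =ᶠ[𝓝 0] G₀} with hS
  -- start
  have hstart : S.Nonempty := by
    set ρ : ℝ := min r (1 / 2) with hρ
    have hρ0 : 0 < ρ := lt_min hr (by norm_num)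
    have hρ1 : ρ ≤ 1 / 2 := min_le_right _ _
    have hρr : ρ ≤ r := min_le_left _ _
    refine ⟨1 - ρ ^ 2, by nlinarith, by nlinarith, G₀, pc_mono hG₀ ?_, EventuallyEq.rfl⟩
    intro z hz
    have hA := one_sub_pos hz.1
    have hB := one_sub_pos hz.2.1
    have h3 : 1 - ‖z.1‖ ^ 2 ≤ 1 := by nlinarith [sq_nonneg ‖z.1‖]
    have h4 : 1 - ‖z.2‖ ^ 2 ≤ 1 := by nlinarith [sq_nonneg ‖z.2‖]
    have h5 := hz.2.2
    rw [mem_ball_zero_iff, Prod.norm_def]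
    refine max_lt ?_ ?_
    · have h6 : ‖z.1‖ ^ 2 < ρ ^ 2 := by nlinarith
      exact (lt_of_pow_lt_pow_left₀ 2 hρ0.le h6).trans_le hρr
    · have h6 : ‖z.2‖ ^ 2 < ρ ^ 2 := by nlinarith
      exact (lt_of_pow_lt_pow_left₀ 2 hρ0.le h6).trans_le hρr
  have hup : ∀ c ∈ S, ∀ c', c ≤ c' → c' < 1 → c' ∈ S := by
    rintro c ⟨hc0, hc1, G, hG, hGG⟩ c' hcc hc'
    exact ⟨hc0.trans_le hcc, hc', G, pc_mono hG (Om_anti hcc), hGG⟩
  have hbdd : BddBelow S := ⟨0, fun c hc => hc.1.le⟩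
  set cs : ℝ := sInf S with hcs
  have hcs0 : 0 ≤ cs := le_csInf hstart fun c hc => hc.1.le
  have hcs1 : cs < 1 := by
    obtain ⟨c, hc⟩ := hstart
    exact (csInf_le hbdd hc).trans_lt hc.2.1
  have habove : ∀ c, cs < c → c < 1 → c ∈ S := by
    intro c hc hc1
    obtain ⟨d, hd, hdc⟩ := exists_lt_of_csInf_lt hstart hc
    exact hup d hd c hdc.le hc1
  have hglue : ∃ G : ℂ × ℂ → X, IsPC A (Om cs) G ∧ G =ᶠ[𝓝 0] G₀ :=
    glue_nested hU hcs0 hcs1 fun c hc hc1 => (habove c hc hc1).2.2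
  have hzero : cs = 0 := by
    rcases eq_or_lt_of_le hcs0 with h | h
    · exact h.symm
    · exfalso
      obtain ⟨c', hc'0, hc'1, hG'⟩ := step hNC hU hC h1 h2 hr hx₀ hy₀ h hcs1 hglue
      have : cs ≤ c' := csInf_le hbdd ⟨hc'0, hc'1.trans hcs1, hG'⟩
      linarith
  rw [hzero] at hglue
  obtain ⟨G, hG, hGG⟩ := hglue
  have hOm0 : ∀ z : ℂ × ℂ, ‖z.1‖ < 1 → ‖z.2‖ < 1 → z ∈ Om 0 := fun z h3 h4 =>
    ⟨h3, h4, mul_pos (one_sub_pos h3) (one_sub_pos h4)⟩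
  refine ⟨G, pc_mono hG fun z hz => hOm0 z (mem_ball_zero_iff.1 hz.1) (mem_ball_zero_iff.1 hz.2),
    ?_, ?_⟩
  · intro x hx
    exact on_axis1 hU h1 le_rfl one_pos hG hGG hr hx₀ x
      (hOm0 _ (mem_ball_zero_iff.1 hx) (by simp))
  · intro y hy
    exact on_axis2 hU h2 le_rfl one_pos hG hGG hr hy₀ y
      (hOm0 _ (by simp) (mem_ball_zero_iff.1 hy))

/-- reparametrisation of an `E₁`-curve -/
lemma E1_scale {c₁ : ℂ → X} {R : ℝ} (hR : 0 < R) (h : IsE1 A (ball 0 R) c₁) :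
    IsE1 A (ball 0 1) (fun t => c₁ (R * t)) := by
  intro t ht
  have ht' : (R : ℂ) * t ∈ ball (0 : ℂ) R := by
    rw [mem_ball_zero_iff] at ht ⊢
    rw [norm_mul, Complex.norm_real, Real.norm_of_nonneg hR.le]
    nlinarith
  obtain ⟨i, a, b, ha, hw⟩ := h _ ht'
  refine ⟨i, fun t => a (R * t), b, ha.comp_of_eq (by fun_prop) rfl, ?_⟩
  have hc : Tendsto (fun s : ℂ => (R : ℂ) * s) (𝓝 t) (𝓝 (R * t)) :=
    Continuous.tendsto' (by fun_prop) _ _ rfl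
  exact hc.eventually hw

lemma E2_scale {c₂ : ℂ → X} {R : ℝ} (hR : 0 < R) (h : IsE2 A (ball 0 R) c₂) :
    IsE2 A (ball 0 1) (fun t => c₂ (R * t)) := by
  intro t ht
  have ht' : (R : ℂ) * t ∈ ball (0 : ℂ) R := by
    rw [mem_ball_zero_iff] at ht ⊢
    rw [norm_mul, Complex.norm_real, Real.norm_of_nonneg hR.le]
    nlinarith
  obtain ⟨i, a, b, hb, hw⟩ := h _ ht'
  refine ⟨i, a, fun t => b (R * t), hb.comp_of_eq (by fun_prop) rfl, ?_⟩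
  have hc : Tendsto (fun s : ℂ => (R : ℂ) * s) (𝓝 t) (𝓝 (R * t)) :=
    Continuous.tendsto' (by fun_prop) _ _ rfl
  exact hc.eventually hw

end

end Crest.Agent.R266.Sw

namespace Crest.Agent.R266

/-- **Completeness from the no-contact theorem.** -/
theorem completeness_of_NC_580 {n₁ n₂ : ℕ} {X : Type} [TopologicalSpace X] (A : PFol n₁ n₂ X)
    (hNC : St_NC A) (hU : St_unique A) (hC : St_chart A) : Completeness A := by
  intro R₁ R₂ c₁ c₂ hR₁ hR₂ h1 h2 h0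
  obtain ⟨G, hG, hx, hy⟩ := Sw.complete_unit hNC hU hC (Sw.E1_scale hR₁ h1) (Sw.E2_scale hR₂ h2)
    (by simpa using h0)
  have hR₁c : (R₁ : ℂ) ≠ 0 := by exact_mod_cast hR₁.ne'
  have hR₂c : (R₂ : ℂ) ≠ 0 := by exact_mod_cast hR₂.ne'
  have hscale : ∀ (R : ℝ), 0 < R → ∀ x ∈ ball (0 : ℂ) R, (R : ℂ)⁻¹ * x + 0 ∈ ball (0 : ℂ) 1 := by
    intro R hR x hx
    rw [mem_ball_zero_iff] at hx ⊢
    rw [add_zero, norm_mul, norm_inv, Complex.norm_real, Real.norm_of_nonneg hR.le,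
      inv_mul_lt_iff₀ hR]
    simpa using hx
  refine ⟨fun z => G ((R₁ : ℂ)⁻¹ * z.1 + 0, (R₂ : ℂ)⁻¹ * z.2 + 0), ?_, ?_, ?_⟩
  · refine Sw.pc_mono (Sw.pc_affine hG (R₁ : ℂ)⁻¹ 0 (R₂ : ℂ)⁻¹ 0) ?_
    intro z hz
    exact ⟨hscale R₁ hR₁ z.1 hz.1, hscale R₂ hR₂ z.2 hz.2⟩
  · intro x hxR
    have h3 := hx _ (hscale R₁ hR₁ x hxR)
    show G ((R₁ : ℂ)⁻¹ * x + 0, (R₂ : ℂ)⁻¹ * 0 + 0) = c₁ x
    rw [mul_zero, add_zero (0 : ℂ), h3, add_zero]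
    congr 1
    field_simp
  · intro y hyR
    have h3 := hy _ (hscale R₂ hR₂ y hyR)
    show G ((R₁ : ℂ)⁻¹ * 0 + 0, (R₂ : ℂ)⁻¹ * y + 0) = c₂ y
    rw [mul_zero, add_zero (0 : ℂ), h3, add_zero]
    congr 1
    field_simp

end Crest.Agent.R266
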